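/-
Row 296, black-box chain INTERP, file 5: Euclidean norm of vectors `l2n`, Hilbert-Schmidt norm `hsn`
of rectangular matrices, Cauchy-Schwarz for the trace pairing, ideal property w.r.t. the L2 operator norm.
Statements fixed by helper57 (architect).  Proofs: helper142.
CHANGE w.r.t. the skeleton: `opNorm_le_of_posSemidef` has the extra hypothesis `0 ≤ c` (first explicit argument);
without it the statement is false for an empty index type and `c < 0`.
-/
import Claimed.Agent.R296.MatPowAn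

set_option autoImplicit false
set_option linter.unusedSectionVars false
set_option linter.unusedDecidableInType false
set_option linter.unusedVariables false

namespace Claimed.Agent.R296

open Matrix
open scoped Matrix.Norms.L2Operator ComplexOrder

variable {l m n : Type*} [Fintype l] [DecidableEq l] [Fintype n] [DecidableEq n] [Fintype m]
  [DecidableEq m]

/-! ### vectors -/

/-- Euclidean norm of `v : n → ℂ` -/
noncomputable def l2n (v : n → ℂ) : ℝ := ‖(WithLp.toLp 2 v : EuclideanSpace ℂ n)‖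

theorem l2n_nonneg (v : n → ℂ) : 0 ≤ l2n v := norm_nonneg _

theorem l2n_sq (v : n → ℂ) : l2n v ^ 2 = ∑ i, ‖v i‖ ^ 2 := by
  rw [l2n, EuclideanSpace.norm_sq_eq]

theorem l2n_sq_eq_dotProduct (v : n → ℂ) : ((l2n v ^ 2 : ℝ) : ℂ) = star v ⬝ᵥ v := by
  rw [l2n_sq, star_dotProduct_self_eq]

theorem l2n_sq_eq_re (v : n → ℂ) : l2n v ^ 2 = (star v ⬝ᵥ v).re := by
  rw [← l2n_sq_eq_dotProduct, Complex.ofReal_re]

theorem l2n_eq_one_iff (v : n → ℂ) : l2n v = 1 ↔ star v ⬝ᵥ v = 1 := by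
  rw [← l2n_sq_eq_dotProduct]
  constructor
  · intro h
    rw [h]; simp
  · intro h
    have h2 : l2n v ^ 2 = 1 := by exact_mod_cast h
    have h3 := l2n_nonneg v
    nlinarith

theorem l2n_add_le (v w : n → ℂ) : l2n (v + w) ≤ l2n v + l2n w := norm_add_le _ _

theorem l2n_sub_le (v w : n → ℂ) : l2n (v - w) ≤ l2n v + l2n w := norm_sub_le _ _

theorem l2n_smul (c : ℂ) (v : n → ℂ) : l2n (c • v) = ‖c‖ * l2n v :=
  norm_smul c (WithLp.toLp 2 v : EuclideanSpace ℂ n)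

theorem l2n_zero : l2n (0 : n → ℂ) = 0 := by simp [l2n]

theorem l2n_mulVec_le (A : Matrix m n ℂ) (v : n → ℂ) : l2n (A *ᵥ v) ≤ ‖A‖ * l2n v :=
  Matrix.l2_opNorm_mulVec A (WithLp.toLp 2 v)

/-- Cauchy-Schwarz -/
theorem norm_dotProduct_le (w v : n → ℂ) : ‖star w ⬝ᵥ v‖ ≤ l2n w * l2n v := by
  have h := norm_inner_le_norm (𝕜 := ℂ) (WithLp.toLp 2 w : EuclideanSpace ℂ n) (WithLp.toLp 2 v)
  rw [EuclideanSpace.inner_toLp_toLp, dotProduct_comm] at h
  exact h

/-- an isometry preserves `l2n` -/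
theorem l2n_isometry_mulVec (V : Matrix m n ℂ) (hV : Vᴴ * V = 1) (v : n → ℂ) :
    l2n (V *ᵥ v) = l2n v := by
  have h : l2n (V *ᵥ v) ^ 2 = l2n v ^ 2 := by
    rw [l2n_sq_eq_re, l2n_sq_eq_re, star_mulVec, ← dotProduct_mulVec, mulVec_mulVec, hV, one_mulVec]
  exact (pow_left_inj₀ (l2n_nonneg _) (l2n_nonneg _) two_ne_zero).1 h

/-- operator norm from the quadratic form -/
theorem opNorm_le_of_l2n {A : Matrix m n ℂ} {c : ℝ} (hc : 0 ≤ c)
    (h : ∀ v : n → ℂ, l2n (A *ᵥ v) ≤ c * l2n v) : ‖A‖ ≤ c := by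
  rw [Matrix.l2_opNorm_def]
  refine ContinuousLinearMap.opNorm_le_bound _ hc fun x => ?_
  exact h (WithLp.ofLp x)

/-- `‖A‖ ≤ c` gives `Aᴴ A ≤ c²` -/
theorem posSemidef_of_opNorm_le {A : Matrix m n ℂ} {c : ℝ} (h : ‖A‖ ≤ c) :
    (((c ^ 2 : ℝ) : ℂ) • (1 : Matrix n n ℂ) - Aᴴ * A).PosSemidef := by
  refine PosSemidef.of_dotProduct_mulVec_nonneg ?_ fun v => ?_
  · refine IsHermitian.sub ?_ (isHermitian_conjTranspose_mul_self A)
    rw [IsHermitian, conjTranspose_smul, conjTranspose_one]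
    simp
  · have e : star v ⬝ᵥ ((((c ^ 2 : ℝ) : ℂ) • (1 : Matrix n n ℂ) - Aᴴ * A) *ᵥ v)
        = ((c ^ 2 * l2n v ^ 2 - l2n (A *ᵥ v) ^ 2 : ℝ) : ℂ) := by
      rw [sub_mulVec, smul_mulVec, one_mulVec, dotProduct_sub, dotProduct_smul, ← mulVec_mulVec,
        dotProduct_mulVec, ← star_mulVec, ← l2n_sq_eq_dotProduct, ← l2n_sq_eq_dotProduct]
      push_cast
      simp
    rw [e]
    have h1 := (l2n_mulVec_le A v).trans (mul_le_mul_of_nonneg_right h (l2n_nonneg v))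
    have h2 := pow_le_pow_left₀ (l2n_nonneg _) h1 2
    rw [mul_pow] at h2
    exact_mod_cast sub_nonneg.2 h2

/-- `0 ≤ A ≤ c` (Loewner), `0 ≤ c`, gives `‖A‖ ≤ c`  (the hypothesis `0 ≤ c` is needed if `n` is empty) -/
theorem opNorm_le_of_posSemidef {A : Matrix n n ℂ} {c : ℝ} (hc0 : 0 ≤ c) (hA : A.PosSemidef)
    (hc : ((c : ℂ) • (1 : Matrix n n ℂ) - A).PosSemidef) : ‖A‖ ≤ c := by
  have hh := hA.isHermitian
  rw [← mfun_id hh]
  refine norm_mfun_le hh _ hc0 fun i => ?_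
  rw [Complex.norm_real, Real.norm_of_nonneg (hA.eigenvalues_nonneg i)]
  set u : n → ℂ := ⇑(hh.eigenvectorBasis i) with hu
  have h1 : l2n u = 1 := hh.eigenvectorBasis.orthonormal.1 i
  have h2 := hc.dotProduct_mulVec_nonneg u
  have e : star u ⬝ᵥ (((c : ℂ) • (1 : Matrix n n ℂ) - A) *ᵥ u) = ((c - hh.eigenvalues i : ℝ) : ℂ) := by
    rw [sub_mulVec, smul_mulVec, one_mulVec, hh.mulVec_eigenvectorBasis i, ← hu, dotProduct_sub,
      dotProduct_smul, dotProduct_smul, (l2n_eq_one_iff u).1 h1]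
    push_cast
    simp
  rw [e] at h2
  have h3 : (0 : ℝ) ≤ c - hh.eigenvalues i := by exact_mod_cast h2
  linarith

/-! ### Hilbert-Schmidt norm -/

/-- squared Hilbert-Schmidt norm -/
noncomputable def hsSq (A : Matrix m n ℂ) : ℝ := ∑ i, ∑ j, ‖A i j‖ ^ 2

/-- Hilbert-Schmidt norm -/
noncomputable def hsn (A : Matrix m n ℂ) : ℝ := Real.sqrt (hsSq A)

theorem hsSq_nonneg (A : Matrix m n ℂ) : 0 ≤ hsSq A :=
  Finset.sum_nonneg fun _ _ => Finset.sum_nonneg fun _ _ => by positivity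

theorem hsn_nonneg (A : Matrix m n ℂ) : 0 ≤ hsn A := Real.sqrt_nonneg _

theorem hsn_sq (A : Matrix m n ℂ) : hsn A ^ 2 = hsSq A := Real.sq_sqrt (hsSq_nonneg A)

theorem hsSq_eq_trace' (A : Matrix m n ℂ) : ((hsSq A : ℝ) : ℂ) = (A * Aᴴ).trace := by
  simp only [hsSq, trace, diag_apply, mul_apply, conjTranspose_apply]
  push_cast
  refine Finset.sum_congr rfl fun i _ => Finset.sum_congr rfl fun j _ => ?_
  rw [Complex.star_def, Complex.mul_conj, Complex.normSq_eq_norm_sq]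
  push_cast
  rfl

theorem hsSq_eq_trace (A : Matrix m n ℂ) : ((hsSq A : ℝ) : ℂ) = (Aᴴ * A).trace := by
  rw [hsSq_eq_trace', trace_mul_comm]

/-- flattening into a Euclidean space (for vector valued three-lines arguments in the HS norm) -/
noncomputable def hsVec : Matrix m n ℂ →ₗ[ℂ] EuclideanSpace ℂ (m × n) where
  toFun A := WithLp.toLp 2 (fun p : m × n => A p.1 p.2)
  map_add' _ _ := rfl
  map_smul' _ _ := rfl

theorem norm_hsVec (A : Matrix m n ℂ) : ‖hsVec A‖ = hsn A := by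
  rw [hsn, EuclideanSpace.norm_eq, hsSq, Fintype.sum_prod_type]
  rfl

theorem hsSq_conjTranspose (A : Matrix m n ℂ) : hsSq Aᴴ = hsSq A := by
  unfold hsSq
  rw [Finset.sum_comm]
  simp

theorem hsn_conjTranspose (A : Matrix m n ℂ) : hsn Aᴴ = hsn A := by
  rw [hsn, hsn, hsSq_conjTranspose]

theorem hsn_add_le (A B : Matrix m n ℂ) : hsn (A + B) ≤ hsn A + hsn B := by
  simp only [← norm_hsVec, map_add]
  exact norm_add_le _ _

theorem hsn_sub_le (A B : Matrix m n ℂ) : hsn (A - B) ≤ hsn A + hsn B := by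
  simp only [← norm_hsVec, map_sub]
  exact norm_sub_le _ _

theorem hsn_smul (c : ℂ) (A : Matrix m n ℂ) : hsn (c • A) = ‖c‖ * hsn A := by
  simp only [← norm_hsVec, map_smul]
  exact norm_smul _ _

theorem hsn_zero : hsn (0 : Matrix m n ℂ) = 0 := by
  simp only [← norm_hsVec, map_zero, norm_zero]

theorem hsn_neg (A : Matrix m n ℂ) : hsn (-A) = hsn A := by
  simp only [← norm_hsVec, map_neg, norm_neg]

/-- Cauchy-Schwarz for the trace pairing -/
theorem norm_trace_mul_le (A : Matrix m n ℂ) (B : Matrix n m ℂ) :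
    ‖(A * B).trace‖ ≤ hsn A * hsn B := by
  have h := norm_inner_le_norm (𝕜 := ℂ) (hsVec Aᴴ) (hsVec B)
  rw [norm_hsVec, norm_hsVec, hsn_conjTranspose] at h
  refine le_trans (le_of_eq ?_) h
  congr 1
  have e : ∀ (p q : Type _) [Fintype p] [Fintype q] (C : Matrix p q ℂ),
      hsVec C = WithLp.toLp 2 (fun x : p × q => C x.1 x.2) := fun _ _ _ _ _ => rfl
  rw [e, e, EuclideanSpace.inner_toLp_toLp, trace_mul_comm]
  simp only [trace, diag_apply, mul_apply, dotProduct, Fintype.sum_prod_type, Pi.star_apply,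
    conjTranspose_apply, star_star]

/-- `‖A‖_2² = ∑_j |A e_j|²` -/
theorem hsSq_eq_sum_col (A : Matrix m n ℂ) : hsSq A = ∑ j, l2n (fun i => A i j) ^ 2 := by
  simp only [l2n_sq, hsSq]
  exact Finset.sum_comm

/-- `‖A‖_2² = ∑_i |row i|²` -/
theorem hsSq_eq_sum_row (A : Matrix m n ℂ) : hsSq A = ∑ i, l2n (A i) ^ 2 := by
  simp only [l2n_sq, hsSq]

/-- ideal property, left -/
theorem hsn_mul_le_left (A : Matrix l m ℂ) (B : Matrix m n ℂ) : hsn (A * B) ≤ ‖A‖ * hsn B := by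
  have h : hsSq (A * B) ≤ ‖A‖ ^ 2 * hsSq B := by
    rw [hsSq_eq_sum_col, hsSq_eq_sum_col, Finset.mul_sum]
    refine Finset.sum_le_sum fun j _ => ?_
    have e : (fun i => (A * B) i j) = A *ᵥ (fun i => B i j) := by
      ext i; simp [mul_apply, mulVec, dotProduct]
    rw [e, ← mul_pow]
    exact pow_le_pow_left₀ (l2n_nonneg _) (l2n_mulVec_le A _) 2
  rw [← hsn_sq, ← hsn_sq, ← mul_pow] at h
  exact (pow_le_pow_iff_left₀ (hsn_nonneg _) (mul_nonneg (norm_nonneg _) (hsn_nonneg _)) two_ne_zero).1 h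

/-- ideal property, right -/
theorem hsn_mul_le_right (A : Matrix l m ℂ) (B : Matrix m n ℂ) : hsn (A * B) ≤ hsn A * ‖B‖ := by
  rw [← hsn_conjTranspose, conjTranspose_mul, mul_comm, ← hsn_conjTranspose A,
    ← l2_opNorm_conjTranspose B]
  exact hsn_mul_le_left _ _

theorem opNorm_le_hsn (A : Matrix m n ℂ) : ‖A‖ ≤ hsn A := by
  refine opNorm_le_of_l2n (hsn_nonneg A) fun v => ?_
  have h : l2n (A *ᵥ v) ^ 2 ≤ (hsn A * l2n v) ^ 2 := by
    rw [mul_pow, hsn_sq, hsSq_eq_sum_row, l2n_sq, Finset.sum_mul]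
    refine Finset.sum_le_sum fun i _ => ?_
    have h1 := norm_dotProduct_le (star (A i)) v
    rw [star_star] at h1
    have h2 : l2n (star (A i)) = l2n (A i) := by
      have : l2n (star (A i)) ^ 2 = l2n (A i) ^ 2 := by
        rw [l2n_sq, l2n_sq]; simp
      exact (pow_left_inj₀ (l2n_nonneg _) (l2n_nonneg _) two_ne_zero).1 this
    rw [h2] at h1
    rw [← mul_pow]
    exact pow_le_pow_left₀ (norm_nonneg _) h1 2
  exact (pow_le_pow_iff_left₀ (l2n_nonneg _) (mul_nonneg (hsn_nonneg _) (l2n_nonneg _)) two_ne_zero).1 h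

theorem hsn_mul_le (A : Matrix l m ℂ) (B : Matrix m n ℂ) : hsn (A * B) ≤ hsn A * hsn B :=
  (hsn_mul_le_left A B).trans (mul_le_mul_of_nonneg_right (opNorm_le_hsn A) (hsn_nonneg B))

theorem hsn_isometry_mul (V : Matrix l m ℂ) (hV : Vᴴ * V = 1) (B : Matrix m n ℂ) :
    hsn (V * B) = hsn B := by
  have h : hsSq (V * B) = hsSq B := by
    have : ((hsSq (V * B) : ℝ) : ℂ) = ((hsSq B : ℝ) : ℂ) := by
      rw [hsSq_eq_trace, hsSq_eq_trace, conjTranspose_mul, Matrix.mul_assoc, ← Matrix.mul_assoc Vᴴ, hV,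
        Matrix.one_mul]
    exact_mod_cast this
  rw [hsn, hsn, h]

theorem hsn_mul_coisometry (B : Matrix l m ℂ) (V : Matrix m n ℂ) (hV : V * Vᴴ = 1) :
    hsn (B * V) = hsn B := by
  have h : hsSq (B * V) = hsSq B := by
    have : ((hsSq (B * V) : ℝ) : ℂ) = ((hsSq B : ℝ) : ℂ) := by
      rw [hsSq_eq_trace', hsSq_eq_trace', conjTranspose_mul, Matrix.mul_assoc, ← Matrix.mul_assoc V, hV,
        Matrix.one_mul]
    exact_mod_cast this
  rw [hsn, hsn, h]

/-- a positive semidefinite matrix is of the form `Bᴴ B` -/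
theorem hs_exists_eq_conjTranspose_mul_self {P : Matrix n n ℂ} (hP : P.PosSemidef) :
    ∃ B : Matrix n n ℂ, P = Bᴴ * B := by
  refine ⟨spow P (1 / 2 : ℂ), ?_⟩
  rw [spow_conjTranspose, ← spow_add]
  have e : star (1 / 2 : ℂ) + 1 / 2 = 1 := by
    apply Complex.ext <;> norm_num
  rw [e, spow_one hP]

/-- `|Tr (W P)| ≤ ‖W‖ Tr P` for positive semidefinite `P` -/
theorem norm_trace_mul_le_of_posSemidef (W : Matrix n n ℂ) {P : Matrix n n ℂ} (hP : P.PosSemidef) :
    ‖(W * P).trace‖ ≤ ‖W‖ * P.trace.re := by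
  obtain ⟨B, rfl⟩ := hs_exists_eq_conjTranspose_mul_self hP
  have e1 : (W * (Bᴴ * B)).trace = ((B * W) * Bᴴ).trace := by
    rw [← Matrix.mul_assoc, trace_mul_comm, ← Matrix.mul_assoc]
  have e2 : (Bᴴ * B).trace.re = hsn B * hsn B := by
    rw [← hsSq_eq_trace, Complex.ofReal_re, ← hsn_sq, sq]
  rw [e1, e2]
  calc ‖((B * W) * Bᴴ).trace‖ ≤ hsn (B * W) * hsn Bᴴ := norm_trace_mul_le _ _
    _ ≤ (hsn B * ‖W‖) * hsn B := by
        rw [hsn_conjTranspose]
        exact mul_le_mul_of_nonneg_right (hsn_mul_le_right B W) (hsn_nonneg B)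
    _ = ‖W‖ * (hsn B * hsn B) := by ring

/-- the trace of a product of two positive semidefinite matrices is real and nonnegative -/
theorem trace_mul_posSemidef_nonneg {A B : Matrix n n ℂ} (hA : A.PosSemidef) (hB : B.PosSemidef) :
    0 ≤ (A * B).trace := by
  obtain ⟨C, rfl⟩ := hs_exists_eq_conjTranspose_mul_self hA
  obtain ⟨D, rfl⟩ := hs_exists_eq_conjTranspose_mul_self hB
  have e : (Cᴴ * C * (Dᴴ * D)).trace = ((C * Dᴴ)ᴴ * (C * Dᴴ)).trace := by
    rw [conjTranspose_mul, conjTranspose_conjTranspose, ← Matrix.mul_assoc, trace_mul_comm]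
    simp only [Matrix.mul_assoc]
  rw [e, ← hsSq_eq_trace]
  exact_mod_cast hsSq_nonneg _

/-- `‖A^[s]‖_2² = Tr A^[2 Re s]` -/
theorem hsSq_spow {A : Matrix n n ℂ} (h : A.IsHermitian) (s : ℂ) :
    ((hsSq (spow A s) : ℝ) : ℂ) = (spow A ((2 * s.re : ℝ) : ℂ)).trace := by
  rw [hsSq_eq_trace, spow_conjTranspose, ← spow_add]
  congr 2
  apply Complex.ext <;> simp [two_mul]

/-- HS norm of a rank one operator -/
theorem hsn_vecMulVec (v : m → ℂ) (w : n → ℂ) : hsn (vecMulVec v w) = l2n v * l2n w := by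
  have h : hsn (vecMulVec v w) ^ 2 = (l2n v * l2n w) ^ 2 := by
    rw [hsn_sq, mul_pow, l2n_sq, l2n_sq, hsSq, Finset.sum_mul_sum]
    simp [vecMulVec_apply, mul_pow]
  exact (pow_left_inj₀ (hsn_nonneg _) (mul_nonneg (l2n_nonneg _) (l2n_nonneg _)) two_ne_zero).1 h

/-- `StripNice` in the operator norm gives `StripNice` of the flattened (HS) vector -/
theorem StripNice.hsVec {M : ℂ → Matrix m n ℂ} (hM : StripNice M) :
    StripNice (fun z => Claimed.Agent.R296.hsVec (M z)) :=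
  hM.lin Claimed.Agent.R296.hsVec

end Claimed.Agent.R296
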