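/-
Row 296, black-box chain INTERP, file 2: complex powers of positive semidefinite matrices.
`spow A z = A^[z]`  (support power: zero on the kernel, also for `z = 0`),
`hpow A z = Â^z`    (hat power: identity on the kernel; `hpow A (i u)` is unitary),
`supp A`            (support projection), `mlog A` (logarithm, zero on the kernel).
Owner: helper57.
-/
import Claimed.Agent.R296.MatFun

set_option autoImplicit false
set_option linter.unusedSectionVars false
set_option linter.unusedDecidableInType false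

namespace Claimed.Agent.R296

open Matrix
open scoped Matrix.Norms.L2Operator ComplexOrder

variable {n m : Type*} [Fintype n] [DecidableEq n] [Fintype m] [DecidableEq m]

/-! ### scalar symbols -/

/-- `x ^ z` for `x > 0`, and `0` for `x ≤ 0` -/
noncomputable def spowS (z : ℂ) (x : ℝ) : ℂ := if 0 < x then Complex.exp (z * (Real.log x : ℂ)) else 0

/-- `x ^ z` for `x > 0`, and `1` for `x ≤ 0` -/
noncomputable def hpowS (z : ℂ) (x : ℝ) : ℂ := if 0 < x then Complex.exp (z * (Real.log x : ℂ)) else 1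

/-- indicator of `x > 0` -/
noncomputable def suppS (x : ℝ) : ℂ := if 0 < x then 1 else 0

theorem spowS_pos {x : ℝ} (hx : 0 < x) (z : ℂ) : spowS z x = Complex.exp (z * (Real.log x : ℂ)) := by
  simp [spowS, hx]

theorem hpowS_pos {x : ℝ} (hx : 0 < x) (z : ℂ) : hpowS z x = Complex.exp (z * (Real.log x : ℂ)) := by
  simp [hpowS, hx]

theorem spowS_nonpos {x : ℝ} (hx : x ≤ 0) (z : ℂ) : spowS z x = 0 := by
  simp [spowS, not_lt.2 hx]

theorem hpowS_nonpos {x : ℝ} (hx : x ≤ 0) (z : ℂ) : hpowS z x = 1 := by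
  simp [hpowS, not_lt.2 hx]

theorem spowS_eq_cpow {x : ℝ} (hx : 0 < x) (z : ℂ) : spowS z x = (x : ℂ) ^ z := by
  rw [spowS_pos hx, Complex.cpow_def_of_ne_zero (by exact_mod_cast hx.ne'), Complex.ofReal_log hx.le,
    mul_comm]

theorem spowS_ofReal {x : ℝ} (hx : 0 < x) (t : ℝ) : spowS (t : ℂ) x = ((x ^ t : ℝ) : ℂ) := by
  rw [spowS_eq_cpow hx, Complex.ofReal_cpow hx.le]

theorem hpowS_ofReal {x : ℝ} (hx : 0 < x) (t : ℝ) : hpowS (t : ℂ) x = ((x ^ t : ℝ) : ℂ) := by
  rw [hpowS_pos hx, ← spowS_pos hx, spowS_ofReal hx]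

theorem spowS_add (z w : ℂ) (x : ℝ) : spowS (z + w) x = spowS z x * spowS w x := by
  by_cases hx : 0 < x
  · simp [spowS, hx, add_mul, Complex.exp_add]
  · simp [spowS, hx]

theorem hpowS_add (z w : ℂ) (x : ℝ) : hpowS (z + w) x = hpowS z x * hpowS w x := by
  by_cases hx : 0 < x
  · simp [hpowS, hx, add_mul, Complex.exp_add]
  · simp [hpowS, hx]

theorem spowS_zero (x : ℝ) : spowS 0 x = suppS x := by
  by_cases hx : 0 < x <;> simp [spowS, suppS, hx]

theorem hpowS_zero (x : ℝ) : hpowS 0 x = 1 := by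
  by_cases hx : 0 < x <;> simp [hpowS, hx]

theorem spowS_one {x : ℝ} (hx : 0 ≤ x) : spowS 1 x = (x : ℂ) := by
  rcases hx.lt_or_eq with h | h
  · rw [spowS_eq_cpow h, Complex.cpow_one]
  · subst h; simp [spowS]

theorem spowS_eq_hpowS_mul (z : ℂ) (x : ℝ) : spowS z x = hpowS z x * suppS x := by
  by_cases hx : 0 < x <;> simp [spowS, hpowS, suppS, hx]

theorem star_spowS (z : ℂ) (x : ℝ) : star (spowS z x) = spowS (star z) x := by
  by_cases hx : 0 < x
  · simp only [spowS, hx, if_true, RCLike.star_def, ← Complex.exp_conj, map_mul, Complex.conj_ofReal]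
  · simp [spowS, hx]

theorem star_hpowS (z : ℂ) (x : ℝ) : star (hpowS z x) = hpowS (star z) x := by
  by_cases hx : 0 < x
  · simp only [hpowS, hx, if_true, RCLike.star_def, ← Complex.exp_conj, map_mul, Complex.conj_ofReal]
  · simp [hpowS, hx]

theorem norm_spowS {x : ℝ} (hx : 0 < x) (z : ℂ) : ‖spowS z x‖ = x ^ z.re := by
  rw [spowS_eq_cpow hx, Complex.norm_cpow_eq_rpow_re_of_pos hx]

theorem norm_hpowS {x : ℝ} (hx : 0 < x) (z : ℂ) : ‖hpowS z x‖ = x ^ z.re := by
  rw [hpowS_pos hx, ← spowS_pos hx, norm_spowS hx]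

theorem norm_hpowS_of_re_eq_zero {z : ℂ} (hz : z.re = 0) (x : ℝ) : ‖hpowS z x‖ = 1 := by
  by_cases hx : 0 < x
  · rw [norm_hpowS hx, hz, Real.rpow_zero]
  · simp [hpowS, hx]

theorem differentiable_spowS (x : ℝ) : Differentiable ℂ (fun z => spowS z x) := by
  by_cases hx : 0 < x
  · simp only [spowS, hx, if_true]; fun_prop
  · simp only [spowS, hx, if_false]; fun_prop

theorem differentiable_hpowS (x : ℝ) : Differentiable ℂ (fun z => hpowS z x) := by
  by_cases hx : 0 < x
  · simp only [hpowS, hx, if_true]; fun_prop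
  · simp only [hpowS, hx, if_false]; fun_prop

theorem hasDerivAt_spowS (x : ℝ) (z : ℂ) :
    HasDerivAt (fun z => spowS z x) ((Real.log x : ℂ) * spowS z x) z := by
  by_cases hx : 0 < x
  · simp only [spowS, hx, if_true]
    have h := ((hasDerivAt_id z).mul_const ((Real.log x : ℂ))).cexp
    simpa [mul_comm] using h
  · simp only [spowS, hx, if_false, mul_zero]; exact hasDerivAt_const _ _

theorem hasDerivAt_hpowS (x : ℝ) (z : ℂ) :
    HasDerivAt (fun z => hpowS z x) ((Real.log x : ℂ) * spowS z x) z := by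
  by_cases hx : 0 < x
  · simp only [spowS, hpowS, hx, if_true]
    have h := ((hasDerivAt_id z).mul_const ((Real.log x : ℂ))).cexp
    simpa [mul_comm] using h
  · simp only [spowS, hpowS, hx, if_false, mul_zero]; exact hasDerivAt_const _ _

/-! ### matrix powers -/

/-- support power `A^[z]` -/
noncomputable def spow (A : Matrix n n ℂ) (z : ℂ) : Matrix n n ℂ := mfun (spowS z) A

/-- hat power `Â^z`, `Â = A + Π_{ker A}` -/
noncomputable def hpow (A : Matrix n n ℂ) (z : ℂ) : Matrix n n ℂ := mfun (hpowS z) A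

/-- support projection -/
noncomputable def supp (A : Matrix n n ℂ) : Matrix n n ℂ := mfun suppS A

/-- logarithm (zero on the kernel, since `Real.log 0 = 0`) -/
noncomputable def mlog (A : Matrix n n ℂ) : Matrix n n ℂ := mfun (fun x => (Real.log x : ℂ)) A

theorem spow_add (A : Matrix n n ℂ) (z w : ℂ) : spow A (z + w) = spow A z * spow A w := by
  unfold spow; rw [← mfun_mul]; congr 1; ext x; exact spowS_add z w x

theorem hpow_add (A : Matrix n n ℂ) (z w : ℂ) : hpow A (z + w) = hpow A z * hpow A w := by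
  unfold hpow; rw [← mfun_mul]; congr 1; ext x; exact hpowS_add z w x

theorem spow_zero (A : Matrix n n ℂ) : spow A 0 = supp A := by
  unfold spow supp; congr 1; ext x; exact spowS_zero x

theorem hpow_zero {A : Matrix n n ℂ} (h : A.IsHermitian) : hpow A 0 = 1 := by
  unfold hpow; rw [← mfun_one h]; congr 1; ext x; exact hpowS_zero x

theorem spow_one {A : Matrix n n ℂ} (h : A.PosSemidef) : spow A 1 = A := by
  unfold spow
  conv_rhs => rw [← mfun_id h.1]
  exact mfun_congr h.1 fun i => spowS_one (h.eigenvalues_nonneg i)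

theorem hpow_neg_mul {A : Matrix n n ℂ} (h : A.IsHermitian) (z : ℂ) : hpow A (-z) * hpow A z = 1 := by
  rw [← hpow_add, neg_add_cancel, hpow_zero h]

theorem hpow_mul_neg {A : Matrix n n ℂ} (h : A.IsHermitian) (z : ℂ) : hpow A z * hpow A (-z) = 1 := by
  rw [← hpow_add, add_neg_cancel, hpow_zero h]

theorem spow_conjTranspose (A : Matrix n n ℂ) (z : ℂ) : (spow A z)ᴴ = spow A (star z) := by
  unfold spow; rw [mfun_conjTranspose]; congr 1; ext x; exact star_spowS z x

theorem hpow_conjTranspose (A : Matrix n n ℂ) (z : ℂ) : (hpow A z)ᴴ = hpow A (star z) := by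
  unfold hpow; rw [mfun_conjTranspose]; congr 1; ext x; exact star_hpowS z x

theorem spow_eq_hpow_mul_supp (A : Matrix n n ℂ) (z : ℂ) : spow A z = hpow A z * supp A := by
  unfold spow hpow supp; rw [← mfun_mul]; congr 1; ext x; exact spowS_eq_hpowS_mul z x

theorem spow_eq_supp_mul_hpow (A : Matrix n n ℂ) (z : ℂ) : spow A z = supp A * hpow A z := by
  rw [spow_eq_hpow_mul_supp]; exact (mfun_commute_self _ _ A).eq

theorem spow_comm (A : Matrix n n ℂ) (z w : ℂ) : spow A z * spow A w = spow A w * spow A z :=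
  (mfun_commute_self _ _ A).eq

theorem hpow_comm (A : Matrix n n ℂ) (z w : ℂ) : hpow A z * hpow A w = hpow A w * hpow A z :=
  (mfun_commute_self _ _ A).eq

theorem supp_mul_supp (A : Matrix n n ℂ) : supp A * supp A = supp A := by
  rw [← spow_zero, ← spow_add, add_zero]

theorem supp_isHermitian (A : Matrix n n ℂ) : (supp A).IsHermitian := by
  rw [← spow_zero, IsHermitian, spow_conjTranspose, star_zero]

theorem supp_mul_spow (A : Matrix n n ℂ) (z : ℂ) : supp A * spow A z = spow A z := by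
  rw [← spow_zero, ← spow_add, zero_add]

theorem spow_mul_supp (A : Matrix n n ℂ) (z : ℂ) : spow A z * supp A = spow A z := by
  rw [← spow_zero, ← spow_add, add_zero]

theorem supp_mul_self {A : Matrix n n ℂ} (h : A.PosSemidef) : supp A * A = A := by
  have := supp_mul_spow A 1
  rwa [spow_one h] at this

theorem self_mul_supp {A : Matrix n n ℂ} (h : A.PosSemidef) : A * supp A = A := by
  have := spow_mul_supp A 1
  rwa [spow_one h] at this

/-- imaginary hat powers are unitary -/
theorem hpow_unitary {A : Matrix n n ℂ} (h : A.IsHermitian) {z : ℂ} (hz : z.re = 0) :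
    (hpow A z)ᴴ * hpow A z = 1 ∧ hpow A z * (hpow A z)ᴴ = 1 := by
  have : star z = -z := by
    apply Complex.ext <;> simp [hz]
  rw [hpow_conjTranspose, this]
  exact ⟨hpow_neg_mul h z, hpow_mul_neg h z⟩

theorem norm_hpow_le_one {A : Matrix n n ℂ} (h : A.IsHermitian) {z : ℂ} (hz : z.re = 0) :
    ‖hpow A z‖ ≤ 1 :=
  norm_mfun_le h _ zero_le_one fun _ => (norm_hpowS_of_re_eq_zero hz _).le

theorem norm_spow_le_one_of_re_eq_zero {A : Matrix n n ℂ} (h : A.IsHermitian) {z : ℂ}
    (hz : z.re = 0) : ‖spow A z‖ ≤ 1 :=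
  norm_mfun_le h _ zero_le_one fun i => by
    by_cases hx : 0 < h.eigenvalues i
    · rw [norm_spowS hx, hz, Real.rpow_zero]
    · simp [spowS, hx]

/-- general norm bound: `‖A^[z]‖ ≤ c` as soon as `λ ^ Re z ≤ c` for all positive eigenvalues -/
theorem norm_spow_le {A : Matrix n n ℂ} (h : A.IsHermitian) (z : ℂ) {c : ℝ} (hc : 0 ≤ c)
    (hb : ∀ i, 0 < h.eigenvalues i → h.eigenvalues i ^ z.re ≤ c) : ‖spow A z‖ ≤ c :=
  norm_mfun_le h _ hc fun i => by
    by_cases hx : 0 < h.eigenvalues i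
    · rw [norm_spowS hx]; exact hb i hx
    · simpa [spowS, hx] using hc

theorem trace_spow {A : Matrix n n ℂ} (h : A.IsHermitian) (z : ℂ) :
    (spow A z).trace = ∑ i, spowS z (h.eigenvalues i) := trace_mfun h _

/-- real symbol for real exponents -/
noncomputable def rpowS (t : ℝ) (x : ℝ) : ℝ := if 0 < x then x ^ t else 0

theorem spowS_ofReal' (t : ℝ) (x : ℝ) : spowS (t : ℂ) x = (rpowS t x : ℂ) := by
  by_cases hx : 0 < x
  · rw [spowS_ofReal hx]; simp [rpowS, hx]
  · simp [spowS, rpowS, hx]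

theorem rpowS_nonneg (t x : ℝ) : 0 ≤ rpowS t x := by
  unfold rpowS; split_ifs with h
  · exact Real.rpow_nonneg h.le t
  · exact le_rfl

theorem spow_ofReal_eq (A : Matrix n n ℂ) (t : ℝ) :
    spow A (t : ℂ) = mfun (fun x => (rpowS t x : ℂ)) A := by
  unfold spow; congr 1; ext x; exact spowS_ofReal' t x

theorem spow_posSemidef {A : Matrix n n ℂ} (h : A.IsHermitian) (t : ℝ) :
    (spow A (t : ℂ)).PosSemidef := by
  rw [spow_ofReal_eq]; exact mfun_posSemidef h _ fun i => rpowS_nonneg _ _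

theorem supp_posSemidef {A : Matrix n n ℂ} (h : A.IsHermitian) : (supp A).PosSemidef := by
  rw [← spow_zero]; exact_mod_cast spow_posSemidef h 0

/-- `(A^[s])^[z] = A^[s z]` for real `s` -/
theorem spow_spow {A : Matrix n n ℂ} (h : A.IsHermitian) (s : ℝ) (z : ℂ) :
    spow (spow A (s : ℂ)) z = spow A ((s : ℂ) * z) := by
  rw [spow_ofReal_eq]
  unfold spow
  rw [mfun_comp _ _ _ h]
  congr 1; ext x
  by_cases hx : 0 < x
  · have hx' : 0 < x ^ s := Real.rpow_pos_of_pos hx s
    simp only [rpowS, hx, if_true, spowS, hx', Real.log_rpow hx]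
    congr 1; push_cast; ring
  · simp [rpowS, spowS, hx]

/-! ### transport -/

theorem spow_commute {A B : Matrix n n ℂ} (h : Commute B A) (z : ℂ) : Commute B (spow A z) :=
  mfun_commute _ h

theorem hpow_commute {A B : Matrix n n ℂ} (h : Commute B A) (z : ℂ) : Commute B (hpow A z) :=
  mfun_commute _ h

theorem spow_isometry_conj (V : Matrix n m ℂ) (hV : Vᴴ * V = 1) {B : Matrix m m ℂ}
    (hB : B.IsHermitian) (z : ℂ) : spow (V * B * Vᴴ) z = V * spow B z * Vᴴ := by
  unfold spow; rw [mfun_isometry_conj _ V hV hB]; simp [spowS]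

theorem spow_algHom (φ : Matrix n n ℂ →ₐ[ℂ] Matrix m m ℂ) {A : Matrix n n ℂ}
    (hA : A.IsHermitian) (hφ : (φ A).IsHermitian) (z : ℂ) : spow (φ A) z = φ (spow A z) :=
  mfun_algHom _ φ hA hφ

theorem hpow_algHom (φ : Matrix n n ℂ →ₐ[ℂ] Matrix m m ℂ) {A : Matrix n n ℂ}
    (hA : A.IsHermitian) (hφ : (φ A).IsHermitian) (z : ℂ) : hpow (φ A) z = φ (hpow A z) :=
  mfun_algHom _ φ hA hφ

theorem hpow_unitary_conj (V : Matrix n m ℂ) (hV : Vᴴ * V = 1) (hV' : V * Vᴴ = 1)
    (B : Matrix m m ℂ) (z : ℂ) : hpow (V * B * Vᴴ) z = V * hpow B z * Vᴴ :=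
  mfun_unitary_conj _ V hV hV' B

/-! ### absolute value (moved here from `Replica/MetricDefs.lean`; shared by Secs 5 and 6) -/

/-- `|O| = (O^* O)^{1/2}` -/
noncomputable def mabs (O : Matrix n n ℂ) : Matrix n n ℂ := spow (O.conjTranspose * O) (1 / 2)

/-- `𝒟 = |O| + |O^*| - O - O^*` -/
noncomputable def skewD (O : Matrix n n ℂ) : Matrix n n ℂ :=
  mabs O + mabs O.conjTranspose - O - O.conjTranspose

end Claimed.Agent.R296
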