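/-
Row 296, black-box chain INTERP, file 6: further API for `mfun`, `spow`, `hpow` (intertwining, transpose,
Kronecker products, reindexing, affine substitution, eigenvectors, order).
Statements fixed by helper57 (architect).  The owner of this file replaces the `sorry`s; do not change
the statements without telling helper57 (adding lemmas is welcome).
GENERAL METHOD: `exists_poly_eq_on (eigSet hA ∪ eigSet hB ∪ ...) f` + `mfun_eq_aeval`, or `mfun_of_decomp`.
Proofs: helper98 (auxiliary lemmas carry the prefix `mf2_`).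
-/
import Claimed.Agent.R296.MatPow

set_option autoImplicit false
set_option linter.unusedSectionVars false
set_option linter.unusedDecidableInType false

namespace Claimed.Agent.R296

open Matrix Polynomial
open scoped Matrix.Norms.L2Operator ComplexOrder Kronecker

variable {l m n : Type*} [Fintype l] [DecidableEq l] [Fintype n] [DecidableEq n] [Fintype m]
  [DecidableEq m]

/-! ### polynomial transport lemmas -/

theorem mf2_pow_intertwine {A : Matrix n n ℂ} {B : Matrix m m ℂ} (X : Matrix m n ℂ)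
    (h : X * A = B * X) (k : ℕ) : X * A ^ k = B ^ k * X := by
  induction k with
  | zero => simp
  | succ k ih =>
    rw [pow_succ, pow_succ, ← Matrix.mul_assoc, ih, Matrix.mul_assoc, h, Matrix.mul_assoc]

theorem mf2_aeval_intertwine {A : Matrix n n ℂ} {B : Matrix m m ℂ} (X : Matrix m n ℂ)
    (h : X * A = B * X) (p : ℂ[X]) : X * aeval A p = aeval B p * X := by
  induction p using Polynomial.induction_on' with
  | add p q hp hq => simp only [map_add, Matrix.mul_add, Matrix.add_mul, hp, hq]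
  | monomial k c =>
    simp only [aeval_monomial, Algebra.algebraMap_eq_smul_one, Matrix.smul_mul, Matrix.one_mul,
      Matrix.mul_smul, mf2_pow_intertwine X h k]

/-- INTERTWINING: `X A = B X` implies `X f(A) = f(B) X`. -/
theorem mfun_intertwine (f : ℝ → ℂ) {A : Matrix n n ℂ} {B : Matrix m m ℂ} (hA : A.IsHermitian)
    (hB : B.IsHermitian) (X : Matrix m n ℂ) (h : X * A = B * X) : X * mfun f A = mfun f B * X := by
  obtain ⟨p, hp⟩ := exists_poly_eq_on (eigSet hA ∪ eigSet hB) f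
  rw [mfun_eq_aeval hA f p fun i => hp _ (by simp [mem_eigSet]),
    mfun_eq_aeval hB f p fun i => hp _ (by simp [mem_eigSet])]
  exact mf2_aeval_intertwine X h p

/-- `f(Θ Θᴴ) Θ = Θ f(Θᴴ Θ)` (the Schmidt "mirror rule" in matrix form) -/
theorem mfun_mul_self_conjTranspose_mul (f : ℝ → ℂ) (Θ : Matrix m n ℂ) :
    mfun f (Θ * Θᴴ) * Θ = Θ * mfun f (Θᴴ * Θ) :=
  (mfun_intertwine f (isHermitian_conjTranspose_mul_self Θ) (isHermitian_mul_conjTranspose_self Θ) Θ
    (by rw [Matrix.mul_assoc])).symm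

theorem mf2_aeval_transpose (A : Matrix n n ℂ) (p : ℂ[X]) : aeval Aᵀ p = (aeval A p)ᵀ := by
  induction p using Polynomial.induction_on' with
  | add p q hp hq => simp only [map_add, transpose_add, hp, hq]
  | monomial k c =>
    simp only [aeval_monomial, Algebra.algebraMap_eq_smul_one, Matrix.smul_mul, Matrix.one_mul,
      transpose_smul, transpose_pow]

theorem mfun_transpose (f : ℝ → ℂ) (A : Matrix n n ℂ) : mfun f Aᵀ = (mfun f A)ᵀ := by
  by_cases hA : A.IsHermitian
  · have hT : Aᵀ.IsHermitian := hA.transpose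
    obtain ⟨p, hp⟩ := exists_poly_eq_on (eigSet hA ∪ eigSet hT) f
    rw [mfun_eq_aeval hA f p fun i => hp _ (by simp [mem_eigSet]),
      mfun_eq_aeval hT f p fun i => hp _ (by simp [mem_eigSet])]
    exact mf2_aeval_transpose A p
  · have hT : ¬ Aᵀ.IsHermitian := fun h => hA (isHermitian_transpose_iff.1 h)
    rw [mfun_of_not_isHermitian hA, mfun_of_not_isHermitian hT, transpose_zero]

theorem mfun_submatrix_equiv (f : ℝ → ℂ) (A : Matrix n n ℂ) (e : m ≃ n) :
    mfun f (A.submatrix e e) = (mfun f A).submatrix e e := by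
  by_cases hA : A.IsHermitian
  · have hS : (A.submatrix e e).IsHermitian := hA.submatrix e
    exact mfun_algHom f (reindexAlgEquiv ℂ ℂ e.symm).toAlgHom hA hS
  · have hS : ¬ (A.submatrix e e).IsHermitian := fun h => hA ((isHermitian_submatrix_equiv e).1 h)
    rw [mfun_of_not_isHermitian hA, mfun_of_not_isHermitian hS, submatrix_zero]
    rfl

theorem mf2_kronecker_one_pow (A : Matrix n n ℂ) (k : ℕ) :
    (A ⊗ₖ (1 : Matrix m m ℂ)) ^ k = (A ^ k) ⊗ₖ (1 : Matrix m m ℂ) := by
  induction k with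
  | zero => simp
  | succ k ih => rw [pow_succ, ih, ← mul_kronecker_mul, Matrix.one_mul, pow_succ]

theorem mf2_one_kronecker_pow (A : Matrix n n ℂ) (k : ℕ) :
    ((1 : Matrix m m ℂ) ⊗ₖ A) ^ k = (1 : Matrix m m ℂ) ⊗ₖ (A ^ k) := by
  induction k with
  | zero => simp
  | succ k ih => rw [pow_succ, ih, ← mul_kronecker_mul, Matrix.one_mul, pow_succ]

theorem mf2_aeval_kronecker_one (A : Matrix n n ℂ) (p : ℂ[X]) :
    aeval (A ⊗ₖ (1 : Matrix m m ℂ)) p = aeval A p ⊗ₖ (1 : Matrix m m ℂ) := by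
  induction p using Polynomial.induction_on' with
  | add p q hp hq => simp only [map_add, add_kronecker, hp, hq]
  | monomial k c =>
    simp only [aeval_monomial, Algebra.algebraMap_eq_smul_one, Matrix.smul_mul, Matrix.one_mul,
      smul_kronecker, mf2_kronecker_one_pow]

theorem mf2_aeval_one_kronecker (A : Matrix n n ℂ) (p : ℂ[X]) :
    aeval ((1 : Matrix m m ℂ) ⊗ₖ A) p = (1 : Matrix m m ℂ) ⊗ₖ aeval A p := by
  induction p using Polynomial.induction_on' with
  | add p q hp hq => simp only [map_add, kronecker_add, hp, hq]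
  | monomial k c =>
    simp only [aeval_monomial, Algebra.algebraMap_eq_smul_one, Matrix.smul_mul, Matrix.one_mul,
      kronecker_smul, mf2_one_kronecker_pow]

theorem mf2_isHermitian_kronecker {A : Matrix n n ℂ} {B : Matrix m m ℂ} (hA : A.IsHermitian)
    (hB : B.IsHermitian) : (A ⊗ₖ B).IsHermitian := by
  rw [IsHermitian, conjTranspose_kronecker, hA.eq, hB.eq]

theorem mf2_isHermitian_of_kronecker_one {A : Matrix n n ℂ} [Nonempty m]
    (h : (A ⊗ₖ (1 : Matrix m m ℂ)).IsHermitian) : A.IsHermitian := by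
  obtain ⟨a⟩ := ‹Nonempty m›
  ext i j
  have := congrFun (congrFun h (i, a)) (j, a)
  simpa [conjTranspose_apply, kroneckerMap_apply] using this

theorem mf2_isHermitian_of_one_kronecker {A : Matrix n n ℂ} [Nonempty m]
    (h : ((1 : Matrix m m ℂ) ⊗ₖ A).IsHermitian) : A.IsHermitian := by
  obtain ⟨a⟩ := ‹Nonempty m›
  ext i j
  have := congrFun (congrFun h (a, i)) (a, j)
  simpa [conjTranspose_apply, kroneckerMap_apply] using this

theorem mfun_kronecker_one (f : ℝ → ℂ) (A : Matrix n n ℂ) [Nonempty m] :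
    mfun f (A ⊗ₖ (1 : Matrix m m ℂ)) = mfun f A ⊗ₖ (1 : Matrix m m ℂ) := by
  by_cases hA : A.IsHermitian
  · have hK : (A ⊗ₖ (1 : Matrix m m ℂ)).IsHermitian := mf2_isHermitian_kronecker hA isHermitian_one
    obtain ⟨p, hp⟩ := exists_poly_eq_on (eigSet hA ∪ eigSet hK) f
    rw [mfun_eq_aeval hA f p fun i => hp _ (by simp [mem_eigSet]),
      mfun_eq_aeval hK f p fun i => hp _ (by simp [mem_eigSet])]
    exact mf2_aeval_kronecker_one A p
  · have hK : ¬ (A ⊗ₖ (1 : Matrix m m ℂ)).IsHermitian :=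
      fun h => hA (mf2_isHermitian_of_kronecker_one h)
    rw [mfun_of_not_isHermitian hA, mfun_of_not_isHermitian hK, zero_kronecker]

theorem mfun_one_kronecker (f : ℝ → ℂ) (A : Matrix n n ℂ) [Nonempty m] :
    mfun f ((1 : Matrix m m ℂ) ⊗ₖ A) = (1 : Matrix m m ℂ) ⊗ₖ mfun f A := by
  by_cases hA : A.IsHermitian
  · have hK : ((1 : Matrix m m ℂ) ⊗ₖ A).IsHermitian := mf2_isHermitian_kronecker isHermitian_one hA
    obtain ⟨p, hp⟩ := exists_poly_eq_on (eigSet hA ∪ eigSet hK) f
    rw [mfun_eq_aeval hA f p fun i => hp _ (by simp [mem_eigSet]),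
      mfun_eq_aeval hK f p fun i => hp _ (by simp [mem_eigSet])]
    exact mf2_aeval_one_kronecker A p
  · have hK : ¬ ((1 : Matrix m m ℂ) ⊗ₖ A).IsHermitian :=
      fun h => hA (mf2_isHermitian_of_one_kronecker h)
    rw [mfun_of_not_isHermitian hA, mfun_of_not_isHermitian hK, kronecker_zero]

/-- joint functional calculus of `A ⊗ 1` and `1 ⊗ B`: any `f` with `f (x y) = g x * h y` on the spectra -/
theorem mfun_kronecker (f g h : ℝ → ℂ) {A : Matrix n n ℂ} {B : Matrix m m ℂ} (hA : A.IsHermitian)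
    (hB : B.IsHermitian)
    (hf : ∀ i j, f (hA.eigenvalues i * hB.eigenvalues j) = g (hA.eigenvalues i) * h (hB.eigenvalues j)) :
    mfun f (A ⊗ₖ B) = mfun g A ⊗ₖ mfun h B := by
  set U := (hA.eigenvectorUnitary : Matrix n n ℂ) with hU
  set W := (hB.eigenvectorUnitary : Matrix m m ℂ) with hW
  have h1 : (U ⊗ₖ W)ᴴ * (U ⊗ₖ W) = 1 := by
    rw [conjTranspose_kronecker, ← mul_kronecker_mul, eigU_conjTranspose_mul hA,
      eigU_conjTranspose_mul hB, one_kronecker_one]
  have h2 : (U ⊗ₖ W) * (U ⊗ₖ W)ᴴ = 1 := by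
    rw [conjTranspose_kronecker, ← mul_kronecker_mul, eigU_mul_conjTranspose hA,
      eigU_mul_conjTranspose hB, one_kronecker_one]
  have h3 : A ⊗ₖ B = (U ⊗ₖ W) * diagonal (fun ij : n × m =>
      ((hA.eigenvalues ij.1 * hB.eigenvalues ij.2 : ℝ) : ℂ)) * (U ⊗ₖ W)ᴴ := by
    conv_lhs => rw [spectral_plain hA, spectral_plain hB]
    rw [mul_kronecker_mul, mul_kronecker_mul, diagonal_kronecker_diagonal, conjTranspose_kronecker]
    simp only [Complex.ofReal_mul]
    rfl
  rw [h3, mfun_of_decomp f _ h1 h2, mfun_eq hA, mfun_eq hB, mul_kronecker_mul, mul_kronecker_mul,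
    diagonal_kronecker_diagonal, conjTranspose_kronecker]
  simp only [hf]
  rfl

theorem mf2_spowS_mul {x y : ℝ} (hx : 0 ≤ x) (hy : 0 ≤ y) (z : ℂ) :
    spowS z (x * y) = spowS z x * spowS z y := by
  rcases hx.lt_or_eq with hx | hx
  · rcases hy.lt_or_eq with hy | hy
    · rw [spowS_pos hx, spowS_pos hy, spowS_pos (mul_pos hx hy), Real.log_mul hx.ne' hy.ne',
        ← Complex.exp_add]
      congr 1; push_cast; ring
    · subst hy; simp [spowS]
  · subst hx; simp [spowS]

theorem mf2_spowS_mul_of_pos {c : ℝ} (hc : 0 < c) (x : ℝ) (z : ℂ) :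
    spowS z (c * x) = spowS z c * spowS z x := by
  rcases le_or_gt 0 x with hx | hx
  · exact mf2_spowS_mul hc.le hx z
  · rw [spowS_nonpos hx.le, spowS_nonpos (mul_nonpos_of_nonneg_of_nonpos hc.le hx.le), mul_zero]

theorem spow_kronecker {A : Matrix n n ℂ} {B : Matrix m m ℂ} (hA : A.PosSemidef) (hB : B.PosSemidef)
    (z : ℂ) : spow (A ⊗ₖ B) z = spow A z ⊗ₖ spow B z :=
  mfun_kronecker _ _ _ hA.1 hB.1 fun i j =>
    mf2_spowS_mul (hA.eigenvalues_nonneg i) (hB.eigenvalues_nonneg j) z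

/-- affine substitution (used for all mollifications `(1-δ) ρ + δ/d`) -/
theorem mfun_affine (f : ℝ → ℂ) {A : Matrix n n ℂ} (hA : A.IsHermitian) (a b : ℝ) :
    mfun f ((a : ℂ) • A + (b : ℂ) • 1) = mfun (fun x => f (a * x + b)) A := by
  have h1 : (a : ℂ) • A + (b : ℂ) • 1 = mfun (fun x => ((a * x + b : ℝ) : ℂ)) A := by
    have : (fun x : ℝ => ((a * x + b : ℝ) : ℂ)) = fun x : ℝ => (a : ℂ) * (x : ℂ) + (b : ℂ) := by
      ext x; push_cast; ring
    rw [this, mfun_add, mfun_smul, mfun_id hA, mfun_const hA]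
  rw [h1, mfun_comp f (fun x => a * x + b) A hA]

theorem spow_smul {A : Matrix n n ℂ} (hA : A.IsHermitian) {c : ℝ} (hc : 0 < c) (z : ℂ) :
    spow ((c : ℂ) • A) z = spowS z c • spow A z := by
  have h := mfun_affine (spowS z) hA c 0
  simp only [Complex.ofReal_zero, zero_smul, add_zero] at h
  unfold spow
  rw [h, ← mfun_smul]
  congr 1; ext x; exact mf2_spowS_mul_of_pos hc x z

theorem hpow_smul_of_posDef {A : Matrix n n ℂ} (hA : A.PosDef) {c : ℝ} (hc : 0 < c) (z : ℂ) :
    hpow ((c : ℂ) • A) z = spowS z c • hpow A z := by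
  have h := mfun_affine (hpowS z) hA.1 c 0
  simp only [Complex.ofReal_zero, zero_smul, add_zero] at h
  unfold hpow
  rw [h, ← mfun_smul]
  refine mfun_congr hA.1 fun i => ?_
  have hx := hA.eigenvalues_pos i
  rw [hpowS_pos hx, hpowS_pos (mul_pos hc hx), ← spowS_pos hx, ← spowS_pos (mul_pos hc hx)]
  exact mf2_spowS_mul_of_pos hc _ z

/-- for positive definite matrices both powers agree -/
theorem spow_eq_hpow_of_posDef {A : Matrix n n ℂ} (hA : A.PosDef) (z : ℂ) : spow A z = hpow A z :=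
  mfun_congr hA.1 fun i => by
    rw [spowS_pos (hA.eigenvalues_pos i), hpowS_pos (hA.eigenvalues_pos i)]

theorem supp_eq_one_of_posDef {A : Matrix n n ℂ} (hA : A.PosDef) : supp A = 1 := by
  unfold supp
  rw [← mfun_one hA.1]
  exact mfun_congr hA.1 fun i => by simp [suppS, hA.eigenvalues_pos i]

/-- real symbol of the hat power for real exponents -/
noncomputable def mf2_hrpowS (t : ℝ) (x : ℝ) : ℝ := if 0 < x then x ^ t else 1

theorem mf2_hpowS_ofReal (t : ℝ) (x : ℝ) : hpowS (t : ℂ) x = (mf2_hrpowS t x : ℂ) := by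
  by_cases hx : 0 < x
  · rw [hpowS_ofReal hx]; simp [mf2_hrpowS, hx]
  · simp [hpowS, mf2_hrpowS, hx]

theorem mf2_hrpowS_pos (t x : ℝ) : 0 < mf2_hrpowS t x := by
  unfold mf2_hrpowS; split_ifs with h
  · exact Real.rpow_pos_of_pos h t
  · exact one_pos

theorem mf2_hpow_ofReal_eq (A : Matrix n n ℂ) (t : ℝ) :
    hpow A (t : ℂ) = mfun (fun x => (mf2_hrpowS t x : ℂ)) A := by
  unfold hpow; congr 1; ext x; exact mf2_hpowS_ofReal t x

/-- real hat powers are positive definite -/
theorem hpow_posDef {A : Matrix n n ℂ} (hA : A.IsHermitian) (t : ℝ) : (hpow A (t : ℂ)).PosDef := by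
  have h1 : (hpow A (t : ℂ)).PosSemidef := by
    rw [mf2_hpow_ofReal_eq]; exact mfun_posSemidef hA _ fun i => (mf2_hrpowS_pos _ _).le
  rw [h1.posDef_iff_isUnit]
  exact IsUnit.of_mul_eq_one _ (hpow_mul_neg hA (t : ℂ))

/-- `Â = A + (1 - supp A)` -/
theorem hpow_one {A : Matrix n n ℂ} (hA : A.PosSemidef) : hpow A 1 = A + (1 - supp A) := by
  have h0 : A + (1 - supp A) = mfun (fun x => (x : ℂ) + (1 - suppS x)) A := by
    rw [mfun_add, mfun_sub, mfun_id hA.1, mfun_one hA.1]; rfl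
  rw [h0]
  unfold hpow
  refine mfun_congr hA.1 fun i => ?_
  rcases (hA.eigenvalues_nonneg i).lt_or_eq with h | h
  · rw [hpowS_pos h, ← spowS_pos h, spowS_one h.le]; simp [suppS, h]
  · rw [← h]; simp [hpowS, suppS]

/-- hat powers of the hat matrix -/
theorem hpow_hpow {A : Matrix n n ℂ} (hA : A.IsHermitian) (s : ℝ) (z : ℂ) :
    hpow (hpow A (s : ℂ)) z = hpow A ((s : ℂ) * z) := by
  rw [mf2_hpow_ofReal_eq]
  unfold hpow
  rw [mfun_comp _ _ _ hA]
  congr 1; ext x
  by_cases hx : 0 < x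
  · have hx' : 0 < x ^ s := Real.rpow_pos_of_pos hx s
    simp only [mf2_hrpowS, hx, if_true, hpowS, hx', Real.log_rpow hx]
    congr 1; push_cast; ring
  · simp [mf2_hrpowS, hpowS, hx]

theorem mf2_pow_mulVec_eigenvector {A : Matrix n n ℂ} {c : ℂ} {v : n → ℂ} (hv : A *ᵥ v = c • v)
    (k : ℕ) : (A ^ k) *ᵥ v = c ^ k • v := by
  induction k with
  | zero => simp
  | succ k ih => rw [pow_succ, ← mulVec_mulVec, hv, mulVec_smul, ih, smul_smul, pow_succ, mul_comm]

theorem mf2_aeval_mulVec_eigenvector {A : Matrix n n ℂ} {c : ℂ} {v : n → ℂ} (hv : A *ᵥ v = c • v)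
    (p : ℂ[X]) : aeval A p *ᵥ v = p.eval c • v := by
  induction p using Polynomial.induction_on' with
  | add p q hp hq => simp only [map_add, add_mulVec, eval_add, add_smul, hp, hq]
  | monomial k a =>
    simp only [aeval_monomial, Algebra.algebraMap_eq_smul_one, Matrix.smul_mul, Matrix.one_mul,
      smul_mulVec, mf2_pow_mulVec_eigenvector hv, eval_monomial, smul_smul]

theorem mfun_mulVec_eigenvector (f : ℝ → ℂ) {A : Matrix n n ℂ} (hA : A.IsHermitian) {x : ℝ}
    {v : n → ℂ} (hv : A *ᵥ v = (x : ℂ) • v) : mfun f A *ᵥ v = f x • v := by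
  obtain ⟨p, hp⟩ := exists_poly_eq_on (eigSet hA ∪ {x}) f
  rw [mfun_eq_aeval hA f p fun i => hp _ (by simp [mem_eigSet]), mf2_aeval_mulVec_eigenvector hv,
    hp x (by simp)]

/-- order: `f ≤ g` on the spectrum gives `f(A) ≤ g(A)` -/
theorem mfun_sub_posSemidef {A : Matrix n n ℂ} (hA : A.IsHermitian) (f g : ℝ → ℝ)
    (hfg : ∀ i, f (hA.eigenvalues i) ≤ g (hA.eigenvalues i)) :
    (mfun (fun x => (g x : ℂ)) A - mfun (fun x => (f x : ℂ)) A).PosSemidef := by
  rw [← mfun_sub]
  have : (fun x : ℝ => (g x : ℂ) - (f x : ℂ)) = fun x : ℝ => ((g x - f x : ℝ) : ℂ) := by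
    ext x; push_cast; ring
  rw [this]
  exact mfun_posSemidef hA _ fun i => sub_nonneg.2 (hfg i)

/-- the square root: `A^[1/2] * A^[1/2] = A` -/
theorem spow_half_mul_self {A : Matrix n n ℂ} (hA : A.PosSemidef) :
    spow A (1 / 2) * spow A (1 / 2) = A := by
  rw [← spow_add]; norm_num; exact spow_one hA

/-- uniqueness of positive powers: a PSD `B` commuting ... is not needed; we only record
`spow (B * B) (1/2) = B` for PSD `B`. -/
theorem spow_half_sq {B : Matrix n n ℂ} (hB : B.PosSemidef) : spow (B * B) (1 / 2) = B := by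
  have h1 : B * B = mfun (fun x => ((x * x : ℝ) : ℂ)) B := by
    have : (fun x : ℝ => ((x * x : ℝ) : ℂ)) = fun x : ℝ => (x : ℂ) * (x : ℂ) := by
      ext x; push_cast; ring
    rw [this, mfun_mul, mfun_id hB.1]
  unfold spow
  rw [h1, mfun_comp _ _ _ hB.1]
  conv_rhs => rw [← mfun_id hB.1]
  refine mfun_congr hB.1 fun i => ?_
  have hx := hB.eigenvalues_nonneg i
  rw [mf2_spowS_mul hx hx, ← spowS_add]
  norm_num
  exact spowS_one hx

theorem mf2_fromBlocks_pow (A : Matrix n n ℂ) (D : Matrix m m ℂ) (k : ℕ) :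
    (fromBlocks A 0 0 D) ^ k = fromBlocks (A ^ k) 0 0 (D ^ k) := by
  induction k with
  | zero => simp [fromBlocks_one]
  | succ k ih => rw [pow_succ, ih, fromBlocks_multiply]; simp [pow_succ]

theorem mf2_aeval_fromBlocks (A : Matrix n n ℂ) (D : Matrix m m ℂ) (p : ℂ[X]) :
    aeval (fromBlocks A 0 0 D) p = fromBlocks (aeval A p) 0 0 (aeval D p) := by
  induction p using Polynomial.induction_on' with
  | add p q hp hq => simp only [map_add, hp, hq, fromBlocks_add, add_zero]
  | monomial k c =>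
    simp only [aeval_monomial, Algebra.algebraMap_eq_smul_one, Matrix.smul_mul, Matrix.one_mul,
      mf2_fromBlocks_pow, fromBlocks_smul, smul_zero]

/-- block diagonal matrices -/
theorem mfun_fromBlocks (f : ℝ → ℂ) {A : Matrix n n ℂ} {D : Matrix m m ℂ} (hA : A.IsHermitian)
    (hD : D.IsHermitian) :
    mfun f (fromBlocks A 0 0 D) = fromBlocks (mfun f A) 0 0 (mfun f D) := by
  have hK : (fromBlocks A 0 0 D).IsHermitian := hA.fromBlocks (by simp) hD
  obtain ⟨p, hp⟩ := exists_poly_eq_on (eigSet hA ∪ eigSet hD ∪ eigSet hK) f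
  rw [mfun_eq_aeval hA f p fun i => hp _ (by simp [mem_eigSet]),
    mfun_eq_aeval hD f p fun i => hp _ (by simp [mem_eigSet]),
    mfun_eq_aeval hK f p fun i => hp _ (by simp [mem_eigSet])]
  exact mf2_aeval_fromBlocks A D p

/-- eigenvalues of a density matrix lie in `[0,1]` -/
theorem eigenvalues_le_trace {A : Matrix n n ℂ} (hA : A.PosSemidef) (i : n) :
    hA.1.eigenvalues i ≤ A.trace.re := by
  have h : A.trace.re = ∑ j, hA.1.eigenvalues j := by
    rw [hA.1.trace_eq_sum_eigenvalues]; simp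
  rw [h]
  exact Finset.single_le_sum (fun j _ => hA.eigenvalues_nonneg j) (Finset.mem_univ i)

/-- `‖ρ^[z]‖ ≤ 1` for `Re z ≥ 0` and a subnormalised `ρ` -/
theorem norm_spow_le_one {A : Matrix n n ℂ} (hA : A.PosSemidef) (htr : A.trace.re ≤ 1) {z : ℂ}
    (hz : 0 ≤ z.re) : ‖spow A z‖ ≤ 1 :=
  norm_spow_le hA.1 z zero_le_one fun i hi =>
    Real.rpow_le_one hi.le ((eigenvalues_le_trace hA i).trans htr) hz

/-- the kernel of `A` is killed: `A v = 0 → A^[z] v = 0` and `Â^z v = v` -/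
theorem spow_mulVec_of_ker {A : Matrix n n ℂ} (hA : A.IsHermitian) {v : n → ℂ} (hv : A *ᵥ v = 0)
    (z : ℂ) : spow A z *ᵥ v = 0 ∧ hpow A z *ᵥ v = v := by
  have hv' : A *ᵥ v = ((0 : ℝ) : ℂ) • v := by simp [hv]
  constructor
  · unfold spow
    rw [mfun_mulVec_eigenvector _ hA hv']; simp [spowS]
  · unfold hpow
    rw [mfun_mulVec_eigenvector _ hA hv']; simp [hpowS]

end Claimed.Agent.R296
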