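/-
Row 296, black-box chain INTERP, file 3: entire functions which are bounded on vertical strips
(`StripNice`), closure properties, and the exact corollaries of Hadamard's three-lines theorem and
of Cauchy's estimates that are used in P1 Sec. 2 (lem:tail, lem:initial-buffer) and Sec. 4
(eq:conditional-schatten, lem:movement, lem:skew).      Owner: helper57.
-/
import Mathlib

set_option autoImplicit false
set_option linter.unusedSectionVars false

namespace Claimed.Agent.R296

open Complex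

variable {E F G : Type*} [NormedAddCommGroup E] [NormedSpace ℂ E] [NormedAddCommGroup F]
  [NormedSpace ℂ F] [NormedAddCommGroup G] [NormedSpace ℂ G]

/-- entire and bounded on every closed vertical strip -/
structure StripNice (f : ℂ → E) : Prop where
  diff : Differentiable ℂ f
  bdd : ∀ a b : ℝ, ∃ C : ℝ, ∀ z : ℂ, a ≤ z.re → z.re ≤ b → ‖f z‖ ≤ C

namespace StripNice

theorem const (c : E) : StripNice (fun _ : ℂ => c) :=
  ⟨differentiable_const c, fun _ _ => ⟨‖c‖, fun _ _ _ => le_rfl⟩⟩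

theorem add {f g : ℂ → E} (hf : StripNice f) (hg : StripNice g) : StripNice (fun z => f z + g z) := by
  refine ⟨hf.diff.add hg.diff, fun a b => ?_⟩
  obtain ⟨C, hC⟩ := hf.bdd a b
  obtain ⟨D, hD⟩ := hg.bdd a b
  exact ⟨C + D, fun z h1 h2 => (norm_add_le _ _).trans (add_le_add (hC z h1 h2) (hD z h1 h2))⟩

theorem neg {f : ℂ → E} (hf : StripNice f) : StripNice (fun z => - f z) := by
  refine ⟨hf.diff.neg, fun a b => ?_⟩
  obtain ⟨C, hC⟩ := hf.bdd a b
  exact ⟨C, fun z h1 h2 => by rw [norm_neg]; exact hC z h1 h2⟩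

theorem sub {f g : ℂ → E} (hf : StripNice f) (hg : StripNice g) : StripNice (fun z => f z - g z) := by
  simpa only [sub_eq_add_neg] using hf.add hg.neg

theorem sum {ι : Type*} (s : Finset ι) {f : ι → ℂ → E} (hf : ∀ i ∈ s, StripNice (f i)) :
    StripNice (fun z => ∑ i ∈ s, f i z) := by
  classical
  induction s using Finset.induction_on with
  | empty => simpa using const (0 : E)
  | insert a s ha ih =>
    simp only [Finset.sum_insert ha]
    exact (hf a (Finset.mem_insert_self a s)).add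
      (ih fun i hi => hf i (Finset.mem_insert_of_mem hi))

/-- image under a bounded bilinear map -/
theorem bilin (B : E →L[ℂ] F →L[ℂ] G) {f : ℂ → E} {g : ℂ → F} (hf : StripNice f)
    (hg : StripNice g) : StripNice (fun z => B (f z) (g z)) := by
  refine ⟨fun z => ?_, fun a b => ?_⟩
  · exact DifferentiableAt.comp (g := fun p : E × F => B p.1 p.2) z
      (B.isBoundedBilinearMap.differentiableAt (f z, g z)) ((hf.diff z).prodMk (hg.diff z))
  obtain ⟨C, hC⟩ := hf.bdd a b
  obtain ⟨D, hD⟩ := hg.bdd a b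
  refine ⟨‖B‖ * C * D, fun z h1 h2 => (B.le_opNorm₂ _ _).trans ?_⟩
  have h3 := hC z h1 h2
  have h4 := hD z h1 h2
  have h5 : 0 ≤ C := (norm_nonneg _).trans h3
  gcongr

theorem clm (L : E →L[ℂ] F) {f : ℂ → E} (hf : StripNice f) : StripNice (fun z => L (f z)) := by
  refine ⟨L.differentiable.comp hf.diff, fun a b => ?_⟩
  obtain ⟨C, hC⟩ := hf.bdd a b
  exact ⟨‖L‖ * C, fun z h1 h2 => (L.le_opNorm _).trans
    (mul_le_mul_of_nonneg_left (hC z h1 h2) (norm_nonneg _))⟩

theorem smul {f : ℂ → ℂ} {g : ℂ → E} (hf : StripNice f) (hg : StripNice g) :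
    StripNice (fun z => f z • g z) :=
  bilin (ContinuousLinearMap.lsmul ℂ ℂ) hf hg

theorem mul {A : Type*} [NormedRing A] [NormedAlgebra ℂ A] {f g : ℂ → A} (hf : StripNice f)
    (hg : StripNice g) : StripNice (fun z => f z * g z) :=
  bilin (ContinuousLinearMap.mul ℂ A) hf hg

theorem prod {ι : Type*} (s : Finset ι) {f : ι → ℂ → ℂ} (hf : ∀ i ∈ s, StripNice (f i)) :
    StripNice (fun z => ∏ i ∈ s, f i z) := by
  classical
  induction s using Finset.induction_on with
  | empty => simpa using const (1 : ℂ)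
  | insert a s ha ih =>
    simp only [Finset.prod_insert ha]
    exact (hf a (Finset.mem_insert_self a s)).mul
      (ih fun i hi => hf i (Finset.mem_insert_of_mem hi))

/-- precomposition with `z ↦ α z + β`, `α` real -/
theorem comp_affine {f : ℂ → E} (hf : StripNice f) (α : ℝ) (β : ℂ) :
    StripNice (fun z => f ((α : ℂ) * z + β)) := by
  refine ⟨hf.diff.comp (by fun_prop), fun a b => ?_⟩
  obtain ⟨C, hC⟩ := hf.bdd (min (α * a) (α * b) + β.re) (max (α * a) (α * b) + β.re)
  refine ⟨C, fun z h1 h2 => hC _ ?_ ?_⟩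
  · simp only [add_re, mul_re, ofReal_re, ofReal_im, zero_mul, sub_zero]
    rcases le_total 0 α with h | h
    · have := mul_le_mul_of_nonneg_left h1 h
      linarith [min_le_left (α * a) (α * b)]
    · have := mul_le_mul_of_nonpos_left h2 h
      linarith [min_le_right (α * a) (α * b)]
  · simp only [add_re, mul_re, ofReal_re, ofReal_im, zero_mul, sub_zero]
    rcases le_total 0 α with h | h
    · have := mul_le_mul_of_nonneg_left h2 h
      linarith [le_max_right (α * a) (α * b)]
    · have := mul_le_mul_of_nonpos_left h1 h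
      linarith [le_max_left (α * a) (α * b)]

/-- Schwarz reflection `z ↦ conj (f (conj z))` -/
theorem conj_conj {f : ℂ → ℂ} (hf : StripNice f) :
    StripNice (fun z => (starRingEnd ℂ) (f ((starRingEnd ℂ) z))) := by
  refine ⟨fun z => ?_, fun a b => ?_⟩
  · have h := (hf.diff ((starRingEnd ℂ) z)).conj_conj
    rw [Complex.conj_conj] at h
    exact h
  obtain ⟨C, hC⟩ := hf.bdd a b
  exact ⟨C, fun z h1 h2 => by
    rw [RCLike.norm_conj]; exact hC _ (by simpa using h1) (by simpa using h2)⟩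

/-- `z ↦ exp (c z)` with real `c` -/
theorem cexp_real_mul (c : ℝ) : StripNice (fun z : ℂ => Complex.exp ((c : ℂ) * z)) := by
  refine ⟨by fun_prop, fun a b => ⟨Real.exp (max (c * a) (c * b)), fun z h1 h2 => ?_⟩⟩
  rw [Complex.norm_exp]
  apply Real.exp_le_exp.2
  simp only [mul_re, ofReal_re, ofReal_im, zero_mul, sub_zero]
  rcases le_total 0 c with h | h
  · exact (mul_le_mul_of_nonneg_left h2 h).trans (le_max_right _ _)
  · exact (mul_le_mul_of_nonpos_left h1 h).trans (le_max_left _ _)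

/-- Gaussian multiplier `z ↦ exp (κ (z - x₀)²)`, `κ ≥ 0`, `x₀` real -/
theorem gaussian {κ : ℝ} (hκ : 0 ≤ κ) (x₀ : ℝ) :
    StripNice (fun z : ℂ => Complex.exp ((κ : ℂ) * (z - (x₀ : ℂ)) ^ 2)) := by
  refine ⟨by fun_prop, fun a b =>
    ⟨Real.exp (κ * (max |a - x₀| |b - x₀|) ^ 2), fun z h1 h2 => ?_⟩⟩
  rw [Complex.norm_exp]
  apply Real.exp_le_exp.2
  have h3 : ((κ : ℂ) * (z - (x₀ : ℂ)) ^ 2).re = κ * ((z.re - x₀) ^ 2 - z.im ^ 2) := by
    simp [pow_two, mul_re, sub_re, sub_im]
  rw [h3]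
  apply mul_le_mul_of_nonneg_left _ hκ
  have h4 : |z.re - x₀| ≤ max |a - x₀| |b - x₀| := by
    rw [abs_le]
    constructor
    · have := neg_abs_le (a - x₀); have := le_max_left |a - x₀| |b - x₀|; linarith
    · have := le_abs_self (b - x₀); have := le_max_right |a - x₀| |b - x₀|; linarith
  have h5 : (z.re - x₀) ^ 2 ≤ (max |a - x₀| |b - x₀|) ^ 2 := by
    rw [← sq_abs (z.re - x₀)]
    exact pow_le_pow_left₀ (abs_nonneg _) h4 2
  nlinarith [sq_nonneg z.im]

end StripNice

/-! ### three lines -/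

/-- Hadamard three lines for `StripNice` functions, on the strip `l ≤ Re z ≤ u`. -/
theorem StripNice.three_lines {f : ℂ → E} (hf : StripNice f) {l u a b : ℝ} (hlu : l < u)
    (ha : ∀ z : ℂ, z.re = l → ‖f z‖ ≤ a) (hb : ∀ z : ℂ, z.re = u → ‖f z‖ ≤ b)
    {z : ℂ} (hz1 : l ≤ z.re) (hz2 : z.re ≤ u) :
    ‖f z‖ ≤ a ^ (1 - (z.re - l) / (u - l)) * b ^ ((z.re - l) / (u - l)) := by
  obtain ⟨C, hC⟩ := hf.bdd l u
  refine Complex.HadamardThreeLines.norm_le_interp_of_mem_verticalClosedStrip' hlu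
    ⟨hz1, hz2⟩ hf.diff.diffContOnCl ?_ (fun w hw => ha w hw) (fun w hw => hb w hw)
  refine ⟨C, ?_⟩
  rintro _ ⟨w, hw, rfl⟩
  exact hC w hw.1 hw.2

end Claimed.Agent.R296
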