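/-
Row 296, black-box chain INTERP: narrow strips (Strip-1, Strip-8).
Statements fixed by helper57 (architect).  Proofs: helper142.
-/
import Claimed.Agent.R296.Strip

set_option autoImplicit false
set_option linter.unusedSectionVars false

namespace Claimed.Agent.R296

open Complex

variable {E : Type*} [NormedAddCommGroup E] [NormedSpace ℂ E]

/-- `A^(1-t) (A D)^t = A D^t` for `A, D ≥ 0` (also for `A = 0`). -/
theorem stripA_rpow_interp {A D : ℝ} (hA : 0 ≤ A) (hD : 0 ≤ D) (t : ℝ) :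
    A ^ (1 - t) * (A * D) ^ t = A * D ^ t := by
  rcases hA.eq_or_lt with rfl | hA'
  · rcases eq_or_ne t 0 with rfl | ht
    · simp
    · simp [Real.zero_rpow ht]
  · rw [Real.mul_rpow hA hD, ← mul_assoc, ← Real.rpow_add hA']
    simp

/-- one-sided version of `narrow_strip` -/
theorem StripNice.narrow_strip_right {f : ℂ → E} (hf : StripNice f) {A D w : ℝ} (hA : 0 ≤ A)
    (hD : 0 ≤ D) (hw : 0 < w) (h0 : ∀ z : ℂ, z.re = 0 → ‖f z‖ ≤ A)
    (h1 : ∀ z : ℂ, z.re = w → ‖f z‖ ≤ A * D) {z : ℂ} (hz0 : 0 ≤ z.re) (hz : z.re ≤ w) :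
    ‖f z‖ ≤ A * D ^ (z.re / w) := by
  have h := hf.three_lines hw h0 h1 hz0 hz
  simp only [sub_zero] at h
  rwa [stripA_rpow_interp hA hD] at h

/-- LEAF Strip-1 (lem:tail eq. initial-narrow-strip, lem:skew eq. conditional-narrow-strip).
Bound `A` on the imaginary axis, `A * D` on the two lines `|Re z| = w`: then `A * D ^ (|Re z| / w)`
in between. -/
theorem StripNice.narrow_strip {f : ℂ → E} (hf : StripNice f) {A D w : ℝ} (hA : 0 ≤ A) (hD : 1 ≤ D)
    (hw : 0 < w) (h0 : ∀ z : ℂ, z.re = 0 → ‖f z‖ ≤ A) (h1 : ∀ z : ℂ, |z.re| = w → ‖f z‖ ≤ A * D)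
    {z : ℂ} (hz : |z.re| ≤ w) : ‖f z‖ ≤ A * D ^ (|z.re| / w) := by
  have hD0 : 0 ≤ D := zero_le_one.trans hD
  rcases le_total 0 z.re with hz0 | hz0
  · rw [abs_of_nonneg hz0] at hz ⊢
    exact hf.narrow_strip_right hA hD0 hw h0
      (fun y hy => h1 y (by rw [hy, abs_of_pos hw])) hz0 hz
  · rw [abs_of_nonpos hz0] at hz ⊢
    have hg := hf.comp_affine (-1) 0
    have h := hg.narrow_strip_right (z := -z) hA hD0 hw
      (fun y hy => h0 _ (by simp [hy]))
      (fun y hy => h1 _ (by simp [hy, abs_of_pos hw]))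
      (by simpa using hz0) (by simpa using hz)
    simpa using h

/-- `μ^(1-t) M^t ≤ √(μ M)` for `0 ≤ μ ≤ M`, `0 ≤ t ≤ 1/2`. -/
theorem stripA_rpow_le_sqrt {μ M t : ℝ} (hμ : 0 ≤ μ) (hμM : μ ≤ M) (ht : t ≤ 1 / 2) :
    μ ^ (1 - t) * M ^ t ≤ Real.sqrt (μ * M) := by
  rcases hμ.eq_or_lt with rfl | hμ'
  · rw [Real.zero_rpow (by linarith)]
    simp
  · have hM : 0 < M := hμ'.trans_le hμM
    have e1 : μ ^ (1 - t) * M ^ t = μ * (M / μ) ^ t := by
      rw [Real.div_rpow hM.le hμ'.le, Real.rpow_sub hμ', Real.rpow_one]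
      field_simp
    have e2 : Real.sqrt (μ * M) = μ * (M / μ) ^ (1 / 2 : ℝ) := by
      rw [← Real.sqrt_eq_rpow, Real.sqrt_div' _ hμ'.le, Real.sqrt_mul hμ'.le]
      have := Real.mul_self_sqrt hμ'.le
      have h2 : Real.sqrt μ ≠ 0 := (Real.sqrt_pos.2 hμ').ne'
      field_simp
      nlinarith
    rw [e1, e2]
    refine mul_le_mul_of_nonneg_left ?_ hμ'.le
    exact Real.rpow_le_rpow_of_exponent_le ((one_le_div hμ').2 hμM) ht

/-- LEAF Strip-8 (lem:skew, the step "`F = (f - p) e^{z²}`, three lines on the two half strips"). -/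
theorem StripNice.half_strip_small {f : ℂ → ℂ} (hf : StripNice f) {p : ℂ} {K μ b : ℝ} (hb : 0 < b)
    (hb1 : b ≤ 1) (hμ : 0 ≤ μ) (hμK : μ ≤ K * Real.exp 1)
    (h0 : ∀ u : ℝ, ‖f ((u : ℂ) * I) - p‖ * Real.exp (-u ^ 2) ≤ μ)
    (h1 : ∀ z : ℂ, |z.re| = b → ‖f z - p‖ ≤ K) {z : ℂ} (hz : |z.re| ≤ b / 2) :
    ‖f z - p‖ ≤ Real.sqrt (μ * (K * Real.exp 1)) * Real.exp (z.im ^ 2) := by
  have hK : 0 ≤ K := (norm_nonneg _).trans (h1 (b : ℂ) (by simp [abs_of_pos hb]))
  -- the auxiliary function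
  have hF : StripNice (fun z : ℂ => (f z - p) * Complex.exp (z ^ 2)) := by
    have hG := StripNice.gaussian (κ := 1) zero_le_one 0
    simp only [ofReal_one, one_mul, ofReal_zero, sub_zero] at hG
    exact (hf.sub (StripNice.const p)).mul hG
  have hre : ∀ y : ℂ, (y ^ 2).re = y.re ^ 2 - y.im ^ 2 := fun y => by
    simp [pow_two, mul_re]
  have hnorm : ∀ y : ℂ, ‖(f y - p) * Complex.exp (y ^ 2)‖ =
      ‖f y - p‖ * Real.exp (y.re ^ 2 - y.im ^ 2) := fun y => by
    rw [norm_mul, Complex.norm_exp, hre]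
  have hF0 : ∀ y : ℂ, y.re = 0 → ‖(f y - p) * Complex.exp (y ^ 2)‖ ≤ μ := by
    intro y hy
    have e : y = ((y.im : ℝ) : ℂ) * I := by
      apply Complex.ext <;> simp [hy]
    rw [hnorm, hy]
    have := h0 y.im
    rw [← e] at this
    simpa using this
  have hF1 : ∀ y : ℂ, |y.re| = b → ‖(f y - p) * Complex.exp (y ^ 2)‖ ≤ K * Real.exp 1 := by
    intro y hy
    rw [hnorm]
    refine mul_le_mul (h1 y hy) (Real.exp_le_exp.2 ?_) (Real.exp_pos _).le hK
    have : y.re ^ 2 = b ^ 2 := by rw [← sq_abs, hy]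
    nlinarith [sq_nonneg y.im]
  -- three lines on the half strip containing `z`
  have key : ‖(f z - p) * Complex.exp (z ^ 2)‖ ≤
      μ ^ (1 - |z.re| / b) * (K * Real.exp 1) ^ (|z.re| / b) := by
    have hzb : |z.re| ≤ b := by linarith
    rcases le_total 0 z.re with hz0 | hz0
    · rw [abs_of_nonneg hz0] at hzb ⊢
      have h := hF.three_lines hb hF0 (fun y hy => hF1 y (by rw [hy, abs_of_pos hb])) hz0 hzb
      simpa only [sub_zero] using h
    · rw [abs_of_nonpos hz0] at hzb ⊢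
      have hg := hF.comp_affine (-1) 0
      have h := hg.three_lines (z := -z) hb
        (fun y hy => hF0 _ (by simp [hy]))
        (fun y hy => hF1 _ (by simp [hy, abs_of_pos hb]))
        (by simpa using hz0) (by simpa using hzb)
      simpa using h
  have ht : |z.re| / b ≤ 1 / 2 := by
    rw [div_le_iff₀ hb]; linarith
  have key2 := key.trans (stripA_rpow_le_sqrt hμ hμK ht)
  rw [hnorm] at key2
  -- remove the Gaussian
  have e : ‖f z - p‖ = ‖f z - p‖ * Real.exp (z.re ^ 2 - z.im ^ 2) * Real.exp (z.im ^ 2 - z.re ^ 2) := by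
    rw [mul_assoc, ← Real.exp_add]
    simp
  rw [e]
  refine mul_le_mul key2 (Real.exp_le_exp.2 ?_) (Real.exp_pos _).le (Real.sqrt_nonneg _)
  nlinarith [sq_nonneg z.re]

end Claimed.Agent.R296
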