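/-
Row 296, black-box chain INTERP, file 8: two interpolation inequalities proved by ONE application of the
three-lines theorem each (no Schatten duality, no polar decomposition):
* `hsn_spow_mul_mul_spow_le` : `‖ρ^[z] c σ^[1/2 - z]‖_2 ≤ ‖c‖`  (lem:skew; P2 eq. compression-dimension-free at z = 1/4)
* `alt_trace_le`             : Araki-Lieb-Thirring `Tr (B^{1/2} A B^{1/2})^r ≤ Tr A^r B^r`, `r ≥ 1`
                               (the interpolation step of eq:conditional-schatten).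
Statements fixed by helper57 (architect).  Proofs: helper142.
-/
import Claimed.Agent.R296.HS
import Claimed.Agent.R296.MatFun2
import Claimed.Agent.R296.StripA

set_option autoImplicit false
set_option linter.unusedSectionVars false
set_option linter.unusedDecidableInType false

namespace Claimed.Agent.R296

open Matrix
open scoped Matrix.Norms.L2Operator ComplexOrder

variable {m n : Type*} [Fintype n] [DecidableEq n] [Fintype m] [DecidableEq m]

/-- `z ↦ A^[α z + β]` is `StripNice` (`α` real) -/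
theorem stripNice_spow_affine (A : Matrix n n ℂ) (α : ℝ) (β : ℂ) :
    StripNice (fun z => spow A ((α : ℂ) * z + β)) :=
  (stripNice_spow A).comp_affine α β

/-- `‖A^[s]‖_2 = √(Tr A^[2 Re s])` in the form: if `2 Re s = t` then `hsn (A^[s])^2 = Re Tr A^[t]` -/
theorem hsSq_spow_of_re {A : Matrix n n ℂ} (h : A.IsHermitian) {s : ℂ} {t : ℝ} (hs : 2 * s.re = t) :
    hsSq (spow A s) = (spow A (t : ℂ)).trace.re := by
  rw [← hs, ← hsSq_spow h s, Complex.ofReal_re]

theorem hsn_spow_le_one {A : Matrix n n ℂ} (hA : A.PosSemidef) (h1 : A.trace.re ≤ 1) {s : ℂ}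
    (hs : s.re = 1 / 2) : hsn (spow A s) ≤ 1 := by
  rw [hsn, Real.sqrt_le_one, hsSq_spow_of_re hA.isHermitian (t := 1) (by rw [hs]; norm_num)]
  rw [Complex.ofReal_one, spow_one hA]
  exact h1

/-- THREE FACTOR HOELDER. -/
theorem hsn_spow_mul_mul_spow_le {R : Matrix m m ℂ} {S : Matrix n n ℂ} (hR : R.PosSemidef)
    (hS : S.PosSemidef) (hR1 : R.trace.re ≤ 1) (hS1 : S.trace.re ≤ 1) (c : Matrix m n ℂ) {z : ℂ}
    (h0 : 0 ≤ z.re) (h1 : z.re ≤ 1 / 2) :
    hsn (spow R z * c * spow S (1 / 2 - z)) ≤ ‖c‖ := by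
  have hG : StripNice (fun z : ℂ => hsVec (spow R z * c * spow S (1 / 2 - z))) := by
    have h2 := stripNice_spow_affine S (-1) (1 / 2)
    have e : (fun z : ℂ => spow S (((-1 : ℝ) : ℂ) * z + 1 / 2)) = fun z => spow S (1 / 2 - z) := by
      ext1 z
      congr 1
      push_cast
      ring
    rw [e] at h2
    exact (((stripNice_spow R).mul_const c).matMul h2).hsVec
  have ha : ∀ w : ℂ, w.re = 0 → ‖hsVec (spow R w * c * spow S (1 / 2 - w))‖ ≤ ‖c‖ := by
    intro w hw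
    rw [norm_hsVec]
    calc hsn (spow R w * c * spow S (1 / 2 - w))
        ≤ ‖spow R w * c‖ * hsn (spow S (1 / 2 - w)) := hsn_mul_le_left _ _
      _ ≤ (‖spow R w‖ * ‖c‖) * hsn (spow S (1 / 2 - w)) :=
          mul_le_mul_of_nonneg_right (l2_opNorm_mul _ _) (hsn_nonneg _)
      _ ≤ (1 * ‖c‖) * 1 := by
          refine mul_le_mul (mul_le_mul_of_nonneg_right
            (norm_spow_le_one_of_re_eq_zero hR.isHermitian hw) (norm_nonneg _))
            (hsn_spow_le_one hS hS1 (by simp [hw])) (hsn_nonneg _) (by positivity)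
      _ = ‖c‖ := by ring
  have hb : ∀ w : ℂ, w.re = 1 / 2 → ‖hsVec (spow R w * c * spow S (1 / 2 - w))‖ ≤ ‖c‖ * 1 := by
    intro w hw
    rw [norm_hsVec, Matrix.mul_assoc]
    calc hsn (spow R w * (c * spow S (1 / 2 - w)))
        ≤ hsn (spow R w) * ‖c * spow S (1 / 2 - w)‖ := hsn_mul_le_right _ _
      _ ≤ hsn (spow R w) * (‖c‖ * ‖spow S (1 / 2 - w)‖) :=
          mul_le_mul_of_nonneg_left (l2_opNorm_mul _ _) (hsn_nonneg _)
      _ ≤ 1 * (‖c‖ * 1) := by
          refine mul_le_mul (hsn_spow_le_one hR hR1 hw) (mul_le_mul_of_nonneg_left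
            (norm_spow_le_one_of_re_eq_zero hS.isHermitian (by simp [hw])) (norm_nonneg _))
            (by positivity) zero_le_one
      _ = ‖c‖ * 1 := by ring
  have h := hG.three_lines (l := 0) (u := 1 / 2) (by norm_num) ha hb h0 h1
  rw [stripA_rpow_interp (norm_nonneg c) zero_le_one, Real.one_rpow, mul_one, norm_hsVec] at h
  exact h

/-- P2 eq. compression-dimension-free -/
theorem hsn_quarter_mul_mul_quarter_le {R : Matrix m m ℂ} {S : Matrix n n ℂ} (hR : R.PosSemidef)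
    (hS : S.PosSemidef) (hR1 : R.trace.re ≤ 1) (hS1 : S.trace.re ≤ 1) (c : Matrix m n ℂ) :
    hsn (spow R (1 / 4) * c * spow S (1 / 4)) ≤ ‖c‖ := by
  have h := hsn_spow_mul_mul_spow_le hR hS hR1 hS1 c (z := 1 / 4) (by norm_num) (by norm_num)
  have e : (1 / 2 - 1 / 4 : ℂ) = 1 / 4 := by norm_num
  rwa [e] at h

/-- scalar endgame of Araki-Lieb-Thirring -/
theorem alt_scalar {X Y r : ℝ} (hX : 0 ≤ X) (hY : 0 ≤ Y) (hr : 1 ≤ r)
    (h : X ≤ X ^ (1 - 1 / r) * (Real.sqrt Y * Real.sqrt X) ^ (1 / r)) : X ≤ Y := by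
  rcases hX.eq_or_lt with rfl | hX'
  · exact hY
  have hr0 : 0 < r := by linarith
  have h1 : X ^ (1 - 1 / r) * X ^ (1 / r) = X := by
    rw [← Real.rpow_add hX']; simp
  have h2 : X ^ (1 - 1 / r) * X ^ (1 / r) ≤ X ^ (1 - 1 / r) * (Real.sqrt Y * Real.sqrt X) ^ (1 / r) := by
    rw [h1]; exact h
  have h3 : X ^ (1 / r) ≤ (Real.sqrt Y * Real.sqrt X) ^ (1 / r) :=
    le_of_mul_le_mul_left h2 (Real.rpow_pos_of_pos hX' _)
  have h4 : X ≤ Real.sqrt Y * Real.sqrt X :=
    (Real.rpow_le_rpow_iff hX (by positivity) (by positivity)).1 h3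
  have h5 : Real.sqrt X * Real.sqrt X = X := Real.mul_self_sqrt hX
  have h6 : 0 < Real.sqrt X := Real.sqrt_pos.2 hX'
  have h7 : Real.sqrt X ≤ Real.sqrt Y := by
    have : Real.sqrt X * Real.sqrt X ≤ Real.sqrt Y * Real.sqrt X := by rw [h5]; exact h4
    exact le_of_mul_le_mul_right this h6
  exact (Real.sqrt_le_sqrt_iff hY).1 h7

theorem spow_half_conjTranspose (A : Matrix n n ℂ) : (spow A (1 / 2))ᴴ = spow A (1 / 2) := by
  rw [spow_conjTranspose]
  congr 1
  apply Complex.ext <;> norm_num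

theorem spow_mul_self_mul_spow {K : Matrix n n ℂ} (hK : K.PosSemidef) (s t : ℂ) :
    spow K s * K * spow K t = spow K (s + 1 + t) := by
  rw [spow_add, spow_add, spow_one hK]

theorem self_mul_spow {K : Matrix n n ℂ} (hK : K.PosSemidef) (t : ℂ) :
    K * spow K t = spow K (1 + t) := by
  rw [spow_add, spow_one hK]

/-- the core of Araki-Lieb-Thirring, with `T = A^[1/2] B^[1/2]` and `K = Tᴴ T` as variables -/
theorem alt_core {A B T K : Matrix n n ℂ} (hA : A.PosSemidef) (hB : B.PosSemidef)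
    (hT : spow A (1 / 2) * spow B (1 / 2) = T) (hKT : Tᴴ * T = K) {r : ℝ} (hr : 1 ≤ r) :
    (spow K (r : ℂ)).trace.re ≤ (spow A (r : ℂ) * spow B (r : ℂ)).trace.re := by
  have hr0 : 0 < r := by linarith
  have hK : K.PosSemidef := by rw [← hKT]; exact posSemidef_conjTranspose_mul_self T
  obtain ⟨X, hX⟩ : ∃ X : ℝ, X = (spow K (r : ℂ)).trace.re := ⟨_, rfl⟩
  obtain ⟨Y, hY⟩ : ∃ Y : ℝ, Y = (spow A (r : ℂ) * spow B (r : ℂ)).trace.re := ⟨_, rfl⟩
  rw [← hX, ← hY]
  have hX0 : 0 ≤ X := by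
    have := (spow_posSemidef hK.isHermitian r).trace_nonneg
    rw [hX]
    exact (Complex.le_def.1 this).1
  have hY0 : 0 ≤ Y := by
    have := trace_mul_posSemidef_nonneg (spow_posSemidef hA.isHermitian r)
      (spow_posSemidef hB.isHermitian r)
    rw [hY]
    exact (Complex.le_def.1 this).1
  -- (L1)
  have L1 : ∀ s : ℂ, 2 * s.re + 1 = r → hsn (spow K s * Tᴴ) = Real.sqrt X := by
    intro s hs
    rw [hsn]
    congr 1
    have e : ((hsSq (spow K s * Tᴴ) : ℝ) : ℂ) = (spow K (r : ℂ)).trace := by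
      have e1 : s + 1 + star s = (r : ℂ) := by
        apply Complex.ext
        · simp; linarith
        · simp
      rw [hsSq_eq_trace', conjTranspose_mul, conjTranspose_conjTranspose, spow_conjTranspose,
        Matrix.mul_assoc, ← Matrix.mul_assoc Tᴴ, hKT, ← Matrix.mul_assoc, spow_mul_self_mul_spow hK, e1]
    rw [hX, ← e, Complex.ofReal_re]
  -- (L2)
  have L2 : ∀ w : ℂ, 2 * w.re = r → hsn (spow A w * spow B w) = Real.sqrt Y := by
    intro w hw
    rw [hsn]
    congr 1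
    have e : ((hsSq (spow A w * spow B w) : ℝ) : ℂ) = (spow A (r : ℂ) * spow B (r : ℂ)).trace := by
      have e1 : star w + w = (r : ℂ) := by
        apply Complex.ext
        · simp; linarith
        · simp
      have e2 : w + star w = (r : ℂ) := by rw [add_comm]; exact e1
      rw [hsSq_eq_trace, conjTranspose_mul, spow_conjTranspose, spow_conjTranspose,
        Matrix.mul_assoc, ← Matrix.mul_assoc (spow A (star w)), ← spow_add, e1, trace_mul_comm,
        Matrix.mul_assoc, ← spow_add, e2]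
    rw [hY, ← e, Complex.ofReal_re]
  -- (L3)
  have L3 : hsn (spow K ((r / 2 : ℝ) : ℂ)) = Real.sqrt X := by
    rw [hsn, hsSq_spow_of_re hK.isHermitian (t := r) (by simp; ring), hX]
  -- the analytic function
  obtain ⟨Φ, hΦ⟩ : ∃ Φ : ℂ → ℂ, Φ = fun z => (spow A (((1 / 2 : ℝ) : ℂ) * z + 0) *
      spow B (((1 / 2 : ℝ) : ℂ) * z + 0) *
      spow K (((-1 / 2 : ℝ) : ℂ) * z + ((r : ℂ) - 1 / 2)) * Tᴴ).trace := ⟨_, rfl⟩
  have hΦn : StripNice Φ := by
    rw [hΦ]
    exact ((((stripNice_spow_affine A (1 / 2) 0).matMul (stripNice_spow_affine B (1 / 2) 0)).matMul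
      (stripNice_spow_affine K (-1 / 2) ((r : ℂ) - 1 / 2))).mul_const Tᴴ).trace
  have hΦ1 : Φ 1 = (X : ℂ) := by
    have e0 : ((1 / 2 : ℝ) : ℂ) * 1 + 0 = 1 / 2 := by push_cast; ring
    have e1 : ((-1 / 2 : ℝ) : ℂ) * 1 + ((r : ℂ) - 1 / 2) = (r : ℂ) - 1 := by push_cast; ring
    have e2 : (spow K (r : ℂ)).trace = (X : ℂ) := by
      have := (spow_posSemidef hK.isHermitian r).trace_nonneg
      apply Complex.ext
      · simp [hX]
      · simpa using (Complex.le_def.1 this).2.symm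
    have e3 : (1 : ℂ) + ((r : ℂ) - 1) = r := by ring
    rw [hΦ]
    simp only []
    rw [e0, e1, hT, trace_mul_comm, ← Matrix.mul_assoc, hKT, self_mul_spow hK, e3, e2]
  have ha : ∀ z : ℂ, z.re = 0 → ‖Φ z‖ ≤ X := by
    intro z hz
    obtain ⟨W, hW⟩ : ∃ W : Matrix n n ℂ,
      W = spow A (((1 / 2 : ℝ) : ℂ) * z + 0) * spow B (((1 / 2 : ℝ) : ℂ) * z + 0) := ⟨_, rfl⟩
    have hW1 : ‖W‖ ≤ 1 := by
      have h1 : ‖spow A (((1 / 2 : ℝ) : ℂ) * z + 0)‖ ≤ 1 :=
        norm_spow_le_one_of_re_eq_zero hA.isHermitian (by simp [hz])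
      have h2 : ‖spow B (((1 / 2 : ℝ) : ℂ) * z + 0)‖ ≤ 1 :=
        norm_spow_le_one_of_re_eq_zero hB.isHermitian (by simp [hz])
      rw [hW]
      calc _ ≤ _ * _ := l2_opNorm_mul _ _
        _ ≤ 1 * 1 := mul_le_mul h1 h2 (norm_nonneg _) zero_le_one
        _ = 1 := one_mul 1
    obtain ⟨s, hs⟩ : ∃ s : ℂ, s = ((r / 2 : ℝ) : ℂ) - 1 / 2 - z / 2 := ⟨_, rfl⟩
    have e1 : ((-1 / 2 : ℝ) : ℂ) * z + ((r : ℂ) - 1 / 2) = ((r / 2 : ℝ) : ℂ) + s := by
      rw [hs]; push_cast; ring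
    have e2 : Φ z = ((W * spow K ((r / 2 : ℝ) : ℂ)) * (spow K s * Tᴴ)).trace := by
      rw [hΦ]
      simp only []
      rw [e1, ← hW, spow_add K]
      simp only [Matrix.mul_assoc]
    rw [e2]
    calc ‖((W * spow K ((r / 2 : ℝ) : ℂ)) * (spow K s * Tᴴ)).trace‖
        ≤ hsn (W * spow K ((r / 2 : ℝ) : ℂ)) * hsn (spow K s * Tᴴ) := norm_trace_mul_le _ _
      _ ≤ (‖W‖ * hsn (spow K ((r / 2 : ℝ) : ℂ))) * hsn (spow K s * Tᴴ) :=
          mul_le_mul_of_nonneg_right (hsn_mul_le_left _ _) (hsn_nonneg _)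
      _ ≤ (1 * Real.sqrt X) * Real.sqrt X := by
          rw [L3, L1 s (by simp [hs, hz]; ring)]
          exact mul_le_mul_of_nonneg_right
            (mul_le_mul_of_nonneg_right hW1 (Real.sqrt_nonneg _)) (Real.sqrt_nonneg _)
      _ = X := by rw [one_mul, Real.mul_self_sqrt hX0]
  have hb : ∀ z : ℂ, z.re = r → ‖Φ z‖ ≤ Real.sqrt Y * Real.sqrt X := by
    intro z hz
    rw [hΦ]
    simp only []
    rw [Matrix.mul_assoc]
    refine (norm_trace_mul_le _ _).trans (le_of_eq ?_)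
    rw [L2 _ (by simp [hz]), L1 _ (by simp [hz]; ring)]
  have h3 := hΦn.three_lines (l := 0) (u := r) hr0 ha hb (z := 1) (by simp) (by simpa using hr)
  rw [hΦ1] at h3
  simp only [Complex.one_re, sub_zero, Complex.norm_real, Real.norm_of_nonneg hX0] at h3
  exact alt_scalar hX0 hY0 hr h3

/-- ARAKI-LIEB-THIRRING. -/
theorem alt_trace_le {A B : Matrix n n ℂ} (hA : A.PosSemidef) (hB : B.PosSemidef) {r : ℝ}
    (hr : 1 ≤ r) :
    (spow (spow B (1 / 2) * A * spow B (1 / 2)) (r : ℂ)).trace.re ≤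
      (spow A (r : ℂ) * spow B (r : ℂ)).trace.re := by
  refine alt_core hA hB rfl ?_ hr
  rw [conjTranspose_mul, spow_half_conjTranspose, spow_half_conjTranspose,
    Matrix.mul_assoc (spow B (1 / 2)) (spow A (1 / 2)), ← Matrix.mul_assoc (spow A (1 / 2)),
    spow_half_mul_self hA, Matrix.mul_assoc]

end Claimed.Agent.R296
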