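/-
Row 296, chain BB_Means, file 7b: the two Beta integrals on the line (plan (B) in the header of
`FourierPairs.lean`).  Imports Mathlib only.  Prefix `fp_`.   Owner: helper80.
-/
import Mathlib

set_option autoImplicit false

namespace Claimed.Agent.R296

open MeasureTheory Complex Set Filter

/-! ### the Beta integral on the half line, by the Gamma trick -/

theorem fp_integrableOn_rpow_exp {a r : ℝ} (ha : 0 < a) (hr : 0 < r) :
    IntegrableOn (fun t : ℝ => t ^ (a - 1) * Real.exp (-(r * t))) (Ioi 0) := by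
  by_contra h
  have h1 := Real.integral_rpow_mul_exp_neg_mul_Ioi ha hr
  rw [integral_undef h] at h1
  have h2 : 0 < (1 / r) ^ a * Real.Gamma a :=
    mul_pos (Real.rpow_pos_of_pos (by positivity) _) (Real.Gamma_pos_of_pos ha)
  linarith

/-- the kernel of the double integral -/
noncomputable def fpK (α β : ℂ) (p : ℝ × ℝ) : ℂ :=
  (p.1 : ℂ) ^ (α - 1) * (p.2 : ℂ) ^ (α + β - 1) * cexp (-(((1 + p.1 : ℝ) : ℂ) * (p.2 : ℂ)))

theorem fp_measurable_K (α β : ℂ) : Measurable (fpK α β) := by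
  unfold fpK
  fun_prop

theorem fp_norm_K (α β : ℂ) {t l : ℝ} (ht : 0 < t) (hl : 0 < l) :
    ‖fpK α β (t, l)‖
      = (l ^ (α.re + β.re - 1) * Real.exp (-l)) * (t ^ (α.re - 1) * Real.exp (-(l * t))) := by
  unfold fpK
  rw [norm_mul, norm_mul, Complex.norm_cpow_eq_rpow_re_of_pos ht,
    Complex.norm_cpow_eq_rpow_re_of_pos hl, Complex.norm_exp]
  have e1 : (α - 1).re = α.re - 1 := by simp
  have e2 : (α + β - 1).re = α.re + β.re - 1 := by simp
  have e3 : (-(((1 + t : ℝ) : ℂ) * (l : ℂ))).re = -l + -(l * t) := by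
    rw [← Complex.ofReal_mul, ← Complex.ofReal_neg, Complex.ofReal_re]
    ring
  simp only
  rw [e1, e2, e3, Real.exp_add]
  ring

theorem fp_rpow_cancel {l : ℝ} (hl : 0 < l) (a b : ℝ) :
    l ^ (a + b - 1) * (1 / l) ^ a = l ^ (b - 1) := by
  rw [one_div, Real.inv_rpow hl.le, ← Real.rpow_neg hl.le, ← Real.rpow_add hl]
  congr 1
  ring

theorem fp_integrable_K {α β : ℂ} (hα : 0 < α.re) (hβ : 0 < β.re) :
    Integrable (fpK α β) ((volume.restrict (Ioi 0)).prod (volume.restrict (Ioi 0))) := by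
  rw [integrable_prod_iff' (fp_measurable_K α β).aestronglyMeasurable]
  constructor
  · refine (ae_restrict_iff' measurableSet_Ioi).2 (Eventually.of_forall fun l hl => ?_)
    have hl' : (0 : ℝ) < l := hl
    refine Integrable.mono' ((fp_integrableOn_rpow_exp hα hl').const_mul
      (l ^ (α.re + β.re - 1) * Real.exp (-l))) ?_ ?_
    · exact ((fp_measurable_K α β).comp (measurable_id.prodMk measurable_const)).aestronglyMeasurable
    · refine (ae_restrict_iff' measurableSet_Ioi).2 (Eventually.of_forall fun t ht => ?_)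
      exact (fp_norm_K α β ht hl').le
  · have h := (fp_integrableOn_rpow_exp hβ one_pos).const_mul (Real.Gamma α.re)
    refine h.congr ?_
    refine (ae_restrict_iff' measurableSet_Ioi).2 (Eventually.of_forall fun l hl => ?_)
    have hl' : (0 : ℝ) < l := hl
    have e : ∫ t in Ioi (0 : ℝ), ‖fpK α β (t, l)‖ = ∫ t in Ioi (0 : ℝ),
        (l ^ (α.re + β.re - 1) * Real.exp (-l)) * (t ^ (α.re - 1) * Real.exp (-(l * t))) :=
      setIntegral_congr_fun measurableSet_Ioi fun t ht => fp_norm_K α β ht hl'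
    simp only
    rw [e, integral_const_mul, Real.integral_rpow_mul_exp_neg_mul_Ioi hα hl',
      ← fp_rpow_cancel hl' α.re β.re, one_mul]
    ring

theorem fp_inv_cpow {l : ℝ} (hl : 0 < l) (a : ℂ) : (1 / (l : ℂ)) ^ a = (l : ℂ) ^ (-a) := by
  rw [one_div, Complex.inv_cpow _ _ (by rw [Complex.arg_ofReal_of_nonneg hl.le]; exact Real.pi_pos.ne),
    Complex.cpow_neg]

theorem fp_inner_l {α β : ℂ} (hα : 0 < α.re) (hβ : 0 < β.re) {t : ℝ} (ht : 0 < t) :
    ∫ l in Ioi (0 : ℝ), fpK α β (t, l)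
      = Gamma (α + β) * ((t : ℂ) ^ (α - 1) * (1 / ((1 + t : ℝ) : ℂ)) ^ (α + β)) := by
  have h := Complex.integral_cpow_mul_exp_neg_mul_Ioi (a := α + β) (r := 1 + t)
    (by simp only [add_re]; linarith) (by linarith)
  calc ∫ l in Ioi (0 : ℝ), fpK α β (t, l)
      = ∫ l in Ioi (0 : ℝ), (t : ℂ) ^ (α - 1) *
          ((l : ℂ) ^ (α + β - 1) * cexp (-(((1 + t : ℝ) : ℂ) * (l : ℂ)))) := by
        congr 1
        ext l
        unfold fpK
        ring
    _ = _ := by
        rw [integral_const_mul, h]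
        ring

theorem fp_inner_t {α : ℂ} (β : ℂ) (hα : 0 < α.re) {l : ℝ} (hl : 0 < l) :
    ∫ t in Ioi (0 : ℝ), fpK α β (t, l)
      = Gamma α * ((l : ℂ) ^ (β - 1) * cexp (-(((1 : ℝ) : ℂ) * (l : ℂ)))) := by
  have h := Complex.integral_cpow_mul_exp_neg_mul_Ioi (a := α) (r := l) hα hl
  have hlc : (l : ℂ) ≠ 0 := by exact_mod_cast hl.ne'
  have e1 : (l : ℂ) ^ (β - 1) = (l : ℂ) ^ (α + β - 1) * (1 / (l : ℂ)) ^ α := by
    rw [fp_inv_cpow hl, ← Complex.cpow_add _ _ hlc]
    congr 1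
    ring
  calc ∫ t in Ioi (0 : ℝ), fpK α β (t, l)
      = ∫ t in Ioi (0 : ℝ), ((l : ℂ) ^ (α + β - 1) * cexp (-(l : ℂ))) *
          ((t : ℂ) ^ (α - 1) * cexp (-((l : ℂ) * (t : ℂ)))) := by
        congr 1
        ext t
        unfold fpK
        have : cexp (-(((1 + t : ℝ) : ℂ) * (l : ℂ))) = cexp (-(l : ℂ)) * cexp (-((l : ℂ) * (t : ℂ))) := by
          rw [← Complex.exp_add]
          congr 1
          push_cast
          ring
        simp only
        rw [this]
        ring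
    _ = _ := by
        rw [integral_const_mul, h, e1]
        simp only [Complex.ofReal_one, one_mul]
        ring

/-- **Beta integral on the half line** -/
theorem fp_beta_Ioi {α β : ℂ} (hα : 0 < α.re) (hβ : 0 < β.re) :
    Gamma (α + β) * ∫ t in Ioi (0 : ℝ), (t : ℂ) ^ (α - 1) * (1 / ((1 + t : ℝ) : ℂ)) ^ (α + β)
      = Gamma α * Gamma β := by
  have h := integral_integral_swap (f := fun t l => fpK α β (t, l)) (fp_integrable_K hα hβ)
  have g := Complex.integral_cpow_mul_exp_neg_mul_Ioi (a := β) (r := 1) hβ one_pos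
  rw [← integral_const_mul]
  calc ∫ t in Ioi (0 : ℝ), Gamma (α + β) * ((t : ℂ) ^ (α - 1) * (1 / ((1 + t : ℝ) : ℂ)) ^ (α + β))
      = ∫ t in Ioi (0 : ℝ), ∫ l in Ioi (0 : ℝ), fpK α β (t, l) :=
        setIntegral_congr_fun measurableSet_Ioi fun t ht => (fp_inner_l hα hβ ht).symm
    _ = ∫ l in Ioi (0 : ℝ), ∫ t in Ioi (0 : ℝ), fpK α β (t, l) := h
    _ = ∫ l in Ioi (0 : ℝ), Gamma α * ((l : ℂ) ^ (β - 1) * cexp (-(((1 : ℝ) : ℂ) * (l : ℂ)))) :=
        setIntegral_congr_fun measurableSet_Ioi fun l hl => fp_inner_t β hα hl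
    _ = Gamma α * Gamma β := by
        rw [integral_const_mul, g]
        simp

/-! ### substitution `t = e^v` -/

theorem fp_integral_comp_exp (g : ℝ → ℂ) :
    ∫ t in Ioi (0 : ℝ), g t = ∫ v : ℝ, (Real.exp v : ℂ) * g (Real.exp v) := by
  have h := integral_image_eq_integral_abs_deriv_smul (s := univ) (f := Real.exp) (f' := Real.exp)
    MeasurableSet.univ (fun x _ => (Real.hasDerivAt_exp x).hasDerivWithinAt)
    Real.exp_injective.injOn g
  rw [image_univ, Real.range_exp, Measure.restrict_univ] at h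
  rw [h]
  congr 1
  ext v
  rw [abs_of_pos (Real.exp_pos v), Complex.real_smul]

theorem fp_exp_cpow (v : ℝ) (s : ℂ) : ((Real.exp v : ℝ) : ℂ) ^ s = cexp (s * v) := by
  rw [Complex.cpow_def_of_ne_zero (by exact_mod_cast (Real.exp_pos v).ne'),
    ← Complex.ofReal_log (Real.exp_pos v).le, Real.log_exp, mul_comm]

/-- (B1) -/
theorem fp_beta_one {a : ℂ} (h0 : 0 < a.re) (h1 : a.re < 1) :
    ∫ v : ℝ, cexp (a * v) / ((Real.exp v : ℂ) + 1) = (Real.pi : ℂ) / Complex.sin (Real.pi * a) := by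
  have h := fp_beta_Ioi (α := a) (β := 1 - a) h0 (by simp only [sub_re, one_re]; linarith)
  have e : a + (1 - a) = 1 := by ring
  rw [e, Complex.Gamma_one, one_mul, Complex.Gamma_mul_Gamma_one_sub, fp_integral_comp_exp] at h
  rw [← h]
  congr 1
  ext v
  rw [fp_exp_cpow, Complex.cpow_one]
  have e2 : cexp (a * v) = (Real.exp v : ℂ) * cexp ((a - 1) * v) := by
    rw [Complex.ofReal_exp, ← Complex.exp_add]
    congr 1
    ring
  rw [e2]
  push_cast
  ring

/-- (B2), in a form without division by `sinh`. -/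
theorem fp_beta_two (b : ℝ) :
    (Real.sinh (Real.pi * b) : ℂ) *
      ∫ v : ℝ, cexp (I * b * v) * ((Real.exp v : ℂ) / ((Real.exp v : ℂ) + 1) ^ 2) =
        ((Real.pi * b : ℝ) : ℂ) := by
  by_cases hb : b = 0
  · subst hb
    simp
  have h := fp_beta_Ioi (α := 1 + I * b) (β := 1 - I * b) (by simp) (by simp)
  have e : (1 + I * (b : ℂ)) + (1 - I * b) = 2 := by ring
  have hG2 : Gamma 2 = 1 := by
    have h2 := Complex.Gamma_nat_eq_factorial 1
    have e2 : ((1 : ℕ) : ℂ) + 1 = 2 := by norm_num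
    rw [e2] at h2
    rw [h2]
    simp
  rw [e, hG2, one_mul, fp_integral_comp_exp] at h
  have e1 : ∫ v : ℝ, cexp (I * b * v) * ((Real.exp v : ℂ) / ((Real.exp v : ℂ) + 1) ^ 2)
      = Gamma (1 + I * b) * Gamma (1 - I * b) := by
    rw [← h]
    congr 1
    ext v
    have e3 : (1 + I * (b : ℂ)) - 1 = I * b := by ring
    have e4 : (1 / ((1 + Real.exp v : ℝ) : ℂ)) ^ (2 : ℂ) = (1 / ((1 + Real.exp v : ℝ) : ℂ)) ^ 2 := by
      norm_cast
    rw [fp_exp_cpow, e3, e4, one_div, inv_pow]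
    push_cast
    rw [add_comm (1 : ℂ)]
    ring
  rw [e1]
  have hr : I * (b : ℂ) ≠ 0 := mul_ne_zero I_ne_zero (by exact_mod_cast hb)
  rw [add_comm (1 : ℂ), Complex.Gamma_add_one _ hr, mul_assoc, Complex.Gamma_mul_Gamma_one_sub]
  have h2 : Complex.sin ((Real.pi : ℂ) * (I * (b : ℂ))) = (Real.sinh (Real.pi * b) : ℂ) * I := by
    have : (Real.pi : ℂ) * (I * (b : ℂ)) = ((Real.pi : ℂ) * b) * I := by ring
    rw [this, Complex.sin_mul_I]
    push_cast
    rfl
  rw [h2]
  have hs : (Real.sinh (Real.pi * b) : ℂ) ≠ 0 := by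
    have : Real.sinh (Real.pi * b) ≠ 0 := by
      rw [Ne, Real.sinh_eq_zero]
      exact mul_ne_zero Real.pi_ne_zero hb
    exact_mod_cast this
  have hpi : (Real.pi : ℂ) ≠ 0 := by exact_mod_cast Real.pi_ne_zero
  rw [Complex.ofReal_mul]
  field_simp

end Claimed.Agent.R296
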