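/-
Row 296, chain BB_Means (P1 Sec 6, Lemma `transport:fourier` at `s = 1/4`), file 7: the SCALAR
Fourier pairs.  Imports Mathlib only.  Prefix `fp_`.   Owner: helper80.

  m4 u  = 1 / cosh (2 π u)                        (= m_{1/4}),
  qP u  =   1 / (cosh (2 π u) + 1 + i sinh (2 π u))   (= q_+ = m_{1/8}(u + i/8)),
  qM u  = - 1 / (cosh (2 π u) + 1 - i sinh (2 π u))   (= q_-),
  ∫ e^{iuz} m4 u du = 1 / (2 cosh (z/4)),     2 sinh (z/2) ∫ e^{iuz} q_± u du = e^{± z/4} - 1.
(all four checked numerically.)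

PROOF PLAN without residues (helper80):
(B) Beta integral on the line.  For `Re α, Re β > 0`:
      ∫_ℝ e^{α v} / (e^v + 1)^{α+β} dv = B(α, β) = Γ(α) Γ(β) / Γ(α+β)
    by the substitution `x = e^v / (1 + e^v)` in `Complex.betaIntegral`
    (`MeasureTheory.integral_image_eq_integral_abs_deriv_smul` on `Set.univ`, image `Ioo 0 1`),
    `Complex.Gamma_mul_Gamma_eq_betaIntegral`, `Complex.Gamma_mul_Gamma_one_sub`.
    Only two cases are needed:
      (B1) `fp_beta_one`:  ∫ e^{a v} / (e^v + 1) dv = π / sin (π a)         (0 < Re a < 1),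
      (B2) `fp_beta_two`:  ∫ e^{i b v} e^v / (e^v + 1)^2 dv = π b / sinh (π b)   (b real; value 1 at 0).
(1) `fp_m4_fourier`: `v = 4 π u`, `a = 1/2 + i z / (4 π)` in (B1).
(2) `fp_qP_fourier`: with `G v = 1 / (e^v + 1)` and `v = 2 π u`:  `qP u = i (G (v + i π/2) - G v)`.
    For `b = z / (2 π) ≠ 0` integrate by parts:
      ∫ e^{i b v} (G (v + iπ/2) - G v) dv = - (1 / (i b)) ∫ e^{i b v} (G' (v + iπ/2) - G' v) dv,
    and shift the contour for the exponentially decaying holomorphic function `e^{i b w} G' w` on the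
    strip `0 ≤ Im w ≤ π/2` (`fp_shift`; either Cauchy-Goursat on rectangles
    `Complex.integral_boundary_rect_eq_zero_of_differentiableOn` as in Mathlib's Gaussian Fourier
    transform, or d/dθ ∫ F (v + i θ) dv = i ∫ F' = 0):
      ∫ e^{i b v} G' (v + iπ/2) dv = e^{π b / 2} ∫ e^{i b v} G' v dv,
    then (B2) with `G' v = - e^v / (e^v + 1)^2`.
(3) `qM u = - qP (-u)`.
-/
import Mathlib

set_option autoImplicit false

namespace Claimed.Agent.R296

open MeasureTheory Complex

/-- `m_{1/4}(u) = 1 / cosh (2 π u)`. -/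
noncomputable def m4 (u : ℝ) : ℝ := 1 / Real.cosh (2 * Real.pi * u)

/-- `q_+`. -/
noncomputable def qP (u : ℝ) : ℂ :=
  1 / ((Real.cosh (2 * Real.pi * u) : ℂ) + 1 + I * (Real.sinh (2 * Real.pi * u) : ℂ))

/-- `q_-`. -/
noncomputable def qM (u : ℝ) : ℂ :=
  -(1 / ((Real.cosh (2 * Real.pi * u) : ℂ) + 1 - I * (Real.sinh (2 * Real.pi * u) : ℂ)))

theorem fp_m4_pos (u : ℝ) : 0 < m4 u := by
  unfold m4; exact one_div_pos.2 (Real.cosh_pos _)

theorem fp_m4_continuous : Continuous m4 := by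
  unfold m4
  exact continuous_const.div (by fun_prop) fun u => (Real.cosh_pos _).ne'

theorem fp_m4_le (u : ℝ) : m4 u ≤ 2 * Real.exp (-(2 * Real.pi * |u|)) := by
  unfold m4
  have h1 : Real.exp (2 * Real.pi * |u|) / 2 ≤ Real.cosh (2 * Real.pi * u) := by
    have e : 2 * Real.pi * |u| = |2 * Real.pi * u| := by
      rw [abs_mul, abs_of_pos (by positivity : (0 : ℝ) < 2 * Real.pi)]
    rw [← Real.cosh_abs, ← e, Real.cosh_eq]
    have := Real.exp_pos (-(2 * Real.pi * |u|))
    linarith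
  have h2 : 0 < Real.exp (2 * Real.pi * |u|) / 2 := by positivity
  calc 1 / Real.cosh (2 * Real.pi * u) ≤ 1 / (Real.exp (2 * Real.pi * |u|) / 2) :=
        one_div_le_one_div_of_le h2 h1
    _ = 2 * Real.exp (-(2 * Real.pi * |u|)) := by
        rw [Real.exp_neg]
        field_simp

/-- `e^{-c|u|}` is integrable -/
theorem fp_integrable_exp_neg_abs {c : ℝ} (hc : 0 < c) :
    Integrable fun u : ℝ => Real.exp (-(c * |u|)) := by
  rw [← integrableOn_univ, ← Set.Iic_union_Ioi (a := (0 : ℝ))]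
  refine IntegrableOn.union ?_ ?_
  · refine (integrableOn_exp_mul_Iic hc 0).congr_fun (fun u hu => ?_) measurableSet_Iic
    have hu' : u ≤ 0 := hu
    simp only
    rw [abs_of_nonpos hu']
    ring_nf
  · refine (integrableOn_exp_mul_Ioi (neg_lt_zero.2 hc) 0).congr_fun (fun u hu => ?_)
      measurableSet_Ioi
    have hu' : 0 < u := hu
    simp only
    rw [abs_of_pos hu']
    ring_nf

theorem fp_m4_integrable : Integrable m4 := by
  have h := (fp_integrable_exp_neg_abs (c := 2 * Real.pi) (by positivity)).const_mul 2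
  refine h.mono' fp_m4_continuous.aestronglyMeasurable (Filter.Eventually.of_forall fun u => ?_)
  rw [Real.norm_eq_abs, abs_of_pos (fp_m4_pos u)]
  exact fp_m4_le u

theorem fp_qP_den_ne (u : ℝ) :
    (Real.cosh (2 * Real.pi * u) : ℂ) + 1 + I * (Real.sinh (2 * Real.pi * u) : ℂ) ≠ 0 := by
  intro h
  have := congrArg Complex.re h
  simp only [add_re, ofReal_re, one_re, mul_re, I_re, zero_mul, I_im, ofReal_im, mul_zero,
    sub_self, add_zero, zero_re] at this
  have hc := Real.cosh_pos (2 * Real.pi * u)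
  linarith

theorem fp_qP_continuous : Continuous qP := by
  unfold qP
  refine continuous_const.div ?_ fp_qP_den_ne
  have h1 : Continuous fun u : ℝ => Real.cosh (2 * Real.pi * u) := by fun_prop
  have h2 : Continuous fun u : ℝ => Real.sinh (2 * Real.pi * u) := by fun_prop
  exact ((continuous_ofReal.comp h1).add continuous_const).add
    (continuous_const.mul (continuous_ofReal.comp h2))

theorem fp_qM_eq (u : ℝ) : qM u = - qP (-u) := by
  unfold qM qP
  have e : 2 * Real.pi * -u = -(2 * Real.pi * u) := by ring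
  rw [e, Real.cosh_neg, Real.sinh_neg]
  push_cast
  ring_nf

theorem fp_qM_continuous : Continuous qM := by
  have : qM = fun u => - qP (-u) := funext fp_qM_eq
  rw [this]
  exact (fp_qP_continuous.comp continuous_neg).neg

/-- `|q_+| = 1 / sqrt (2 c (c + 1)) ≤ m4 / sqrt 2`. -/
theorem fp_norm_qP_le (u : ℝ) : ‖qP u‖ ≤ m4 u / Real.sqrt 2 := by
  unfold qP m4
  set c := Real.cosh (2 * Real.pi * u) with hc
  set s := Real.sinh (2 * Real.pi * u) with hs
  have hc0 : 0 < c := Real.cosh_pos _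
  have hcs : c ^ 2 - s ^ 2 = 1 := Real.cosh_sq_sub_sinh_sq _
  have h2 : (0 : ℝ) < Real.sqrt 2 := by positivity
  have hden : Real.sqrt 2 * c ≤ ‖(c : ℂ) + 1 + I * (s : ℂ)‖ := by
    have e : (c : ℂ) + 1 + I * (s : ℂ) = ((c + 1 : ℝ) : ℂ) + (s : ℂ) * I := by
      push_cast; ring
    rw [e, Complex.norm_add_mul_I]
    apply Real.le_sqrt_of_sq_le
    rw [mul_pow, Real.sq_sqrt (by norm_num)]
    nlinarith
  rw [norm_div, norm_one, div_div]
  have : 0 < Real.sqrt 2 * c := by positivity
  calc 1 / ‖(c : ℂ) + 1 + I * (s : ℂ)‖ ≤ 1 / (Real.sqrt 2 * c) := one_div_le_one_div_of_le this hden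
    _ = 1 / (c * Real.sqrt 2) := by rw [mul_comm]

theorem fp_norm_qM_le (u : ℝ) : ‖qM u‖ ≤ m4 u / Real.sqrt 2 := by
  rw [fp_qM_eq, norm_neg]
  have := fp_norm_qP_le (-u)
  have e : m4 (-u) = m4 u := by
    unfold m4
    have e : 2 * Real.pi * -u = -(2 * Real.pi * u) := by ring
    rw [e, Real.cosh_neg]
  rwa [e] at this

theorem fp_qP_integrable : Integrable qP :=
  (fp_m4_integrable.div_const (Real.sqrt 2)).mono' fp_qP_continuous.aestronglyMeasurable
    (Filter.Eventually.of_forall fp_norm_qP_le)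

theorem fp_qM_integrable : Integrable qM :=
  (fp_m4_integrable.div_const (Real.sqrt 2)).mono' fp_qM_continuous.aestronglyMeasurable
    (Filter.Eventually.of_forall fp_norm_qM_le)

end Claimed.Agent.R296
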