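/-
Row 296, chain BB_Means, file 7c: horizontal contour shift (plan (2) in the header of
`FourierPairs.lean`).  Prefix `fp_`.   Owner: helper80 (proofs: helper219).
-/
import Claimed.Agent.R296.FourierPairs

set_option autoImplicit false

namespace Claimed.Agent.R296

open MeasureTheory Complex Set Filter Topology

/-- continuity and integrability along a horizontal line of the strip -/
theorem fp_line {F : ℂ → ℂ} {θ C δ : ℝ} (hδ : 0 < δ)
    (hF : DifferentiableOn ℂ F {w : ℂ | -1 < w.im ∧ w.im < θ + 1})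
    (hdec : ∀ w : ℂ, 0 ≤ w.im → w.im ≤ θ → ‖F w‖ ≤ C * Real.exp (-(δ * |w.re|)))
    {η : ℝ} (h0 : 0 ≤ η) (h1 : η ≤ θ) :
    Integrable fun v : ℝ => F ((v : ℂ) + η * I) := by
  have hc : Continuous fun v : ℝ => F ((v : ℂ) + η * I) := by
    refine hF.continuousOn.comp_continuous (by fun_prop) fun v => ?_
    constructor
    · simp; linarith
    · simp; linarith
  refine ((fp_integrable_exp_neg_abs hδ).const_mul C).mono' hc.aestronglyMeasurable
    (Eventually.of_forall fun v => ?_)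
  have := hdec ((v : ℂ) + η * I) (by simpa using h0) (by simpa using h1)
  simpa using this

/-- horizontal contour shift for a holomorphic function with uniform exponential decay on a closed
horizontal strip. -/
theorem fp_shift {F : ℂ → ℂ} {θ C δ : ℝ} (hθ : 0 ≤ θ) (hδ : 0 < δ)
    (hF : DifferentiableOn ℂ F {w : ℂ | -1 < w.im ∧ w.im < θ + 1})
    (hdec : ∀ w : ℂ, 0 ≤ w.im → w.im ≤ θ → ‖F w‖ ≤ C * Real.exp (-(δ * |w.re|))) :
    ∫ v : ℝ, F ((v : ℂ) + θ * I) = ∫ v : ℝ, F (v : ℂ) := by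
  have hi0 : Integrable fun v : ℝ => F (v : ℂ) := by
    have := fp_line hδ hF hdec le_rfl hθ
    simpa using this
  have hi1 : Integrable fun v : ℝ => F ((v : ℂ) + θ * I) := fp_line hδ hF hdec hθ le_rfl
  -- the rectangle identity
  have hrect : ∀ T : ℝ, 0 ≤ T →
      ‖(∫ x in (-T)..T, F (x : ℂ)) - ∫ x in (-T)..T, F ((x : ℂ) + θ * I)‖
        ≤ 2 * (C * Real.exp (-(δ * T)) * θ) := by
    intro T hT
    have e1 : (((-T : ℝ) : ℂ)).re = -T := Complex.ofReal_re _
    have e2 : ((T : ℂ) + θ * I).re = T := by simp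
    have e3 : (((-T : ℝ) : ℂ)).im = 0 := Complex.ofReal_im _
    have e4 : ((T : ℂ) + θ * I).im = θ := by simp
    have H : DifferentiableOn ℂ F
        ((uIcc (((-T : ℝ) : ℂ)).re ((T : ℂ) + θ * I).re) ×ℂ
          (uIcc (((-T : ℝ) : ℂ)).im ((T : ℂ) + θ * I).im)) := by
      refine hF.mono fun p hp => ?_
      have h2 : p.im ∈ uIcc (((-T : ℝ) : ℂ)).im ((T : ℂ) + θ * I).im := hp.2
      rw [e3, e4, uIcc_of_le hθ] at h2
      exact ⟨by linarith [h2.1], by linarith [h2.2]⟩
    have h := integral_boundary_rect_eq_zero_of_differentiableOn F ((-T : ℝ) : ℂ) ((T : ℂ) + θ * I) H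
    rw [e1, e2, e3, e4] at h
    simp only [Complex.ofReal_zero, zero_mul, add_zero] at h
    have hv1 : ‖∫ y in (0 : ℝ)..θ, F ((T : ℂ) + y * I)‖ ≤ C * Real.exp (-(δ * T)) * |θ - 0| := by
      refine intervalIntegral.norm_integral_le_of_norm_le_const fun y hy => ?_
      rw [uIoc_of_le hθ] at hy
      have := hdec ((T : ℂ) + y * I) (by simpa using hy.1.le) (by simpa using hy.2)
      simpa [abs_of_nonneg hT] using this
    have hv2 : ‖∫ y in (0 : ℝ)..θ, F (((-T : ℝ) : ℂ) + y * I)‖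
        ≤ C * Real.exp (-(δ * T)) * |θ - 0| := by
      refine intervalIntegral.norm_integral_le_of_norm_le_const fun y hy => ?_
      rw [uIoc_of_le hθ] at hy
      have := hdec (((-T : ℝ) : ℂ) + y * I) (by simpa using hy.1.le) (by simpa using hy.2)
      simpa [abs_of_nonneg hT] using this
    rw [sub_zero, abs_of_nonneg hθ] at hv1 hv2
    have e : (∫ x in (-T)..T, F (x : ℂ)) - ∫ x in (-T)..T, F ((x : ℂ) + θ * I)
        = I • (∫ y in (0 : ℝ)..θ, F (((-T : ℝ) : ℂ) + y * I))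
          - I • ∫ y in (0 : ℝ)..θ, F ((T : ℂ) + y * I) := by
      linear_combination h
    rw [e]
    calc ‖I • (∫ y in (0 : ℝ)..θ, F (((-T : ℝ) : ℂ) + y * I))
          - I • ∫ y in (0 : ℝ)..θ, F ((T : ℂ) + y * I)‖
        ≤ ‖I • (∫ y in (0 : ℝ)..θ, F (((-T : ℝ) : ℂ) + y * I))‖
          + ‖I • ∫ y in (0 : ℝ)..θ, F ((T : ℂ) + y * I)‖ := norm_sub_le _ _
      _ ≤ C * Real.exp (-(δ * T)) * θ + C * Real.exp (-(δ * T)) * θ := by
          rw [norm_smul, norm_smul, Complex.norm_I, one_mul, one_mul]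
          exact add_le_add hv2 hv1
      _ = 2 * (C * Real.exp (-(δ * T)) * θ) := by ring
  -- limits
  have hl0 : Tendsto (fun T : ℝ => ∫ x in (-T)..T, F (x : ℂ)) atTop (𝓝 (∫ v : ℝ, F (v : ℂ))) :=
    intervalIntegral_tendsto_integral hi0 tendsto_neg_atTop_atBot tendsto_id
  have hl1 : Tendsto (fun T : ℝ => ∫ x in (-T)..T, F ((x : ℂ) + θ * I)) atTop
      (𝓝 (∫ v : ℝ, F ((v : ℂ) + θ * I))) :=
    intervalIntegral_tendsto_integral hi1 tendsto_neg_atTop_atBot tendsto_id
  have hb : Tendsto (fun T : ℝ => 2 * (C * Real.exp (-(δ * T)) * θ)) atTop (𝓝 0) := by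
    have h1 : Tendsto (fun T : ℝ => Real.exp (-(δ * T))) atTop (𝓝 0) :=
      Real.tendsto_exp_neg_atTop_nhds_zero.comp (tendsto_id.const_mul_atTop hδ)
    have := ((h1.const_mul C).mul_const θ).const_mul 2
    simpa using this
  have hle : ‖(∫ v : ℝ, F (v : ℂ)) - ∫ v : ℝ, F ((v : ℂ) + θ * I)‖ ≤ 0 := by
    refine le_of_tendsto_of_tendsto (hl0.sub hl1).norm hb ?_
    filter_upwards [eventually_ge_atTop 0] with T hT
    exact hrect T hT
  exact (sub_eq_zero.mp (norm_le_zero_iff.mp hle)).symm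

end Claimed.Agent.R296
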