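/-
Row 296, chain BB_Means, file 7d: the three Fourier pairs, from `FourierPairs.lean` (definitions,
bounds), `FourierBeta.lean`, `FourierShift.lean`.  Plan: header of `FourierPairs.lean`.
Prefix `fp_`.   Owner: helper80.
-/
import Claimed.Agent.R296.FourierPairs
import Claimed.Agent.R296.FourierBeta
import Claimed.Agent.R296.FourierShift

set_option autoImplicit false

namespace Claimed.Agent.R296

open MeasureTheory Complex Set Filter Topology

/-! ### the pair `m4` -/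

/-- the Fourier pair `m_{1/4} ↔ g_{1/4}`. -/
theorem fp_m4_fourier (z : ℝ) :
    ∫ u : ℝ, cexp (I * u * z) * (m4 u : ℂ) = ((1 / (2 * Real.cosh (z / 4)) : ℝ) : ℂ) := by
  set a : ℂ := 1 / 2 + I * (z / (4 * Real.pi) : ℝ) with ha
  have hpi : (Real.pi : ℂ) ≠ 0 := by exact_mod_cast Real.pi_ne_zero
  have hre : a.re = 1 / 2 := by
    simp only [ha, add_re, mul_re, I_re, I_im, ofReal_re, ofReal_im]
    norm_num
  have hB := fp_beta_one (a := a) (by rw [hre]; norm_num) (by rw [hre]; norm_num)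
  have hsub := Measure.integral_comp_mul_left
    (fun v : ℝ => cexp (a * v) / ((Real.exp v : ℂ) + 1)) (4 * Real.pi)
  have e : ∀ u : ℝ, cexp (I * u * z) * (m4 u : ℂ)
      = 2 * (cexp (a * ((4 * Real.pi * u : ℝ) : ℂ)) / ((Real.exp (4 * Real.pi * u) : ℂ) + 1)) := by
    intro u
    unfold m4
    have h1 : cexp (a * ((4 * Real.pi * u : ℝ) : ℂ))
        = cexp (I * u * z) * (Real.exp (2 * Real.pi * u) : ℂ) := by
      rw [Complex.ofReal_exp, ← Complex.exp_add]
      congr 1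
      rw [ha]
      push_cast
      field_simp
      ring
    have h2r : Real.exp (4 * Real.pi * u) + 1
        = Real.exp (2 * Real.pi * u) * (2 * Real.cosh (2 * Real.pi * u)) := by
      rw [Real.cosh_eq]
      have h4 : Real.exp (4 * Real.pi * u)
          = Real.exp (2 * Real.pi * u) * Real.exp (2 * Real.pi * u) := by
        rw [← Real.exp_add]; congr 1; ring
      have h3 : Real.exp (2 * Real.pi * u) * Real.exp (-(2 * Real.pi * u)) = 1 := by
        rw [← Real.exp_add]; simp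
      rw [h4]
      linear_combination (-1 : ℝ) * h3
    have h2 : (Real.exp (4 * Real.pi * u) : ℂ) + 1
        = (Real.exp (2 * Real.pi * u) : ℂ) * (2 * (Real.cosh (2 * Real.pi * u) : ℂ)) := by
      exact_mod_cast h2r
    have hE : (Real.exp (2 * Real.pi * u) : ℂ) ≠ 0 := by exact_mod_cast (Real.exp_pos _).ne'
    have hC : (Real.cosh (2 * Real.pi * u) : ℂ) ≠ 0 := by exact_mod_cast (Real.cosh_pos _).ne'
    rw [h1, h2]
    push_cast
    field_simp
  simp_rw [e]
  rw [integral_const_mul, hsub, hB]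
  have hs : Complex.sin ((Real.pi : ℂ) * a) = (Real.cosh (z / 4) : ℂ) := by
    have : (Real.pi : ℂ) * a = ((z / 4 : ℝ) : ℂ) * I + (Real.pi : ℂ) / 2 := by
      rw [ha]
      push_cast
      field_simp
      ring
    rw [this, Complex.sin_add_pi_div_two, Complex.cos_mul_I, Complex.ofReal_cosh]
  rw [hs, abs_of_pos (by positivity), Complex.real_smul]
  have hC : (Real.cosh (z / 4) : ℂ) ≠ 0 := by exact_mod_cast (Real.cosh_pos _).ne'
  push_cast
  field_simp
  ring

/-- `∫ m4 = 1/2`. -/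
theorem fp_m4_integral : ∫ u : ℝ, m4 u = 1 / 2 := by
  have h := fp_m4_fourier 0
  simp only [Complex.ofReal_zero, mul_zero, Complex.exp_zero, one_mul, zero_div, Real.cosh_zero,
    mul_one] at h
  rw [integral_complex_ofReal] at h
  exact_mod_cast h


/-! ### the function `e^{aw}/(e^w+1)` on the strip -/

/-- `F_a(w) = e^{aw}/(e^w+1)` -/
noncomputable def fpF (a w : ℂ) : ℂ := cexp (a * w) / (cexp w + 1)

theorem fp_exp_add_one_ne {w : ℂ} (h1 : -Real.pi < w.im) (h2 : w.im < Real.pi) :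
    cexp w + 1 ≠ 0 := by
  intro h
  have hre := congrArg Complex.re h
  have him := congrArg Complex.im h
  simp only [add_re, exp_re, one_re, zero_re, add_im, exp_im, one_im, add_zero, zero_im] at hre him
  have hE := Real.exp_pos w.re
  have hs : Real.sin w.im = 0 := by
    rcases mul_eq_zero.mp him with h | h
    · exact absurd h hE.ne'
    · exact h
  have hy : w.im = 0 := (Real.sin_eq_zero_iff_of_lt_of_lt h1 h2).mp hs
  rw [hy, Real.cos_zero] at hre
  linarith

theorem fp_norm_exp_add_one_ge {w : ℂ} (h0 : 0 ≤ w.im) (h1 : w.im ≤ Real.pi / 2) :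
    1 ≤ ‖cexp w + 1‖ ∧ Real.exp w.re ≤ ‖cexp w + 1‖ := by
  have hc : 0 ≤ Real.cos w.im := Real.cos_nonneg_of_mem_Icc ⟨by linarith [Real.pi_pos], h1⟩
  have hE := Real.exp_pos w.re
  have hcs := Real.sin_sq_add_cos_sq w.im
  have hsq : ‖cexp w + 1‖ ^ 2
      = Real.exp w.re ^ 2 + 2 * (Real.exp w.re * Real.cos w.im) + 1 := by
    rw [Complex.sq_norm, Complex.normSq_apply]
    simp only [add_re, exp_re, one_re, add_im, exp_im, one_im, add_zero]
    linear_combination (Real.exp w.re ^ 2) * hcs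
  have hEc : 0 ≤ Real.exp w.re * Real.cos w.im := mul_nonneg hE.le hc
  constructor
  · apply (pow_le_pow_iff_left₀ zero_le_one (norm_nonneg _) two_ne_zero).mp
    rw [hsq]
    nlinarith [sq_nonneg (Real.exp w.re)]
  · apply (pow_le_pow_iff_left₀ hE.le (norm_nonneg _) two_ne_zero).mp
    rw [hsq]
    nlinarith

theorem fp_F_decay {a : ℂ} (h0 : 0 < a.re) (h1 : a.re < 1) (w : ℂ) (hw0 : 0 ≤ w.im)
    (hw1 : w.im ≤ Real.pi / 2) :
    ‖fpF a w‖ ≤ Real.exp (|a.im| * (Real.pi / 2))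
      * Real.exp (-(min a.re (1 - a.re) * |w.re|)) := by
  obtain ⟨g1, g2⟩ := fp_norm_exp_add_one_ge hw0 hw1
  have hpos : 0 < ‖cexp w + 1‖ := by linarith
  unfold fpF
  rw [norm_div, div_le_iff₀ hpos, Complex.norm_exp, mul_re, ← Real.exp_add]
  have hb : -(a.im * w.im) ≤ |a.im| * (Real.pi / 2) := by
    have h2 : -(a.im * w.im) ≤ |a.im * w.im| := neg_le_abs _
    rw [abs_mul, abs_of_nonneg hw0] at h2
    have h3 : |a.im| * w.im ≤ |a.im| * (Real.pi / 2) := by gcongr
    linarith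
  have hm1 : min a.re (1 - a.re) ≤ a.re := min_le_left _ _
  have hm2 : min a.re (1 - a.re) ≤ 1 - a.re := min_le_right _ _
  rcases le_total 0 w.re with hx | hx
  · rw [abs_of_nonneg hx]
    calc Real.exp (a.re * w.re - a.im * w.im)
        ≤ Real.exp (|a.im| * (Real.pi / 2) + -(min a.re (1 - a.re) * w.re)) * Real.exp w.re := by
          rw [← Real.exp_add, Real.exp_le_exp]
          nlinarith
      _ ≤ _ := by gcongr
  · rw [abs_of_nonpos hx]
    calc Real.exp (a.re * w.re - a.im * w.im)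
        ≤ Real.exp (|a.im| * (Real.pi / 2) + -(min a.re (1 - a.re) * -w.re)) * 1 := by
          rw [mul_one, Real.exp_le_exp]
          nlinarith
      _ ≤ _ := by gcongr

theorem fp_F_diff (a : ℂ) :
    DifferentiableOn ℂ (fpF a) {w : ℂ | -1 < w.im ∧ w.im < Real.pi / 2 + 1} := by
  unfold fpF
  refine DifferentiableOn.div (by fun_prop) (by fun_prop) fun w hw => ?_
  have := Real.pi_gt_three
  exact fp_exp_add_one_ne (by linarith [hw.1]) (by linarith [hw.2])

theorem fp_F_real {a : ℂ} (h0 : 0 < a.re) (h1 : a.re < 1) :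
    ∫ v : ℝ, fpF a (v : ℂ) = (Real.pi : ℂ) / Complex.sin (Real.pi * a) := by
  rw [← fp_beta_one h0 h1]
  congr 1
  ext v
  unfold fpF
  rw [Complex.ofReal_exp]

theorem fp_F_shift {a : ℂ} (h0 : 0 < a.re) (h1 : a.re < 1) :
    ∫ v : ℝ, fpF a ((v : ℂ) + ((Real.pi / 2 : ℝ) : ℂ) * I)
      = (Real.pi : ℂ) / Complex.sin (Real.pi * a) := by
  rw [fp_shift (θ := Real.pi / 2) (by positivity) (lt_min h0 (by linarith)) (fp_F_diff a)
    (fp_F_decay h0 h1), fp_F_real h0 h1]

/-- `D(v) = G(v + iπ/2) - G(v)`, `G = 1/(e^v+1)` -/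
noncomputable def fpD (v : ℝ) : ℂ :=
  1 / (cexp ((v : ℂ) + ((Real.pi / 2 : ℝ) : ℂ) * I) + 1) - 1 / (cexp (v : ℂ) + 1)

theorem fp_exp_pi_div_two : cexp (((Real.pi / 2 : ℝ) : ℂ) * I) = I := by
  rw [Complex.exp_mul_I, ← Complex.ofReal_cos, ← Complex.ofReal_sin, Real.cos_pi_div_two,
    Real.sin_pi_div_two]
  simp

theorem fp_qP_eq (u : ℝ) : qP u = I * fpD (2 * Real.pi * u) := by
  unfold qP fpD
  set v : ℝ := 2 * Real.pi * u with hv
  have hden := fp_qP_den_ne u
  rw [← hv] at hden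
  rw [Complex.exp_add, fp_exp_pi_div_two]
  have hX : cexp (v : ℂ) ≠ 0 := Complex.exp_ne_zero _
  have h1 : cexp (v : ℂ) + 1 ≠ 0 :=
    fp_exp_add_one_ne (by simp [Real.pi_pos]) (by simp [Real.pi_pos])
  have h2 : cexp (v : ℂ) * I + 1 ≠ 0 := by
    have := fp_exp_add_one_ne (w := (v : ℂ) + ((Real.pi / 2 : ℝ) : ℂ) * I)
      (by simp; linarith [Real.pi_pos]) (by simp; linarith [Real.pi_pos])
    rwa [Complex.exp_add, fp_exp_pi_div_two] at this
  have hc : (Real.cosh v : ℂ) = (cexp (v : ℂ) + (cexp (v : ℂ))⁻¹) / 2 := by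
    rw [Complex.ofReal_cosh, Complex.cosh, Complex.exp_neg]
  have hs : (Real.sinh v : ℂ) = (cexp (v : ℂ) - (cexp (v : ℂ))⁻¹) / 2 := by
    rw [Complex.ofReal_sinh, Complex.sinh, Complex.exp_neg]
  rw [hc, hs] at hden ⊢
  generalize cexp (v : ℂ) = X at *
  have e1 : (X + X⁻¹) / 2 + 1 + I * ((X - X⁻¹) / 2)
      = (X ^ 2 + 1 + 2 * X + I * (X ^ 2 - 1)) / (2 * X) := by
    field_simp
  have e2 : 1 / (X * I + 1) - 1 / (X + 1) = (X - X * I) / ((X * I + 1) * (X + 1)) := by
    rw [div_sub_div _ _ h2 h1]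
    congr 1
    ring
  rw [e1] at hden
  have h3 : X ^ 2 + 1 + 2 * X + I * (X ^ 2 - 1) ≠ 0 := fun h => hden (by rw [h, zero_div])
  rw [e1, e2, one_div_div, mul_div_assoc', div_eq_div_iff h3 (mul_ne_zero h2 h1)]
  linear_combination (X * ((X ^ 2 + 1 + 2 * X) - (X ^ 2 - 1) + I * (X ^ 2 - 1))) * I_sq

theorem fp_D_eq (v : ℝ) : fpD v = -I * qP (v / (2 * Real.pi)) := by
  rw [fp_qP_eq]
  have : 2 * Real.pi * (v / (2 * Real.pi)) = v := by
    field_simp
  rw [this, ← mul_assoc]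
  simp

theorem fp_D_continuous : Continuous fpD := by
  have : fpD = fun v => -I * qP (v / (2 * Real.pi)) := funext fp_D_eq
  rw [this]
  exact continuous_const.mul (fp_qP_continuous.comp (by fun_prop))

theorem fp_norm_D_le (v : ℝ) : ‖fpD v‖ ≤ 2 * Real.exp (-|v|) := by
  rw [fp_D_eq, norm_mul, norm_neg, Complex.norm_I, one_mul]
  have h1 := fp_norm_qP_le (v / (2 * Real.pi))
  have h2 := fp_m4_le (v / (2 * Real.pi))
  have h3 : 2 * Real.pi * |v / (2 * Real.pi)| = |v| := by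
    rw [abs_div, abs_of_pos (by positivity : (0 : ℝ) < 2 * Real.pi)]
    field_simp
  rw [h3] at h2
  have h4 : m4 (v / (2 * Real.pi)) / Real.sqrt 2 ≤ m4 (v / (2 * Real.pi)) := by
    apply div_le_self (fp_m4_pos _).le
    rw [Real.one_le_sqrt]
    norm_num
  linarith

theorem fp_sin_ne {a : ℂ} (h0 : 0 < a.re) (h1 : a.re < 1) : Complex.sin (Real.pi * a) ≠ 0 := by
  rw [Complex.sin_ne_zero_iff]
  intro k hk
  have hpi : (Real.pi : ℂ) ≠ 0 := by exact_mod_cast Real.pi_ne_zero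
  have : a = k := by
    have h2 : (Real.pi : ℂ) * a = Real.pi * k := by rw [hk]; ring
    exact mul_left_cancel₀ hpi h2
  rw [this] at h0 h1
  simp only [Complex.intCast_re] at h0 h1
  have h3 : (0 : ℤ) < k := by exact_mod_cast h0
  have h4 : k < (1 : ℤ) := by exact_mod_cast h1
  omega

/-- the transform of `D` in the open strip -/
theorem fp_J {a : ℂ} (h0 : 0 < a.re) (h1 : a.re < 1) :
    (∫ v : ℝ, cexp (a * v) * fpD v) * Complex.sin (Real.pi * a)
      = (cexp (-(a * (((Real.pi / 2 : ℝ) : ℂ) * I))) - 1) * Real.pi := by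
  have hδ : 0 < min a.re (1 - a.re) := lt_min h0 (by linarith)
  have hθ : (0 : ℝ) ≤ Real.pi / 2 := by positivity
  have hi1 : Integrable fun v : ℝ => fpF a ((v : ℂ) + ((Real.pi / 2 : ℝ) : ℂ) * I) :=
    fp_line hδ (fp_F_diff a) (fp_F_decay h0 h1) hθ le_rfl
  have hi0 : Integrable fun v : ℝ => fpF a (v : ℂ) := by
    have := fp_line hδ (fp_F_diff a) (fp_F_decay h0 h1) le_rfl hθ
    simpa using this
  have e : ∀ v : ℝ, cexp (a * v) * fpD v
      = cexp (-(a * (((Real.pi / 2 : ℝ) : ℂ) * I))) * fpF a ((v : ℂ) + ((Real.pi / 2 : ℝ) : ℂ) * I)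
        - fpF a (v : ℂ) := by
    intro v
    unfold fpD fpF
    rw [mul_add a, Complex.exp_add (a * v), Complex.exp_neg]
    have := Complex.exp_ne_zero (a * (((Real.pi / 2 : ℝ) : ℂ) * I))
    field_simp
  simp_rw [e]
  rw [integral_sub (hi1.const_mul _) hi0, integral_const_mul, fp_F_shift h0 h1, fp_F_real h0 h1]
  have hs := fp_sin_ne h0 h1
  generalize Complex.sin (Real.pi * a) = S at hs ⊢
  field_simp

/-- the transform of `D` on the boundary line (limit `Re a → 0+`) -/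
theorem fp_J0 (b : ℝ) :
    (∫ v : ℝ, cexp (I * b * v) * fpD v) * (I * (Real.sinh (Real.pi * b) : ℂ))
      = ((Real.exp (b * Real.pi / 2) - 1 : ℝ) : ℂ) * Real.pi := by
  have T1 : Tendsto (fun σ : ℝ => ∫ v : ℝ, cexp (((σ : ℂ) + I * b) * v) * fpD v) (𝓝[>] 0)
      (𝓝 (∫ v : ℝ, cexp (I * b * v) * fpD v)) := by
    refine tendsto_integral_filter_of_dominated_convergence
      (fun v => 2 * Real.exp (-(1 / 2 * |v|))) ?_ ?_
      ((fp_integrable_exp_neg_abs (c := 1 / 2) (by norm_num)).const_mul 2) ?_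
    · refine Eventually.of_forall fun σ => Continuous.aestronglyMeasurable ?_
      exact (by fun_prop : Continuous fun v : ℝ => cexp (((σ : ℂ) + I * b) * v)).mul fp_D_continuous
    · filter_upwards [Ioo_mem_nhdsGT (show (0 : ℝ) < 1 / 2 by norm_num)] with σ hσ
      refine Eventually.of_forall fun v => ?_
      rw [norm_mul, Complex.norm_exp]
      have hre : (((σ : ℂ) + I * b) * v).re = σ * v := by simp
      rw [hre]
      have h1 : σ * v ≤ 1 / 2 * |v| := by
        calc σ * v ≤ |σ * v| := le_abs_self _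
          _ = σ * |v| := by rw [abs_mul, abs_of_pos hσ.1]
          _ ≤ 1 / 2 * |v| := by gcongr; exact hσ.2.le
      calc Real.exp (σ * v) * ‖fpD v‖ ≤ Real.exp (1 / 2 * |v|) * (2 * Real.exp (-|v|)) := by
            gcongr
            exact fp_norm_D_le v
        _ = 2 * Real.exp (-(1 / 2 * |v|)) := by
            rw [mul_left_comm, ← Real.exp_add]
            congr 2
            ring
    · refine Eventually.of_forall fun v => ?_
      have hc : Continuous fun σ : ℝ => cexp (((σ : ℂ) + I * b) * v) * fpD v := by fun_prop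
      have := (hc.tendsto 0).mono_left (nhdsWithin_le_nhds (s := Ioi 0))
      simpa using this
  have T2 : Tendsto (fun σ : ℝ => Complex.sin (Real.pi * ((σ : ℂ) + I * b))) (𝓝[>] 0)
      (𝓝 (Complex.sin (Real.pi * (I * b)))) := by
    have hc : Continuous fun σ : ℝ => Complex.sin (Real.pi * ((σ : ℂ) + I * b)) := by fun_prop
    have := (hc.tendsto 0).mono_left (nhdsWithin_le_nhds (s := Ioi 0))
    simpa using this
  have T3 : Tendsto (fun σ : ℝ =>
      (cexp (-(((σ : ℂ) + I * b) * (((Real.pi / 2 : ℝ) : ℂ) * I))) - 1) * (Real.pi : ℂ)) (𝓝[>] 0)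
      (𝓝 ((cexp (-((I * b) * (((Real.pi / 2 : ℝ) : ℂ) * I))) - 1) * (Real.pi : ℂ))) := by
    have hc : Continuous fun σ : ℝ =>
      (cexp (-(((σ : ℂ) + I * b) * (((Real.pi / 2 : ℝ) : ℂ) * I))) - 1) * (Real.pi : ℂ) := by fun_prop
    have := (hc.tendsto 0).mono_left (nhdsWithin_le_nhds (s := Ioi 0))
    simpa using this
  have hev : (fun σ : ℝ => (∫ v : ℝ, cexp (((σ : ℂ) + I * b) * v) * fpD v)
        * Complex.sin (Real.pi * ((σ : ℂ) + I * b))) =ᶠ[𝓝[>] 0] fun σ : ℝ =>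
      (cexp (-(((σ : ℂ) + I * b) * (((Real.pi / 2 : ℝ) : ℂ) * I))) - 1) * (Real.pi : ℂ) := by
    filter_upwards [Ioo_mem_nhdsGT (show (0 : ℝ) < 1 by norm_num)] with σ hσ
    exact fp_J (by simpa using hσ.1) (by simpa using hσ.2)
  have hlim := tendsto_nhds_unique ((T1.mul T2).congr' hev) T3
  have h2 : Complex.sin ((Real.pi : ℂ) * (I * (b : ℂ))) = I * (Real.sinh (Real.pi * b) : ℂ) := by
    have : (Real.pi : ℂ) * (I * (b : ℂ)) = ((Real.pi : ℂ) * b) * I := by ring
    rw [this, Complex.sin_mul_I]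
    push_cast
    ring
  have h3 : cexp (-((I * b) * (((Real.pi / 2 : ℝ) : ℂ) * I))) = (Real.exp (b * Real.pi / 2) : ℂ) := by
    rw [Complex.ofReal_exp]
    congr 1
    push_cast
    linear_combination (-(b : ℂ) * (Real.pi : ℂ) / 2) * I_sq
  rw [h2, h3] at hlim
  rw [hlim]
  push_cast
  ring

/-- the Fourier pair `q_+ ↔ h_+`, multiplied by `2 sinh (z/2)`. -/
theorem fp_qP_fourier (z : ℝ) :
    ((2 * Real.sinh (z / 2) : ℝ) : ℂ) * ∫ u : ℝ, cexp (I * u * z) * qP u =
      ((Real.exp (z / 4) - 1 : ℝ) : ℂ) := by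
  have hpi : (Real.pi : ℂ) ≠ 0 := by exact_mod_cast Real.pi_ne_zero
  set b : ℝ := z / (2 * Real.pi) with hb
  have hJ := fp_J0 b
  have hsub := Measure.integral_comp_mul_left
    (fun v : ℝ => cexp (I * b * v) * (I * fpD v)) (2 * Real.pi)
  have e : ∀ u : ℝ, cexp (I * u * z) * qP u
      = cexp (I * b * ((2 * Real.pi * u : ℝ) : ℂ)) * (I * fpD (2 * Real.pi * u)) := by
    intro u
    rw [fp_qP_eq]
    congr 2
    rw [hb]
    push_cast
    field_simp
  simp_rw [e]
  rw [hsub, abs_of_pos (by positivity), Complex.real_smul]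
  have e2 : ∫ v : ℝ, cexp (I * b * v) * (I * fpD v) = I * ∫ v : ℝ, cexp (I * b * v) * fpD v := by
    rw [← integral_const_mul]
    congr 1
    ext v
    ring
  have e3 : Real.pi * b = z / 2 := by
    rw [hb]; field_simp
  have e4 : b * Real.pi / 2 = z / 4 := by
    rw [hb]; field_simp; ring
  rw [e3, e4] at hJ
  rw [e2]
  calc ((2 * Real.sinh (z / 2) : ℝ) : ℂ) * ((((2 * Real.pi)⁻¹ : ℝ) : ℂ)
        * (I * ∫ v : ℝ, cexp (I * b * v) * fpD v))
      = ((∫ v : ℝ, cexp (I * b * v) * fpD v) * (I * (Real.sinh (z / 2) : ℂ))) / Real.pi := by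
        push_cast
        field_simp
    _ = _ := by
        rw [hJ]
        field_simp

/-- the Fourier pair `q_- ↔ h_-`, multiplied by `2 sinh (z/2)`. -/
theorem fp_qM_fourier (z : ℝ) :
    ((2 * Real.sinh (z / 2) : ℝ) : ℂ) * ∫ u : ℝ, cexp (I * u * z) * qM u =
      ((Real.exp (-(z / 4)) - 1 : ℝ) : ℂ) := by
  have h := fp_qP_fourier (-z)
  have e : ∫ u : ℝ, cexp (I * u * z) * qM u = - ∫ u : ℝ, cexp (I * u * ((-z : ℝ) : ℂ)) * qP u := by
    rw [← integral_neg, ← integral_neg_eq_self]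
    congr 1
    ext u
    rw [fp_qM_eq, neg_neg]
    push_cast
    ring_nf
  rw [e]
  have e1 : -z / 2 = -(z / 2) := by ring
  have e2 : -z / 4 = -(z / 4) := by ring
  rw [e1, e2, Real.sinh_neg] at h
  rw [← h]
  push_cast
  ring

/-- `∫ |q_±| ≤ 1 / (2 sqrt 2)`. -/
theorem fp_integral_norm_qP_le : ∫ u : ℝ, ‖qP u‖ ≤ 1 / (2 * Real.sqrt 2) := by
  calc ∫ u : ℝ, ‖qP u‖ ≤ ∫ u : ℝ, m4 u / Real.sqrt 2 :=
        integral_mono fp_qP_integrable.norm (fp_m4_integrable.div_const _) fp_norm_qP_le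
    _ = 1 / (2 * Real.sqrt 2) := by
        rw [integral_div, fp_m4_integral]
        field_simp

theorem fp_integral_norm_qM_le : ∫ u : ℝ, ‖qM u‖ ≤ 1 / (2 * Real.sqrt 2) := by
  calc ∫ u : ℝ, ‖qM u‖ ≤ ∫ u : ℝ, m4 u / Real.sqrt 2 :=
        integral_mono fp_qM_integrable.norm (fp_m4_integrable.div_const _) fp_norm_qM_le
    _ = 1 / (2 * Real.sqrt 2) := by
        rw [integral_div, fp_m4_integral]
        field_simp

end Claimed.Agent.R296
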