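/-
Row 296, black-box chain INTERP, file 4: analytic dependence of `mfun (F z) A`, `spow A z`, `hpow A z`
on the complex parameter `z` (entire, bounded on vertical strips = `StripNice`; derivative).
Also: `StripNice` is stable under linear maps out of finite dimensional spaces, rectangular matrix
products, `mulVec`, traces, entries.                                        Owner: helper57.
-/
import Claimed.Agent.R296.MatPow
import Claimed.Agent.R296.Strip

set_option autoImplicit false
set_option linter.unusedSectionVars false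
set_option linter.unusedDecidableInType false

namespace Claimed.Agent.R296

open Matrix
open scoped Matrix.Norms.L2Operator ComplexOrder

variable {l m n : Type*} [Fintype l] [DecidableEq l] [Fintype n] [DecidableEq n] [Fintype m]
  [DecidableEq m]

/-! ### linear images -/

theorem StripNice.lin {E F : Type*} [NormedAddCommGroup E] [NormedSpace ℂ E] [NormedAddCommGroup F]
    [NormedSpace ℂ F] [FiniteDimensional ℂ E] (L : E →ₗ[ℂ] F) {f : ℂ → E} (hf : StripNice f) :
    StripNice (fun z => L (f z)) :=
  hf.clm (LinearMap.toContinuousLinearMap L)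

/-- rectangular matrix multiplication as a bounded bilinear map (L2 operator norms) -/
noncomputable def matMulCLM : Matrix l m ℂ →L[ℂ] Matrix m n ℂ →L[ℂ] Matrix l n ℂ :=
  LinearMap.mkContinuous₂
    (LinearMap.mk₂ ℂ (fun (A : Matrix l m ℂ) (B : Matrix m n ℂ) => A * B)
      Matrix.add_mul (fun c A B => Matrix.smul_mul c A B) Matrix.mul_add
      (fun c A B => Matrix.mul_smul A c B)) 1
    (fun A B => by simpa using l2_opNorm_mul A B)

theorem matMulCLM_apply (A : Matrix l m ℂ) (B : Matrix m n ℂ) : matMulCLM A B = A * B := rfl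

theorem StripNice.matMul {M : ℂ → Matrix l m ℂ} {N : ℂ → Matrix m n ℂ} (hM : StripNice M)
    (hN : StripNice N) : StripNice (fun z => M z * N z) :=
  StripNice.bilin matMulCLM hM hN

theorem StripNice.mul_const {M : ℂ → Matrix l m ℂ} (hM : StripNice M) (N : Matrix m n ℂ) :
    StripNice (fun z => M z * N) :=
  hM.matMul (StripNice.const N)

theorem StripNice.const_mul {M : ℂ → Matrix m n ℂ} (N : Matrix l m ℂ) (hM : StripNice M) :
    StripNice (fun z => N * M z) :=
  (StripNice.const N).matMul hM

theorem StripNice.trace {M : ℂ → Matrix n n ℂ} (hM : StripNice M) :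
    StripNice (fun z => (M z).trace) :=
  hM.lin (Matrix.traceLinearMap n ℂ ℂ)

theorem StripNice.entry {M : ℂ → Matrix m n ℂ} (hM : StripNice M) (i : m) (j : n) :
    StripNice (fun z => M z i j) :=
  hM.lin (Matrix.entryLinearMap ℂ ℂ i j)

/-- `M ↦ M *ᵥ v` into the Euclidean space -/
noncomputable def mulVecL2 (v : n → ℂ) : Matrix m n ℂ →ₗ[ℂ] EuclideanSpace ℂ m where
  toFun M := WithLp.toLp 2 (M *ᵥ v)
  map_add' A B := by rw [Matrix.add_mulVec]; rfl
  map_smul' c A := by rw [Matrix.smul_mulVec]; rfl

theorem StripNice.mulVec {M : ℂ → Matrix m n ℂ} (hM : StripNice M) (v : n → ℂ) :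
    StripNice (fun z => (WithLp.toLp 2 (M z *ᵥ v) : EuclideanSpace ℂ m)) :=
  hM.lin (mulVecL2 v)

theorem StripNice.quad {M : ℂ → Matrix m n ℂ} (hM : StripNice M) (w : m → ℂ) (v : n → ℂ) :
    StripNice (fun z => w ⬝ᵥ (M z *ᵥ v)) := by
  have : (fun z => w ⬝ᵥ (M z *ᵥ v)) = fun z => ∑ i, ∑ j, (w i * v j) • M z i j := by
    ext z
    simp only [dotProduct, Matrix.mulVec, Finset.mul_sum, smul_eq_mul]
    refine Finset.sum_congr rfl fun i _ => Finset.sum_congr rfl fun j _ => by ring
  rw [this]
  refine StripNice.sum _ fun i _ => StripNice.sum _ fun j _ => ?_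
  exact (StripNice.const (w i * v j)).smul (hM.entry i j)

/-! ### `mfun` with a parameter -/

/-- rank one spectral projections of the chosen eigenbasis -/
noncomputable def eigP {A : Matrix n n ℂ} (h : A.IsHermitian) (i : n) : Matrix n n ℂ :=
  (h.eigenvectorUnitary : Matrix n n ℂ) * Matrix.single i i 1 * (h.eigenvectorUnitary : Matrix n n ℂ)ᴴ

theorem diagonal_eq_sum_single (d : n → ℂ) :
    (diagonal d : Matrix n n ℂ) = ∑ i, d i • Matrix.single i i (1 : ℂ) := by
  ext a b
  simp only [Matrix.sum_apply, Matrix.smul_apply, Matrix.single_apply, diagonal_apply, smul_eq_mul]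
  by_cases hab : a = b
  · subst hab; simp
  · simp only [hab, if_false]
    symm
    apply Finset.sum_eq_zero
    intro i _
    by_cases hi : i = a
    · subst hi; simp [hab]
    · simp [hi]

theorem mfun_eq_sum_eigP {A : Matrix n n ℂ} (h : A.IsHermitian) (f : ℝ → ℂ) :
    mfun f A = ∑ i, f (h.eigenvalues i) • eigP h i := by
  rw [mfun_eq h, diagonal_eq_sum_single, Finset.mul_sum, Finset.sum_mul]
  refine Finset.sum_congr rfl fun i _ => ?_
  rw [eigP, Matrix.mul_smul, Matrix.smul_mul]

theorem stripNice_mfun {A : Matrix n n ℂ} (h : A.IsHermitian) (F : ℂ → ℝ → ℂ)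
    (hF : ∀ i, StripNice (fun z => F z (h.eigenvalues i))) : StripNice (fun z => mfun (F z) A) := by
  simp only [mfun_eq_sum_eigP h]
  exact StripNice.sum _ fun i _ => (hF i).smul (StripNice.const _)

theorem hasDerivAt_mfun {A : Matrix n n ℂ} (h : A.IsHermitian) (F : ℂ → ℝ → ℂ) (F' : ℝ → ℂ) (z : ℂ)
    (hF : ∀ i, HasDerivAt (fun z => F z (h.eigenvalues i)) (F' (h.eigenvalues i)) z) :
    HasDerivAt (fun z => mfun (F z) A) (mfun F' A) z := by
  simp only [mfun_eq_sum_eigP h]
  exact HasDerivAt.fun_sum fun i _ => (hF i).smul_const _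

theorem tendsto_mfun {α : Type*} {lf : Filter α} {A : Matrix n n ℂ} (h : A.IsHermitian)
    (F : α → ℝ → ℂ) (f : ℝ → ℂ)
    (hF : ∀ i, Filter.Tendsto (fun k => F k (h.eigenvalues i)) lf (nhds (f (h.eigenvalues i)))) :
    Filter.Tendsto (fun k => mfun (F k) A) lf (nhds (mfun f A)) := by
  simp only [mfun_eq_sum_eigP h]
  exact tendsto_finsetSum _ fun i _ => (hF i).smul_const _

/-! ### powers -/

theorem stripNice_spowS (x : ℝ) : StripNice (fun z => spowS z x) := by
  by_cases hx : 0 < x
  · have := StripNice.cexp_real_mul (Real.log x)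
    simpa only [spowS, hx, if_true, mul_comm] using this
  · simpa only [spowS, hx, if_false] using StripNice.const (0 : ℂ)

theorem stripNice_hpowS (x : ℝ) : StripNice (fun z => hpowS z x) := by
  by_cases hx : 0 < x
  · have := StripNice.cexp_real_mul (Real.log x)
    simpa only [hpowS, hx, if_true, mul_comm] using this
  · simpa only [hpowS, hx, if_false] using StripNice.const (1 : ℂ)

theorem stripNice_spow (A : Matrix n n ℂ) : StripNice (fun z => spow A z) := by
  by_cases h : A.IsHermitian
  · exact stripNice_mfun h _ fun i => stripNice_spowS _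
  · simpa only [spow, mfun_of_not_isHermitian h] using StripNice.const (0 : Matrix n n ℂ)

theorem stripNice_hpow (A : Matrix n n ℂ) : StripNice (fun z => hpow A z) := by
  by_cases h : A.IsHermitian
  · exact stripNice_mfun h _ fun i => stripNice_hpowS _
  · simpa only [hpow, mfun_of_not_isHermitian h] using StripNice.const (0 : Matrix n n ℂ)

theorem hasDerivAt_spow (A : Matrix n n ℂ) (z : ℂ) :
    HasDerivAt (fun z => spow A z) (mlog A * spow A z) z := by
  by_cases h : A.IsHermitian
  · unfold mlog spow
    rw [← mfun_mul]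
    exact hasDerivAt_mfun h _ _ z fun i => hasDerivAt_spowS _ z
  · simp only [spow, mlog, mfun_of_not_isHermitian h, mul_zero]
    exact hasDerivAt_const _ _

theorem hasDerivAt_hpow (A : Matrix n n ℂ) (z : ℂ) :
    HasDerivAt (fun z => hpow A z) (mlog A * spow A z) z := by
  by_cases h : A.IsHermitian
  · unfold mlog spow hpow
    rw [← mfun_mul]
    exact hasDerivAt_mfun h _ _ z fun i => hasDerivAt_hpowS _ z
  · simp only [spow, hpow, mlog, mfun_of_not_isHermitian h, mul_zero]
    exact hasDerivAt_const _ _

end Claimed.Agent.R296
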