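/-
Row 296, chain BB_Means (P1 Sec 6), file 1: supplements to `mfun` (prefix `mfx_`) and the
DOUBLE OPERATOR CALCULUS
  `dop₂ g A B H = ∑_{i,j} g(λ_i, μ_j) P_i H Q_j`   (`A`, `B` Hermitian, `H` rectangular),
  `dop g A H = dop₂ g A A H`.
In the paper: `D f(C)[H] = dop (divided difference of f) C H`,
`φ(ad_{log M})(H) = dop (fun x y => φ (log x - log y)) M H`.
Built on helper57's `MatFun.lean`.   Owner: helper80.
-/
import Claimed.Agent.R296.MatPowAn

set_option autoImplicit false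
set_option linter.unusedSectionVars false
set_option linter.unusedDecidableInType false

namespace Claimed.Agent.R296

open Matrix
open scoped MatrixOrder Matrix.Norms.L2Operator ComplexOrder

variable {n m l : Type*} [Fintype n] [DecidableEq n] [Fintype m] [DecidableEq m]
  [Fintype l] [DecidableEq l]

/-! ## (A) supplements to `mfun` -/

theorem mfx_pow_intertwine {A : Matrix n n ℂ} {B : Matrix m m ℂ} {X : Matrix m n ℂ}
    (h : X * A = B * X) (k : ℕ) : X * A ^ k = B ^ k * X := by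
  induction k with
  | zero => simp
  | succ k ih =>
    rw [pow_succ, pow_succ, ← Matrix.mul_assoc, ih, Matrix.mul_assoc, h, Matrix.mul_assoc]

theorem mfx_aeval_intertwine {A : Matrix n n ℂ} {B : Matrix m m ℂ} {X : Matrix m n ℂ}
    (h : X * A = B * X) (p : Polynomial ℂ) :
    X * Polynomial.aeval A p = Polynomial.aeval B p * X := by
  induction p using Polynomial.induction_on' with
  | add p q hp hq => simp only [map_add, Matrix.mul_add, Matrix.add_mul, hp, hq]
  | monomial k c =>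
    simp only [Polynomial.aeval_monomial, Algebra.algebraMap_eq_smul_one, Matrix.smul_mul,
      Matrix.one_mul, Matrix.mul_smul, mfx_pow_intertwine h k]

theorem mfx_intertwine (f : ℝ → ℂ) {A : Matrix n n ℂ} {B : Matrix m m ℂ}
    (hA : A.IsHermitian) (hB : B.IsHermitian) {X : Matrix m n ℂ} (h : X * A = B * X) :
    X * mfun f A = mfun f B * X := by
  obtain ⟨p, hp⟩ := exists_poly_eq_on (eigSet hA ∪ eigSet hB) f
  rw [mfun_eq_aeval hA f p fun i => hp _ (by simp [mem_eigSet]),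
    mfun_eq_aeval hB f p fun i => hp _ (by simp [mem_eigSet]), mfx_aeval_intertwine h]

theorem mfx_mul_conjTranspose_comm (f : ℝ → ℂ) (R : Matrix m n ℂ) :
    R * mfun f (Rᴴ * R) = mfun f (R * Rᴴ) * R :=
  mfx_intertwine f (isHermitian_conjTranspose_mul_self R) (isHermitian_mul_conjTranspose_self R)
    (by simp only [Matrix.mul_assoc])

theorem mfx_fromBlocks_pow (A : Matrix n n ℂ) (B : Matrix m m ℂ) (k : ℕ) :
    (fromBlocks A 0 0 B) ^ k = fromBlocks (A ^ k) 0 0 (B ^ k) := by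
  induction k with
  | zero => simp [fromBlocks_one]
  | succ k ih => rw [pow_succ, ih, fromBlocks_multiply]; simp [pow_succ]

theorem mfx_aeval_fromBlocks (A : Matrix n n ℂ) (B : Matrix m m ℂ) (p : Polynomial ℂ) :
    Polynomial.aeval (fromBlocks A 0 0 B) p =
      fromBlocks (Polynomial.aeval A p) 0 0 (Polynomial.aeval B p) := by
  induction p using Polynomial.induction_on' with
  | add p q hp hq => simp only [map_add, hp, hq, fromBlocks_add, add_zero]
  | monomial k c =>
    simp only [Polynomial.aeval_monomial, Algebra.algebraMap_eq_smul_one, Matrix.smul_mul,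
      Matrix.one_mul, mfx_fromBlocks_pow, fromBlocks_smul, smul_zero]

theorem mfx_isHermitian_fromBlocks {A : Matrix n n ℂ} {B : Matrix m m ℂ}
    (hA : A.IsHermitian) (hB : B.IsHermitian) : (fromBlocks A 0 0 B).IsHermitian := by
  rw [IsHermitian, fromBlocks_conjTranspose, hA.eq, hB.eq]; simp

theorem mfx_fromBlocks (f : ℝ → ℂ) {A : Matrix n n ℂ} {B : Matrix m m ℂ}
    (hA : A.IsHermitian) (hB : B.IsHermitian) :
    mfun f (fromBlocks A 0 0 B) = fromBlocks (mfun f A) 0 0 (mfun f B) := by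
  have hAB := mfx_isHermitian_fromBlocks hA hB
  obtain ⟨p, hp⟩ := exists_poly_eq_on (eigSet hA ∪ eigSet hB ∪ eigSet hAB) f
  rw [mfun_eq_aeval hA f p fun i => hp _ (by simp [mem_eigSet]),
    mfun_eq_aeval hB f p fun i => hp _ (by simp [mem_eigSet]),
    mfun_eq_aeval hAB f p fun i => hp _ (by simp [mem_eigSet]), mfx_aeval_fromBlocks]

theorem mfx_posDef {A : Matrix n n ℂ} (h : A.IsHermitian) (f : ℝ → ℝ)
    (hf : ∀ i, 0 < f (h.eigenvalues i)) : (mfun (fun x => (f x : ℂ)) A).PosDef := by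
  rw [(mfun_posSemidef h f fun i => (hf i).le).posDef_iff_isUnit]
  refine IsUnit.of_mul_eq_one (mfun (fun x => ((f x)⁻¹ : ℂ)) A) ?_
  rw [← mfun_mul, ← mfun_one h]
  refine mfun_congr h fun i => ?_
  have : (f (h.eigenvalues i) : ℂ) ≠ 0 := by exact_mod_cast (hf i).ne'
  field_simp

theorem mfx_le_mfun {A : Matrix n n ℂ} (h : A.IsHermitian) (f g : ℝ → ℝ)
    (hfg : ∀ i, f (h.eigenvalues i) ≤ g (h.eigenvalues i)) :
    mfun (fun x => (f x : ℂ)) A ≤ mfun (fun x => (g x : ℂ)) A := by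
  rw [Matrix.le_iff, ← mfun_sub]
  have := mfun_posSemidef h (fun x => g x - f x) fun i => sub_nonneg.2 (hfg i)
  simpa only [Complex.ofReal_sub] using this

theorem mfx_eigenvalues_mfun {A : Matrix n n ℂ} (h : A.IsHermitian) (f : ℝ → ℝ)
    (h' : (mfun (fun x => (f x : ℂ)) A).IsHermitian) (i : n) :
    ∃ j, h'.eigenvalues i = f (h.eigenvalues j) := by
  have h1 : h'.eigenvalues i ∈ spectrum ℝ (mfun (fun x => (f x : ℂ)) A) := by
    rw [h'.spectrum_real_eq_range_eigenvalues]; exact ⟨i, rfl⟩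
  have h2 : spectrum ℝ (mfun (fun x => (f x : ℂ)) A) = f '' Set.range h.eigenvalues := by
    rw [mfun_eq_cfc h, cfc_map_spectrum f A (show IsSelfAdjoint A from h)
      (by
        rw [h.spectrum_real_eq_range_eigenvalues]
        exact (Set.finite_range _).continuousOn _), h.spectrum_real_eq_range_eigenvalues]
  rw [h2] at h1
  obtain ⟨_, ⟨j, rfl⟩, hj⟩ := h1
  exact ⟨j, hj.symm⟩

theorem mfx_eigenvalues_mem_Icc {A : Matrix n n ℂ} (h : A.IsHermitian) {a b : ℝ}
    (ha : (a : ℂ) • (1 : Matrix n n ℂ) ≤ A) (hb : A ≤ (b : ℂ) • (1 : Matrix n n ℂ)) (i : n) :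
    h.eigenvalues i ∈ Set.Icc a b := by
  have hs : h.eigenvalues i ∈ spectrum ℝ A := by
    rw [h.spectrum_real_eq_range_eigenvalues]; exact ⟨i, rfl⟩
  have e : ∀ c : ℝ, (c : ℂ) • (1 : Matrix n n ℂ) = algebraMap ℝ (Matrix n n ℂ) c := by
    intro c
    rw [Algebra.algebraMap_eq_smul_one]
    ext i j
    simp [Matrix.smul_apply]
  rw [e] at ha hb
  exact ⟨(algebraMap_le_iff_le_spectrum (show IsSelfAdjoint A from h)).1 ha _ hs,
    (le_algebraMap_iff_spectrum_le (show IsSelfAdjoint A from h)).1 hb _ hs⟩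

theorem mfx_integral {α : Type*} [MeasurableSpace α] (μ : MeasureTheory.Measure α)
    (F : α → ℝ → ℂ) {A : Matrix n n ℂ} (h : A.IsHermitian)
    (hF : ∀ i, MeasureTheory.Integrable (fun a => F a (h.eigenvalues i)) μ) (i j : n) :
    MeasureTheory.Integrable (fun a => mfun (F a) A i j) μ ∧
      mfun (fun x => ∫ a, F a x ∂μ) A i j = ∫ a, mfun (F a) A i j ∂μ := by
  simp only [mfun_eq_sum_eigP h, Matrix.sum_apply, Matrix.smul_apply, smul_eq_mul]
  refine ⟨MeasureTheory.integrable_finsetSum _ fun k _ => (hF k).mul_const _, ?_⟩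
  rw [MeasureTheory.integral_finsetSum _ fun k _ => (hF k).mul_const _]
  refine Finset.sum_congr rfl fun k _ => ?_
  rw [MeasureTheory.integral_mul_const]

/-! ## (B) the double operator calculus: definition and algebra -/

/-- double operator calculus `∑ g(λ_i, μ_j) P_i H Q_j` (junk `0` if `A` or `B` is not Hermitian). -/
noncomputable def dop₂ (g : ℝ → ℝ → ℂ) (A : Matrix n n ℂ) (B : Matrix m m ℂ)
    (H : Matrix n m ℂ) : Matrix n m ℂ :=
  if h : A.IsHermitian ∧ B.IsHermitian then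
    (h.1.eigenvectorUnitary : Matrix n n ℂ) *
      (Matrix.of fun i j => g (h.1.eigenvalues i) (h.2.eigenvalues j) *
        ((h.1.eigenvectorUnitary : Matrix n n ℂ)ᴴ * H *
          (h.2.eigenvectorUnitary : Matrix m m ℂ)) i j) *
      (h.2.eigenvectorUnitary : Matrix m m ℂ)ᴴ
  else 0

/-- `dop g A H = ∑ g(λ_i, λ_j) P_i H P_j`. -/
noncomputable def dop (g : ℝ → ℝ → ℂ) (A H : Matrix n n ℂ) : Matrix n n ℂ := dop₂ g A A H

theorem dop₂_eq {A : Matrix n n ℂ} {B : Matrix m m ℂ} (hA : A.IsHermitian) (hB : B.IsHermitian)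
    (g : ℝ → ℝ → ℂ) (H : Matrix n m ℂ) :
    dop₂ g A B H = (hA.eigenvectorUnitary : Matrix n n ℂ) *
      (Matrix.of fun i j => g (hA.eigenvalues i) (hB.eigenvalues j) *
        ((hA.eigenvectorUnitary : Matrix n n ℂ)ᴴ * H *
          (hB.eigenvectorUnitary : Matrix m m ℂ)) i j) *
      (hB.eigenvectorUnitary : Matrix m m ℂ)ᴴ := by
  rw [dop₂, dif_pos ⟨hA, hB⟩]

theorem dop₂_of_not_left {A : Matrix n n ℂ} (hA : ¬ A.IsHermitian) (g : ℝ → ℝ → ℂ)
    (B : Matrix m m ℂ) (H : Matrix n m ℂ) : dop₂ g A B H = 0 := by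
  rw [dop₂, dif_neg (fun h => hA h.1)]

theorem dop₂_of_not_right {B : Matrix m m ℂ} (hB : ¬ B.IsHermitian) (g : ℝ → ℝ → ℂ)
    (A : Matrix n n ℂ) (H : Matrix n m ℂ) : dop₂ g A B H = 0 := by
  rw [dop₂, dif_neg (fun h => hB h.2)]

theorem dop₂_congr {A : Matrix n n ℂ} {B : Matrix m m ℂ} (hA : A.IsHermitian)
    (hB : B.IsHermitian) {g g' : ℝ → ℝ → ℂ}
    (h : ∀ i j, g (hA.eigenvalues i) (hB.eigenvalues j) = g' (hA.eigenvalues i) (hB.eigenvalues j))
    (H : Matrix n m ℂ) : dop₂ g A B H = dop₂ g' A B H := by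
  rw [dop₂_eq hA hB, dop₂_eq hA hB]; simp only [h]

theorem dop₂_add_right (g : ℝ → ℝ → ℂ) (A : Matrix n n ℂ) (B : Matrix m m ℂ)
    (H K : Matrix n m ℂ) : dop₂ g A B (H + K) = dop₂ g A B H + dop₂ g A B K := by
  by_cases hA : A.IsHermitian
  · by_cases hB : B.IsHermitian
    · rw [dop₂_eq hA hB, dop₂_eq hA hB, dop₂_eq hA hB, ← Matrix.add_mul, ← Matrix.mul_add]
      congr 2
      ext i j
      simp [Matrix.mul_add, Matrix.add_mul, mul_add]
    · simp [dop₂_of_not_right hB]
  · simp [dop₂_of_not_left hA]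

theorem dop₂_smul_right (g : ℝ → ℝ → ℂ) (A : Matrix n n ℂ) (B : Matrix m m ℂ) (c : ℂ)
    (H : Matrix n m ℂ) : dop₂ g A B (c • H) = c • dop₂ g A B H := by
  by_cases hA : A.IsHermitian
  · by_cases hB : B.IsHermitian
    · rw [dop₂_eq hA hB, dop₂_eq hA hB, ← Matrix.smul_mul, ← Matrix.mul_smul]
      congr 2
      ext i j
      simp only [Matrix.mul_smul, Matrix.smul_mul, Matrix.smul_apply, Matrix.of_apply, smul_eq_mul]
      ring
    · simp [dop₂_of_not_right hB]
  · simp [dop₂_of_not_left hA]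

/-- `dop₂ g A B` as a linear map. -/
noncomputable def dop₂L (g : ℝ → ℝ → ℂ) (A : Matrix n n ℂ) (B : Matrix m m ℂ) :
    Matrix n m ℂ →ₗ[ℂ] Matrix n m ℂ where
  toFun := dop₂ g A B
  map_add' := dop₂_add_right g A B
  map_smul' := dop₂_smul_right g A B

/-- `dop g A` as a linear map. -/
noncomputable def dopL (g : ℝ → ℝ → ℂ) (A : Matrix n n ℂ) :
    Matrix n n ℂ →ₗ[ℂ] Matrix n n ℂ := dop₂L g A A

@[simp] theorem dop₂L_apply (g : ℝ → ℝ → ℂ) (A : Matrix n n ℂ) (B : Matrix m m ℂ)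
    (H : Matrix n m ℂ) : dop₂L g A B H = dop₂ g A B H := rfl

@[simp] theorem dopL_apply (g : ℝ → ℝ → ℂ) (A H : Matrix n n ℂ) : dopL g A H = dop g A H := rfl

theorem dop₂_sub_right (g : ℝ → ℝ → ℂ) (A : Matrix n n ℂ) (B : Matrix m m ℂ)
    (H K : Matrix n m ℂ) : dop₂ g A B (H - K) = dop₂ g A B H - dop₂ g A B K :=
  map_sub (dop₂L g A B) H K

theorem dop₂_zero_right (g : ℝ → ℝ → ℂ) (A : Matrix n n ℂ) (B : Matrix m m ℂ) :
    dop₂ g A B 0 = 0 := map_zero (dop₂L g A B)

theorem dop₂_sum_right {ι : Type*} (g : ℝ → ℝ → ℂ) (A : Matrix n n ℂ) (B : Matrix m m ℂ)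
    (s : Finset ι) (H : ι → Matrix n m ℂ) :
    dop₂ g A B (∑ k ∈ s, H k) = ∑ k ∈ s, dop₂ g A B (H k) := map_sum (dop₂L g A B) H s

theorem dop₂_add (g g' : ℝ → ℝ → ℂ) (A : Matrix n n ℂ) (B : Matrix m m ℂ) (H : Matrix n m ℂ) :
    dop₂ (fun x y => g x y + g' x y) A B H = dop₂ g A B H + dop₂ g' A B H := by
  by_cases hA : A.IsHermitian
  · by_cases hB : B.IsHermitian
    · rw [dop₂_eq hA hB, dop₂_eq hA hB, dop₂_eq hA hB, ← Matrix.add_mul, ← Matrix.mul_add]
      congr 2
      ext i j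
      simp [add_mul]
    · simp [dop₂_of_not_right hB]
  · simp [dop₂_of_not_left hA]

theorem dop₂_smul (c : ℂ) (g : ℝ → ℝ → ℂ) (A : Matrix n n ℂ) (B : Matrix m m ℂ)
    (H : Matrix n m ℂ) : dop₂ (fun x y => c * g x y) A B H = c • dop₂ g A B H := by
  by_cases hA : A.IsHermitian
  · by_cases hB : B.IsHermitian
    · rw [dop₂_eq hA hB, dop₂_eq hA hB, ← Matrix.smul_mul, ← Matrix.mul_smul]
      congr 2
      ext i j
      simp [mul_assoc]
    · simp [dop₂_of_not_right hB]
  · simp [dop₂_of_not_left hA]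

theorem dop₂_sub (g g' : ℝ → ℝ → ℂ) (A : Matrix n n ℂ) (B : Matrix m m ℂ) (H : Matrix n m ℂ) :
    dop₂ (fun x y => g x y - g' x y) A B H = dop₂ g A B H - dop₂ g' A B H := by
  have h1 := dop₂_add g (fun x y => (-1) * g' x y) A B H
  rw [dop₂_smul] at h1
  simp only [neg_mul, one_mul, neg_smul, one_smul, ← sub_eq_add_neg] at h1
  exact h1

theorem dop₂_zero (A : Matrix n n ℂ) (B : Matrix m m ℂ) (H : Matrix n m ℂ) :
    dop₂ (fun _ _ => 0) A B H = 0 := by
  have h1 := dop₂_smul 0 (fun _ _ => 0) A B H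
  simpa using h1

theorem dop₂_sum {ι : Type*} (s : Finset ι) (g : ι → ℝ → ℝ → ℂ) (A : Matrix n n ℂ)
    (B : Matrix m m ℂ) (H : Matrix n m ℂ) :
    dop₂ (fun x y => ∑ k ∈ s, g k x y) A B H = ∑ k ∈ s, dop₂ (g k) A B H := by
  classical
  induction s using Finset.induction_on with
  | empty => simp [dop₂_zero]
  | insert a s ha ih => simp only [Finset.sum_insert ha, dop₂_add, ih]

/-- product kernels. -/
theorem dop₂_prod (a b : ℝ → ℂ) (A : Matrix n n ℂ) (B : Matrix m m ℂ) (H : Matrix n m ℂ) :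
    dop₂ (fun x y => a x * b y) A B H = mfun a A * H * mfun b B := by
  by_cases hA : A.IsHermitian
  · by_cases hB : B.IsHermitian
    · rw [dop₂_eq hA hB, mfun_eq hA, mfun_eq hB]
      set U := (hA.eigenvectorUnitary : Matrix n n ℂ)
      set W := (hB.eigenvectorUnitary : Matrix m m ℂ)
      have : (Matrix.of fun i j => a (hA.eigenvalues i) * b (hB.eigenvalues j) * (Uᴴ * H * W) i j)
          = diagonal (fun i => a (hA.eigenvalues i)) * (Uᴴ * H * W) *
            diagonal (fun j => b (hB.eigenvalues j)) := by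
        ext i j
        rw [Matrix.mul_diagonal, Matrix.diagonal_mul, Matrix.of_apply]
        ring
      rw [this]
      simp only [Matrix.mul_assoc]
    · simp [dop₂_of_not_right hB, mfun_of_not_isHermitian hB]
  · simp [dop₂_of_not_left hA, mfun_of_not_isHermitian hA]

theorem dop₂_one {A : Matrix n n ℂ} {B : Matrix m m ℂ} (hA : A.IsHermitian)
    (hB : B.IsHermitian) (H : Matrix n m ℂ) : dop₂ (fun _ _ => 1) A B H = H := by
  have h1 := dop₂_prod (fun _ => 1) (fun _ => 1) A B H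
  rw [mfun_one hA, mfun_one hB] at h1
  simpa using h1

/-- composition = product of kernels. -/
theorem dop₂_dop₂ (g g' : ℝ → ℝ → ℂ) (A : Matrix n n ℂ) (B : Matrix m m ℂ) (H : Matrix n m ℂ) :
    dop₂ g A B (dop₂ g' A B H) = dop₂ (fun x y => g x y * g' x y) A B H := by
  by_cases hA : A.IsHermitian
  · by_cases hB : B.IsHermitian
    · rw [dop₂_eq hA hB g, dop₂_eq hA hB g', dop₂_eq hA hB]
      set U := (hA.eigenvectorUnitary : Matrix n n ℂ)
      set W := (hB.eigenvectorUnitary : Matrix m m ℂ)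
      have hU : Uᴴ * U = 1 := eigU_conjTranspose_mul hA
      have hW : Wᴴ * W = 1 := eigU_conjTranspose_mul hB
      have : ∀ X : Matrix n m ℂ, Uᴴ * (U * X * Wᴴ) * W = X := by
        intro X
        calc Uᴴ * (U * X * Wᴴ) * W = (Uᴴ * U) * X * (Wᴴ * W) := by simp only [Matrix.mul_assoc]
          _ = X := by rw [hU, hW]; simp
      rw [this]
      congr 2
      ext i j
      simp [mul_assoc]
    · simp [dop₂_of_not_right hB]
  · simp [dop₂_of_not_left hA]

/-- sandwiching the output by functions of `A`, `B`. -/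
theorem mfun_mul_dop₂_mul_mfun (a b : ℝ → ℂ) (g : ℝ → ℝ → ℂ) (A : Matrix n n ℂ)
    (B : Matrix m m ℂ) (H : Matrix n m ℂ) :
    mfun a A * dop₂ g A B H * mfun b B = dop₂ (fun x y => a x * g x y * b y) A B H := by
  rw [← dop₂_prod, dop₂_dop₂]
  congr 1
  ext x y
  ring

/-- sandwiching the input by functions of `A`, `B`. -/
theorem dop₂_mfun_mul_mul_mfun (a b : ℝ → ℂ) (g : ℝ → ℝ → ℂ) (A : Matrix n n ℂ)
    (B : Matrix m m ℂ) (H : Matrix n m ℂ) :
    dop₂ g A B (mfun a A * H * mfun b B) = dop₂ (fun x y => a x * g x y * b y) A B H := by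
  rw [← dop₂_prod, dop₂_dop₂]
  congr 1
  ext x y
  ring

theorem dop₂_conjTranspose (g : ℝ → ℝ → ℂ) (A : Matrix n n ℂ) (B : Matrix m m ℂ)
    (H : Matrix n m ℂ) :
    (dop₂ g A B H)ᴴ = dop₂ (fun x y => star (g y x)) B A Hᴴ := by
  by_cases hA : A.IsHermitian
  · by_cases hB : B.IsHermitian
    · rw [dop₂_eq hA hB, dop₂_eq hB hA]
      set U := (hA.eigenvectorUnitary : Matrix n n ℂ)
      set W := (hB.eigenvectorUnitary : Matrix m m ℂ)
      have h1 : ∀ X : Matrix n m ℂ, (U * X * Wᴴ)ᴴ = W * Xᴴ * Uᴴ := by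
        intro X
        simp only [conjTranspose_mul, conjTranspose_conjTranspose, Matrix.mul_assoc]
      rw [h1]
      congr 2
      have h2 : Wᴴ * Hᴴ * U = (Uᴴ * H * W)ᴴ := by
        simp only [conjTranspose_mul, conjTranspose_conjTranspose, Matrix.mul_assoc]
      rw [h2]
      ext i j
      simp only [conjTranspose_apply, Matrix.of_apply, star_mul']
    · simp [dop₂_of_not_right hB, dop₂_of_not_left hB]
  · simp [dop₂_of_not_left hA, dop₂_of_not_right hA]

/-- on functions of `A` the double operator calculus is diagonal. -/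
theorem dop_mfun (g : ℝ → ℝ → ℂ) (φ : ℝ → ℂ) (A : Matrix n n ℂ) :
    dop g A (mfun φ A) = mfun (fun x => g x x * φ x) A := by
  by_cases hA : A.IsHermitian
  · rw [dop, dop₂_eq hA hA, mfun_eq hA, mfun_eq hA]
    set U := (hA.eigenvectorUnitary : Matrix n n ℂ)
    have hU : Uᴴ * U = 1 := eigU_conjTranspose_mul hA
    have : ∀ X : Matrix n n ℂ, Uᴴ * (U * X * Uᴴ) * U = X := by
      intro X
      calc Uᴴ * (U * X * Uᴴ) * U = (Uᴴ * U) * X * (Uᴴ * U) := by simp only [Matrix.mul_assoc]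
        _ = X := by rw [hU]; simp
    rw [this]
    congr 2
    ext i j
    by_cases hij : i = j
    · subst hij; simp
    · simp [hij]
  · simp [dop, dop₂_of_not_left hA, mfun_of_not_isHermitian hA]

theorem sum_eigP {B : Matrix m m ℂ} (hB : B.IsHermitian) : ∑ j, eigP hB j = 1 := by
  have := mfun_eq_sum_eigP hB (fun _ => 1)
  rw [mfun_one hB] at this
  simpa using this.symm

theorem mfun_mul_eigP {B : Matrix m m ℂ} (hB : B.IsHermitian) (f : ℝ → ℂ) (j : m) :
    mfun f B * eigP hB j = f (hB.eigenvalues j) • eigP hB j := by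
  rw [mfun_eq hB, eigP]
  set W := (hB.eigenvectorUnitary : Matrix m m ℂ)
  have hW : Wᴴ * W = 1 := eigU_conjTranspose_mul hB
  calc W * diagonal (fun i => f (hB.eigenvalues i)) * Wᴴ * (W * Matrix.single j j 1 * Wᴴ)
      = W * (diagonal (fun i => f (hB.eigenvalues i)) * (Wᴴ * W) * Matrix.single j j 1) * Wᴴ := by
        simp only [Matrix.mul_assoc]
    _ = W * (f (hB.eigenvalues j) • Matrix.single j j 1) * Wᴴ := by
        rw [hW, Matrix.mul_one]
        congr 2
        ext a b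
        rw [Matrix.diagonal_mul, Matrix.smul_apply, Matrix.single_apply]
        by_cases h : j = a ∧ j = b
        · obtain ⟨rfl, rfl⟩ := h; simp
        · simp [h]
    _ = _ := by rw [Matrix.mul_smul, Matrix.smul_mul]

theorem mul_eigP {B : Matrix m m ℂ} (hB : B.IsHermitian) (j : m) :
    B * eigP hB j = ((hB.eigenvalues j : ℝ) : ℂ) • eigP hB j := by
  have := mfun_mul_eigP hB (fun x => (x : ℂ)) j
  rwa [mfun_id hB] at this

/-- expansion over the eigenvectors of the right argument (used for Daleckii-Krein: the left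
argument only enters through `mfun`). -/
theorem dop₂_eq_sum_right (g : ℝ → ℝ → ℂ) (A : Matrix n n ℂ) {B : Matrix m m ℂ}
    (hB : B.IsHermitian) (H : Matrix n m ℂ) :
    dop₂ g A B H = ∑ j, mfun (fun x => g x (hB.eigenvalues j)) A * H * eigP hB j := by
  by_cases hA : A.IsHermitian
  · rw [dop₂_eq hA hB]
    set U := (hA.eigenvectorUnitary : Matrix n n ℂ)
    set W := (hB.eigenvectorUnitary : Matrix m m ℂ)
    have : (Matrix.of fun i j => g (hA.eigenvalues i) (hB.eigenvalues j) * (Uᴴ * H * W) i j)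
        = ∑ j, diagonal (fun i => g (hA.eigenvalues i) (hB.eigenvalues j)) * (Uᴴ * H * W) *
            Matrix.single j j (1 : ℂ) := by
      ext a b
      rw [Matrix.sum_apply, Finset.sum_eq_single b]
      · rw [Matrix.mul_single_apply_same, Matrix.diagonal_mul]; simp
      · intro c _ hc
        rw [Matrix.mul_single_apply_of_ne _ _ _ _ _ (Ne.symm hc)]
      · simp
    rw [this, Matrix.mul_sum, Matrix.sum_mul]
    refine Finset.sum_congr rfl fun j _ => ?_
    rw [mfun_eq hA, eigP]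
    simp only [Matrix.mul_assoc]
    rfl
  · simp [dop₂_of_not_left hA, mfun_of_not_isHermitian hA]

/-- expansion over both eigenbases. -/
theorem dop₂_eq_sum_eigP (g : ℝ → ℝ → ℂ) {A : Matrix n n ℂ} {B : Matrix m m ℂ}
    (hA : A.IsHermitian) (hB : B.IsHermitian) (H : Matrix n m ℂ) :
    dop₂ g A B H = ∑ j, ∑ i, g (hA.eigenvalues i) (hB.eigenvalues j) •
      (eigP hA i * H * eigP hB j) := by
  rw [dop₂_eq_sum_right g A hB]
  refine Finset.sum_congr rfl fun j _ => ?_
  rw [mfun_eq_sum_eigP hA, Matrix.sum_mul, Matrix.sum_mul]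
  refine Finset.sum_congr rfl fun i _ => ?_
  rw [Matrix.smul_mul, Matrix.smul_mul]

/-! ## (C) basis independence and its consequences -/

/-- finite rank expansion of the kernel: for finite sets `s`, `t` containing the eigenvalues. -/
theorem dop₂_eq_sum_ind (g : ℝ → ℝ → ℂ) {A : Matrix n n ℂ} {B : Matrix m m ℂ}
    (hA : A.IsHermitian) (hB : B.IsHermitian) (s t : Finset ℝ)
    (hs : ∀ i, hA.eigenvalues i ∈ s) (ht : ∀ j, hB.eigenvalues j ∈ t) (H : Matrix n m ℂ) :
    dop₂ g A B H = ∑ x ∈ s, ∑ y ∈ t, g x y •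
      (mfun (fun u => if u = x then 1 else 0) A * H * mfun (fun u => if u = y then 1 else 0) B) := by
  simp only [← dop₂_prod, ← dop₂_smul, ← dop₂_sum]
  refine dop₂_congr hA hB (fun i j => ?_) H
  rw [Finset.sum_eq_single (hA.eigenvalues i), Finset.sum_eq_single (hB.eigenvalues j)]
  · simp
  · intro y _ hy
    simp [Ne.symm hy]
  · intro h; exact absurd (ht j) h
  · intro x _ hx
    simp [Ne.symm hx]
  · intro h; exact absurd (hs i) h

/-- ANY unitary diagonalisations compute `dop₂`. -/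
theorem dop₂_of_decomp (g : ℝ → ℝ → ℂ) (V : Matrix n n ℂ) (hV : Vᴴ * V = 1) (hV' : V * Vᴴ = 1)
    (W : Matrix m m ℂ) (hW : Wᴴ * W = 1) (hW' : W * Wᴴ = 1) (d : n → ℝ) (e : m → ℝ)
    (H : Matrix n m ℂ) :
    dop₂ g (V * diagonal (fun i => ((d i : ℝ) : ℂ)) * Vᴴ)
        (W * diagonal (fun i => ((e i : ℝ) : ℂ)) * Wᴴ) H =
      V * (Matrix.of fun i j => g (d i) (e j) * (Vᴴ * H * W) i j) * Wᴴ := by
  have hA := isHermitian_isometry_conj V (isHermitian_diagonal_ofReal d)
  have hB := isHermitian_isometry_conj W (isHermitian_diagonal_ofReal e)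
  rw [dop₂_eq_sum_ind g hA hB (eigSet hA ∪ Finset.univ.image d) (eigSet hB ∪ Finset.univ.image e)
    (fun i => by simp [mem_eigSet]) (fun i => by simp [mem_eigSet])]
  simp only [mfun_of_decomp _ V hV hV', mfun_of_decomp _ W hW hW']
  have key : (Matrix.of fun i j => g (d i) (e j) * (Vᴴ * H * W) i j) =
      ∑ x ∈ eigSet hA ∪ Finset.univ.image d, ∑ y ∈ eigSet hB ∪ Finset.univ.image e, g x y •
        (diagonal (fun i => if d i = x then (1 : ℂ) else 0) * (Vᴴ * H * W) *
          diagonal (fun i => if e i = y then (1 : ℂ) else 0)) := by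
    ext i j
    simp only [Matrix.sum_apply, Matrix.smul_apply, Matrix.mul_diagonal, Matrix.diagonal_mul,
      Matrix.of_apply, smul_eq_mul]
    rw [Finset.sum_eq_single (d i), Finset.sum_eq_single (e j)]
    · simp
    · intro y _ hy
      simp [Ne.symm hy]
    · intro h; exact absurd (by simp) h
    · intro x _ hx
      simp [Ne.symm hx]
    · intro h; exact absurd (by simp) h
  rw [key, Matrix.mul_sum, Matrix.sum_mul]
  refine Finset.sum_congr rfl fun x _ => ?_
  rw [Matrix.mul_sum, Matrix.sum_mul]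
  refine Finset.sum_congr rfl fun y _ => ?_
  rw [Matrix.mul_smul, Matrix.smul_mul]
  simp only [Matrix.mul_assoc]

theorem dop₂_diagonal (g : ℝ → ℝ → ℂ) (d : n → ℝ) (e : m → ℝ) (H : Matrix n m ℂ) :
    dop₂ g (diagonal (fun i => ((d i : ℝ) : ℂ))) (diagonal (fun i => ((e i : ℝ) : ℂ))) H =
      Matrix.of fun i j => g (d i) (e j) * H i j := by
  have := dop₂_of_decomp g (1 : Matrix n n ℂ) (by simp) (by simp) (1 : Matrix m m ℂ) (by simp)
    (by simp) d e H
  simpa using this

theorem isHermitian_unitary_conj_iff (V : Matrix n m ℂ) (hV : Vᴴ * V = 1) (B : Matrix m m ℂ) :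
    (V * B * Vᴴ).IsHermitian ↔ B.IsHermitian := by
  refine ⟨fun h => ?_, fun h => isHermitian_isometry_conj V h⟩
  have h2 := isHermitian_isometry_conj Vᴴ h
  rw [conjTranspose_conjTranspose] at h2
  have h3 : Vᴴ * (V * B * Vᴴ) * V = B := by
    calc Vᴴ * (V * B * Vᴴ) * V = (Vᴴ * V) * B * (Vᴴ * V) := by simp only [Matrix.mul_assoc]
      _ = B := by rw [hV]; simp
  rwa [h3] at h2

theorem dop₂_unitary_conj (g : ℝ → ℝ → ℂ) (A : Matrix n n ℂ) (B : Matrix m m ℂ)
    (V : Matrix n n ℂ) (hV : Vᴴ * V = 1) (hV' : V * Vᴴ = 1)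
    (W : Matrix m m ℂ) (hW : Wᴴ * W = 1) (hW' : W * Wᴴ = 1) (H : Matrix n m ℂ) :
    dop₂ g (V * A * Vᴴ) (W * B * Wᴴ) (V * H * Wᴴ) = V * dop₂ g A B H * Wᴴ := by
  by_cases hA : A.IsHermitian
  · by_cases hB : B.IsHermitian
    · have hA' := isHermitian_isometry_conj V hA
      have hB' := isHermitian_isometry_conj W hB
      rw [dop₂_eq_sum_ind g hA' hB' (eigSet hA ∪ eigSet hA') (eigSet hB ∪ eigSet hB')
        (fun i => by simp [mem_eigSet]) (fun i => by simp [mem_eigSet]),
        dop₂_eq_sum_ind g hA hB (eigSet hA ∪ eigSet hA') (eigSet hB ∪ eigSet hB')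
        (fun i => by simp [mem_eigSet]) (fun i => by simp [mem_eigSet]), Matrix.mul_sum,
        Matrix.sum_mul]
      refine Finset.sum_congr rfl fun x _ => ?_
      rw [Matrix.mul_sum, Matrix.sum_mul]
      refine Finset.sum_congr rfl fun y _ => ?_
      rw [Matrix.mul_smul, Matrix.smul_mul, mfun_unitary_conj _ V hV hV',
        mfun_unitary_conj _ W hW hW']
      congr 1
      set P := mfun (fun u => if u = x then (1 : ℂ) else 0) A
      set Q := mfun (fun u => if u = y then (1 : ℂ) else 0) B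
      calc V * P * Vᴴ * (V * H * Wᴴ) * (W * Q * Wᴴ)
          = V * P * (Vᴴ * V) * H * (Wᴴ * W) * Q * Wᴴ := by simp only [Matrix.mul_assoc]
        _ = V * (P * H * Q) * Wᴴ := by
            rw [hV, hW]; simp only [Matrix.mul_one, Matrix.mul_assoc]
    · rw [dop₂_of_not_right hB, dop₂_of_not_right
        (fun h => hB ((isHermitian_unitary_conj_iff W hW B).1 h))]
      simp
  · rw [dop₂_of_not_left hA, dop₂_of_not_left
      (fun h => hA ((isHermitian_unitary_conj_iff V hV A).1 h))]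
    simp

/-- block diagonal arguments. -/
theorem dop_fromBlocks (g : ℝ → ℝ → ℂ) {A : Matrix n n ℂ} {B : Matrix m m ℂ}
    (hA : A.IsHermitian) (hB : B.IsHermitian) (H₁₁ : Matrix n n ℂ) (H₁₂ : Matrix n m ℂ)
    (H₂₁ : Matrix m n ℂ) (H₂₂ : Matrix m m ℂ) :
    dop g (fromBlocks A 0 0 B) (fromBlocks H₁₁ H₁₂ H₂₁ H₂₂) =
      fromBlocks (dop g A H₁₁) (dop₂ g A B H₁₂) (dop₂ g B A H₂₁) (dop g B H₂₂) := by
  have hAB := mfx_isHermitian_fromBlocks hA hB
  set s := eigSet hA ∪ eigSet hB ∪ eigSet hAB with hs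
  have h1 : ∀ i, hA.eigenvalues i ∈ s := fun i => by simp [hs, mem_eigSet]
  have h2 : ∀ i, hB.eigenvalues i ∈ s := fun i => by simp [hs, mem_eigSet]
  have h3 : ∀ i, hAB.eigenvalues i ∈ s := fun i => by simp [hs, mem_eigSet]
  have hsum : ∀ (t : Finset ℝ) (a : ℝ → Matrix n n ℂ) (b : ℝ → Matrix n m ℂ) (c : ℝ → Matrix m n ℂ)
      (d : ℝ → Matrix m m ℂ), ∑ x ∈ t, fromBlocks (a x) (b x) (c x) (d x) =
        fromBlocks (∑ x ∈ t, a x) (∑ x ∈ t, b x) (∑ x ∈ t, c x) (∑ x ∈ t, d x) := by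
    intro t a b c d
    induction t using Finset.induction_on with
    | empty => simp
    | insert x t hx ih => simp only [Finset.sum_insert hx, ih, fromBlocks_add]
  rw [dop, dop, dop, dop₂_eq_sum_ind g hAB hAB s s h3 h3, dop₂_eq_sum_ind g hA hA s s h1 h1,
    dop₂_eq_sum_ind g hA hB s s h1 h2, dop₂_eq_sum_ind g hB hA s s h2 h1,
    dop₂_eq_sum_ind g hB hB s s h2 h2]
  simp only [mfx_fromBlocks _ hA hB, fromBlocks_multiply, fromBlocks_smul, hsum, Matrix.mul_zero,
    Matrix.zero_mul, add_zero, zero_add]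

/-- `dop₂` commutes with integrals in the kernel (entrywise form). -/
theorem dop₂_integral {α : Type*} [MeasurableSpace α] (μ : MeasureTheory.Measure α)
    (G : α → ℝ → ℝ → ℂ) {A : Matrix n n ℂ} {B : Matrix m m ℂ} (hA : A.IsHermitian)
    (hB : B.IsHermitian) (H : Matrix n m ℂ)
    (hG : ∀ i j, MeasureTheory.Integrable (fun a => G a (hA.eigenvalues i) (hB.eigenvalues j)) μ)
    (i : n) (j : m) :
    MeasureTheory.Integrable (fun a => dop₂ (G a) A B H i j) μ ∧
      dop₂ (fun x y => ∫ a, G a x y ∂μ) A B H i j = ∫ a, dop₂ (G a) A B H i j ∂μ := by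
  simp only [dop₂_eq_sum_eigP _ hA hB, Matrix.sum_apply, Matrix.smul_apply, smul_eq_mul]
  refine ⟨MeasureTheory.integrable_finsetSum _ fun k _ =>
    MeasureTheory.integrable_finsetSum _ fun l _ => (hG l k).mul_const _, ?_⟩
  rw [MeasureTheory.integral_finsetSum _ fun k _ =>
    MeasureTheory.integrable_finsetSum _ fun l _ => (hG l k).mul_const _]
  refine Finset.sum_congr rfl fun k _ => ?_
  rw [MeasureTheory.integral_finsetSum _ fun l _ => (hG l k).mul_const _]
  refine Finset.sum_congr rfl fun l _ => ?_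
  rw [MeasureTheory.integral_mul_const]

/-- a positive semidefinite kernel gives a positive map (Schur product theorem,
`Matrix.PosSemidef.hadamard`). -/
theorem dop_posSemidef {g : ℝ → ℝ → ℂ} {A : Matrix n n ℂ} (hA : A.IsHermitian)
    (hg : (Matrix.of fun i j => g (hA.eigenvalues i) (hA.eigenvalues j)).PosSemidef)
    {H : Matrix n n ℂ} (hH : H.PosSemidef) : (dop g A H).PosSemidef := by
  rw [dop, dop₂_eq hA hA]
  exact (hg.hadamard (hH.conjTranspose_mul_mul_same _)).mul_mul_conjTranspose_same _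

/-- Kraus form of a Schur multiplier with positive semidefinite kernel. -/
theorem dop_exists_kraus {g : ℝ → ℝ → ℂ} {A : Matrix n n ℂ} (hA : A.IsHermitian)
    (hg : (Matrix.of fun i j => g (hA.eigenvalues i) (hA.eigenvalues j)).PosSemidef) :
    ∃ K : n → Matrix n n ℂ, ∀ H, dop g A H = ∑ k, (K k)ᴴ * H * K k := by
  obtain ⟨R, hR⟩ := CStarAlgebra.nonneg_iff_eq_star_mul_self.mp hg.nonneg
  set U := (hA.eigenvectorUnitary : Matrix n n ℂ) with hU
  refine ⟨fun k => U * diagonal (fun i => R k i) * Uᴴ, fun H => ?_⟩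
  rw [dop, dop₂_eq hA hA]
  have key : (Matrix.of fun i j => g (hA.eigenvalues i) (hA.eigenvalues j) * (Uᴴ * H * U) i j) =
      ∑ k, diagonal (fun i => star (R k i)) * (Uᴴ * H * U) * diagonal (fun i => R k i) := by
    ext i j
    have h1 : g (hA.eigenvalues i) (hA.eigenvalues j) = ∑ k, star (R k i) * R k j := by
      have := congrFun (congrFun hR i) j
      simpa [Matrix.mul_apply, star_eq_conjTranspose] using this
    simp only [Matrix.sum_apply, Matrix.mul_diagonal, Matrix.diagonal_mul, Matrix.of_apply, h1,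
      Finset.sum_mul]
    refine Finset.sum_congr rfl fun k _ => by ring
  rw [← hU, key, Matrix.mul_sum, Matrix.sum_mul]
  refine Finset.sum_congr rfl fun k _ => ?_
  simp only [conjTranspose_mul, conjTranspose_conjTranspose, diagonal_conjTranspose,
    Matrix.mul_assoc]
  rfl

end Claimed.Agent.R296
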