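/-
Row 296, chain BB_Means (P1 Sec 6), file 2: real powers and logarithm of POSITIVE DEFINITE matrices.
`rpw A r = hpow A (r : ℂ)` (helper57's hat power at a real exponent).  Prefix `rpw_` / `pd_`.
Everything here is a short consequence of `MatFun.lean` / `MatPow.lean` (symbol identities on the
positive eigenvalues) or a bridge to Mathlib's `CFC.rpow`, `CFC.log` (operator monotonicity).
Owner: helper80.  Proofs: helper98.
-/
import Claimed.Agent.R296.MatDop
import Claimed.Agent.R296.MatFun2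

set_option autoImplicit false
set_option linter.unusedSectionVars false
set_option linter.unusedDecidableInType false

namespace Claimed.Agent.R296

open Matrix
open scoped MatrixOrder Matrix.Norms.L2Operator ComplexOrder

variable {n m : Type*} [Fintype n] [DecidableEq n] [Fintype m] [DecidableEq m]

/-- real power of a positive definite matrix. -/
noncomputable def rpw (A : Matrix n n ℂ) (r : ℝ) : Matrix n n ℂ := hpow A (r : ℂ)

/-! ## (A) group law and elementary identities -/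

theorem rpw_eq_mfun {A : Matrix n n ℂ} (hA : A.PosDef) (r : ℝ) :
    rpw A r = mfun (fun x => ((x ^ r : ℝ) : ℂ)) A :=
  mfun_congr hA.1 fun i => hpowS_ofReal (hA.eigenvalues_pos i) r

theorem pd_hpow_eq_spow {A : Matrix n n ℂ} (hA : A.PosDef) (z : ℂ) : hpow A z = spow A z :=
  (spow_eq_hpow_of_posDef hA z).symm

theorem rpw_add (A : Matrix n n ℂ) (r s : ℝ) : rpw A (r + s) = rpw A r * rpw A s := by
  unfold rpw; rw [Complex.ofReal_add, hpow_add]

theorem rpw_zero {A : Matrix n n ℂ} (hA : A.IsHermitian) : rpw A 0 = 1 := by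
  unfold rpw; rw [Complex.ofReal_zero, hpow_zero hA]

theorem rpw_one {A : Matrix n n ℂ} (hA : A.PosDef) : rpw A 1 = A := by
  unfold rpw; rw [Complex.ofReal_one, pd_hpow_eq_spow hA, spow_one hA.posSemidef]

theorem rpw_neg_mul {A : Matrix n n ℂ} (hA : A.IsHermitian) (r : ℝ) :
    rpw A (-r) * rpw A r = 1 := by
  rw [← rpw_add, neg_add_cancel, rpw_zero hA]

theorem rpw_mul_neg {A : Matrix n n ℂ} (hA : A.IsHermitian) (r : ℝ) :
    rpw A r * rpw A (-r) = 1 := by
  rw [← rpw_add, add_neg_cancel, rpw_zero hA]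

theorem rpw_neg_one {A : Matrix n n ℂ} (hA : A.PosDef) : rpw A (-1) = A⁻¹ := by
  have h := rpw_neg_mul hA.1 1
  rw [rpw_one hA] at h
  exact (inv_eq_left_inv h).symm

theorem rpw_half_mul_half {A : Matrix n n ℂ} (hA : A.PosDef) :
    rpw A (1 / 2) * rpw A (1 / 2) = A := by
  rw [← rpw_add]; norm_num; exact rpw_one hA

theorem rpw_neg_half_mul_mul {A : Matrix n n ℂ} (hA : A.PosDef) :
    rpw A (-(1 / 2)) * A * rpw A (-(1 / 2)) = 1 := by
  have h : rpw A (-(1 / 2)) * rpw A 1 * rpw A (-(1 / 2)) = 1 := by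
    rw [← rpw_add, ← rpw_add]; norm_num; exact rpw_zero hA.1
  rwa [rpw_one hA] at h

theorem rpw_isHermitian (A : Matrix n n ℂ) (r : ℝ) : (rpw A r).IsHermitian := by
  unfold rpw
  rw [IsHermitian, hpow_conjTranspose]
  congr 1
  exact Complex.conj_ofReal r

theorem rpw_posDef {A : Matrix n n ℂ} (hA : A.IsHermitian) (r : ℝ) : (rpw A r).PosDef :=
  hpow_posDef hA r

theorem rpw_comm (A : Matrix n n ℂ) (r s : ℝ) : rpw A r * rpw A s = rpw A s * rpw A r :=
  hpow_comm A _ _

theorem rpw_commute {A B : Matrix n n ℂ} (h : Commute B A) (r : ℝ) : Commute B (rpw A r) :=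
  hpow_commute h _

/-- `(A^r)^z = A^(r z)`. -/
theorem pd_hpow_rpw {A : Matrix n n ℂ} (hA : A.PosDef) (r : ℝ) (z : ℂ) :
    hpow (rpw A r) z = hpow A (r * z) :=
  hpow_hpow hA.1 r z

theorem rpw_rpw {A : Matrix n n ℂ} (hA : A.PosDef) (r s : ℝ) :
    rpw (rpw A r) s = rpw A (r * s) := by
  unfold rpw; rw [hpow_hpow hA.1, Complex.ofReal_mul]

theorem rpw_smul {A : Matrix n n ℂ} (hA : A.PosDef) {c : ℝ} (hc : 0 < c) (r : ℝ) :
    rpw ((c : ℂ) • A) r = ((c ^ r : ℝ) : ℂ) • rpw A r := by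
  unfold rpw; rw [hpow_smul_of_posDef hA hc, spowS_ofReal hc]

theorem rpw_inv {A : Matrix n n ℂ} (hA : A.PosDef) (r : ℝ) : rpw A⁻¹ r = rpw A (-r) := by
  rw [← rpw_neg_one hA, rpw_rpw hA, neg_one_mul]

theorem pd_one_eq_diagonal : (1 : Matrix n n ℂ) = diagonal (fun _ : n => ((1 : ℝ) : ℂ)) := by
  rw [Complex.ofReal_one, diagonal_one]

theorem rpw_one_matrix (r : ℝ) : rpw (1 : Matrix n n ℂ) r = 1 := by
  unfold rpw hpow
  rw [pd_one_eq_diagonal, mfun_diagonal]
  simp [hpowS]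

theorem pd_smul {A : Matrix n n ℂ} (hA : A.PosDef) {c : ℝ} (hc : 0 < c) :
    ((c : ℂ) • A).PosDef :=
  hA.smul (by exact_mod_cast hc)

/-- congruence by an invertible matrix keeps positive definiteness. -/
theorem pd_conj {A : Matrix n n ℂ} (hA : A.PosDef) {S : Matrix n n ℂ} (hS : IsUnit S) :
    (Sᴴ * A * S).PosDef :=
  hA.conjTranspose_mul_mul_same (mulVec_injective_of_isUnit hS)

theorem pd_isUnit {A : Matrix n n ℂ} (hA : A.PosDef) : IsUnit A := hA.isUnit

theorem rpw_isUnit {A : Matrix n n ℂ} (hA : A.IsHermitian) (r : ℝ) : IsUnit (rpw A r) :=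
  (rpw_posDef hA r).isUnit

theorem pd_fromBlocks {A : Matrix n n ℂ} {B : Matrix m m ℂ} (hA : A.PosDef) (hB : B.PosDef) :
    (fromBlocks A 0 0 B).PosDef := by
  set S : Matrix (n ⊕ m) (n ⊕ m) ℂ := fromBlocks (rpw A (1 / 2)) 0 0 (rpw B (1 / 2)) with hS
  have hSu : IsUnit S := by
    refine IsUnit.of_mul_eq_one (fromBlocks (rpw A (-(1 / 2))) 0 0 (rpw B (-(1 / 2)))) ?_
    rw [hS, fromBlocks_multiply]
    simp [rpw_mul_neg hA.1, rpw_mul_neg hB.1, fromBlocks_one]
  have h1 : fromBlocks A 0 0 B = Sᴴ * 1 * S := by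
    rw [hS, fromBlocks_conjTranspose, (rpw_isHermitian A _).eq, (rpw_isHermitian B _).eq,
      Matrix.mul_one, fromBlocks_multiply]
    simp only [Matrix.mul_zero, Matrix.zero_mul, add_zero, zero_add, rpw_half_mul_half hA,
      rpw_half_mul_half hB, conjTranspose_zero]
  rw [h1]
  exact pd_conj PosDef.one hSu

theorem rpw_fromBlocks {A : Matrix n n ℂ} {B : Matrix m m ℂ} (hA : A.IsHermitian)
    (hB : B.IsHermitian) (r : ℝ) :
    rpw (fromBlocks A 0 0 B) r = fromBlocks (rpw A r) 0 0 (rpw B r) :=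
  mfun_fromBlocks _ hA hB

theorem pd_hpow_fromBlocks {A : Matrix n n ℂ} {B : Matrix m m ℂ} (hA : A.IsHermitian)
    (hB : B.IsHermitian) (z : ℂ) :
    hpow (fromBlocks A 0 0 B) z = fromBlocks (hpow A z) 0 0 (hpow B z) :=
  mfun_fromBlocks _ hA hB

theorem rpw_unitary_conj (V : Matrix n m ℂ) (hV : Vᴴ * V = 1) (hV' : V * Vᴴ = 1)
    (B : Matrix m m ℂ) (r : ℝ) : rpw (V * B * Vᴴ) r = V * rpw B r * Vᴴ :=
  hpow_unitary_conj V hV hV' B _

/-! ## (B) commuting products -/

theorem pd_mul_of_commute {A B : Matrix n n ℂ} (hA : A.PosDef) (hB : B.PosDef)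
    (h : Commute A B) : (A * B).PosDef := by
  have hc : Commute B (rpw A (1 / 2)) := rpw_commute h.symm _
  have h1 : A * B = (rpw A (1 / 2))ᴴ * B * rpw A (1 / 2) := by
    rw [(rpw_isHermitian A _).eq, Matrix.mul_assoc, hc.eq, ← Matrix.mul_assoc, rpw_half_mul_half hA]
  rw [h1]
  exact pd_conj hB (rpw_isUnit hA.1 _)

/-- spectral projection of `A` for the value `a` -/
noncomputable def pd_proj (A : Matrix n n ℂ) (a : ℝ) : Matrix n n ℂ :=
  mfun (fun x => if x = a then 1 else 0) A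

theorem pd_proj_mul_proj (A : Matrix n n ℂ) (a a' : ℝ) :
    pd_proj A a * pd_proj A a' = if a = a' then pd_proj A a else 0 := by
  unfold pd_proj
  rw [← mfun_mul]
  by_cases h : a = a'
  · subst h
    rw [if_pos rfl]
    congr 1; ext x; by_cases hx : x = a <;> simp [hx]
  · rw [if_neg h, ← mfun_zero A]
    congr 1; ext x
    by_cases hx : x = a
    · subst hx; simp [h]
    · simp [hx]

/-- spectral resolution with the projections `pd_proj` -/
theorem pd_mfun_eq_sum_proj {A : Matrix n n ℂ} (hA : A.IsHermitian) (g : ℝ → ℂ) :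
    mfun g A = ∑ a ∈ eigSet hA, g a • pd_proj A a := by
  unfold pd_proj
  simp only [← mfun_smul, ← mfun_sum]
  refine mfun_congr hA fun i => ?_
  rw [Finset.sum_eq_single (hA.eigenvalues i)]
  · simp
  · intro b _ hb; simp [Ne.symm hb]
  · intro h; exact absurd (mem_eigSet hA i) h

/-- powers of `∑ c_k E_k` for an orthogonal resolution of the identity -/
theorem pd_resolution_pow {ι : Type*} [DecidableEq ι] (s : Finset ι) (E : ι → Matrix n n ℂ)
    (c : ι → ℂ) (hE : ∀ k ∈ s, ∀ l ∈ s, E k * E l = if k = l then E k else 0)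
    (h1 : ∑ k ∈ s, E k = 1) (j : ℕ) :
    (∑ k ∈ s, c k • E k) ^ j = ∑ k ∈ s, c k ^ j • E k := by
  induction j with
  | zero => simp [h1]
  | succ j ih =>
    rw [pow_succ, ih, Finset.sum_mul_sum]
    refine Finset.sum_congr rfl fun k hk => ?_
    rw [Finset.sum_eq_single k]
    · rw [Matrix.smul_mul, Matrix.mul_smul, hE k hk k hk, if_pos rfl, smul_smul, pow_succ]
    · intro l hl hlk
      rw [Matrix.smul_mul, Matrix.mul_smul, hE k hk l hl, if_neg (Ne.symm hlk), smul_zero, smul_zero]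
    · intro h; exact absurd hk h

theorem pd_resolution_aeval {ι : Type*} [DecidableEq ι] (s : Finset ι) (E : ι → Matrix n n ℂ)
    (c : ι → ℂ) (hE : ∀ k ∈ s, ∀ l ∈ s, E k * E l = if k = l then E k else 0)
    (h1 : ∑ k ∈ s, E k = 1) (p : Polynomial ℂ) :
    Polynomial.aeval (∑ k ∈ s, c k • E k) p = ∑ k ∈ s, p.eval (c k) • E k := by
  induction p using Polynomial.induction_on' with
  | add p q hp hq => simp only [map_add, hp, hq, Polynomial.eval_add, add_smul, Finset.sum_add_distrib]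
  | monomial j a =>
    simp only [Polynomial.aeval_monomial, Polynomial.eval_monomial, Algebra.algebraMap_eq_smul_one,
      Matrix.smul_mul, Matrix.one_mul, pd_resolution_pow s E c hE h1, Finset.smul_sum, smul_smul]

/-- `f (∑ c_k E_k) = ∑ f(c_k) E_k` for an orthogonal resolution of the identity -/
theorem pd_mfun_resolution {ι : Type*} [DecidableEq ι] (f : ℝ → ℂ) (s : Finset ι)
    (E : ι → Matrix n n ℂ) (c : ι → ℝ)
    (hE : ∀ k ∈ s, ∀ l ∈ s, E k * E l = if k = l then E k else 0) (h1 : ∑ k ∈ s, E k = 1)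
    (hH : (∑ k ∈ s, (c k : ℂ) • E k).IsHermitian) :
    mfun f (∑ k ∈ s, (c k : ℂ) • E k) = ∑ k ∈ s, f (c k) • E k := by
  obtain ⟨p, hp⟩ := exists_poly_eq_on (eigSet hH ∪ s.image c) f
  rw [mfun_eq_aeval hH f p fun i => hp _ (by simp [mem_eigSet]),
    pd_resolution_aeval s E (fun k => (c k : ℂ)) hE h1]
  refine Finset.sum_congr rfl fun k hk => ?_
  rw [hp (c k) (Finset.mem_union_right _ (Finset.mem_image_of_mem _ hk))]

theorem pd_sum_proj {A : Matrix n n ℂ} (hA : A.IsHermitian) : ∑ a ∈ eigSet hA, pd_proj A a = 1 := by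
  have := pd_mfun_eq_sum_proj hA (fun _ => 1)
  rw [mfun_one hA] at this
  simpa using this.symm

theorem pd_proj2_mul {A B : Matrix n n ℂ} (h : Commute A B) (k l : ℝ × ℝ) :
    (pd_proj A k.1 * pd_proj B k.2) * (pd_proj A l.1 * pd_proj B l.2)
        = if k = l then pd_proj A k.1 * pd_proj B k.2 else 0 := by
  have hc : ∀ a b, Commute (pd_proj A a) (pd_proj B b) := fun a b => mfun_commute_mfun _ _ h
  have e : (pd_proj A k.1 * pd_proj B k.2) * (pd_proj A l.1 * pd_proj B l.2)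
      = (pd_proj A k.1 * pd_proj A l.1) * (pd_proj B k.2 * pd_proj B l.2) := by
    rw [Matrix.mul_assoc, ← Matrix.mul_assoc (pd_proj B k.2), ← (hc l.1 k.2).eq]
    simp only [Matrix.mul_assoc]
  rw [e, pd_proj_mul_proj, pd_proj_mul_proj]
  by_cases h1 : k.1 = l.1
  · by_cases h2 : k.2 = l.2
    · rw [if_pos h1, if_pos h2, if_pos (Prod.ext h1 h2)]
    · rw [if_neg h2, if_neg (fun hkl => h2 (congrArg Prod.snd hkl)), Matrix.mul_zero]
  · rw [if_neg h1, if_neg (fun hkl => h1 (congrArg Prod.fst hkl)), Matrix.zero_mul]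

theorem pd_sum_proj2 {A B : Matrix n n ℂ} (hA : A.IsHermitian) (hB : B.IsHermitian) :
    ∑ k ∈ eigSet hA ×ˢ eigSet hB, pd_proj A k.1 * pd_proj B k.2 = 1 := by
  rw [Finset.sum_product, ← Finset.sum_mul_sum, pd_sum_proj hA, pd_sum_proj hB, Matrix.one_mul]

theorem pd_mul_eq_sum_proj2 {A B : Matrix n n ℂ} (hA : A.IsHermitian) (hB : B.IsHermitian) :
    A * B = ∑ k ∈ eigSet hA ×ˢ eigSet hB,
      ((k.1 * k.2 : ℝ) : ℂ) • (pd_proj A k.1 * pd_proj B k.2) := by
  have eA := pd_mfun_eq_sum_proj hA (fun x => (x : ℂ))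
  have eB := pd_mfun_eq_sum_proj hB (fun x => (x : ℂ))
  rw [mfun_id hA] at eA
  rw [mfun_id hB] at eB
  conv_lhs => rw [eA, eB]
  rw [Finset.sum_mul_sum, Finset.sum_product]
  refine Finset.sum_congr rfl fun a _ => Finset.sum_congr rfl fun b _ => ?_
  rw [Matrix.smul_mul, Matrix.mul_smul, smul_smul, Complex.ofReal_mul]

/-- joint functional calculus of two commuting Hermitian matrices, evaluated on the product -/
theorem pd_mfun_mul_eq_sum {A B : Matrix n n ℂ} (hA : A.IsHermitian) (hB : B.IsHermitian)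
    (h : Commute A B) (f : ℝ → ℂ) :
    mfun f (A * B) = ∑ ab ∈ eigSet hA ×ˢ eigSet hB, f (ab.1 * ab.2) • (pd_proj A ab.1 * pd_proj B ab.2) := by
  have hAB := pd_mul_eq_sum_proj2 hA hB
  have hH : (∑ k ∈ eigSet hA ×ˢ eigSet hB,
      ((k.1 * k.2 : ℝ) : ℂ) • (pd_proj A k.1 * pd_proj B k.2)).IsHermitian := by
    rw [← hAB, IsHermitian, conjTranspose_mul, hA.eq, hB.eq, h.eq]
  have key := pd_mfun_resolution f (eigSet hA ×ˢ eigSet hB) (fun k => pd_proj A k.1 * pd_proj B k.2)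
    (fun k => k.1 * k.2) (fun k _ l _ => pd_proj2_mul h k l) (pd_sum_proj2 hA hB) hH
  rw [← hAB] at key
  exact key

/-- multiplicative symbols -/
theorem pd_mfun_mul_of_commute {A B : Matrix n n ℂ} (hA : A.IsHermitian) (hB : B.IsHermitian)
    (h : Commute A B) (f g k : ℝ → ℂ)
    (hf : ∀ i j, f (hA.eigenvalues i * hB.eigenvalues j) = g (hA.eigenvalues i) * k (hB.eigenvalues j)) :
    mfun f (A * B) = mfun g A * mfun k B := by
  rw [pd_mfun_mul_eq_sum hA hB h, pd_mfun_eq_sum_proj hA g, pd_mfun_eq_sum_proj hB k,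
    Finset.sum_mul_sum, Finset.sum_product]
  refine Finset.sum_congr rfl fun a ha => Finset.sum_congr rfl fun b hb => ?_
  obtain ⟨i, _, rfl⟩ := Finset.mem_image.1 ha
  obtain ⟨j, _, rfl⟩ := Finset.mem_image.1 hb
  rw [Matrix.smul_mul, Matrix.mul_smul, smul_smul, hf]

/-- additive symbols -/
theorem pd_mfun_mul_of_commute_add {A B : Matrix n n ℂ} (hA : A.IsHermitian) (hB : B.IsHermitian)
    (h : Commute A B) (f g k : ℝ → ℂ)
    (hf : ∀ i j, f (hA.eigenvalues i * hB.eigenvalues j) = g (hA.eigenvalues i) + k (hB.eigenvalues j)) :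
    mfun f (A * B) = mfun g A + mfun k B := by
  have e1 : mfun g A = mfun g A * mfun (fun _ => 1) B := by rw [mfun_one hB, Matrix.mul_one]
  have e2 : mfun k B = mfun (fun _ => 1) A * mfun k B := by rw [mfun_one hA, Matrix.one_mul]
  rw [e1, e2, pd_mfun_mul_eq_sum hA hB h, pd_mfun_eq_sum_proj hA g, pd_mfun_eq_sum_proj hB k,
    pd_mfun_eq_sum_proj hA (fun _ => 1), pd_mfun_eq_sum_proj hB (fun _ => 1),
    Finset.sum_mul_sum, Finset.sum_mul_sum, Finset.sum_product, ← Finset.sum_add_distrib]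
  refine Finset.sum_congr rfl fun a ha => ?_
  rw [← Finset.sum_add_distrib]
  refine Finset.sum_congr rfl fun b hb => ?_
  obtain ⟨i, _, rfl⟩ := Finset.mem_image.1 ha
  obtain ⟨j, _, rfl⟩ := Finset.mem_image.1 hb
  simp only [Matrix.smul_mul, Matrix.mul_smul, one_smul, hf, add_smul]

/-- powers of a product of commuting positive definite matrices.
(Proved by the joint spectral resolution `pd_mfun_mul_eq_sum`.) -/
theorem pd_hpow_mul_of_commute {A B : Matrix n n ℂ} (hA : A.PosDef) (hB : B.PosDef)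
    (h : Commute A B) (z : ℂ) : hpow (A * B) z = hpow A z * hpow B z :=
  pd_mfun_mul_of_commute hA.1 hB.1 h _ _ _ fun i j => by
    have ha := hA.eigenvalues_pos i
    have hb := hB.eigenvalues_pos j
    rw [hpowS_pos ha, hpowS_pos hb, hpowS_pos (mul_pos ha hb), ← spowS_pos ha, ← spowS_pos hb,
      ← spowS_pos (mul_pos ha hb)]
    exact mf2_spowS_mul ha.le hb.le z

theorem rpw_mul_of_commute {A B : Matrix n n ℂ} (hA : A.PosDef) (hB : B.PosDef)
    (h : Commute A B) (r : ℝ) : rpw (A * B) r = rpw A r * rpw B r :=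
  pd_hpow_mul_of_commute hA hB h _

theorem pd_mlog_mul_of_commute {A B : Matrix n n ℂ} (hA : A.PosDef) (hB : B.PosDef)
    (h : Commute A B) : mlog (A * B) = mlog A + mlog B :=
  pd_mfun_mul_of_commute_add hA.1 hB.1 h _ _ _ fun i j => by
    rw [Real.log_mul (hA.eigenvalues_pos i).ne' (hB.eigenvalues_pos j).ne', Complex.ofReal_add]

/-! ## (C) logarithm -/

theorem pd_mlog_isHermitian (A : Matrix n n ℂ) : (mlog A).IsHermitian :=
  mfun_isHermitian Real.log A

theorem pd_mlog_rpw {A : Matrix n n ℂ} (hA : A.PosDef) (r : ℝ) :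
    mlog (rpw A r) = (r : ℂ) • mlog A := by
  rw [rpw_eq_mfun hA]
  unfold mlog
  rw [mfun_comp _ _ _ hA.1, ← mfun_smul]
  refine mfun_congr hA.1 fun i => ?_
  rw [Real.log_rpow (hA.eigenvalues_pos i), Complex.ofReal_mul]

theorem pd_mlog_smul {A : Matrix n n ℂ} (hA : A.PosDef) {c : ℝ} (hc : 0 < c) :
    mlog ((c : ℂ) • A) = (Real.log c : ℂ) • (1 : Matrix n n ℂ) + mlog A := by
  have h := mfun_affine (fun x => (Real.log x : ℂ)) hA.1 c 0
  simp only [Complex.ofReal_zero, zero_smul, add_zero] at h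
  unfold mlog
  rw [h, ← mfun_const hA.1, ← mfun_add]
  refine mfun_congr hA.1 fun i => ?_
  rw [Real.log_mul hc.ne' (hA.eigenvalues_pos i).ne', Complex.ofReal_add]

theorem pd_mlog_one : mlog (1 : Matrix n n ℂ) = 0 := by
  unfold mlog
  rw [pd_one_eq_diagonal, mfun_diagonal]
  simp

/-- derivative of `r ↦ A^r`. -/
theorem rpw_hasDerivAt_exponent {A : Matrix n n ℂ} (hA : A.PosDef) (p : ℝ) :
    HasDerivAt (fun r : ℝ => rpw A r) (rpw A p * mlog A) p := by
  have e : rpw A p * mlog A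
      = ∑ i, ((Real.log (hA.1.eigenvalues i) : ℂ) * spowS (p : ℂ) (hA.1.eigenvalues i)) • eigP hA.1 i := by
    rw [← mfun_eq_sum_eigP hA.1 (fun x => (Real.log x : ℂ) * spowS (p : ℂ) x), mfun_mul]
    unfold rpw
    rw [pd_hpow_eq_spow hA]
    exact (mfun_commute_self _ _ A).eq
  rw [e]
  unfold rpw hpow
  simp only [mfun_eq_sum_eigP hA.1]
  exact HasDerivAt.fun_sum fun i _ =>
    ((hasDerivAt_hpowS (hA.1.eigenvalues i) (p : ℂ)).comp_ofReal).smul_const _

/-- `(A^r - 1)/r → log A` as `r → 0`. -/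
theorem pd_tendsto_rpw_sub_one_div {A : Matrix n n ℂ} (hA : A.PosDef) :
    Filter.Tendsto (fun r : ℝ => ((1 / r : ℝ) : ℂ) • (rpw A r - 1)) (nhdsWithin 0 {0}ᶜ)
      (nhds (mlog A)) := by
  have h := (rpw_hasDerivAt_exponent hA 0).tendsto_slope
  rw [rpw_zero hA.1, Matrix.one_mul] at h
  refine h.congr fun r => ?_
  rw [slope_def_module, rpw_zero hA.1, sub_zero, one_div]
  ext i j
  simp

end Claimed.Agent.R296
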