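/-
Row 296, chain BB_Means, file 2b: positive definite matrices: bridges to Mathlib's cfc, operator
monotonicity of `x^p` and `log`, order lemmas, scalar Jensen inequalities for quadratic forms.
Prefix `rpw_` / `pd_`.   Owner: helper80.  Proofs: helper98.
-/
import Claimed.Agent.R296.MatPD

set_option autoImplicit false
set_option linter.unusedSectionVars false
set_option linter.unusedDecidableInType false

namespace Claimed.Agent.R296

open Matrix
open scoped MatrixOrder Matrix.Norms.L2Operator ComplexOrder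

variable {n m : Type*} [Fintype n] [DecidableEq n] [Fintype m] [DecidableEq m]

/-! ## (D) bridges to Mathlib and operator monotonicity -/

theorem rpw_eq_cfc_rpow {A : Matrix n n ℂ} (hA : A.PosDef) (r : ℝ) :
    rpw A r = cfc (fun x : ℝ => x ^ r) A := by
  rw [rpw_eq_mfun hA, mfun_eq_cfc hA.1]

theorem pd_mlog_eq_cfc_log (A : Matrix n n ℂ) : mlog A = cfc Real.log A := by
  by_cases hA : A.IsHermitian
  · exact mfun_eq_cfc hA Real.log
  · unfold mlog
    rw [mfun_of_not_isHermitian hA]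
    exact (cfc_apply_of_not_predicate (R := ℝ) (p := IsSelfAdjoint) A (fun h => hA h)).symm

theorem pd_of_le {A B : Matrix n n ℂ} (hA : A.PosDef) (hAB : A ≤ B) : B.PosDef := by
  have h : B = A + (B - A) := by abel
  rw [h]
  exact hA.add_posSemidef (Matrix.le_iff.1 hAB)

/-- operator monotonicity of `x ^ p`, `0 ≤ p ≤ 1` (Mathlib: `CFC.rpow_le_rpow`). -/
theorem rpw_le_rpw {A B : Matrix n n ℂ} (hA : A.PosDef) (hAB : A ≤ B) {p : ℝ}
    (hp : p ∈ Set.Icc (0 : ℝ) 1) : rpw A p ≤ rpw B p := by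
  have hB := pd_of_le hA hAB
  rw [rpw_eq_cfc_rpow hA, rpw_eq_cfc_rpow hB, ← CFC.rpow_eq_cfc_real hA.posSemidef.nonneg,
    ← CFC.rpow_eq_cfc_real hB.posSemidef.nonneg]
  exact CFC.rpow_le_rpow hp hAB

/-- operator monotonicity of the logarithm (Mathlib: `CFC.log_le_log`). -/
theorem pd_mlog_le_mlog {A B : Matrix n n ℂ} (hA : A.PosDef) (hAB : A ≤ B) :
    mlog A ≤ mlog B := by
  rw [pd_mlog_eq_cfc_log, pd_mlog_eq_cfc_log]
  exact CFC.log_le_log hAB hA.isStrictlyPositive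

/-- order reversal of the inverse. -/
theorem pd_inv_le_inv {A B : Matrix n n ℂ} (hA : A.PosDef) (hAB : A ≤ B) : B⁻¹ ≤ A⁻¹ := by
  have hB := pd_of_le hA hAB
  obtain ⟨a, ha⟩ := hA.isUnit
  obtain ⟨b, hb⟩ := hB.isUnit
  have h := CStarAlgebra.inv_le_inv (a := a) (b := b) (by rw [ha]; exact hA.posSemidef.nonneg)
    (by rw [ha, hb]; exact hAB)
  rw [← ha, ← hb, ← Matrix.coe_units_inv, ← Matrix.coe_units_inv]
  exact h

/-- congruence is monotone. -/
theorem pd_conj_le_conj {A B : Matrix n n ℂ} (hAB : A ≤ B) (S : Matrix n m ℂ) :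
    Sᴴ * A * S ≤ Sᴴ * B * S := by
  rw [Matrix.le_iff] at hAB ⊢
  have h := hAB.conjTranspose_mul_mul_same S
  rwa [Matrix.mul_sub, Matrix.sub_mul] at h

/-- a positive definite matrix dominates a positive multiple of the identity. -/
theorem pd_exists_smul_one_le {A : Matrix n n ℂ} (hA : A.PosDef) :
    ∃ c : ℝ, 0 < c ∧ (c : ℂ) • (1 : Matrix n n ℂ) ≤ A := by
  have hex : ∃ c : ℝ, 0 < c ∧ ∀ i, c ≤ hA.1.eigenvalues i := by
    rcases isEmpty_or_nonempty n with hn | hn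
    · exact ⟨1, one_pos, fun i => isEmptyElim i⟩
    · obtain ⟨i₀, hi₀⟩ := Finite.exists_min hA.1.eigenvalues
      exact ⟨_, hA.eigenvalues_pos i₀, hi₀⟩
  obtain ⟨c, hc, hle⟩ := hex
  refine ⟨c, hc, ?_⟩
  rw [Matrix.le_iff]
  have h := mfun_sub_posSemidef hA.1 (fun _ => c) (fun x => x) hle
  rwa [mfun_id hA.1, mfun_const hA.1] at h

theorem pd_exists_le_smul_one (A : Matrix n n ℂ) (hA : A.IsHermitian) :
    ∃ c : ℝ, 0 < c ∧ A ≤ (c : ℂ) • (1 : Matrix n n ℂ) := by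
  refine ⟨1 + ∑ i, |hA.eigenvalues i|, by positivity, ?_⟩
  rw [Matrix.le_iff]
  have h := mfun_sub_posSemidef hA (fun x => x) (fun _ => 1 + ∑ i, |hA.eigenvalues i|) fun i => by
    have h1 : |hA.eigenvalues i| ≤ ∑ i, |hA.eigenvalues i| :=
      Finset.single_le_sum (f := fun i => |hA.eigenvalues i|) (fun j _ => abs_nonneg _)
        (Finset.mem_univ i)
    have h2 := le_abs_self (hA.eigenvalues i)
    linarith
  rwa [mfun_id hA, mfun_const hA] at h

/-! ## (E) scalar Jensen inequalities for quadratic forms (spectral weights `specW`) -/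

theorem pd_sum_specW_eq_one {A : Matrix n n ℂ} (hA : A.IsHermitian) {z : n → ℂ}
    (hz : star z ⬝ᵥ z = 1) : ∑ i, specW hA z i = 1 := by
  have h := sum_specW hA z
  rw [hz] at h
  exact_mod_cast h

/-- real form of `quad_mfun` -/
theorem pd_quad_mfun_re {A : Matrix n n ℂ} (hA : A.IsHermitian) (f : ℝ → ℝ) (z : n → ℂ) :
    (star z ⬝ᵥ (mfun (fun x => (f x : ℂ)) A *ᵥ z)).re = ∑ i, specW hA z i * f (hA.eigenvalues i) := by
  rw [quad_mfun hA]
  have : (∑ i, ((f (hA.eigenvalues i) : ℝ) : ℂ) * (specW hA z i : ℂ))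
      = ((∑ i, specW hA z i * f (hA.eigenvalues i) : ℝ) : ℂ) := by
    push_cast
    exact Finset.sum_congr rfl fun i _ => mul_comm _ _
  rw [this, Complex.ofReal_re]

theorem pd_quad_re {A : Matrix n n ℂ} (hA : A.IsHermitian) (z : n → ℂ) :
    (star z ⬝ᵥ (A *ᵥ z)).re = ∑ i, specW hA z i * hA.eigenvalues i := by
  have h := pd_quad_mfun_re hA (fun x => x) z
  rwa [mfun_id hA] at h

/-- Jensen for a concave function and a unit vector. -/
theorem pd_jensen_concave {f : ℝ → ℝ} {s : Set ℝ} (hf : ConcaveOn ℝ s f) {A : Matrix n n ℂ}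
    (hA : A.IsHermitian) (hsp : ∀ i, hA.eigenvalues i ∈ s) {z : n → ℂ} (hz : star z ⬝ᵥ z = 1) :
    (star z ⬝ᵥ (mfun (fun x => (f x : ℂ)) A *ᵥ z)).re ≤ f (star z ⬝ᵥ (A *ᵥ z)).re := by
  rw [pd_quad_mfun_re hA, pd_quad_re hA]
  exact hf.le_map_sum (fun i _ => specW_nonneg hA z i) (pd_sum_specW_eq_one hA hz) fun i _ => hsp i

/-- Jensen for a convex function and a unit vector. -/
theorem pd_jensen_convex {f : ℝ → ℝ} {s : Set ℝ} (hf : ConvexOn ℝ s f) {A : Matrix n n ℂ}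
    (hA : A.IsHermitian) (hsp : ∀ i, hA.eigenvalues i ∈ s) {z : n → ℂ} (hz : star z ⬝ᵥ z = 1) :
    f (star z ⬝ᵥ (A *ᵥ z)).re ≤ (star z ⬝ᵥ (mfun (fun x => (f x : ℂ)) A *ᵥ z)).re := by
  rw [pd_quad_mfun_re hA, pd_quad_re hA]
  exact hf.map_sum_le (fun i _ => specW_nonneg hA z i) (pd_sum_specW_eq_one hA hz) fun i _ => hsp i

/-- `⟨z, log M z⟩ ≤ log ⟨z, M z⟩`. -/
theorem pd_mlog_quadratic_le {M : Matrix n n ℂ} (hM : M.PosDef) {z : n → ℂ}
    (hz : star z ⬝ᵥ z = 1) :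
    (star z ⬝ᵥ (mlog M *ᵥ z)).re ≤ Real.log (star z ⬝ᵥ (M *ᵥ z)).re :=
  pd_jensen_concave strictConcaveOn_log_Ioi.concaveOn hM.1 (fun i => hM.eigenvalues_pos i) hz

/-- `⟨z, M^r z⟩ ≤ ⟨z, M z⟩^r` for `0 ≤ r ≤ 1`. -/
theorem rpw_quadratic_le {M : Matrix n n ℂ} (hM : M.PosDef) {r : ℝ} (hr : r ∈ Set.Icc (0 : ℝ) 1)
    {z : n → ℂ} (hz : star z ⬝ᵥ z = 1) :
    (star z ⬝ᵥ (rpw M r *ᵥ z)).re ≤ (star z ⬝ᵥ (M *ᵥ z)).re ^ r := by
  rw [rpw_eq_mfun hM]
  exact pd_jensen_concave (Real.concaveOn_rpow hr.1 hr.2) hM.1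
    (fun i => (hM.eigenvalues_pos i).le) hz

/-- `exp (r ⟨z, log M z⟩) ≤ ⟨z, M^r z⟩` for every real `r`. -/
theorem pd_exp_mlog_quadratic_le {M : Matrix n n ℂ} (hM : M.PosDef) (r : ℝ)
    {z : n → ℂ} (hz : star z ⬝ᵥ z = 1) :
    Real.exp (r * (star z ⬝ᵥ (mlog M *ᵥ z)).re) ≤ (star z ⬝ᵥ (rpw M r *ᵥ z)).re := by
  rw [rpw_eq_mfun hM, pd_quad_mfun_re hM.1]
  unfold mlog
  rw [pd_quad_mfun_re hM.1 Real.log]
  have h := convexOn_exp.map_sum_le (t := Finset.univ) (w := specW hM.1 z)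
    (p := fun i => r * Real.log (hM.1.eigenvalues i)) (fun i _ => specW_nonneg hM.1 z i)
    (pd_sum_specW_eq_one hM.1 hz) (fun i _ => Set.mem_univ _)
  simp only [smul_eq_mul] at h
  have e1 : r * ∑ i, specW hM.1 z i * Real.log (hM.1.eigenvalues i)
      = ∑ i, specW hM.1 z i * (r * Real.log (hM.1.eigenvalues i)) := by
    rw [Finset.mul_sum]; exact Finset.sum_congr rfl fun i _ => by ring
  rw [e1]
  refine h.trans (le_of_eq ?_)
  refine Finset.sum_congr rfl fun i _ => ?_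
  rw [Real.rpow_def_of_pos (hM.eigenvalues_pos i), mul_comm r]

end Claimed.Agent.R296
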