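/-
Row 296, chain BB_Means (P1 Sec 6), file 3: continuity of `A ↦ f(A)`, the Daleckii-Krein derivative
formula along curves of Hermitian matrices, and positivity of the Loewner matrices of `x ^ p`
(`0 ≤ p ≤ 1`).   Prefix `dk_`.   Owner: helper80.  Proofs: helper142.

PROOF PLAN (no Stone-Weierstrass in two variables, no integral representation):
* `dk_tendsto_mfun`: real and imaginary parts of the symbol + `mfun_eq_cfc` + Mathlib's
  `Filter.Tendsto.cfc` and `upperHemicontinuous_spectrum` (file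
  `Mathlib/Analysis/CStarAlgebra/ContinuousFunctionalCalculus/Continuity.lean`).
* `dk_sub_eq`: `f(X) - f(Y) = ∑_j (f(X) - f(μ_j)) Q_j = ∑_j dd f (·, μ_j)(X) (X - μ_j) Q_j
   = ∑_j dd f (·, μ_j)(X) (X - Y) Q_j = dop₂ (dd f) X Y (X - Y)`  (`dop₂_eq_sum_right`).
* `dk_hasDerivAt`: divide by `s - t`; in `dop₂_eq_sum_right` the moving matrix only enters through
  `mfun (dd f · μ_j)`, whose symbol is continuous near the spectrum (`continuousAt_dslope_same`).
* `dk_loewner_rpow`: apply `dk_hasDerivAt` to `diagonal x + s • J` (`J` = all ones, PSD) and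
  `rpw_le_rpw`: the derivative is a limit of PSD matrices and equals the Loewner matrix
  (`dop₂_diagonal`).
-/
import Claimed.Agent.R296.MatPDOrd

set_option autoImplicit false
set_option linter.unusedSectionVars false
set_option linter.unusedDecidableInType false

namespace Claimed.Agent.R296

open Matrix Filter Topology
open scoped MatrixOrder Matrix.Norms.L2Operator ComplexOrder

variable {n m : Type*} [Fintype n] [DecidableEq n] [Fintype m] [DecidableEq m]

/-- first divided difference (`deriv f x` on the diagonal). -/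
noncomputable def dd (f : ℝ → ℂ) (x y : ℝ) : ℂ := dslope f y x

theorem dd_self (f : ℝ → ℂ) (x : ℝ) : dd f x x = deriv f x := by simp [dd]

theorem dd_of_ne (f : ℝ → ℂ) {x y : ℝ} (h : x ≠ y) : dd f x y = (f x - f y) / ((x - y : ℝ) : ℂ) := by
  rw [dd, dslope_of_ne f h, slope_def_module, Complex.real_smul, div_eq_inv_mul, Complex.ofReal_inv]

theorem dd_comm (f : ℝ → ℂ) (x y : ℝ) : dd f x y = dd f y x := by
  rcases eq_or_ne x y with rfl | h
  · rfl
  · rw [dd, dd, dslope_of_ne f h, dslope_of_ne f h.symm, slope_comm]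

theorem dd_mul_sub (f : ℝ → ℂ) (x y : ℝ) : dd f x y * ((x : ℂ) - (y : ℂ)) = f x - f y := by
  have h := sub_smul_dslope f y x
  rw [Complex.real_smul] at h
  rw [dd, mul_comm, ← h]
  push_cast
  rfl

/-- divided difference of the real power function, as a complex kernel. -/
noncomputable def ddp (r : ℝ) (x y : ℝ) : ℂ := dd (fun u => ((u ^ r : ℝ) : ℂ)) x y

theorem ddp_self (r : ℝ) {x : ℝ} (hx : 0 < x) : ddp r x x = ((r * x ^ (r - 1) : ℝ) : ℂ) := by
  rw [ddp, dd_self]
  exact (Real.hasDerivAt_rpow_const (Or.inl hx.ne')).ofReal_comp.deriv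

theorem ddp_of_ne (r : ℝ) {x y : ℝ} (h : x ≠ y) :
    ddp r x y = (((x ^ r - y ^ r) / (x - y) : ℝ) : ℂ) := by
  rw [ddp, dd_of_ne _ h]
  push_cast
  rfl

theorem ddp_comm (r x y : ℝ) : ddp r x y = ddp r y x := dd_comm _ x y

/-- the derivative of a real valued function, seen as a complex valued function -/
theorem dk_deriv_ofReal_comp (g : ℝ → ℝ) (x : ℝ) :
    deriv (fun u => ((g u : ℝ) : ℂ)) x = ((deriv g x : ℝ) : ℂ) := by
  by_cases h : DifferentiableAt ℝ g x
  · exact h.hasDerivAt.ofReal_comp.deriv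
  · have h' : ¬ DifferentiableAt ℝ (fun u => ((g u : ℝ) : ℂ)) x := by
      intro h'
      apply h
      have := Complex.reCLM.differentiableAt.comp x h'
      exact this
    rw [deriv_zero_of_not_differentiableAt h, deriv_zero_of_not_differentiableAt h']
    simp

theorem star_ddp (r x y : ℝ) : star (ddp r x y) = ddp r x y := by
  rcases eq_or_ne x y with rfl | h
  · rw [ddp, dd_self, dk_deriv_ofReal_comp]
    simp
  · rw [ddp_of_ne r h]
    simp

/-! ## continuity of the functional calculus -/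

/-- the real spectrum of nearby matrices stays in an open neighbourhood of the spectrum. -/
theorem dk_eventually_spectrum_subset {ι : Type*} {lf : Filter ι} {S : Set ℝ} (hS : IsOpen S)
    {X : ι → Matrix n n ℂ} {X₀ : Matrix n n ℂ} (hX : Tendsto X lf (𝓝 X₀))
    (hsp : spectrum ℝ X₀ ⊆ S) : ∀ᶠ k in lf, spectrum ℝ (X k) ⊆ S :=
  hX.eventually ((upperHemicontinuous_spectrum ℝ (Matrix n n ℂ)).forall_isOpen X₀ S hS hsp)

theorem dk_spectrum_subset {S : Set ℝ} {X₀ : Matrix n n ℂ} (h₀ : X₀.IsHermitian)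
    (hsp : ∀ i, h₀.eigenvalues i ∈ S) : spectrum ℝ X₀ ⊆ S := by
  rw [h₀.spectrum_real_eq_range_eigenvalues]
  rintro _ ⟨i, rfl⟩
  exact hsp i

/-- eigenvalues of nearby Hermitian matrices stay in an open neighbourhood of the spectrum. -/
theorem dk_eventually_eigenvalues_mem {ι : Type*} {lf : Filter ι} {S : Set ℝ} (hS : IsOpen S)
    {X : ι → Matrix n n ℂ} {X₀ : Matrix n n ℂ} (hX : Tendsto X lf (𝓝 X₀))
    (h₀ : X₀.IsHermitian) (hsp : ∀ i, h₀.eigenvalues i ∈ S) :
    ∀ᶠ k in lf, ∀ (h : (X k).IsHermitian) (i : n), h.eigenvalues i ∈ S := by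
  filter_upwards [dk_eventually_spectrum_subset hS hX (dk_spectrum_subset h₀ hsp)] with k hk h i
  exact hk (h.eigenvalues_mem_spectrum_real i)

/-- continuity of `A ↦ f(A)` for a real symbol -/
theorem dk_tendsto_mfun_real {ι : Type*} {lf : Filter ι} {S : Set ℝ} (hS : IsOpen S) {f : ℝ → ℝ}
    (hf : ContinuousOn f S) {X : ι → Matrix n n ℂ} {X₀ : Matrix n n ℂ}
    (hX : Tendsto X lf (𝓝 X₀)) (hH : ∀ᶠ k in lf, (X k).IsHermitian)
    (h₀ : X₀.IsHermitian) (hsp : ∀ i, h₀.eigenvalues i ∈ S) :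
    Tendsto (fun k => mfun (fun x => (f x : ℂ)) (X k)) lf (𝓝 (mfun (fun x => (f x : ℂ)) X₀)) := by
  have hsp' := dk_spectrum_subset h₀ hsp
  have hcpt : IsCompact (spectrum ℝ X₀) := by
    rw [h₀.spectrum_real_eq_range_eigenvalues]
    exact (Set.finite_range _).isCompact
  obtain ⟨L, hL, hL1, hL2⟩ := exists_compact_between hcpt hS hsp'
  have h1 := dk_eventually_spectrum_subset isOpen_interior hX hL1
  have h2 : Tendsto (fun k => cfc f (X k)) lf (𝓝 (cfc f X₀)) :=
    Filter.Tendsto.cfc hL f hX (h1.mono fun k hk => hk.trans interior_subset)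
      (hH.mono fun k hk => hk) (hL1.trans interior_subset) h₀ (hf.mono hL2)
  rw [mfun_eq_cfc h₀]
  refine h2.congr' ?_
  filter_upwards [hH] with k hk
  rw [mfun_eq_cfc hk]

/-- continuity of `A ↦ f(A)` on Hermitian matrices, `f` continuous near the spectrum. -/
theorem dk_tendsto_mfun {ι : Type*} {lf : Filter ι} {S : Set ℝ} (hS : IsOpen S) {f : ℝ → ℂ}
    (hf : ContinuousOn f S) {X : ι → Matrix n n ℂ} {X₀ : Matrix n n ℂ}
    (hX : Tendsto X lf (𝓝 X₀)) (hH : ∀ᶠ k in lf, (X k).IsHermitian)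
    (h₀ : X₀.IsHermitian) (hsp : ∀ i, h₀.eigenvalues i ∈ S) :
    Tendsto (fun k => mfun f (X k)) lf (𝓝 (mfun f X₀)) := by
  have hre : ContinuousOn (fun x => (f x).re) S := Complex.continuous_re.comp_continuousOn hf
  have him : ContinuousOn (fun x => (f x).im) S := Complex.continuous_im.comp_continuousOn hf
  have e : ∀ A : Matrix n n ℂ, mfun f A = mfun (fun x => (((f x).re : ℝ) : ℂ)) A +
      Complex.I • mfun (fun x => (((f x).im : ℝ) : ℂ)) A := by
    intro A
    rw [← mfun_smul, ← mfun_add]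
    congr 1
    funext x
    rw [mul_comm]
    exact (Complex.re_add_im (f x)).symm
  simp only [e]
  exact (dk_tendsto_mfun_real hS hre hX hH h₀ hsp).add
    ((dk_tendsto_mfun_real hS him hX hH h₀ hsp).const_smul Complex.I)

/-- positive definiteness is an open condition among Hermitian matrices. -/
theorem dk_eventually_posDef {ι : Type*} {lf : Filter ι} {X : ι → Matrix n n ℂ}
    {X₀ : Matrix n n ℂ} (hX : Tendsto X lf (𝓝 X₀)) (hH : ∀ᶠ k in lf, (X k).IsHermitian)
    (h₀ : X₀.PosDef) : ∀ᶠ k in lf, (X k).PosDef := by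
  filter_upwards [hH, dk_eventually_eigenvalues_mem (isOpen_Ioi (a := (0 : ℝ))) hX h₀.1
    (fun i => h₀.eigenvalues_pos i)] with k hk hk'
  exact hk.posDef_iff_eigenvalues_pos.2 (hk' hk)

/-- the order of matrices is closed. -/
theorem dk_le_of_tendsto {ι : Type*} {lf : Filter ι} [lf.NeBot] {X Y : ι → Matrix n n ℂ}
    {X₀ Y₀ : Matrix n n ℂ} (hX : Tendsto X lf (𝓝 X₀)) (hY : Tendsto Y lf (𝓝 Y₀))
    (hP : ∀ᶠ k in lf, X k ≤ Y k) : X₀ ≤ Y₀ :=
  le_of_tendsto_of_tendsto hX hY hP

/-- limits of positive semidefinite matrices are positive semidefinite. -/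
theorem dk_posSemidef_of_tendsto {ι : Type*} {lf : Filter ι} [lf.NeBot] {X : ι → Matrix n n ℂ}
    {X₀ : Matrix n n ℂ} (hX : Tendsto X lf (𝓝 X₀)) (hP : ∀ᶠ k in lf, (X k).PosSemidef) :
    X₀.PosSemidef :=
  Matrix.nonneg_iff_posSemidef.1 (dk_le_of_tendsto tendsto_const_nhds hX
    (hP.mono fun _ hk => Matrix.nonneg_iff_posSemidef.2 hk))

/-- the derivative of a curve of Hermitian matrices is Hermitian. -/
theorem dk_isHermitian_deriv {X : ℝ → Matrix n n ℂ} {X' : Matrix n n ℂ} {t : ℝ}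
    (hX : HasDerivAt X X' t) (hH : ∀ᶠ s in 𝓝 t, (X s).IsHermitian) : X'.IsHermitian := by
  have h1 : Tendsto (slope X t) (𝓝[≠] t) (𝓝 X') := hasDerivAt_iff_tendsto_slope.1 hX
  have h2 : Tendsto (fun s => (slope X t s)ᴴ) (𝓝[≠] t) (𝓝 X'ᴴ) :=
    (continuous_id.matrix_conjTranspose.tendsto X').comp h1
  have ht := hH.self_of_nhds
  have h3 : (fun s => (slope X t s)ᴴ) =ᶠ[𝓝[≠] t] slope X t := by
    filter_upwards [hH.filter_mono nhdsWithin_le_nhds] with s hs
    rw [slope_def_module, conjTranspose_smul, conjTranspose_sub, hs.eq, ht.eq]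
    simp
  exact tendsto_nhds_unique (h2.congr' h3) h1

end Claimed.Agent.R296
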