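/-
Row 296, chain BB_Means, file 3b: the Daleckii-Krein formula and the Loewner matrices of `x^p`.
Proof plan: see the header of `MatDK.lean`.   Prefix `dk_`.   Owner: helper80.  Proofs: helper142.
-/
import Claimed.Agent.R296.MatDK

set_option autoImplicit false
set_option linter.unusedSectionVars false
set_option linter.unusedDecidableInType false

namespace Claimed.Agent.R296

open Matrix Filter Topology
open scoped MatrixOrder Matrix.Norms.L2Operator ComplexOrder

variable {n m : Type*} [Fintype n] [DecidableEq n] [Fintype m] [DecidableEq m]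

/-! ## Daleckii-Krein -/

/-- `D f(A,B)[A X - X B] = f(A) X - X f(B)` (rectangular). -/
theorem dk_dop₂_intertwiner (f : ℝ → ℂ) {A : Matrix n n ℂ} {B : Matrix m m ℂ}
    (hA : A.IsHermitian) (hB : B.IsHermitian) (X : Matrix n m ℂ) :
    dop₂ (dd f) A B (A * X - X * B) = mfun f A * X - X * mfun f B := by
  have e1 : A * X - X * B = dop₂ (fun x y => (x : ℂ) * 1 - 1 * (y : ℂ)) A B X := by
    rw [dop₂_sub, dop₂_prod, dop₂_prod, mfun_id hA, mfun_id hB, mfun_one hA, mfun_one hB]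
    simp
  have e2 : mfun f A * X - X * mfun f B = dop₂ (fun x y => f x * 1 - 1 * f y) A B X := by
    rw [dop₂_sub, dop₂_prod, dop₂_prod, mfun_one hA, mfun_one hB]
    simp
  rw [e1, e2, dop₂_dop₂]
  congr 1
  funext x y
  rw [mul_one, one_mul, mul_one, one_mul, dd_mul_sub]

/-- the difference identity `f(X) - f(Y) = dop₂ (dd f) X Y (X - Y)`. -/
theorem dk_sub_eq (f : ℝ → ℂ) {X Y : Matrix n n ℂ} (hX : X.IsHermitian) (hY : Y.IsHermitian) :
    mfun f X - mfun f Y = dop₂ (dd f) X Y (X - Y) := by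
  have h := dk_dop₂_intertwiner f hX hY 1
  simpa using h.symm

/-- `D f(C)[[C,X]] = [f(C),X]`. -/
theorem dk_dop_commutator (f : ℝ → ℂ) {C : Matrix n n ℂ} (hC : C.IsHermitian)
    (X : Matrix n n ℂ) : dop (dd f) C (C * X - X * C) = mfun f C * X - X * mfun f C :=
  dk_dop₂_intertwiner f hC hC X

/-- **Daleckii-Krein** along a curve of Hermitian matrices. -/
theorem dk_hasDerivAt {S : Set ℝ} (hS : IsOpen S) {f : ℝ → ℂ} (hf : DifferentiableOn ℝ f S)
    {X : ℝ → Matrix n n ℂ} {X' : Matrix n n ℂ} {t : ℝ} (hX : HasDerivAt X X' t)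
    (hH : ∀ᶠ s in 𝓝 t, (X s).IsHermitian) (h₀ : (X t).IsHermitian)
    (hsp : ∀ i, h₀.eigenvalues i ∈ S) :
    HasDerivAt (fun s => mfun f (X s)) (dop (dd f) (X t) X') t := by
  rw [hasDerivAt_iff_tendsto_slope]
  have h1 : Tendsto (slope X t) (𝓝[≠] t) (𝓝 X') := hasDerivAt_iff_tendsto_slope.1 hX
  have hXc : Tendsto X (𝓝[≠] t) (𝓝 (X t)) := hX.continuousAt.tendsto.mono_left nhdsWithin_le_nhds
  have hH' : ∀ᶠ s in 𝓝[≠] t, (X s).IsHermitian := hH.filter_mono nhdsWithin_le_nhds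
  -- the slope of `f ∘ X`
  have e : slope (fun s => mfun f (X s)) t =ᶠ[𝓝[≠] t] fun s =>
      ∑ j, mfun (fun x => dd f x (h₀.eigenvalues j)) (X s) * slope X t s * eigP h₀ j := by
    filter_upwards [hH'] with s hs
    rw [slope_def_module, dk_sub_eq f hs h₀, dop₂_eq_sum_right _ _ h₀, Finset.smul_sum]
    refine Finset.sum_congr rfl fun j _ => ?_
    rw [slope_def_module, Matrix.mul_smul, Matrix.smul_mul]
  refine Tendsto.congr' e.symm ?_
  rw [dop, dop₂_eq_sum_right _ _ h₀]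
  refine tendsto_finsetSum _ fun j _ => ?_
  have hc : ContinuousOn (fun x => dd f x (h₀.eigenvalues j)) S := by
    have hmem : S ∈ 𝓝 (h₀.eigenvalues j) := hS.mem_nhds (hsp j)
    exact (continuousOn_dslope hmem).2 ⟨hf.continuousOn, hf.differentiableAt hmem⟩
  have h2 := dk_tendsto_mfun hS hc hXc hH' h₀ hsp
  exact (h2.mul h1).mul tendsto_const_nhds

theorem dk_differentiableOn_rpow (r : ℝ) :
    DifferentiableOn ℝ (fun u : ℝ => ((u ^ r : ℝ) : ℂ)) (Set.Ioi 0) := by
  intro x hx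
  exact (Real.hasDerivAt_rpow_const (Or.inl (ne_of_gt hx))).ofReal_comp.differentiableAt.differentiableWithinAt

/-- real powers along a curve of positive definite matrices. -/
theorem dk_rpw_hasDerivAt (r : ℝ) {X : ℝ → Matrix n n ℂ} {X' : Matrix n n ℂ} {t : ℝ}
    (hX : HasDerivAt X X' t) (hP : ∀ᶠ s in 𝓝 t, (X s).PosDef) :
    HasDerivAt (fun s => rpw (X s) r) (dop (ddp r) (X t) X') t := by
  have h₀ := hP.self_of_nhds
  have h := dk_hasDerivAt isOpen_Ioi (dk_differentiableOn_rpow r) hX (hP.mono fun s hs => hs.1) h₀.1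
    (fun i => h₀.eigenvalues_pos i)
  refine h.congr_of_eventuallyEq ?_
  filter_upwards [hP] with s hs
  exact rpw_eq_mfun hs r

theorem dk_rpw_continuousAt (r : ℝ) {X : ℝ → Matrix n n ℂ} {t : ℝ}
    (hX : ContinuousAt X t) (hP : ∀ᶠ s in 𝓝 t, (X s).PosDef) :
    ContinuousAt (fun s => rpw (X s) r) t := by
  have h₀ := hP.self_of_nhds
  have h := dk_tendsto_mfun isOpen_Ioi (dk_differentiableOn_rpow r).continuousOn hX.tendsto
    (hP.mono fun s hs => hs.1) h₀.1 (fun i => h₀.eigenvalues_pos i)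
  rw [ContinuousAt, rpw_eq_mfun h₀]
  refine h.congr' ?_
  filter_upwards [hP] with s hs
  exact (rpw_eq_mfun hs r).symm

/-! ## Loewner matrices -/

/-- the Loewner matrix of `x ^ p`, `0 ≤ p ≤ 1`, is positive semidefinite. -/
theorem dk_loewner_rpow {p : ℝ} (hp : p ∈ Set.Icc (0 : ℝ) 1) (x : n → ℝ) (hx : ∀ i, 0 < x i) :
    (Matrix.of fun i j => ddp p (x i) (x j)).PosSemidef := by
  obtain ⟨D, hD⟩ : ∃ D : Matrix n n ℂ, D = diagonal (fun i => ((x i : ℝ) : ℂ)) := ⟨_, rfl⟩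
  obtain ⟨J, hJ⟩ : ∃ J : Matrix n n ℂ, J = Matrix.of fun _ _ => (1 : ℂ) := ⟨_, rfl⟩
  have hJpsd : J.PosSemidef := by
    have : J = vecMulVec (fun _ => (1 : ℂ)) (star fun _ => (1 : ℂ)) := by
      rw [hJ]; ext i j; simp [vecMulVec_apply]
    rw [this]
    exact posSemidef_vecMulVec_self_star _
  have hDpd : D.PosDef := by
    rw [hD]
    exact PosDef.diagonal fun i => by exact_mod_cast hx i
  obtain ⟨X, hXdef⟩ : ∃ X : ℝ → Matrix n n ℂ, X = fun s : ℝ => D + (s : ℂ) • J := ⟨_, rfl⟩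
  have hX0 : X 0 = D := by rw [hXdef]; simp
  have hXd : HasDerivAt X J 0 := by
    rw [hXdef]
    have h1 : HasDerivAt (fun s : ℝ => (s : ℂ)) 1 0 := (hasDerivAt_id (0 : ℝ)).ofReal_comp
    have h2 := (h1.smul_const J).const_add D
    simpa using h2
  have hXH : ∀ s, (X s).IsHermitian := by
    intro s
    rw [hXdef]
    refine hDpd.1.add ?_
    rw [IsHermitian, conjTranspose_smul, hJpsd.1.eq]
    simp
  have hP : ∀ᶠ s in 𝓝 (0 : ℝ), (X s).PosDef :=
    dk_eventually_posDef hXd.continuousAt.tendsto (Eventually.of_forall hXH) (by rw [hX0]; exact hDpd)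
  have h := dk_rpw_hasDerivAt p hXd hP
  have e : dop (ddp p) (X 0) J = Matrix.of fun i j => ddp p (x i) (x j) := by
    rw [hX0, hD, dop, dop₂_diagonal, hJ]
    ext i j
    simp
  rw [e] at h
  refine dk_posSemidef_of_tendsto h.tendsto_slope_zero_right ?_
  filter_upwards [self_mem_nhdsWithin] with t ht
  have ht0 : (0 : ℝ) < t := ht
  have hle : D ≤ X (0 + t) := by
    rw [Matrix.le_iff, hXdef]
    have : D + ((0 + t : ℝ) : ℂ) • J - D = (t : ℂ) • J := by simp
    rw [this]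
    exact hJpsd.smul (by exact_mod_cast ht0.le)
  have h2 := rpw_le_rpw hDpd hle hp
  rw [Matrix.le_iff, ← hX0] at h2
  exact h2.smul (inv_nonneg.2 ht0.le)

end Claimed.Agent.R296
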