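/-
Row 296, chain BB_Means (P1 Sec 6, Lemma `transport:means` at ONE binary vertex), file 5:
the weighted geometric mean `gmean p A B = A #_p B = A^{1/2} (A^{-1/2} B A^{-1/2})^p A^{1/2}`.
Prefix `gm_`.  The trees are helper9's (`MTree.lean`).   Owner: helper80.  Proofs: helper98.
-/
import Claimed.Agent.R296.MatDKMain

set_option autoImplicit false
set_option linter.unusedSectionVars false
set_option linter.unusedDecidableInType false
set_option linter.unusedVariables false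

namespace Claimed.Agent.R296

open Matrix Filter Topology
open scoped MatrixOrder Matrix.Norms.L2Operator ComplexOrder

variable {n m : Type*} [Fintype n] [DecidableEq n] [Fintype m] [DecidableEq m]

/-- the relative matrix `A^{-1/2} B A^{-1/2}`. -/
noncomputable def relm (A B : Matrix n n ℂ) : Matrix n n ℂ :=
  rpw A (-(1 / 2)) * B * rpw A (-(1 / 2))

/-- the weighted geometric mean `A #_p B`. -/
noncomputable def gmean (p : ℝ) (A B : Matrix n n ℂ) : Matrix n n ℂ :=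
  rpw A (1 / 2) * rpw (relm A B) p * rpw A (1 / 2)

/-! ## (A) basic facts -/

theorem relm_posDef {A B : Matrix n n ℂ} (hA : A.PosDef) (hB : B.PosDef) : (relm A B).PosDef := by
  have h := pd_conj hB (rpw_isUnit hA.1 (-(1 / 2)))
  rwa [(rpw_isHermitian A _).eq] at h

theorem gm_posDef (p : ℝ) {A B : Matrix n n ℂ} (hA : A.PosDef) (hB : B.PosDef) :
    (gmean p A B).PosDef := by
  have h := pd_conj (rpw_posDef (relm_posDef hA hB).1 p) (rpw_isUnit hA.1 (1 / 2))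
  rwa [(rpw_isHermitian A _).eq] at h

theorem relm_self {A : Matrix n n ℂ} (hA : A.PosDef) : relm A A = 1 :=
  rpw_neg_half_mul_mul hA

theorem relm_one (B : Matrix n n ℂ) : relm 1 B = B := by
  unfold relm; rw [rpw_one_matrix, Matrix.one_mul, Matrix.mul_one]

theorem gm_zero {A B : Matrix n n ℂ} (hA : A.PosDef) (hB : B.PosDef) : gmean 0 A B = A := by
  unfold gmean
  rw [rpw_zero (relm_posDef hA hB).1, Matrix.mul_one, rpw_half_mul_half hA]

/-- recover `B` from the relative matrix. -/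
theorem half_mul_relm_mul_half {A : Matrix n n ℂ} (hA : A.PosDef) (B : Matrix n n ℂ) :
    rpw A (1 / 2) * relm A B * rpw A (1 / 2) = B := by
  unfold relm
  calc rpw A (1 / 2) * (rpw A (-(1 / 2)) * B * rpw A (-(1 / 2))) * rpw A (1 / 2)
      = (rpw A (1 / 2) * rpw A (-(1 / 2))) * B * (rpw A (-(1 / 2)) * rpw A (1 / 2)) := by
        simp only [Matrix.mul_assoc]
    _ = B := by rw [rpw_mul_neg hA.1, rpw_neg_mul hA.1, Matrix.one_mul, Matrix.mul_one]

theorem gm_one {A B : Matrix n n ℂ} (hA : A.PosDef) (hB : B.PosDef) : gmean 1 A B = B := by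
  unfold gmean
  rw [rpw_one (relm_posDef hA hB), half_mul_relm_mul_half hA]

theorem gm_self (p : ℝ) {A : Matrix n n ℂ} (hA : A.PosDef) : gmean p A A = A := by
  unfold gmean
  rw [relm_self hA, rpw_one_matrix, Matrix.mul_one, rpw_half_mul_half hA]

theorem gm_one_left (p : ℝ) (B : Matrix n n ℂ) : gmean p 1 B = rpw B p := by
  unfold gmean
  rw [relm_one, rpw_one_matrix, Matrix.one_mul, Matrix.mul_one]

/-! ## (B) congruence and symmetry -/

/-- polar trick: if `Rᴴ R = 1`-type relation `Sᴴ A S = Â` then `U = A^{1/2} S Â^{-1/2}` is unitary. -/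
theorem gm_polar_unitary {A S : Matrix n n ℂ} (hA : A.PosDef) (hS : IsUnit S) :
    (rpw A (1 / 2) * S * rpw (Sᴴ * A * S) (-(1 / 2)))ᴴ *
        (rpw A (1 / 2) * S * rpw (Sᴴ * A * S) (-(1 / 2))) = 1 ∧
      (rpw A (1 / 2) * S * rpw (Sᴴ * A * S) (-(1 / 2))) *
        (rpw A (1 / 2) * S * rpw (Sᴴ * A * S) (-(1 / 2)))ᴴ = 1 := by
  have hÂ := pd_conj hA hS
  have h1 : (rpw A (1 / 2) * S * rpw (Sᴴ * A * S) (-(1 / 2)))ᴴ *
        (rpw A (1 / 2) * S * rpw (Sᴴ * A * S) (-(1 / 2))) = 1 := by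
    rw [conjTranspose_mul, conjTranspose_mul, (rpw_isHermitian A _).eq, (rpw_isHermitian _ _).eq]
    calc rpw (Sᴴ * A * S) (-(1 / 2)) * (Sᴴ * rpw A (1 / 2)) *
          (rpw A (1 / 2) * S * rpw (Sᴴ * A * S) (-(1 / 2)))
        = rpw (Sᴴ * A * S) (-(1 / 2)) * (Sᴴ * (rpw A (1 / 2) * rpw A (1 / 2)) * S) *
            rpw (Sᴴ * A * S) (-(1 / 2)) := by simp only [Matrix.mul_assoc]
      _ = 1 := by rw [rpw_half_mul_half hA, rpw_neg_half_mul_mul hÂ]
  exact ⟨h1, mul_eq_one_comm.1 h1⟩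

/-- `relm` under congruence: unitarily equivalent to the old one. -/
theorem relm_conj {A B S : Matrix n n ℂ} (hA : A.PosDef) (hS : IsUnit S) :
    relm (Sᴴ * A * S) (Sᴴ * B * S) =
      (rpw A (1 / 2) * S * rpw (Sᴴ * A * S) (-(1 / 2)))ᴴ * relm A B *
        (rpw A (1 / 2) * S * rpw (Sᴴ * A * S) (-(1 / 2))) := by
  rw [conjTranspose_mul, conjTranspose_mul, (rpw_isHermitian A _).eq, (rpw_isHermitian _ _).eq]
  symm
  calc rpw (Sᴴ * A * S) (-(1 / 2)) * (Sᴴ * rpw A (1 / 2)) * relm A B *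
        (rpw A (1 / 2) * S * rpw (Sᴴ * A * S) (-(1 / 2)))
      = rpw (Sᴴ * A * S) (-(1 / 2)) * (Sᴴ * (rpw A (1 / 2) * relm A B * rpw A (1 / 2)) * S) *
          rpw (Sᴴ * A * S) (-(1 / 2)) := by simp only [Matrix.mul_assoc]
    _ = _ := by rw [half_mul_relm_mul_half hA]; rfl

/-- general congruence principle: `Â^{1/2} f(Ĉ) Â^{1/2} = Sᴴ A^{1/2} f(C) A^{1/2} S`. -/
theorem gm_conj_mfun (f : ℝ → ℂ) {A B S : Matrix n n ℂ} (hA : A.PosDef) (hS : IsUnit S) :
    rpw (Sᴴ * A * S) (1 / 2) * mfun f (relm (Sᴴ * A * S) (Sᴴ * B * S)) * rpw (Sᴴ * A * S) (1 / 2) =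
      Sᴴ * (rpw A (1 / 2) * mfun f (relm A B) * rpw A (1 / 2)) * S := by
  have hÂ := pd_conj hA hS
  obtain ⟨hU1, hU2⟩ := gm_polar_unitary hA hS
  rw [relm_conj hA hS]
  set U := rpw A (1 / 2) * S * rpw (Sᴴ * A * S) (-(1 / 2)) with hU
  have h1 : mfun f (Uᴴ * relm A B * U) = Uᴴ * mfun f (relm A B) * U := by
    have := mfun_unitary_conj f Uᴴ (by rw [conjTranspose_conjTranspose]; exact hU2)
      (by rw [conjTranspose_conjTranspose]; exact hU1) (relm A B)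
    rwa [conjTranspose_conjTranspose] at this
  have h2 : U * rpw (Sᴴ * A * S) (1 / 2) = rpw A (1 / 2) * S := by
    rw [hU, Matrix.mul_assoc, rpw_neg_mul hÂ.1, Matrix.mul_one]
  have h3 : rpw (Sᴴ * A * S) (1 / 2) * Uᴴ = Sᴴ * rpw A (1 / 2) := by
    have := congrArg conjTranspose h2
    rwa [conjTranspose_mul U, conjTranspose_mul (rpw A (1 / 2)), (rpw_isHermitian _ _).eq,
      (rpw_isHermitian _ _).eq] at this
  rw [h1]
  calc rpw (Sᴴ * A * S) (1 / 2) * (Uᴴ * mfun f (relm A B) * U) * rpw (Sᴴ * A * S) (1 / 2)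
      = (rpw (Sᴴ * A * S) (1 / 2) * Uᴴ) * mfun f (relm A B) * (U * rpw (Sᴴ * A * S) (1 / 2)) := by
        simp only [Matrix.mul_assoc]
    _ = _ := by rw [h2, h3]; simp only [Matrix.mul_assoc]

/-- **congruence covariance** `(S* A S) #_p (S* B S) = S* (A #_p B) S`. -/
theorem gm_conj (p : ℝ) {A B S : Matrix n n ℂ} (hA : A.PosDef) (hB : B.PosDef) (hS : IsUnit S) :
    gmean p (Sᴴ * A * S) (Sᴴ * B * S) = Sᴴ * gmean p A B * S :=
  gm_conj_mfun (hpowS (p : ℂ)) hA hS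

/-- the inverse of the relative matrix -/
theorem gm_relm_inv {A B : Matrix n n ℂ} (hA : A.PosDef) (hB : B.PosDef) :
    rpw (relm A B) (-1) = rpw A (1 / 2) * rpw B (-1) * rpw A (1 / 2) := by
  rw [rpw_neg_one (relm_posDef hA hB)]
  apply inv_eq_left_inv
  unfold relm
  calc rpw A (1 / 2) * rpw B (-1) * rpw A (1 / 2) * (rpw A (-(1 / 2)) * B * rpw A (-(1 / 2)))
      = rpw A (1 / 2) * (rpw B (-1) * ((rpw A (1 / 2) * rpw A (-(1 / 2))) * B)) * rpw A (-(1 / 2)) := by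
        simp only [Matrix.mul_assoc]
    _ = rpw A (1 / 2) * (rpw B (-1) * rpw B 1) * rpw A (-(1 / 2)) := by
        rw [rpw_mul_neg hA.1, Matrix.one_mul, rpw_one hB]
    _ = 1 := by rw [rpw_neg_mul hB.1, Matrix.mul_one, rpw_mul_neg hA.1]

/-- exchange principle: `B^{1/2} F(B^{-1/2} A B^{-1/2}) B^{1/2} = A^{1/2} G(A^{-1/2} B A^{-1/2}) A^{1/2}`
with `G x = x F(1/x)`.  (Put `R = A^{1/2} B^{-1/2}`: `Rᴴ R = relm B A`, `R Rᴴ = (relm A B)⁻¹`, and use
`mfx_mul_conjTranspose_comm`.) -/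
theorem gm_exchange (F : ℝ → ℂ) {A B : Matrix n n ℂ} (hA : A.PosDef) (hB : B.PosDef) :
    rpw B (1 / 2) * mfun F (relm B A) * rpw B (1 / 2) =
      rpw A (1 / 2) * mfun (fun x => (x : ℂ) * F x⁻¹) (relm A B) * rpw A (1 / 2) := by
  have hC := relm_posDef hA hB
  set R := rpw A (1 / 2) * rpw B (-(1 / 2)) with hR
  have hRh : Rᴴ = rpw B (-(1 / 2)) * rpw A (1 / 2) := by
    rw [hR, conjTranspose_mul, (rpw_isHermitian _ _).eq, (rpw_isHermitian _ _).eq]
  have h1 : Rᴴ * R = relm B A := by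
    rw [hRh, hR]
    unfold relm
    calc rpw B (-(1 / 2)) * rpw A (1 / 2) * (rpw A (1 / 2) * rpw B (-(1 / 2)))
        = rpw B (-(1 / 2)) * (rpw A (1 / 2) * rpw A (1 / 2)) * rpw B (-(1 / 2)) := by
          simp only [Matrix.mul_assoc]
      _ = _ := by rw [rpw_half_mul_half hA]
  have h2 : R * Rᴴ = rpw (relm A B) (-1) := by
    rw [gm_relm_inv hA hB, hRh, hR]
    calc rpw A (1 / 2) * rpw B (-(1 / 2)) * (rpw B (-(1 / 2)) * rpw A (1 / 2))
        = rpw A (1 / 2) * (rpw B (-(1 / 2)) * rpw B (-(1 / 2))) * rpw A (1 / 2) := by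
          simp only [Matrix.mul_assoc]
      _ = _ := by rw [← rpw_add]; norm_num
  -- `G = F(C⁻¹)`
  set G := mfun (fun x => F x⁻¹) (relm A B) with hG
  have h3 : mfun F (R * Rᴴ) = G := by
    rw [h2, rpw_eq_mfun hC, mfun_comp _ _ _ hC.1, hG]
    congr 1; ext x; rw [Real.rpow_neg_one]
  have h4 : G * R = R * mfun F (relm B A) := by
    rw [← h3, ← h1]; exact mfun_mul_self_conjTranspose_mul F R
  have h5 : rpw B (1 / 2) * rpw A (-(1 / 2)) * R = 1 := by
    rw [hR]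
    calc rpw B (1 / 2) * rpw A (-(1 / 2)) * (rpw A (1 / 2) * rpw B (-(1 / 2)))
        = rpw B (1 / 2) * (rpw A (-(1 / 2)) * rpw A (1 / 2)) * rpw B (-(1 / 2)) := by
          simp only [Matrix.mul_assoc]
      _ = 1 := by rw [rpw_neg_mul hA.1, Matrix.mul_one, rpw_mul_neg hB.1]
  have h6 : mfun F (relm B A) = rpw B (1 / 2) * rpw A (-(1 / 2)) * G * R := by
    rw [Matrix.mul_assoc _ G R, h4, ← Matrix.mul_assoc, h5, Matrix.one_mul]
  have h7 : mfun (fun x => (x : ℂ) * F x⁻¹) (relm A B) = relm A B * G := by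
    rw [mfun_mul, mfun_id hC.1]
  rw [h6, h7, hR]
  unfold relm
  calc rpw B (1 / 2) * (rpw B (1 / 2) * rpw A (-(1 / 2)) * G * (rpw A (1 / 2) * rpw B (-(1 / 2)))) *
        rpw B (1 / 2)
      = (rpw B (1 / 2) * rpw B (1 / 2)) * rpw A (-(1 / 2)) * G * rpw A (1 / 2) *
          (rpw B (-(1 / 2)) * rpw B (1 / 2)) := by simp only [Matrix.mul_assoc]
    _ = (rpw A (1 / 2) * rpw A (-(1 / 2))) * B * rpw A (-(1 / 2)) * G * rpw A (1 / 2) := by
        rw [rpw_half_mul_half hB, rpw_neg_mul hB.1, rpw_mul_neg hA.1, Matrix.mul_one, Matrix.one_mul]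
    _ = _ := by simp only [Matrix.mul_assoc]

/-- **symmetry** `A #_p B = B #_{1-p} A`. -/
theorem gm_symm (p : ℝ) {A B : Matrix n n ℂ} (hA : A.PosDef) (hB : B.PosDef) :
    gmean p A B = gmean (1 - p) B A := by
  have hC := relm_posDef hA hB
  have h := gm_exchange (hpowS ((1 - p : ℝ) : ℂ)) hA hB
  unfold gmean rpw hpow at *
  rw [h]
  congr 2
  refine mfun_congr hC.1 fun i => ?_
  have hx := hC.eigenvalues_pos i
  rw [hpowS_ofReal hx, hpowS_ofReal (inv_pos.2 hx), ← Complex.ofReal_mul]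
  congr 1
  rw [Real.inv_rpow hx.le, ← Real.rpow_neg hx.le]
  nth_rewrite 2 [← Real.rpow_one (hC.1.eigenvalues i)]
  rw [← Real.rpow_add hx]
  congr 1; ring

theorem gm_unitary_conj (p : ℝ) (A B : Matrix n n ℂ) (V : Matrix m n ℂ) (hV : Vᴴ * V = 1)
    (hV' : V * Vᴴ = 1) : gmean p (V * A * Vᴴ) (V * B * Vᴴ) = V * gmean p A B * Vᴴ := by
  have h1 : relm (V * A * Vᴴ) (V * B * Vᴴ) = V * relm A B * Vᴴ := by
    unfold relm
    rw [rpw_unitary_conj V hV hV']
    calc V * rpw A (-(1 / 2)) * Vᴴ * (V * B * Vᴴ) * (V * rpw A (-(1 / 2)) * Vᴴ)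
        = V * (rpw A (-(1 / 2)) * ((Vᴴ * V) * B * (Vᴴ * V)) * rpw A (-(1 / 2))) * Vᴴ := by
          simp only [Matrix.mul_assoc]
      _ = _ := by rw [hV, Matrix.one_mul, Matrix.mul_one]
  unfold gmean
  rw [h1, rpw_unitary_conj V hV hV', rpw_unitary_conj V hV hV']
  calc V * rpw A (1 / 2) * Vᴴ * (V * rpw (relm A B) p * Vᴴ) * (V * rpw A (1 / 2) * Vᴴ)
      = V * (rpw A (1 / 2) * ((Vᴴ * V) * rpw (relm A B) p * (Vᴴ * V)) * rpw A (1 / 2)) * Vᴴ := by
        simp only [Matrix.mul_assoc]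
    _ = _ := by rw [hV, Matrix.one_mul, Matrix.mul_one]

end Claimed.Agent.R296
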