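/-
Row 296, chain BB_Means, file 5b: geometric mean at one vertex: monotonicity, homogeneity, vector
Jensen, commutation and band factorisation, blocks, dependence on `p`, continuity.
Prefix `gm_`.   Owner: helper80.  Proofs: helper98.
-/
import Claimed.Agent.R296.Means

set_option autoImplicit false
set_option linter.unusedSectionVars false
set_option linter.unusedDecidableInType false
set_option linter.unusedVariables false

namespace Claimed.Agent.R296

open Matrix Filter Topology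
open scoped MatrixOrder Matrix.Norms.L2Operator ComplexOrder

variable {n m : Type*} [Fintype n] [DecidableEq n] [Fintype m] [DecidableEq m]

/-! ## (C) monotonicity, homogeneity, Jensen -/

theorem gm_mono_right {p : ℝ} (hp : p ∈ Set.Icc (0 : ℝ) 1) {A B B' : Matrix n n ℂ}
    (hA : A.PosDef) (hB : B.PosDef) (h : B ≤ B') : gmean p A B ≤ gmean p A B' := by
  have h1 : relm A B ≤ relm A B' := by
    have := pd_conj_le_conj h (rpw A (-(1 / 2)))
    rwa [(rpw_isHermitian A _).eq] at this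
  have h2 := rpw_le_rpw (relm_posDef hA hB) h1 hp
  have h3 := pd_conj_le_conj h2 (rpw A (1 / 2))
  rwa [(rpw_isHermitian A _).eq] at h3

theorem gm_mono_left {p : ℝ} (hp : p ∈ Set.Icc (0 : ℝ) 1) {A A' B : Matrix n n ℂ}
    (hA : A.PosDef) (hB : B.PosDef) (h : A ≤ A') : gmean p A B ≤ gmean p A' B := by
  rw [gm_symm p hA hB, gm_symm p (pd_of_le hA h) hB]
  exact gm_mono_right ⟨by linarith [hp.2], by linarith [hp.1]⟩ hB hA h

/-- **monotonicity** in both arguments. -/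
theorem gm_mono {p : ℝ} (hp : p ∈ Set.Icc (0 : ℝ) 1) {A A' B B' : Matrix n n ℂ}
    (hA : A.PosDef) (hB : B.PosDef) (h : A ≤ A') (h' : B ≤ B') :
    gmean p A B ≤ gmean p A' B' :=
  (gm_mono_left hp hA hB h).trans (gm_mono_right hp (pd_of_le hA h) hB h')

theorem gm_relm_smul {A B : Matrix n n ℂ} (hA : A.PosDef) {a b : ℝ} (ha : 0 < a) :
    relm ((a : ℂ) • A) ((b : ℂ) • B) = ((b / a : ℝ) : ℂ) • relm A B := by
  unfold relm
  rw [rpw_smul hA ha]
  simp only [Matrix.smul_mul, Matrix.mul_smul, smul_smul]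
  congr 1
  rw [← Complex.ofReal_mul, ← Complex.ofReal_mul]
  congr 1
  have : a ^ (-(1 / 2) : ℝ) * a ^ (-(1 / 2) : ℝ) = a⁻¹ := by
    rw [← Real.rpow_add ha, ← Real.rpow_neg_one]; norm_num
  calc a ^ (-(1 / 2) : ℝ) * (b * a ^ (-(1 / 2) : ℝ)) = (a ^ (-(1 / 2) : ℝ) * a ^ (-(1 / 2) : ℝ)) * b := by
        ring
    _ = b / a := by rw [this]; field_simp

/-- **homogeneity** `(aA) #_p (bB) = a^{1-p} b^p (A #_p B)`. -/
theorem gm_smul (p : ℝ) {A B : Matrix n n ℂ} (hA : A.PosDef) (hB : B.PosDef) {a b : ℝ}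
    (ha : 0 < a) (hb : 0 < b) :
    gmean p ((a : ℂ) • A) ((b : ℂ) • B) = ((a ^ (1 - p) * b ^ p : ℝ) : ℂ) • gmean p A B := by
  unfold gmean
  rw [gm_relm_smul hA ha, rpw_smul hA ha, rpw_smul (relm_posDef hA hB) (div_pos hb ha)]
  simp only [Matrix.smul_mul, Matrix.mul_smul, smul_smul]
  congr 1
  rw [← Complex.ofReal_mul, ← Complex.ofReal_mul]
  congr 1
  rw [Real.div_rpow hb.le ha.le, Real.rpow_sub ha, Real.rpow_one]
  have : a ^ (1 / 2 : ℝ) * a ^ (1 / 2 : ℝ) = a := by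
    rw [← Real.rpow_add ha]; norm_num
  have hap : 0 < a ^ p := Real.rpow_pos_of_pos ha p
  calc a ^ (1 / 2 : ℝ) * (b ^ p / a ^ p * a ^ (1 / 2 : ℝ))
      = (a ^ (1 / 2 : ℝ) * a ^ (1 / 2 : ℝ)) * (b ^ p / a ^ p) := by ring
    _ = a / a ^ p * b ^ p := by rw [this]; field_simp

/-- Jensen for `x ^ r` and a vector which is not normalised. -/
theorem gm_rpw_quadratic_le {M : Matrix n n ℂ} (hM : M.PosDef) {r : ℝ} (hr : r ∈ Set.Icc (0 : ℝ) 1)
    (w : n → ℂ) :
    (star w ⬝ᵥ (rpw M r *ᵥ w)).re ≤ (star w ⬝ᵥ w).re ^ (1 - r) * (star w ⬝ᵥ (M *ᵥ w)).re ^ r := by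
  rw [rpw_eq_mfun hM, pd_quad_mfun_re hM.1, pd_quad_re hM.1, ← sum_specW hM.1 w, Complex.ofReal_re]
  set W := specW hM.1 w with hW
  have hW0 : ∀ i, 0 ≤ W i := specW_nonneg hM.1 w
  set N := ∑ i, W i with hN
  have hN0 : 0 ≤ N := Finset.sum_nonneg fun i _ => hW0 i
  rcases hN0.lt_or_eq with hNpos | hNz
  · have hJ := (Real.concaveOn_rpow hr.1 hr.2).le_map_sum (t := Finset.univ) (w := fun i => W i / N)
      (p := hM.1.eigenvalues) (fun i _ => div_nonneg (hW0 i) hN0)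
      (by rw [← Finset.sum_div, div_self hNpos.ne']) (fun i _ => (hM.eigenvalues_pos i).le)
    simp only [smul_eq_mul] at hJ
    have e1 : ∑ i, W i / N * hM.1.eigenvalues i ^ r = (∑ i, W i * hM.1.eigenvalues i ^ r) / N := by
      rw [Finset.sum_div]; exact Finset.sum_congr rfl fun i _ => by ring
    have e2 : ∑ i, W i / N * hM.1.eigenvalues i = (∑ i, W i * hM.1.eigenvalues i) / N := by
      rw [Finset.sum_div]; exact Finset.sum_congr rfl fun i _ => by ring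
    rw [e1, e2] at hJ
    have hS0 : 0 ≤ ∑ i, W i * hM.1.eigenvalues i :=
      Finset.sum_nonneg fun i _ => mul_nonneg (hW0 i) (hM.eigenvalues_pos i).le
    rw [Real.div_rpow hS0 hN0, div_le_iff₀ hNpos] at hJ
    refine hJ.trans (le_of_eq ?_)
    rw [Real.rpow_sub hNpos, Real.rpow_one]
    have := Real.rpow_pos_of_pos hNpos r
    field_simp
  · have hz : ∀ i, W i = 0 := fun i =>
      (Finset.sum_eq_zero_iff_of_nonneg fun i _ => hW0 i).1 hNz.symm i (Finset.mem_univ i)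
    simp only [hz, zero_mul, Finset.sum_const_zero]
    exact mul_nonneg (Real.rpow_nonneg hN0 _) (Real.rpow_nonneg le_rfl _)

theorem gm_quad_conj (a X : Matrix n n ℂ) (ha : aᴴ = a) (z : n → ℂ) :
    star z ⬝ᵥ ((a * X * a) *ᵥ z) = star (a *ᵥ z) ⬝ᵥ (X *ᵥ (a *ᵥ z)) := by
  rw [star_mulVec, ha, ← dotProduct_mulVec, mulVec_mulVec, mulVec_mulVec, Matrix.mul_assoc]

/-- **vector Jensen** `⟨z, (A #_p B) z⟩ ≤ ⟨z, A z⟩^{1-p} ⟨z, B z⟩^p` (any vector `z`). -/
theorem gm_quadratic_le {p : ℝ} (hp : p ∈ Set.Icc (0 : ℝ) 1) {A B : Matrix n n ℂ}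
    (hA : A.PosDef) (hB : B.PosDef) (z : n → ℂ) :
    (star z ⬝ᵥ (gmean p A B *ᵥ z)).re ≤
      (star z ⬝ᵥ (A *ᵥ z)).re ^ (1 - p) * (star z ⬝ᵥ (B *ᵥ z)).re ^ p := by
  have ha := (rpw_isHermitian A (1 / 2)).eq
  have h := gm_rpw_quadratic_le (relm_posDef hA hB) hp (rpw A (1 / 2) *ᵥ z)
  rw [← gm_quad_conj _ _ ha, ← gm_quad_conj _ _ ha, half_mul_relm_mul_half hA] at h
  have e : star (rpw A (1 / 2) *ᵥ z) ⬝ᵥ (rpw A (1 / 2) *ᵥ z) = star z ⬝ᵥ (A *ᵥ z) := by
    have := gm_quad_conj (rpw A (1 / 2)) 1 ha z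
    rw [Matrix.mul_one, rpw_half_mul_half hA, one_mulVec] at this
    exact this.symm
  rw [e] at h
  exact h

/-! ## (D) commutation -/

theorem relm_commute {A B X : Matrix n n ℂ} (hXA : Commute X A) (hXB : Commute X B) :
    Commute X (relm A B) :=
  ((rpw_commute hXA _).mul_right hXB).mul_right (rpw_commute hXA _)

/-- the mean lies in the bicommutant of its arguments. -/
theorem gm_commute (p : ℝ) {A B X : Matrix n n ℂ} (hXA : Commute X A) (hXB : Commute X B) :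
    Commute X (gmean p A B) :=
  ((rpw_commute hXA _).mul_right (rpw_commute (relm_commute hXA hXB) _)).mul_right
    (rpw_commute hXA _)

/-- commuting arguments. -/
theorem gm_of_commute (p : ℝ) {A B : Matrix n n ℂ} (hA : A.PosDef) (hB : B.PosDef)
    (h : Commute A B) : gmean p A B = rpw A (1 - p) * rpw B p := by
  have hc : ∀ r, Commute B (rpw A r) := fun r => rpw_commute h.symm r
  have h1 : relm A B = rpw A (-1) * B := by
    unfold relm
    rw [Matrix.mul_assoc, (hc _).eq, ← Matrix.mul_assoc, ← rpw_add]; norm_num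
  have h2 : rpw (relm A B) p = rpw A (-p) * rpw B p := by
    rw [h1, rpw_mul_of_commute (rpw_posDef hA.1 _) hB (hc _).symm, rpw_rpw hA, neg_one_mul]
  have hc2 : Commute (rpw A (1 / 2)) (rpw B p) := rpw_commute (hc _).symm p
  unfold gmean
  rw [h2, Matrix.mul_assoc, Matrix.mul_assoc, ← hc2.eq, ← Matrix.mul_assoc, ← Matrix.mul_assoc,
    ← rpw_add, ← rpw_add]
  congr 2; ring

/-- the relative matrix factorises over two commuting bands. -/
theorem relm_mul {D₁ D₂ E₁ E₂ : Matrix n n ℂ} (hD₁ : D₁.PosDef) (hD₂ : D₂.PosDef)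
    (hDD : Commute D₁ D₂) (hDE : Commute D₁ E₂) (hED : Commute E₁ D₂) :
    relm (D₁ * D₂) (E₁ * E₂) = relm D₁ E₁ * relm D₂ E₂ := by
  unfold relm
  rw [rpw_mul_of_commute hD₁ hD₂ hDD]
  set d₁ := rpw D₁ (-(1 / 2))
  set d₂ := rpw D₂ (-(1 / 2))
  have c1 : d₂ * E₁ = E₁ * d₂ := (rpw_commute hED _).eq.symm
  have c2 : E₂ * d₁ = d₁ * E₂ := (rpw_commute hDE.symm _).eq
  have c3 : d₂ * d₁ = d₁ * d₂ := (rpw_commute (rpw_commute hDD _).symm _).eq
  calc d₁ * d₂ * (E₁ * E₂) * (d₁ * d₂) = d₁ * (d₂ * E₁) * (E₂ * d₁) * d₂ := by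
        simp only [Matrix.mul_assoc]
    _ = d₁ * E₁ * (d₂ * d₁) * E₂ * d₂ := by rw [c1, c2]; simp only [Matrix.mul_assoc]
    _ = _ := by rw [c3]; simp only [Matrix.mul_assoc]

theorem gm_relm_commute_relm {D₁ D₂ E₁ E₂ : Matrix n n ℂ} (hDD : Commute D₁ D₂)
    (hDE : Commute D₁ E₂) (hED : Commute E₁ D₂) (hEE : Commute E₁ E₂) :
    Commute (relm D₁ E₁) (relm D₂ E₂) :=
  relm_commute (relm_commute hDD.symm hED.symm).symm (relm_commute hDE.symm hEE.symm).symm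

/-- **band factorisation** `(D₁ D₂) #_p (E₁ E₂) = (D₁ #_p E₁)(D₂ #_p E₂)`. -/
theorem gm_mul (p : ℝ) {D₁ D₂ E₁ E₂ : Matrix n n ℂ} (hD₁ : D₁.PosDef) (hD₂ : D₂.PosDef)
    (hE₁ : E₁.PosDef) (hE₂ : E₂.PosDef) (hDD : Commute D₁ D₂) (hDE : Commute D₁ E₂)
    (hED : Commute E₁ D₂) (hEE : Commute E₁ E₂) :
    gmean p (D₁ * D₂) (E₁ * E₂) = gmean p D₁ E₁ * gmean p D₂ E₂ := by
  have hCC := gm_relm_commute_relm hDD hDE hED hEE
  unfold gmean
  rw [relm_mul hD₁ hD₂ hDD hDE hED, rpw_mul_of_commute hD₁ hD₂ hDD,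
    rpw_mul_of_commute (relm_posDef hD₁ hE₁) (relm_posDef hD₂ hE₂) hCC]
  set d₁ := rpw D₁ (1 / 2)
  set d₂ := rpw D₂ (1 / 2)
  set c₁ := rpw (relm D₁ E₁) p
  set c₂ := rpw (relm D₂ E₂) p
  have k1 : d₂ * c₁ = c₁ * d₂ :=
    (rpw_commute (rpw_commute (relm_commute hDD.symm hED.symm).symm _).symm _).eq
  have k2 : c₂ * d₁ = d₁ * c₂ :=
    (rpw_commute (rpw_commute (relm_commute hDD hDE) _).symm _).eq
  have k3 : d₂ * d₁ = d₁ * d₂ := (rpw_commute (rpw_commute hDD _).symm _).eq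
  calc d₁ * d₂ * (c₁ * c₂) * (d₁ * d₂) = d₁ * (d₂ * c₁) * (c₂ * d₁) * d₂ := by
        simp only [Matrix.mul_assoc]
    _ = d₁ * c₁ * (d₂ * d₁) * c₂ * d₂ := by rw [k1, k2]; simp only [Matrix.mul_assoc]
    _ = _ := by rw [k3]; simp only [Matrix.mul_assoc]

/-- `log C = log C₁ + log C₂` over two commuting bands. -/
theorem mlog_relm_mul {D₁ D₂ E₁ E₂ : Matrix n n ℂ} (hD₁ : D₁.PosDef) (hD₂ : D₂.PosDef)
    (hE₁ : E₁.PosDef) (hE₂ : E₂.PosDef) (hDD : Commute D₁ D₂) (hDE : Commute D₁ E₂)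
    (hED : Commute E₁ D₂) (hEE : Commute E₁ E₂) :
    mlog (relm (D₁ * D₂) (E₁ * E₂)) = mlog (relm D₁ E₁) + mlog (relm D₂ E₂) := by
  rw [relm_mul hD₁ hD₂ hDD hDE hED]
  exact pd_mlog_mul_of_commute (relm_posDef hD₁ hE₁) (relm_posDef hD₂ hE₂)
    (gm_relm_commute_relm hDD hDE hED hEE)

/-! ## (E) block diagonal arguments -/

theorem relm_fromBlocks {A B : Matrix n n ℂ} {A' B' : Matrix m m ℂ} (hA : A.IsHermitian)
    (hA' : A'.IsHermitian) :
    relm (fromBlocks A 0 0 A') (fromBlocks B 0 0 B') = fromBlocks (relm A B) 0 0 (relm A' B') := by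
  unfold relm
  rw [rpw_fromBlocks hA hA', fromBlocks_multiply, fromBlocks_multiply]
  simp only [Matrix.mul_zero, Matrix.zero_mul, add_zero, zero_add]

theorem gm_fromBlocks (p : ℝ) {A B : Matrix n n ℂ} {A' B' : Matrix m m ℂ} (hA : A.PosDef)
    (hB : B.PosDef) (hA' : A'.PosDef) (hB' : B'.PosDef) :
    gmean p (fromBlocks A 0 0 A') (fromBlocks B 0 0 B') =
      fromBlocks (gmean p A B) 0 0 (gmean p A' B') := by
  unfold gmean
  rw [relm_fromBlocks hA.1 hA'.1, rpw_fromBlocks hA.1 hA'.1,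
    rpw_fromBlocks (relm_posDef hA hB).1 (relm_posDef hA' hB').1, fromBlocks_multiply,
    fromBlocks_multiply]
  simp only [Matrix.mul_zero, Matrix.zero_mul, add_zero, zero_add]

/-! ## (F) dependence on `p` and continuity -/

/-- derivative in the weight, for every real `p`. -/
theorem gm_hasDerivAt_weight {A B : Matrix n n ℂ} (hA : A.PosDef) (hB : B.PosDef) (p : ℝ) :
    HasDerivAt (fun q : ℝ => gmean q A B)
      (rpw A (1 / 2) * (rpw (relm A B) p * mlog (relm A B)) * rpw A (1 / 2)) p := by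
  have h := rpw_hasDerivAt_exponent (relm_posDef hA hB) p
  exact (h.const_mul (rpw A (1 / 2))).mul_const (rpw A (1 / 2))

/-- continuity of the mean along continuous curves of positive definite matrices. -/
theorem gm_continuousAt (p : ℝ) {A B : ℝ → Matrix n n ℂ} {t : ℝ} (hA : ContinuousAt A t)
    (hB : ContinuousAt B t) (hAp : ∀ᶠ s in 𝓝 t, (A s).PosDef) (hBp : ∀ᶠ s in 𝓝 t, (B s).PosDef) :
    ContinuousAt (fun s => gmean p (A s) (B s)) t := by
  have h1 := dk_rpw_continuousAt (1 / 2) hA hAp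
  have h2 := dk_rpw_continuousAt (-(1 / 2)) hA hAp
  have h3 : ContinuousAt (fun s => relm (A s) (B s)) t := (h2.mul hB).mul h2
  have h4 : ∀ᶠ s in 𝓝 t, (relm (A s) (B s)).PosDef := by
    filter_upwards [hAp, hBp] with s ha hb using relm_posDef ha hb
  exact (h1.mul (dk_rpw_continuousAt p h3 h4)).mul h1

end Claimed.Agent.R296
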