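import Mathlib

/-!
# Row 296, chain BB_Means (P1 Sec 6), file 4: unital 2-positive maps, Kadison-Schwarz, trace adjoints

Owner: helper80.  The paper says "unital completely positive"; only 2-positivity is used
(`transport:cp-schwarz`).  Independent of the other files (imports Mathlib only).
Hints: `amp2 (sandwich S) X = (fromBlocks S 0 0 S)ᴴ * X * fromBlocks S 0 0 S`;
Kadison-Schwarz: apply `amp2 Φ` to `[[Kᴴ K, Kᴴ], [K, 1]] = [[Kᴴ],[1]] [[K, 1]]` and use the Schur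
complement (`Matrix.PosDef.fromBlocks₂₂` / `Matrix.PosSemidef.fromBlocks₂₂`), or test the block matrix on the
vector `(w, - Φ K w)`.
-/

set_option autoImplicit false
set_option linter.unusedSectionVars false
set_option linter.unusedDecidableInType false

namespace Claimed.Agent.R296

open Matrix
open scoped MatrixOrder Matrix.Norms.L2Operator ComplexOrder

variable {n m l : Type*} [Fintype n] [DecidableEq n] [Fintype m] [DecidableEq m]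
  [Fintype l] [DecidableEq l]

/-- the 2 × 2 amplification of a linear map between matrix algebras. -/
def amp2 (Φ : Matrix n n ℂ →ₗ[ℂ] Matrix m m ℂ) (X : Matrix (n ⊕ n) (n ⊕ n) ℂ) :
    Matrix (m ⊕ m) (m ⊕ m) ℂ :=
  fromBlocks (Φ X.toBlocks₁₁) (Φ X.toBlocks₁₂) (Φ X.toBlocks₂₁) (Φ X.toBlocks₂₂)

/-- 2-positive maps. -/
def IsTwoPos (Φ : Matrix n n ℂ →ₗ[ℂ] Matrix m m ℂ) : Prop :=
  ∀ X : Matrix (n ⊕ n) (n ⊕ n) ℂ, X.PosSemidef → (amp2 Φ X).PosSemidef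

/-- unital 2-positive maps (the substitute for "UCP"). -/
structure IsUTP (Φ : Matrix n n ℂ →ₗ[ℂ] Matrix m m ℂ) : Prop where
  twoPos : IsTwoPos Φ
  unital : Φ 1 = 1

/-- the sandwich map `Z ↦ S* Z S`. -/
def sandwich (S : Matrix n m ℂ) : Matrix n n ℂ →ₗ[ℂ] Matrix m m ℂ where
  toFun Z := Sᴴ * Z * S
  map_add' X Y := by simp [Matrix.mul_add, Matrix.add_mul]
  map_smul' c X := by simp

@[simp] theorem sandwich_apply (S : Matrix n m ℂ) (Z : Matrix n n ℂ) :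
    sandwich S Z = Sᴴ * Z * S := rfl

/-! ### auxiliary facts on `amp2` -/

theorem tp_amp2_fromBlocks (Φ : Matrix n n ℂ →ₗ[ℂ] Matrix m m ℂ) (A B C D : Matrix n n ℂ) :
    amp2 Φ (fromBlocks A B C D) = fromBlocks (Φ A) (Φ B) (Φ C) (Φ D) := by
  simp [amp2]

theorem tp_amp2_id (X : Matrix (n ⊕ n) (n ⊕ n) ℂ) :
    amp2 (LinearMap.id : Matrix n n ℂ →ₗ[ℂ] Matrix n n ℂ) X = X := by
  simp [amp2, fromBlocks_toBlocks]

theorem tp_amp2_zero (X : Matrix (n ⊕ n) (n ⊕ n) ℂ) :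
    amp2 (0 : Matrix n n ℂ →ₗ[ℂ] Matrix m m ℂ) X = 0 := by
  simp [amp2]

theorem tp_amp2_comp (Φ : Matrix m m ℂ →ₗ[ℂ] Matrix l l ℂ) (Ψ : Matrix n n ℂ →ₗ[ℂ] Matrix m m ℂ)
    (X : Matrix (n ⊕ n) (n ⊕ n) ℂ) : amp2 (Φ ∘ₗ Ψ) X = amp2 Φ (amp2 Ψ X) := by
  simp [amp2]

theorem tp_amp2_add (Φ Ψ : Matrix n n ℂ →ₗ[ℂ] Matrix m m ℂ) (X : Matrix (n ⊕ n) (n ⊕ n) ℂ) :
    amp2 (Φ + Ψ) X = amp2 Φ X + amp2 Ψ X := by
  simp [amp2, fromBlocks_add]

theorem tp_amp2_smul (c : ℂ) (Φ : Matrix n n ℂ →ₗ[ℂ] Matrix m m ℂ)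
    (X : Matrix (n ⊕ n) (n ⊕ n) ℂ) : amp2 (c • Φ) X = c • amp2 Φ X := by
  simp [amp2, fromBlocks_smul]

theorem tp_amp2_sandwich (S : Matrix n m ℂ) (X : Matrix (n ⊕ n) (n ⊕ n) ℂ) :
    amp2 (sandwich S) X = (fromBlocks S 0 0 S)ᴴ * X * fromBlocks S 0 0 S := by
  conv_rhs => rw [← fromBlocks_toBlocks X]
  simp [amp2, fromBlocks_conjTranspose, fromBlocks_multiply]

/-- the corner embedding of a positive semidefinite matrix. -/
theorem tp_corner_posSemidef {Z : Matrix n n ℂ} (hZ : Z.PosSemidef) :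
    (fromBlocks Z 0 0 0 : Matrix (n ⊕ n) (n ⊕ n) ℂ).PosSemidef := by
  have h := hZ.conjTranspose_mul_mul_same (fromCols (1 : Matrix n n ℂ) (0 : Matrix n n ℂ))
  have e : (fromCols (1 : Matrix n n ℂ) (0 : Matrix n n ℂ))ᴴ * Z *
      fromCols (1 : Matrix n n ℂ) (0 : Matrix n n ℂ) = fromBlocks Z 0 0 0 := by
    ext i j
    rcases i with i | i <;> rcases j with j | j <;>
      simp [Matrix.mul_apply, fromCols, conjTranspose_apply, Matrix.one_apply]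
  rwa [e] at h

/-- the Kadison-Schwarz block matrix. -/
theorem tp_ksBlock_posSemidef (K : Matrix n n ℂ) :
    (fromBlocks (Kᴴ * K) Kᴴ K 1 : Matrix (n ⊕ n) (n ⊕ n) ℂ).PosSemidef := by
  have h := posSemidef_conjTranspose_mul_self (fromBlocks K 1 0 0 : Matrix (n ⊕ n) (n ⊕ n) ℂ)
  have e : (fromBlocks K 1 0 0 : Matrix (n ⊕ n) (n ⊕ n) ℂ)ᴴ * fromBlocks K 1 0 0
      = fromBlocks (Kᴴ * K) Kᴴ K 1 := by
    simp [fromBlocks_conjTranspose, fromBlocks_multiply]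
  rwa [e] at h

/-- the trace of a product of two positive semidefinite matrices is nonnegative. -/
theorem tp_trace_mul_nonneg {A B : Matrix n n ℂ} (hA : A.PosSemidef) (hB : B.PosSemidef) :
    0 ≤ trace (A * B) := by
  obtain ⟨C, rfl⟩ := CStarAlgebra.nonneg_iff_eq_star_mul_self.mp hA.nonneg
  have h := (hB.mul_mul_conjTranspose_same C).trace_nonneg
  rw [Matrix.star_eq_conjTranspose, Matrix.mul_assoc, Matrix.trace_mul_comm, Matrix.mul_assoc]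
  rwa [Matrix.mul_assoc] at h

theorem IsTwoPos.posSemidef {Φ : Matrix n n ℂ →ₗ[ℂ] Matrix m m ℂ} (h : IsTwoPos Φ)
    {Z : Matrix n n ℂ} (hZ : Z.PosSemidef) : (Φ Z).PosSemidef := by
  have h1 := (h _ (tp_corner_posSemidef hZ)).submatrix (Sum.inl : m → m ⊕ m)
  rw [tp_amp2_fromBlocks] at h1
  have e : (fromBlocks (Φ Z) (Φ 0) (Φ 0) (Φ 0)).submatrix (Sum.inl : m → m ⊕ m) Sum.inl = Φ Z := by
    ext i j; simp
  rwa [e] at h1

theorem IsTwoPos.mono {Φ : Matrix n n ℂ →ₗ[ℂ] Matrix m m ℂ} (h : IsTwoPos Φ)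
    {Z W : Matrix n n ℂ} (hZ : Z ≤ W) : Φ Z ≤ Φ W := by
  rw [Matrix.le_iff] at hZ ⊢
  rw [← map_sub]
  exact h.posSemidef hZ

theorem IsTwoPos.map_conjTranspose {Φ : Matrix n n ℂ →ₗ[ℂ] Matrix m m ℂ} (h : IsTwoPos Φ)
    (Z : Matrix n n ℂ) : Φ Zᴴ = (Φ Z)ᴴ := by
  have h1 := (h _ (tp_ksBlock_posSemidef Z)).isHermitian
  rw [tp_amp2_fromBlocks, isHermitian_fromBlocks_iff] at h1
  exact h1.2.2.1.symm

theorem isTwoPos_id : IsTwoPos (LinearMap.id : Matrix n n ℂ →ₗ[ℂ] Matrix n n ℂ) := by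
  intro X hX
  rwa [tp_amp2_id]

theorem isTwoPos_zero : IsTwoPos (0 : Matrix n n ℂ →ₗ[ℂ] Matrix m m ℂ) := by
  intro X _
  rw [tp_amp2_zero]
  exact PosSemidef.zero

theorem isTwoPos_sandwich (S : Matrix n m ℂ) : IsTwoPos (sandwich S) := by
  intro X hX
  rw [tp_amp2_sandwich]
  exact hX.conjTranspose_mul_mul_same _

theorem IsTwoPos.comp {Φ : Matrix m m ℂ →ₗ[ℂ] Matrix l l ℂ} {Ψ : Matrix n n ℂ →ₗ[ℂ] Matrix m m ℂ}
    (hΦ : IsTwoPos Φ) (hΨ : IsTwoPos Ψ) : IsTwoPos (Φ ∘ₗ Ψ) := by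
  intro X hX
  rw [tp_amp2_comp]
  exact hΦ _ (hΨ _ hX)

theorem IsTwoPos.add {Φ Ψ : Matrix n n ℂ →ₗ[ℂ] Matrix m m ℂ} (hΦ : IsTwoPos Φ)
    (hΨ : IsTwoPos Ψ) : IsTwoPos (Φ + Ψ) := by
  intro X hX
  rw [tp_amp2_add]
  exact (hΦ _ hX).add (hΨ _ hX)

theorem IsTwoPos.smul {Φ : Matrix n n ℂ →ₗ[ℂ] Matrix m m ℂ} (hΦ : IsTwoPos Φ) {c : ℝ}
    (hc : 0 ≤ c) : IsTwoPos ((c : ℂ) • Φ) := by
  intro X hX
  rw [tp_amp2_smul]
  exact (hΦ _ hX).smul (by exact_mod_cast hc)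

theorem IsTwoPos.sum {ι : Type*} (s : Finset ι) {Φ : ι → Matrix n n ℂ →ₗ[ℂ] Matrix m m ℂ}
    (h : ∀ i ∈ s, IsTwoPos (Φ i)) : IsTwoPos (∑ i ∈ s, Φ i) := by
  classical
  induction s using Finset.induction_on with
  | empty => simpa using isTwoPos_zero
  | insert a s ha ih =>
    rw [Finset.sum_insert ha]
    exact (h a (Finset.mem_insert_self a s)).add
      (ih fun i hi => h i (Finset.mem_insert_of_mem hi))

theorem isUTP_id : IsUTP (LinearMap.id : Matrix n n ℂ →ₗ[ℂ] Matrix n n ℂ) :=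
  ⟨isTwoPos_id, rfl⟩

theorem IsUTP.comp {Φ : Matrix m m ℂ →ₗ[ℂ] Matrix l l ℂ} {Ψ : Matrix n n ℂ →ₗ[ℂ] Matrix m m ℂ}
    (hΦ : IsUTP Φ) (hΨ : IsUTP Ψ) : IsUTP (Φ ∘ₗ Ψ) :=
  ⟨hΦ.twoPos.comp hΨ.twoPos, by simp [hΦ.unital, hΨ.unital]⟩

/-- convex combinations of unital 2-positive maps. -/
theorem IsUTP.convex {Φ Ψ : Matrix n n ℂ →ₗ[ℂ] Matrix m m ℂ} (hΦ : IsUTP Φ) (hΨ : IsUTP Ψ)
    {a b : ℝ} (ha : 0 ≤ a) (hb : 0 ≤ b) (hab : a + b = 1) :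
    IsUTP ((a : ℂ) • Φ + (b : ℂ) • Ψ) := by
  refine ⟨(hΦ.twoPos.smul ha).add (hΨ.twoPos.smul hb), ?_⟩
  have : (a : ℂ) + (b : ℂ) = 1 := by exact_mod_cast hab
  rw [LinearMap.add_apply, LinearMap.smul_apply, LinearMap.smul_apply, hΦ.unital, hΨ.unital,
    ← add_smul, this, one_smul]

theorem isUTP_sandwich_unitary {V : Matrix n n ℂ} (hV : V ∈ unitaryGroup n ℂ) :
    IsUTP (sandwich V) := by
  refine ⟨isTwoPos_sandwich V, ?_⟩
  have := (Matrix.mem_unitaryGroup_iff').mp hV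
  simpa [Matrix.star_eq_conjTranspose] using this

/-- **Kadison-Schwarz** for unital 2-positive maps. -/
theorem IsUTP.kadison_schwarz {Φ : Matrix n n ℂ →ₗ[ℂ] Matrix m m ℂ} (h : IsUTP Φ)
    (K : Matrix n n ℂ) : (Φ K)ᴴ * Φ K ≤ Φ (Kᴴ * K) := by
  have h1 := h.twoPos _ (tp_ksBlock_posSemidef K)
  rw [tp_amp2_fromBlocks, h.unital, h.twoPos.map_conjTranspose] at h1
  have h2 : (fromBlocks (Φ (Kᴴ * K)) (Φ K)ᴴ ((Φ K)ᴴ)ᴴ (1 : Matrix m m ℂ)).PosSemidef := by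
    rwa [conjTranspose_conjTranspose]
  have : Invertible (1 : Matrix m m ℂ) := invertibleOne
  rw [PosDef.fromBlocks₂₂ _ _ PosDef.one] at h2
  rw [Matrix.le_iff]
  simpa using h2

/-- vector form of Kadison-Schwarz. -/
theorem IsUTP.norm_sq_mulVec_le {Φ : Matrix n n ℂ →ₗ[ℂ] Matrix m m ℂ} (h : IsUTP Φ)
    (K : Matrix n n ℂ) (w : m → ℂ) :
    (star (Φ K *ᵥ w) ⬝ᵥ (Φ K *ᵥ w)).re ≤ (star w ⬝ᵥ (Φ (Kᴴ * K) *ᵥ w)).re := by
  have h1 := h.kadison_schwarz K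
  rw [Matrix.le_iff] at h1
  have h2 := h1.dotProduct_mulVec_nonneg w
  rw [Matrix.sub_mulVec, dotProduct_sub, ← Matrix.mulVec_mulVec, Matrix.dotProduct_mulVec _ (Φ K)ᴴ,
    ← Matrix.star_mulVec] at h2
  have h3 := (Complex.le_def.mp h2).1
  simp only [Complex.zero_re, Complex.sub_re] at h3
  linarith

/-- a unital positive map is a contraction on Hermitian elements: `-c ≤ Z ≤ c` is preserved. -/
theorem IsUTP.le_smul_one {Φ : Matrix n n ℂ →ₗ[ℂ] Matrix m m ℂ} (h : IsUTP Φ)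
    {Z : Matrix n n ℂ} {c : ℝ} (hZ : Z ≤ (c : ℂ) • 1) : Φ Z ≤ (c : ℂ) • 1 := by
  have := h.twoPos.mono hZ
  rwa [map_smul, h.unital] at this

/-- the trace adjoint: `Tr (tadj Φ σ * Z) = Tr (σ * Φ Z)`. -/
def tadj (Φ : Matrix n n ℂ →ₗ[ℂ] Matrix m m ℂ) : Matrix m m ℂ →ₗ[ℂ] Matrix n n ℂ where
  toFun σ := Matrix.of fun i j => trace (σ * Φ (Matrix.single j i 1))
  map_add' σ τ := by
    ext i j
    simp [Matrix.add_mul]
  map_smul' c σ := by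
    ext i j
    simp

theorem tadj_apply (Φ : Matrix n n ℂ →ₗ[ℂ] Matrix m m ℂ) (σ : Matrix m m ℂ) (i j : n) :
    tadj Φ σ i j = trace (σ * Φ (Matrix.single j i 1)) := rfl

theorem trace_tadj_mul (Φ : Matrix n n ℂ →ₗ[ℂ] Matrix m m ℂ) (σ : Matrix m m ℂ)
    (Z : Matrix n n ℂ) : trace (tadj Φ σ * Z) = trace (σ * Φ Z) := by
  conv_rhs => rw [matrix_eq_sum_single Z]
  simp only [map_sum, Matrix.mul_sum, trace_sum]
  simp only [trace, diag_apply, Matrix.mul_apply, tadj_apply]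
  rw [Finset.sum_comm]
  refine Finset.sum_congr rfl fun i _ => Finset.sum_congr rfl fun j _ => ?_
  have e : Matrix.single i j (Z i j) = Z i j • Matrix.single i j (1 : ℂ) := by
    simp [Matrix.smul_single]
  rw [e, map_smul]
  simp only [Matrix.smul_apply, smul_eq_mul, Finset.sum_mul]
  refine Finset.sum_congr rfl fun a _ => Finset.sum_congr rfl fun b _ => ?_
  ring

theorem tadj_comp (Φ : Matrix m m ℂ →ₗ[ℂ] Matrix l l ℂ) (Ψ : Matrix n n ℂ →ₗ[ℂ] Matrix m m ℂ) :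
    tadj (Φ ∘ₗ Ψ) = tadj Ψ ∘ₗ tadj Φ := by
  ext σ i j
  simp only [LinearMap.comp_apply, tadj_apply, trace_tadj_mul]

theorem tadj_posSemidef {Φ : Matrix n n ℂ →ₗ[ℂ] Matrix m m ℂ} (h : IsTwoPos Φ)
    {σ : Matrix m m ℂ} (hσ : σ.PosSemidef) : (tadj Φ σ).PosSemidef := by
  have key : ∀ (M : Matrix n n ℂ) (x : n → ℂ),
      star x ⬝ᵥ (M *ᵥ x) = trace (M * vecMulVec x (star x)) := by
    intro M x
    rw [Matrix.mul_vecMulVec, trace_vecMulVec, dotProduct_comm]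
  refine PosSemidef.of_dotProduct_mulVec_nonneg ?_ fun x => ?_
  · ext i j
    rw [conjTranspose_apply, tadj_apply, tadj_apply, ← trace_conjTranspose, conjTranspose_mul,
      ← h.map_conjTranspose, hσ.isHermitian.eq, trace_mul_comm]
    simp
  · rw [key, trace_tadj_mul]
    exact tp_trace_mul_nonneg hσ (h.posSemidef (posSemidef_vecMulVec_self_star x))

theorem trace_tadj {Φ : Matrix n n ℂ →ₗ[ℂ] Matrix m m ℂ} (h : Φ 1 = 1) (σ : Matrix m m ℂ) :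
    trace (tadj Φ σ) = trace σ := by
  have := trace_tadj_mul Φ σ 1
  rwa [Matrix.mul_one, h, Matrix.mul_one] at this

/-- the state `Z ↦ ⟨w, Φ(Z) w⟩` as a matrix. -/
def pullState (Φ : Matrix n n ℂ →ₗ[ℂ] Matrix m m ℂ) (w : m → ℂ) : Matrix n n ℂ :=
  tadj Φ (vecMulVec w (star w))

theorem trace_pullState_mul (Φ : Matrix n n ℂ →ₗ[ℂ] Matrix m m ℂ) (w : m → ℂ)
    (Z : Matrix n n ℂ) : trace (pullState Φ w * Z) = star w ⬝ᵥ (Φ Z *ᵥ w) := by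
  rw [pullState, trace_tadj_mul, trace_mul_comm, Matrix.mul_vecMulVec, trace_vecMulVec,
    dotProduct_comm]

theorem pullState_posSemidef {Φ : Matrix n n ℂ →ₗ[ℂ] Matrix m m ℂ} (h : IsTwoPos Φ)
    (w : m → ℂ) : (pullState Φ w).PosSemidef :=
  tadj_posSemidef h (posSemidef_vecMulVec_self_star w)

theorem trace_pullState {Φ : Matrix n n ℂ →ₗ[ℂ] Matrix m m ℂ} (h : Φ 1 = 1) (w : m → ℂ) :
    trace (pullState Φ w) = star w ⬝ᵥ w := by
  rw [pullState, trace_tadj h, trace_vecMulVec, dotProduct_comm]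

end Claimed.Agent.R296
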