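/-
Row 296, chain BB_Means (P1 Sec 6, Lemma `transport:cp` at ONE binary vertex), file 6:
the normalized derivative maps of `M = A #_p B`,
  `edgeR p A B Z = (1/p)     M^{-1/2} ∂_B M[B^{1/2} Z B^{1/2}] M^{-1/2}`   (child `B`, weight `p`),
  `edgeL p A B Z = (1/(1-p)) M^{-1/2} ∂_A M[A^{1/2} Z A^{1/2}] M^{-1/2}`   (child `A`, weight `1-p`),
they are unital and 2-positive, give the derivative of the mean along curves, the derivative in the
weight `p`, the infinitesimal congruence identity, and restrict to diagonal blocks.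
Prefix `ed_`.   Owner: helper80.
-/
import Claimed.Agent.R296.MeansB
import Claimed.Agent.R296.TwoPos

set_option autoImplicit false
set_option linter.unusedSectionVars false
set_option linter.unusedDecidableInType false

namespace Claimed.Agent.R296

open Matrix Filter Topology
open scoped MatrixOrder Matrix.Norms.L2Operator ComplexOrder

variable {n m : Type*} [Fintype n] [DecidableEq n] [Fintype m] [DecidableEq m]

/-- a Schur multiplier in the eigenbasis of `A` with positive semidefinite kernel is 2-positive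
(`dop_exists_kraus` + `isTwoPos_sandwich` + `IsTwoPos.sum`). -/
theorem isTwoPos_dopL {g : ℝ → ℝ → ℂ} {A : Matrix n n ℂ} (hA : A.IsHermitian)
    (hg : (Matrix.of fun i j => g (hA.eigenvalues i) (hA.eigenvalues j)).PosSemidef) :
    IsTwoPos (dopL g A) := by
  obtain ⟨K, hK⟩ := dop_exists_kraus hA hg
  have e : dopL g A = ∑ k, sandwich (K k) := by
    ext1 H
    rw [dopL_apply, hK, LinearMap.sum_apply]
    rfl
  rw [e]
  exact IsTwoPos.sum _ fun k _ => isTwoPos_sandwich (K k)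

/-- `H ↦ D(x^p)(C)[H]` is 2-positive for `0 ≤ p ≤ 1`. -/
theorem isTwoPos_dopL_ddp {p : ℝ} (hp : p ∈ Set.Icc (0 : ℝ) 1) {C : Matrix n n ℂ}
    (hC : C.PosDef) : IsTwoPos (dopL (ddp p) C) :=
  isTwoPos_dopL hC.1 (dk_loewner_rpow hp _ fun i => hC.eigenvalues_pos i)

/-- `D(x^p)(C)[φ(C)] = p C^{p-1} φ(C)`. -/
theorem dop_ddp_mfun (p : ℝ) {C : Matrix n n ℂ} (hC : C.PosDef) (φ : ℝ → ℂ) :
    dop (ddp p) C (mfun φ C) = (p : ℂ) • (rpw C (p - 1) * mfun φ C) := by
  rw [dop_mfun, rpw_eq_mfun hC, ← mfun_mul, ← mfun_smul]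
  refine mfun_congr hC.1 fun i => ?_
  rw [ddp_self p (hC.eigenvalues_pos i)]
  push_cast
  ring

/-- normalized derivative map of `A #_p B` with respect to the second child `B`. -/
noncomputable def edgeR (p : ℝ) (A B : Matrix n n ℂ) : Matrix n n ℂ →ₗ[ℂ] Matrix n n ℂ :=
  ((1 / p : ℝ) : ℂ) • (sandwich (rpw A (1 / 2) * rpw (gmean p A B) (-(1 / 2))) ∘ₗ
    dopL (ddp p) (relm A B) ∘ₗ sandwich (rpw B (1 / 2) * rpw A (-(1 / 2))))

/-- normalized derivative map of `A #_p B` with respect to the first child `A`. -/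
noncomputable def edgeL (p : ℝ) (A B : Matrix n n ℂ) : Matrix n n ℂ →ₗ[ℂ] Matrix n n ℂ :=
  edgeR (1 - p) B A

theorem edgeR_apply (p : ℝ) (A B Z : Matrix n n ℂ) :
    edgeR p A B Z = ((1 / p : ℝ) : ℂ) • (rpw (gmean p A B) (-(1 / 2)) * rpw A (1 / 2) *
      dop (ddp p) (relm A B) (rpw A (-(1 / 2)) * rpw B (1 / 2) * Z *
        (rpw B (1 / 2) * rpw A (-(1 / 2)))) * (rpw A (1 / 2) * rpw (gmean p A B) (-(1 / 2)))) := by
  simp only [edgeR, LinearMap.smul_apply, LinearMap.comp_apply, sandwich_apply, dopL_apply,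
    conjTranspose_mul, (rpw_isHermitian _ _).eq]

theorem ed_edgeR_one {p : ℝ} (hp : p ≠ 0) {A B : Matrix n n ℂ} (hA : A.PosDef)
    (hB : B.PosDef) : edgeR p A B 1 = 1 := by
  have hC := relm_posDef hA hB
  have hM := gm_posDef p hA hB
  have e1 : rpw A (-(1 / 2)) * rpw B (1 / 2) * 1 * (rpw B (1 / 2) * rpw A (-(1 / 2)))
      = mfun (fun x => (x : ℂ)) (relm A B) := by
    rw [mfun_id hC.1, relm, Matrix.mul_one, Matrix.mul_assoc, ← Matrix.mul_assoc (rpw B (1 / 2)),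
      rpw_half_mul_half hB, Matrix.mul_assoc]
  have e2 : rpw (relm A B) (p - 1) * mfun (fun x => (x : ℂ)) (relm A B) = rpw (relm A B) p := by
    rw [mfun_id hC.1]
    have h1 := rpw_add (relm A B) (p - 1) 1
    rw [rpw_one hC, sub_add_cancel] at h1
    exact h1.symm
  rw [edgeR_apply, e1, dop_ddp_mfun p hC, e2]
  have e3 : rpw (gmean p A B) (-(1 / 2)) * rpw A (1 / 2) * ((p : ℂ) • rpw (relm A B) p) *
      (rpw A (1 / 2) * rpw (gmean p A B) (-(1 / 2)))
      = (p : ℂ) • (rpw (gmean p A B) (-(1 / 2)) * gmean p A B * rpw (gmean p A B) (-(1 / 2))) := by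
    have hg : gmean p A B = rpw A (1 / 2) * rpw (relm A B) p * rpw A (1 / 2) := rfl
    generalize rpw (gmean p A B) (-(1 / 2)) = W
    rw [hg]
    simp only [Matrix.mul_smul, Matrix.smul_mul, Matrix.mul_assoc]
  rw [e3, rpw_neg_half_mul_mul hM, smul_smul]
  have : ((1 / p : ℝ) : ℂ) * (p : ℂ) = 1 := by
    rw [← Complex.ofReal_mul, one_div, inv_mul_cancel₀ hp, Complex.ofReal_one]
  rw [this, one_smul]

theorem ed_edgeR_isUTP {p : ℝ} (hp : p ∈ Set.Ioc (0 : ℝ) 1) {A B : Matrix n n ℂ} (hA : A.PosDef)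
    (hB : B.PosDef) : IsUTP (edgeR p A B) := by
  refine ⟨?_, ed_edgeR_one hp.1.ne' hA hB⟩
  exact IsTwoPos.smul (((isTwoPos_sandwich _).comp
    ((isTwoPos_dopL_ddp ⟨hp.1.le, hp.2⟩ (relm_posDef hA hB)).comp (isTwoPos_sandwich _))))
    (by have := hp.1; positivity)

theorem ed_edgeL_isUTP {p : ℝ} (hp : p ∈ Set.Ico (0 : ℝ) 1) {A B : Matrix n n ℂ} (hA : A.PosDef)
    (hB : B.PosDef) : IsUTP (edgeL p A B) :=
  ed_edgeR_isUTP ⟨by linarith [hp.2], by linarith [hp.1]⟩ hB hA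

/-! ## (B) the derivative of the mean along curves -/

theorem ed_rpw_mul_neg_mul {A : Matrix n n ℂ} (hA : A.IsHermitian) (r : ℝ) (X : Matrix n n ℂ) :
    rpw A r * (rpw A (-r) * X) = X := by
  rw [← Matrix.mul_assoc, rpw_mul_neg hA, Matrix.one_mul]

theorem ed_rpw_neg_mul_mul {A : Matrix n n ℂ} (hA : A.IsHermitian) (r : ℝ) (X : Matrix n n ℂ) :
    rpw A (-r) * (rpw A r * X) = X := by
  rw [← Matrix.mul_assoc, rpw_neg_mul hA, Matrix.one_mul]

/-- the un-normalised form of `edgeR`. -/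
theorem ed_half_edgeR_half {p : ℝ} (hp : p ≠ 0) {A B : Matrix n n ℂ} (hA : A.PosDef)
    (hB : B.PosDef) (H : Matrix n n ℂ) :
    rpw (gmean p A B) (1 / 2) *
        ((p : ℂ) • edgeR p A B (rpw B (-(1 / 2)) * H * rpw B (-(1 / 2)))) *
        rpw (gmean p A B) (1 / 2) =
      rpw A (1 / 2) * dop (ddp p) (relm A B) (rpw A (-(1 / 2)) * H * rpw A (-(1 / 2))) *
        rpw A (1 / 2) := by
  have hM := gm_posDef p hA hB
  have e1 : rpw A (-(1 / 2)) * rpw B (1 / 2) * (rpw B (-(1 / 2)) * H * rpw B (-(1 / 2))) *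
      (rpw B (1 / 2) * rpw A (-(1 / 2))) = rpw A (-(1 / 2)) * H * rpw A (-(1 / 2)) := by
    simp only [Matrix.mul_assoc, ed_rpw_mul_neg_mul hB.1, ed_rpw_neg_mul_mul hB.1]
  have hpp : (p : ℂ) * ((1 / p : ℝ) : ℂ) = 1 := by
    rw [← Complex.ofReal_mul, one_div, mul_inv_cancel₀ hp, Complex.ofReal_one]
  rw [edgeR_apply, e1, smul_smul, hpp, one_smul]
  simp only [Matrix.mul_assoc, ed_rpw_mul_neg_mul hM.1]
  rw [rpw_neg_mul hM.1, Matrix.mul_one]

/-- derivative in the second argument only (first argument fixed): direct from Daleckii-Krein. -/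
theorem ed_hasDerivAt_right {p : ℝ} (hp : p ≠ 0) {A : Matrix n n ℂ} (hA : A.PosDef)
    {B : ℝ → Matrix n n ℂ} {B' : Matrix n n ℂ} {t : ℝ} (hB : HasDerivAt B B' t)
    (hBp : ∀ᶠ s in 𝓝 t, (B s).PosDef) :
    HasDerivAt (fun s => gmean p A (B s))
      (rpw (gmean p A (B t)) (1 / 2) *
        ((p : ℂ) • edgeR p A (B t) (rpw (B t) (-(1 / 2)) * B' * rpw (B t) (-(1 / 2)))) *
        rpw (gmean p A (B t)) (1 / 2)) t := by
  have hBt : (B t).PosDef := hBp.self_of_nhds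
  have h1 : HasDerivAt (fun s => relm A (B s)) (rpw A (-(1 / 2)) * B' * rpw A (-(1 / 2))) t :=
    (hB.const_mul _).mul_const _
  have h2 : ∀ᶠ s in 𝓝 t, (relm A (B s)).PosDef := hBp.mono fun s hs => relm_posDef hA hs
  have h3 := dk_rpw_hasDerivAt p h1 h2
  have h4 : HasDerivAt (fun s => gmean p A (B s)) (rpw A (1 / 2) *
      dop (ddp p) (relm A (B t)) (rpw A (-(1 / 2)) * B' * rpw A (-(1 / 2))) * rpw A (1 / 2)) t :=
    (h3.const_mul _).mul_const _
  rw [ed_half_edgeR_half hp hA hBt]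
  exact h4

/-- derivative in the first argument only: `gm_symm` + `ed_hasDerivAt_right`. -/
theorem ed_hasDerivAt_left {p : ℝ} (hp : p ≠ 1) {B : Matrix n n ℂ} (hB : B.PosDef)
    {A : ℝ → Matrix n n ℂ} {A' : Matrix n n ℂ} {t : ℝ} (hA : HasDerivAt A A' t)
    (hAp : ∀ᶠ s in 𝓝 t, (A s).PosDef) :
    HasDerivAt (fun s => gmean p (A s) B)
      (rpw (gmean p (A t) B) (1 / 2) *
        (((1 - p : ℝ) : ℂ) • edgeL p (A t) B (rpw (A t) (-(1 / 2)) * A' * rpw (A t) (-(1 / 2)))) *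
        rpw (gmean p (A t) B) (1 / 2)) t := by
  have hAt : (A t).PosDef := hAp.self_of_nhds
  have h := ed_hasDerivAt_right (p := 1 - p) (sub_ne_zero.2 (Ne.symm hp)) hB hA hAp
  rw [← gm_symm p hAt hB] at h
  exact h.congr_of_eventuallyEq (hAp.mono fun s hs => gm_symm p hs hB)

/-- the partial derivative of `gmean p` in the first argument (auxiliary, un-normalised). -/
noncomputable def edDA (p : ℝ) (A₀ B₀ : Matrix n n ℂ) : Matrix n n ℂ →ₗ[ℂ] Matrix n n ℂ where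
  toFun H := dop (ddp (1 / 2)) A₀ H * rpw (relm A₀ B₀) p * rpw A₀ (1 / 2) +
    rpw A₀ (1 / 2) * dop (ddp p) (relm A₀ B₀)
      (dop (ddp (-(1 / 2))) A₀ H * B₀ * rpw A₀ (-(1 / 2)) +
        rpw A₀ (-(1 / 2)) * B₀ * dop (ddp (-(1 / 2))) A₀ H) * rpw A₀ (1 / 2) +
    rpw A₀ (1 / 2) * rpw (relm A₀ B₀) p * dop (ddp (1 / 2)) A₀ H
  map_add' X Y := by
    simp only [dop, dop₂_add_right, Matrix.mul_add, Matrix.add_mul]
    abel
  map_smul' c X := by
    simp only [dop, dop₂_smul_right, dop₂_add_right, Matrix.mul_smul, Matrix.smul_mul, smul_add,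
      RingHom.id_apply, Matrix.mul_add, Matrix.add_mul]

/-- the partial derivative of `gmean p` in the second argument (auxiliary, un-normalised). -/
noncomputable def edDB (p : ℝ) (A₀ B₀ : Matrix n n ℂ) : Matrix n n ℂ →ₗ[ℂ] Matrix n n ℂ where
  toFun H := rpw A₀ (1 / 2) * dop (ddp p) (relm A₀ B₀)
      (rpw A₀ (-(1 / 2)) * H * rpw A₀ (-(1 / 2))) * rpw A₀ (1 / 2)
  map_add' X Y := by
    simp only [dop, dop₂_add_right, Matrix.mul_add, Matrix.add_mul]
  map_smul' c X := by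
    simp only [dop, dop₂_smul_right, Matrix.mul_smul, Matrix.smul_mul, RingHom.id_apply]

theorem ed_total_deriv (p : ℝ) {A B : ℝ → Matrix n n ℂ} {A' B' : Matrix n n ℂ} {t : ℝ}
    (hA : HasDerivAt A A' t) (hB : HasDerivAt B B' t) (hAp : ∀ᶠ s in 𝓝 t, (A s).PosDef)
    (hBp : ∀ᶠ s in 𝓝 t, (B s).PosDef) :
    HasDerivAt (fun s => gmean p (A s) (B s)) (edDA p (A t) (B t) A' + edDB p (A t) (B t) B') t := by
  have h1 := dk_rpw_hasDerivAt (1 / 2) hA hAp
  have h2 := dk_rpw_hasDerivAt (-(1 / 2)) hA hAp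
  have h3 : HasDerivAt (fun s => relm (A s) (B s))
      ((dop (ddp (-(1 / 2))) (A t) A' * B t + rpw (A t) (-(1 / 2)) * B') * rpw (A t) (-(1 / 2)) +
        rpw (A t) (-(1 / 2)) * B t * dop (ddp (-(1 / 2))) (A t) A') t := (h2.mul hB).mul h2
  have h4 := dk_rpw_hasDerivAt p h3
    (by filter_upwards [hAp, hBp] with s hs hs' using relm_posDef hs hs')
  have h5 : HasDerivAt (fun s => gmean p (A s) (B s))
      ((dop (ddp (1 / 2)) (A t) A' * rpw (relm (A t) (B t)) p + rpw (A t) (1 / 2) *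
        dop (ddp p) (relm (A t) (B t))
          ((dop (ddp (-(1 / 2))) (A t) A' * B t + rpw (A t) (-(1 / 2)) * B') *
            rpw (A t) (-(1 / 2)) +
          rpw (A t) (-(1 / 2)) * B t * dop (ddp (-(1 / 2))) (A t) A')) * rpw (A t) (1 / 2) +
        rpw (A t) (1 / 2) * rpw (relm (A t) (B t)) p * dop (ddp (1 / 2)) (A t) A') t :=
    (h1.mul h4).mul h1
  convert h5 using 1
  change dop (ddp (1 / 2)) (A t) A' * rpw (relm (A t) (B t)) p * rpw (A t) (1 / 2) +
    rpw (A t) (1 / 2) * dop (ddp p) (relm (A t) (B t))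
      (dop (ddp (-(1 / 2))) (A t) A' * B t * rpw (A t) (-(1 / 2)) +
        rpw (A t) (-(1 / 2)) * B t * dop (ddp (-(1 / 2))) (A t) A') * rpw (A t) (1 / 2) +
    rpw (A t) (1 / 2) * rpw (relm (A t) (B t)) p * dop (ddp (1 / 2)) (A t) A' +
    rpw (A t) (1 / 2) * dop (ddp p) (relm (A t) (B t))
      (rpw (A t) (-(1 / 2)) * B' * rpw (A t) (-(1 / 2))) * rpw (A t) (1 / 2) = _
  generalize dop (ddp (1 / 2)) (A t) A' = x
  generalize dop (ddp (-(1 / 2))) (A t) A' = y
  simp only [dop, dop₂_add_right, Matrix.mul_add, Matrix.add_mul]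
  abel

theorem ed_exists_total_deriv (p : ℝ) (A₀ B₀ : Matrix n n ℂ) (hA₀ : A₀.PosDef) (hB₀ : B₀.PosDef) :
    ∃ DA DB : Matrix n n ℂ →ₗ[ℝ] Matrix n n ℂ,
      ∀ (A B : ℝ → Matrix n n ℂ) (A' B' : Matrix n n ℂ) (t : ℝ), A t = A₀ → B t = B₀ →
        HasDerivAt A A' t → HasDerivAt B B' t → (∀ᶠ s in 𝓝 t, (A s).PosDef) →
        (∀ᶠ s in 𝓝 t, (B s).PosDef) →
        HasDerivAt (fun s => gmean p (A s) (B s)) (DA A' + DB B') t := by
  refine ⟨(edDA p A₀ B₀).restrictScalars ℝ, (edDB p A₀ B₀).restrictScalars ℝ, ?_⟩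
  intro A B A' B' t hAt hBt hA hB hAp hBp
  subst hAt hBt
  exact ed_total_deriv p hA hB hAp hBp

/-- the affine curve through a positive definite matrix in a Hermitian direction. -/
theorem ed_affine_curve {A₀ A' : Matrix n n ℂ} (hA₀ : A₀.PosDef) (hA' : A'.IsHermitian) (t : ℝ) :
    HasDerivAt (fun s : ℝ => A₀ + (s - t) • A') A' t ∧
      ∀ᶠ s in 𝓝 t, (A₀ + (s - t) • A').PosDef := by
  have h1 : HasDerivAt (fun s : ℝ => A₀ + (s - t) • A') A' t := by
    have := (((hasDerivAt_id t).sub_const t).smul_const A').const_add A₀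
    simpa using this
  refine ⟨h1, ?_⟩
  have h2 : Tendsto (fun s : ℝ => A₀ + (s - t) • A') (𝓝 t) (𝓝 A₀) := by
    have := h1.continuousAt.tendsto
    simpa using this
  refine dk_eventually_posDef h2 (Eventually.of_forall fun s => ?_) hA₀
  refine hA₀.1.add ?_
  rw [IsHermitian, conjTranspose_smul, hA'.eq]
  simp

/-- **the chain rule at one vertex** (`transport:edge-map`). -/
theorem ed_hasDerivAt {p : ℝ} (hp : p ∈ Set.Ioo (0 : ℝ) 1) {A B : ℝ → Matrix n n ℂ}
    {A' B' : Matrix n n ℂ} {t : ℝ} (hA : HasDerivAt A A' t) (hB : HasDerivAt B B' t)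
    (hAp : ∀ᶠ s in 𝓝 t, (A s).PosDef) (hBp : ∀ᶠ s in 𝓝 t, (B s).PosDef) :
    HasDerivAt (fun s => gmean p (A s) (B s))
      (rpw (gmean p (A t) (B t)) (1 / 2) *
        (((1 - p : ℝ) : ℂ) • edgeL p (A t) (B t) (rpw (A t) (-(1 / 2)) * A' * rpw (A t) (-(1 / 2))) +
          (p : ℂ) • edgeR p (A t) (B t) (rpw (B t) (-(1 / 2)) * B' * rpw (B t) (-(1 / 2)))) *
        rpw (gmean p (A t) (B t)) (1 / 2)) t := by
  have hAt : (A t).PosDef := hAp.self_of_nhds
  have hBt : (B t).PosDef := hBp.self_of_nhds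
  have hA'H : A'.IsHermitian := dk_isHermitian_deriv hA (hAp.mono fun s hs => hs.1)
  have main := ed_total_deriv p hA hB hAp hBp
  -- the `B` part
  have eB : edDB p (A t) (B t) B' = rpw (gmean p (A t) (B t)) (1 / 2) *
      ((p : ℂ) • edgeR p (A t) (B t) (rpw (B t) (-(1 / 2)) * B' * rpw (B t) (-(1 / 2)))) *
      rpw (gmean p (A t) (B t)) (1 / 2) := (ed_half_edgeR_half hp.1.ne' hAt hBt B').symm
  -- the `A` part, by uniqueness of derivatives along the affine curve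
  obtain ⟨hα, hαp⟩ := ed_affine_curve hAt hA'H t
  have e1 := ed_total_deriv p hα (hasDerivAt_const t (B t)) hαp (Eventually.of_forall fun _ => hBt)
  have e2 := ed_hasDerivAt_left hp.2.ne hBt hα hαp
  have e3 := e1.unique e2
  simp only [sub_self, zero_smul, add_zero, map_zero] at e3
  rw [e3, eB] at main
  convert main using 1
  rw [Matrix.mul_add, Matrix.add_mul]

end Claimed.Agent.R296
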