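/-
Row 296, chain BB_Means, file 6b: normalized derivative maps at one vertex: derivative in the weight,
infinitesimal congruence, block diagonal inputs.   Prefix `ed_`.   Owner: helper80.
-/
import Claimed.Agent.R296.MeansEdge

set_option autoImplicit false
set_option linter.unusedSectionVars false
set_option linter.unusedDecidableInType false

namespace Claimed.Agent.R296

open Matrix Filter Topology
open scoped MatrixOrder Matrix.Norms.L2Operator ComplexOrder

variable {n m : Type*} [Fintype n] [DecidableEq n] [Fintype m] [DecidableEq m]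

/-! ## (C) the derivative in the weight (`transport:node-p-derivative`) -/

theorem ed_neg_half_conj {A : Matrix n n ℂ} (hA : A.IsHermitian) (X : Matrix n n ℂ) :
    rpw A (-(1 / 2)) * (rpw A (1 / 2) * X * rpw A (1 / 2)) * rpw A (-(1 / 2)) = X := by
  simp only [Matrix.mul_assoc, rpw_mul_neg hA, Matrix.mul_one, ed_rpw_neg_mul_mul hA]

theorem ed_half_conj {A : Matrix n n ℂ} (hA : A.IsHermitian) (X : Matrix n n ℂ) :
    rpw A (1 / 2) * (rpw A (-(1 / 2)) * X * rpw A (-(1 / 2))) * rpw A (1 / 2) = X := by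
  simp only [Matrix.mul_assoc, rpw_neg_mul hA, Matrix.mul_one, ed_rpw_mul_neg_mul hA]

/-- un-normalised form of the next theorem. -/
theorem ed_half_edgeL_mfun_half {p : ℝ} (hp : p ≠ 1) {A B : Matrix n n ℂ} (hA : A.PosDef)
    (hB : B.PosDef) (φ : ℝ → ℂ) :
    rpw (gmean p A B) (1 / 2) * edgeL p A B (mfun φ (relm A B)) * rpw (gmean p A B) (1 / 2) =
      rpw A (1 / 2) * (rpw (relm A B) p * mfun φ (relm A B)) * rpw A (1 / 2) := by
  have hq : (1 - p) ≠ 0 := sub_ne_zero.2 (Ne.symm hp)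
  have hC := relm_posDef hA hB
  have hC' := relm_posDef hB hA
  have hsymm : gmean (1 - p) B A = gmean p A B := (gm_symm p hA hB).symm
  have hH := gm_exchange φ hB hA
  have key := ed_half_edgeR_half hq hB hA (rpw A (1 / 2) * mfun φ (relm A B) * rpw A (1 / 2))
  rw [ed_neg_half_conj hA.1, hH, ed_neg_half_conj hB.1, dop_ddp_mfun _ hC', hsymm,
    rpw_eq_mfun hC', ← mfun_mul, Matrix.mul_smul, Matrix.smul_mul, Matrix.mul_smul,
    Matrix.smul_mul, gm_exchange _ hA hB] at key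
  have hq' : ((1 - p : ℝ) : ℂ) ≠ 0 := by exact_mod_cast hq
  have key2 := smul_right_injective _ hq' key
  rw [edgeL, key2, rpw_eq_mfun hC, ← mfun_mul]
  congr 2
  refine mfun_congr hC.1 fun i => ?_
  have hx := hC.eigenvalues_pos i
  set x := hC.1.eigenvalues i
  have h1 : (x⁻¹) ^ (1 - p - 1) = x ^ p := by
    rw [Real.inv_rpow hx.le, ← Real.rpow_neg hx.le]; congr 1; ring
  have hx' : (x : ℂ) ≠ 0 := by exact_mod_cast hx.ne'
  simp only [h1, inv_inv, Complex.ofReal_inv]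
  field_simp

/-- the first-child map on functions of the relative matrix. -/
theorem ed_edgeL_mfun {p : ℝ} (hp : p ≠ 1) {A B : Matrix n n ℂ} (hA : A.PosDef) (hB : B.PosDef)
    (φ : ℝ → ℂ) :
    edgeL p A B (mfun φ (relm A B)) =
      rpw (gmean p A B) (-(1 / 2)) * rpw A (1 / 2) * (rpw (relm A B) p * mfun φ (relm A B)) *
        rpw A (1 / 2) * rpw (gmean p A B) (-(1 / 2)) := by
  have hM := gm_posDef p hA hB
  have h := ed_half_edgeL_mfun_half hp hA hB φ
  have h2 := ed_neg_half_conj hM.1 (edgeL p A B (mfun φ (relm A B)))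
  rw [h] at h2
  rw [← h2]
  simp only [Matrix.mul_assoc]

/-- `∂_p (A #_p B) = M^{1/2} edgeL (log C) M^{1/2}`. -/
theorem ed_hasDerivAt_weight {p : ℝ} (hp : p ≠ 1) {A B : Matrix n n ℂ} (hA : A.PosDef)
    (hB : B.PosDef) :
    HasDerivAt (fun q : ℝ => gmean q A B)
      (rpw (gmean p A B) (1 / 2) * edgeL p A B (mlog (relm A B)) * rpw (gmean p A B) (1 / 2)) p := by
  have h := gm_hasDerivAt_weight hA hB p
  have h2 := ed_half_edgeL_mfun_half hp hA hB (fun x => (Real.log x : ℂ))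
  rw [show mlog (relm A B) = mfun (fun x => (Real.log x : ℂ)) (relm A B) from rfl, h2]
  exact h

/-! ## (D) infinitesimal congruence (`transport:block-rotation` at one vertex) -/

/-- `K_L(A) = A^{1/2} L A^{-1/2} - A^{-1/2} L A^{1/2}`. -/
noncomputable def skw (L A : Matrix n n ℂ) : Matrix n n ℂ :=
  rpw A (1 / 2) * L * rpw A (-(1 / 2)) - rpw A (-(1 / 2)) * L * rpw A (1 / 2)

/-- the congruence curve `s ↦ (1 + s X)ᴴ A (1 + s X)`. -/
theorem ed_conj_curve (A X : Matrix n n ℂ) :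
    HasDerivAt (fun s : ℝ => (1 + s • X)ᴴ * A * (1 + s • X)) (Xᴴ * A + A * X) 0 := by
  have hS : HasDerivAt (fun s : ℝ => (1 : Matrix n n ℂ) + s • X) X 0 := by
    have := ((hasDerivAt_id (0 : ℝ)).smul_const X).const_add (1 : Matrix n n ℂ)
    simpa using this
  have hT : HasDerivAt (fun s : ℝ => (1 : Matrix n n ℂ) + s • Xᴴ) Xᴴ 0 := by
    have := ((hasDerivAt_id (0 : ℝ)).smul_const Xᴴ).const_add (1 : Matrix n n ℂ)
    simpa using this
  have hTS : (fun s : ℝ => (1 + s • X)ᴴ * A * (1 + s • X)) =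
      fun s : ℝ => ((1 : Matrix n n ℂ) + s • Xᴴ) * A * (1 + s • X) := by
    ext1 s
    rw [conjTranspose_add, conjTranspose_one, conjTranspose_smul]
    simp
  rw [hTS]
  have := (hT.mul_const A).fun_mul hS
  simpa using this

theorem ed_isUnit_of_conj_posDef {A S : Matrix n n ℂ} (h : (Sᴴ * A * S).PosDef) : IsUnit S := by
  have h1 : IsUnit (Sᴴ * A * S).det := (Matrix.isUnit_iff_isUnit_det _).1 h.isUnit
  rw [det_mul] at h1
  exact (Matrix.isUnit_iff_isUnit_det _).2 (isUnit_of_mul_isUnit_right h1)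

theorem ed_conj_curve_posDef {A : Matrix n n ℂ} (hA : A.PosDef) (X : Matrix n n ℂ) :
    ∀ᶠ s : ℝ in 𝓝 0, ((1 + s • X)ᴴ * A * (1 + s • X)).PosDef := by
  have h1 := (ed_conj_curve A X).continuousAt.tendsto
  simp only [zero_smul, add_zero, conjTranspose_one, Matrix.one_mul, Matrix.mul_one] at h1
  refine dk_eventually_posDef h1 (Eventually.of_forall fun s => ?_) hA
  exact isHermitian_conjTranspose_mul_mul _ hA.1

/-- general form: differentiate `gm_conj` along `S = 1 + s X`. -/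
theorem ed_inf_congruence {p : ℝ} (hp : p ∈ Set.Ioo (0 : ℝ) 1) {A B : Matrix n n ℂ}
    (hA : A.PosDef) (hB : B.PosDef) (X : Matrix n n ℂ) :
    rpw (gmean p A B) (-(1 / 2)) * (Xᴴ * gmean p A B + gmean p A B * X) *
        rpw (gmean p A B) (-(1 / 2)) =
      ((1 - p : ℝ) : ℂ) • edgeL p A B (rpw A (-(1 / 2)) * (Xᴴ * A + A * X) * rpw A (-(1 / 2))) +
        (p : ℂ) • edgeR p A B (rpw B (-(1 / 2)) * (Xᴴ * B + B * X) * rpw B (-(1 / 2))) := by
  have hM := gm_posDef p hA hB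
  have hAp := ed_conj_curve_posDef hA X
  have hBp := ed_conj_curve_posDef hB X
  have h1 := ed_hasDerivAt hp (ed_conj_curve A X) (ed_conj_curve B X) hAp hBp
  have h2 : HasDerivAt (fun s : ℝ => gmean p ((1 + s • X)ᴴ * A * (1 + s • X))
      ((1 + s • X)ᴴ * B * (1 + s • X))) (Xᴴ * gmean p A B + gmean p A B * X) 0 := by
    refine (ed_conj_curve (gmean p A B) X).congr_of_eventuallyEq ?_
    filter_upwards [hAp] with s hs
    exact gm_conj p hA hB (ed_isUnit_of_conj_posDef hs)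
  have h3 := h2.unique h1
  simp only [zero_smul, add_zero, conjTranspose_one, Matrix.one_mul, Matrix.mul_one] at h3
  rw [h3, ed_neg_half_conj hM.1]

theorem ed_neg_half_mul_self {D : Matrix n n ℂ} (hD : D.PosDef) :
    rpw D (-(1 / 2)) * D = rpw D (1 / 2) := by
  calc rpw D (-(1 / 2)) * D = rpw D (-(1 / 2)) * (rpw D (1 / 2) * rpw D (1 / 2)) := by
        rw [rpw_half_mul_half hD]
    _ = rpw D (1 / 2) := ed_rpw_neg_mul_mul hD.1 _ _

theorem ed_self_mul_neg_half {D : Matrix n n ℂ} (hD : D.PosDef) :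
    D * rpw D (-(1 / 2)) = rpw D (1 / 2) := by
  calc D * rpw D (-(1 / 2)) = rpw D (1 / 2) * rpw D (1 / 2) * rpw D (-(1 / 2)) := by
        rw [rpw_half_mul_half hD]
    _ = rpw D (1 / 2) := by rw [Matrix.mul_assoc, rpw_mul_neg hD.1, Matrix.mul_one]

theorem ed_normalized_eq {D : Matrix n n ℂ} (hD : D.PosDef) (X : Matrix n n ℂ) :
    rpw D (-(1 / 2)) * (Xᴴ * D + D * X) * rpw D (-(1 / 2)) =
      rpw D (-(1 / 2)) * Xᴴ * rpw D (1 / 2) + rpw D (1 / 2) * X * rpw D (-(1 / 2)) := by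
  have e1 : rpw D (-(1 / 2)) * (Xᴴ * D) * rpw D (-(1 / 2)) =
      rpw D (-(1 / 2)) * Xᴴ * rpw D (1 / 2) := by
    calc rpw D (-(1 / 2)) * (Xᴴ * D) * rpw D (-(1 / 2))
        = rpw D (-(1 / 2)) * Xᴴ * (D * rpw D (-(1 / 2))) := by simp only [Matrix.mul_assoc]
      _ = _ := by rw [ed_self_mul_neg_half hD]
  have e2 : rpw D (-(1 / 2)) * (D * X) * rpw D (-(1 / 2)) =
      rpw D (1 / 2) * X * rpw D (-(1 / 2)) := by
    rw [← Matrix.mul_assoc, ed_neg_half_mul_self hD]
  rw [Matrix.mul_add, Matrix.add_mul, e1, e2]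

/-- the two halves of the infinitesimal congruence identity (its `ℂ`-linear and its conjugate linear
part in `X`). -/
theorem ed_half_identities {p : ℝ} (hp : p ∈ Set.Ioo (0 : ℝ) 1) {A B : Matrix n n ℂ}
    (hA : A.PosDef) (hB : B.PosDef) (X : Matrix n n ℂ) :
    rpw (gmean p A B) (1 / 2) * X * rpw (gmean p A B) (-(1 / 2)) =
        ((1 - p : ℝ) : ℂ) • edgeL p A B (rpw A (1 / 2) * X * rpw A (-(1 / 2))) +
          (p : ℂ) • edgeR p A B (rpw B (1 / 2) * X * rpw B (-(1 / 2))) ∧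
      rpw (gmean p A B) (-(1 / 2)) * Xᴴ * rpw (gmean p A B) (1 / 2) =
        ((1 - p : ℝ) : ℂ) • edgeL p A B (rpw A (-(1 / 2)) * Xᴴ * rpw A (1 / 2)) +
          (p : ℂ) • edgeR p A B (rpw B (-(1 / 2)) * Xᴴ * rpw B (1 / 2)) := by
  have hM := gm_posDef p hA hB
  set M := gmean p A B with hMdef
  set F : Matrix n n ℂ → Matrix n n ℂ := fun X => rpw M (1 / 2) * X * rpw M (-(1 / 2)) -
    (((1 - p : ℝ) : ℂ) • edgeL p A B (rpw A (1 / 2) * X * rpw A (-(1 / 2))) +
      (p : ℂ) • edgeR p A B (rpw B (1 / 2) * X * rpw B (-(1 / 2)))) with hF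
  set G : Matrix n n ℂ → Matrix n n ℂ := fun Y => rpw M (-(1 / 2)) * Y * rpw M (1 / 2) -
    (((1 - p : ℝ) : ℂ) • edgeL p A B (rpw A (-(1 / 2)) * Y * rpw A (1 / 2)) +
      (p : ℂ) • edgeR p A B (rpw B (-(1 / 2)) * Y * rpw B (1 / 2))) with hG
  have hFG : ∀ X, G Xᴴ + F X = 0 := by
    intro X
    have := ed_inf_congruence hp hA hB X
    rw [← hMdef, ed_normalized_eq hM, ed_normalized_eq hA, ed_normalized_eq hB, map_add,
      map_add] at this
    simp only [hF, hG]
    rw [← sub_eq_zero] at this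
    rw [← this]
    simp only [smul_add]
    abel
  have hFs : ∀ (c : ℂ) X, F (c • X) = c • F X := by
    intro c X
    simp only [hF, Matrix.mul_smul, Matrix.smul_mul, map_smul, smul_sub, smul_add]
    rw [smul_comm c, smul_comm c]
  have hGs : ∀ (c : ℂ) X, G (c • X) = c • G X := by
    intro c X
    simp only [hG, Matrix.mul_smul, Matrix.smul_mul, map_smul, smul_sub, smul_add]
    rw [smul_comm c, smul_comm c]
  have h1 := hFG X
  have h2 := hFG (Complex.I • X)
  rw [conjTranspose_smul, hFs, hGs] at h2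
  have hI : star Complex.I = -Complex.I := by simp
  rw [hI, neg_smul, ← sub_eq_neg_add, ← smul_sub] at h2
  have h3 : F X - G Xᴴ = 0 := by
    have := congrArg (fun Z => (-Complex.I) • Z) h2
    simpa [smul_smul] using this
  have hFX : F X = 0 := by
    have h4 : (2 : ℂ) • F X = 0 := by
      rw [two_smul]
      calc F X + F X = (G Xᴴ + F X) + (F X - G Xᴴ) := by abel
        _ = 0 := by rw [h1, h3, add_zero]
    exact (smul_eq_zero.1 h4).resolve_left two_ne_zero
  have hGX : G Xᴴ = 0 := by rw [hFX, add_zero] at h1; exact h1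
  exact ⟨sub_eq_zero.1 hFX, sub_eq_zero.1 hGX⟩

/-- `K_L(A #_p B) = (1-p) edgeL (K_L A) + p edgeR (K_L B)` for EVERY matrix `L`. -/
theorem ed_skw {p : ℝ} (hp : p ∈ Set.Ioo (0 : ℝ) 1) {A B : Matrix n n ℂ}
    (hA : A.PosDef) (hB : B.PosDef) (L : Matrix n n ℂ) :
    skw L (gmean p A B) =
      ((1 - p : ℝ) : ℂ) • edgeL p A B (skw L A) + (p : ℂ) • edgeR p A B (skw L B) := by
  have h1 := (ed_half_identities hp hA hB L).1
  have h2 := (ed_half_identities hp hA hB Lᴴ).2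
  rw [conjTranspose_conjTranspose] at h2
  simp only [skw, map_sub, smul_sub]
  rw [h1, h2]
  abel

theorem skw_eq_zero_of_commute {L A : Matrix n n ℂ} (hA : A.IsHermitian) (h : Commute L A) :
    skw L A = 0 := by
  have h1 : rpw A (1 / 2) * L = L * rpw A (1 / 2) := (rpw_commute h (1 / 2)).eq.symm
  have h2 : rpw A (-(1 / 2)) * L = L * rpw A (-(1 / 2)) := (rpw_commute h (-(1 / 2))).eq.symm
  rw [skw, h1, h2, Matrix.mul_assoc, Matrix.mul_assoc, rpw_mul_neg hA, rpw_neg_mul hA, sub_self]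

/-! ## (E) block diagonal inputs -/

theorem ed_edgeR_fromBlocks₁₁ (p : ℝ) {A B : Matrix n n ℂ} {A' B' : Matrix m m ℂ} (hA : A.PosDef)
    (hB : B.PosDef) (hA' : A'.PosDef) (hB' : B'.PosDef) (Z : Matrix (n ⊕ m) (n ⊕ m) ℂ) :
    (edgeR p (fromBlocks A 0 0 A') (fromBlocks B 0 0 B') Z).toBlocks₁₁ =
      edgeR p A B Z.toBlocks₁₁ := by
  have hM := gm_posDef p hA hB
  have hM' := gm_posDef p hA' hB'
  have hC := relm_posDef hA hB
  have hC' := relm_posDef hA' hB'
  conv_lhs => rw [← fromBlocks_toBlocks Z]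
  rw [edgeR_apply, edgeR_apply, gm_fromBlocks p hA hB hA' hB', relm_fromBlocks hA.1 hA'.1,
    rpw_fromBlocks hA.1 hA'.1, rpw_fromBlocks hA.1 hA'.1, rpw_fromBlocks hB.1 hB'.1,
    rpw_fromBlocks hM.1 hM'.1]
  simp only [fromBlocks_multiply, Matrix.mul_zero, Matrix.zero_mul, add_zero, zero_add,
    dop_fromBlocks _ hC.1 hC'.1, fromBlocks_smul, toBlocks_fromBlocks₁₁]

theorem ed_edgeL_fromBlocks₁₁ (p : ℝ) {A B : Matrix n n ℂ} {A' B' : Matrix m m ℂ} (hA : A.PosDef)
    (hB : B.PosDef) (hA' : A'.PosDef) (hB' : B'.PosDef) (Z : Matrix (n ⊕ m) (n ⊕ m) ℂ) :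
    (edgeL p (fromBlocks A 0 0 A') (fromBlocks B 0 0 B') Z).toBlocks₁₁ =
      edgeL p A B Z.toBlocks₁₁ :=
  ed_edgeR_fromBlocks₁₁ (1 - p) hB hA hB' hA' Z

end Claimed.Agent.R296
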