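/-
Row 296, chain BB_Means (P1 Sec 6, proof of `prop:transport`), file 8: functions of
`ad_{log M}` as averages of the unitary flow `H ↦ M^{iu} H M^{-iu}`, the derivative of the filtered
norm `N² = ⟨w, M^{-1/2} w⟩` (`transport:norm-derivative`), and the Cauchy-Schwarz estimate behind
`transport:block-bound`.   Prefix `af_`.   Owner: helper80.
-/
import Claimed.Agent.R296.MeansEdgeB
import Claimed.Agent.R296.FourierMain

set_option autoImplicit false
set_option linter.unusedSectionVars false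
set_option linter.unusedDecidableInType false

namespace Claimed.Agent.R296

open Matrix Filter Topology MeasureTheory
open scoped MatrixOrder Matrix.Norms.L2Operator ComplexOrder

variable {n m : Type*} [Fintype n] [DecidableEq n] [Fintype m] [DecidableEq m]

/-- the unitary flow `M^{iu}`. -/
noncomputable def flow (M : Matrix n n ℂ) (u : ℝ) : Matrix n n ℂ := hpow M (Complex.I * u)

theorem af_I_mul_neg (u : ℝ) : Complex.I * ((-u : ℝ) : ℂ) = -(Complex.I * u) := by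
  push_cast
  ring

theorem flow_conjTranspose (M : Matrix n n ℂ) (u : ℝ) : (flow M u)ᴴ = flow M (-u) := by
  unfold flow
  rw [hpow_conjTranspose, af_I_mul_neg]
  congr 1
  simp

theorem flow_mul_neg {M : Matrix n n ℂ} (hM : M.IsHermitian) (u : ℝ) :
    flow M u * flow M (-u) = 1 := by
  unfold flow
  rw [af_I_mul_neg]
  exact hpow_mul_neg hM _

theorem flow_neg_mul {M : Matrix n n ℂ} (hM : M.IsHermitian) (u : ℝ) :
    flow M (-u) * flow M u = 1 := by
  unfold flow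
  rw [af_I_mul_neg]
  exact hpow_neg_mul hM _

/-- the flow preserves the norm of vectors. -/
theorem flow_norm_sq {M : Matrix n n ℂ} (hM : M.IsHermitian) (u : ℝ) (v : n → ℂ) :
    star (flow M u *ᵥ v) ⬝ᵥ (flow M u *ᵥ v) = star v ⬝ᵥ v := by
  rw [star_mulVec, ← dotProduct_mulVec, mulVec_mulVec, flow_conjTranspose, flow_neg_mul hM,
    one_mulVec]

/-- entries of the flow are continuous in `u`. -/
theorem flow_continuous (M : Matrix n n ℂ) : Continuous (fun u => flow M u) := by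
  unfold flow hpow
  by_cases hM : M.IsHermitian
  · simp only [mfun_eq hM]
    refine (continuous_const.matrix_mul (Continuous.matrix_diagonal ?_)).matrix_mul
      continuous_const
    refine continuous_pi fun i => ?_
    exact (differentiable_hpowS (hM.eigenvalues i)).continuous.comp
      (continuous_const.mul Complex.continuous_ofReal)
  · simp only [mfun_of_not_isHermitian hM]
    exact continuous_const

theorem flow_fromBlocks {A : Matrix n n ℂ} {B : Matrix m m ℂ} (hA : A.IsHermitian)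
    (hB : B.IsHermitian) (u : ℝ) :
    flow (fromBlocks A 0 0 B) u = fromBlocks (flow A u) 0 0 (flow B u) :=
  pd_hpow_fromBlocks hA hB _

/-- **Fourier representation of `φ(ad)`** (entrywise): if `φ z = ∫ e^{iuz} μ u du` at all differences
`z = log x - log y` of eigenvalues, then `dop₂ (φ (log x - log y)) A B X = ∫ μ u A^{iu} X B^{-iu} du`. -/
theorem af_dop₂_fourier {μ : ℝ → ℂ} (hμ : Integrable μ) (φ : ℝ → ℂ) {A : Matrix n n ℂ}
    {B : Matrix m m ℂ} (hA : A.PosDef) (hB : B.PosDef)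
    (hφ : ∀ i j, φ (Real.log (hA.1.eigenvalues i) - Real.log (hB.1.eigenvalues j)) =
      ∫ u : ℝ, Complex.exp (Complex.I * u *
        ((Real.log (hA.1.eigenvalues i) - Real.log (hB.1.eigenvalues j) : ℝ) : ℂ)) * μ u)
    (X : Matrix n m ℂ) (i : n) (j : m) :
    Integrable (fun u : ℝ => μ u * (flow A u * X * flow B (-u)) i j) ∧
      dop₂ (fun x y => φ (Real.log x - Real.log y)) A B X i j =
        ∫ u : ℝ, μ u * (flow A u * X * flow B (-u)) i j := by
  set G : ℝ → ℝ → ℝ → ℂ := fun u x y =>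
    μ u * (hpowS (Complex.I * u) x * hpowS (Complex.I * ((-u : ℝ) : ℂ)) y) with hG
  have hdop : ∀ u, dop₂ (G u) A B X = μ u • (flow A u * X * flow B (-u)) := by
    intro u
    simp only [hG]
    rw [dop₂_smul, dop₂_prod]
    rfl
  have hval : ∀ (i : n) (j : m) (u : ℝ), G u (hA.1.eigenvalues i) (hB.1.eigenvalues j) =
      Complex.exp (Complex.I * u *
        ((Real.log (hA.1.eigenvalues i) - Real.log (hB.1.eigenvalues j) : ℝ) : ℂ)) * μ u := by
    intro i j u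
    simp only [hG]
    rw [hpowS_pos (hA.eigenvalues_pos i), hpowS_pos (hB.eigenvalues_pos j), ← Complex.exp_add,
      mul_comm]
    congr 2
    push_cast
    ring
  have hint : ∀ i j, Integrable (fun u => G u (hA.1.eigenvalues i) (hB.1.eigenvalues j)) := by
    intro i j
    simp only [hval]
    refine hμ.bdd_mul (c := 1) (Continuous.aestronglyMeasurable (by fun_prop))
      (Eventually.of_forall fun u => ?_)
    rw [Complex.norm_exp]
    simp
  obtain ⟨h1, h2⟩ := dop₂_integral volume G hA.1 hB.1 X hint i j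
  simp only [hdop, Matrix.smul_apply, smul_eq_mul] at h1 h2
  refine ⟨h1, ?_⟩
  rw [← h2, dop₂_congr hA.1 hB.1 (g' := fun x y => ∫ a, G a x y) (fun i j => ?_) X]
  rw [hφ i j]
  simp only [hval]

theorem af_form_eq_sum (K : Matrix n m ℂ) (a : n → ℂ) (b : m → ℂ) :
    star a ⬝ᵥ (K *ᵥ b) = ∑ i, ∑ j, star (a i) * b j * K i j := by
  simp only [dotProduct, mulVec, Pi.star_apply, Finset.mul_sum]
  exact Finset.sum_congr rfl fun i _ => Finset.sum_congr rfl fun j _ => by ring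

theorem af_flow_form (A : Matrix n n ℂ) (B : Matrix m m ℂ) (X : Matrix n m ℂ) (a : n → ℂ)
    (b : m → ℂ) (u : ℝ) :
    star (flow A (-u) *ᵥ a) ⬝ᵥ (X *ᵥ (flow B (-u) *ᵥ b)) =
      star a ⬝ᵥ ((flow A u * X * flow B (-u)) *ᵥ b) := by
  rw [star_mulVec, flow_conjTranspose, neg_neg, ← dotProduct_mulVec, mulVec_mulVec, mulVec_mulVec,
    Matrix.mul_assoc]

/-- sesquilinear form version of `af_dop₂_fourier`. -/
theorem af_dop₂_fourier_form {μ : ℝ → ℂ} (hμ : Integrable μ) (φ : ℝ → ℂ) {A : Matrix n n ℂ}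
    {B : Matrix m m ℂ} (hA : A.PosDef) (hB : B.PosDef)
    (hφ : ∀ i j, φ (Real.log (hA.1.eigenvalues i) - Real.log (hB.1.eigenvalues j)) =
      ∫ u : ℝ, Complex.exp (Complex.I * u *
        ((Real.log (hA.1.eigenvalues i) - Real.log (hB.1.eigenvalues j) : ℝ) : ℂ)) * μ u)
    (X : Matrix n m ℂ) (a : n → ℂ) (b : m → ℂ) :
    Integrable (fun u : ℝ => μ u * (star (flow A (-u) *ᵥ a) ⬝ᵥ (X *ᵥ (flow B (-u) *ᵥ b)))) ∧
      star a ⬝ᵥ (dop₂ (fun x y => φ (Real.log x - Real.log y)) A B X *ᵥ b) =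
        ∫ u : ℝ, μ u * (star (flow A (-u) *ᵥ a) ⬝ᵥ (X *ᵥ (flow B (-u) *ᵥ b))) := by
  have h := fun i j => af_dop₂_fourier hμ φ hA hB hφ X i j
  simp only [af_flow_form]
  simp only [af_form_eq_sum, Finset.mul_sum]
  have hI : ∀ i j, Integrable
      (fun u => μ u * (star (a i) * b j * (flow A u * X * flow B (-u)) i j)) := fun i j => by
    refine ((h i j).1.const_mul (star (a i) * b j)).congr (Eventually.of_forall fun u => ?_)
    simp only
    ring
  refine ⟨integrable_finsetSum _ fun i _ => integrable_finsetSum _ fun j _ => hI i j, ?_⟩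
  rw [integral_finsetSum _ fun i _ => integrable_finsetSum _ fun j _ => hI i j]
  refine Finset.sum_congr rfl fun i _ => ?_
  rw [integral_finsetSum _ fun j _ => hI i j]
  refine Finset.sum_congr rfl fun j _ => ?_
  rw [(h i j).2, ← integral_const_mul]
  congr 1
  ext u
  ring

/-! ## the derivative of the filtered norm -/

theorem af_kernel_norm_real {x y : ℝ} (hx : 0 < x) (hy : 0 < y) (hxy : x ≠ y) :
    x ^ (3 / 4 : ℝ) * ((x ^ (-(1 / 2) : ℝ) - y ^ (-(1 / 2) : ℝ)) / (x - y)) * y ^ (3 / 4 : ℝ) =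
      -(1 / (2 * Real.cosh ((Real.log x - Real.log y) / 4))) := by
  set a := x ^ (1 / 4 : ℝ) with ha
  set b := y ^ (1 / 4 : ℝ) with hb
  have ha0 : 0 < a := Real.rpow_pos_of_pos hx _
  have hb0 : 0 < b := Real.rpow_pos_of_pos hy _
  have pw : ∀ {z : ℝ}, 0 < z → ∀ k : ℕ, (z ^ (1 / 4 : ℝ)) ^ k = z ^ ((k : ℝ) / 4) := by
    intro z hz k
    rw [← Real.rpow_natCast, ← Real.rpow_mul hz.le]
    congr 1
    ring
  have x3 : x ^ (3 / 4 : ℝ) = a ^ 3 := by rw [ha, pw hx]; norm_num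
  have y3 : y ^ (3 / 4 : ℝ) = b ^ 3 := by rw [hb, pw hy]; norm_num
  have x4 : x = a ^ 4 := by rw [ha, pw hx]; norm_num
  have y4 : y = b ^ 4 := by rw [hb, pw hy]; norm_num
  have x2 : x ^ (-(1 / 2) : ℝ) = (a ^ 2)⁻¹ := by
    rw [ha, pw hx, Real.rpow_neg hx.le]; norm_num
  have y2 : y ^ (-(1 / 2) : ℝ) = (b ^ 2)⁻¹ := by
    rw [hb, pw hy, Real.rpow_neg hy.le]; norm_num
  have ea : Real.exp (Real.log x / 4) = a := by
    rw [ha, Real.rpow_def_of_pos hx]; congr 1; ring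
  have eb : Real.exp (Real.log y / 4) = b := by
    rw [hb, Real.rpow_def_of_pos hy]; congr 1; ring
  have hc : 2 * Real.cosh ((Real.log x - Real.log y) / 4) = a / b + b / a := by
    rw [Real.cosh_eq]
    have e1 : (Real.log x - Real.log y) / 4 = Real.log x / 4 - Real.log y / 4 := by ring
    have e2 : -(Real.log x / 4 - Real.log y / 4) = Real.log y / 4 - Real.log x / 4 := by ring
    rw [e1, e2, Real.exp_sub, Real.exp_sub, ea, eb]
    ring
  have hab : a ^ 4 - b ^ 4 ≠ 0 := by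
    rw [← x4, ← y4]
    exact sub_ne_zero.mpr hxy
  have hab2 : a ^ 2 - b ^ 2 ≠ 0 := by
    intro h
    apply hab
    have : a ^ 4 - b ^ 4 = (a ^ 2 - b ^ 2) * (a ^ 2 + b ^ 2) := by ring
    rw [this, h, zero_mul]
  rw [hc, x3, y3, x2, y2]
  conv_lhs => rw [x4, y4]
  have hs : a ^ 2 + b ^ 2 ≠ 0 := by positivity
  have h4 : a ^ 4 - b ^ 4 = (a ^ 2 - b ^ 2) * (a ^ 2 + b ^ 2) := by ring
  rw [h4]
  field_simp
  ring

/-- kernel identity `(xy)^{3/4} (x^{-1/2} - y^{-1/2})/(x - y) = - 1/(2 cosh ((log x - log y)/4))`. -/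
theorem af_kernel_norm {x y : ℝ} (hx : 0 < x) (hy : 0 < y) :
    ((x ^ (3 / 4 : ℝ) : ℝ) : ℂ) * ddp (-(1 / 2)) x y * ((y ^ (3 / 4 : ℝ) : ℝ) : ℂ) =
      -((1 / (2 * Real.cosh ((Real.log x - Real.log y) / 4)) : ℝ) : ℂ) := by
  rcases eq_or_ne x y with rfl | hxy
  · rw [ddp_self _ hx, ← Complex.ofReal_mul, ← Complex.ofReal_mul, ← Complex.ofReal_neg]
    congr 1
    have e : x ^ (3 / 4 : ℝ) * (-(1 / 2) * x ^ (-(1 / 2) - 1 : ℝ)) * x ^ (3 / 4 : ℝ) =
        -(1 / 2) * (x ^ (3 / 4 : ℝ) * x ^ (-(1 / 2) - 1 : ℝ) * x ^ (3 / 4 : ℝ)) := by ring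
    rw [e, ← Real.rpow_add hx, ← Real.rpow_add hx]
    norm_num
  · rw [ddp_of_ne _ hxy, ← Complex.ofReal_mul, ← Complex.ofReal_mul, ← Complex.ofReal_neg]
    congr 1
    exact af_kernel_norm_real hx hy hxy

/-- `M^{1/4} D(x^{-1/2})(M)[M^{1/2} H M^{1/2}] M^{1/4} = - g(ad_{log M})(H)`. -/
theorem af_norm_kernel_dop {M : Matrix n n ℂ} (hM : M.PosDef) (H : Matrix n n ℂ) :
    rpw M (1 / 4) * dop (ddp (-(1 / 2))) M (rpw M (1 / 2) * H * rpw M (1 / 2)) * rpw M (1 / 4) =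
      - dop (fun x y => ((1 / (2 * Real.cosh ((Real.log x - Real.log y) / 4)) : ℝ) : ℂ)) M H := by
  unfold dop
  rw [rpw_eq_mfun hM, rpw_eq_mfun hM, dop₂_mfun_mul_mul_mfun, mfun_mul_dop₂_mul_mfun]
  have h1 := dop₂_smul (-1)
    (fun x y => ((1 / (2 * Real.cosh ((Real.log x - Real.log y) / 4)) : ℝ) : ℂ)) M M H
  rw [neg_one_smul] at h1
  rw [← h1]
  refine dop₂_congr hM.1 hM.1 (fun i j => ?_) H
  have hx := hM.eigenvalues_pos i
  have hy := hM.eigenvalues_pos j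
  have h2 := af_kernel_norm hx hy
  have e : ∀ {z : ℝ}, 0 < z → ((z ^ (3 / 4 : ℝ) : ℝ) : ℂ) =
      ((z ^ (1 / 4 : ℝ) : ℝ) : ℂ) * ((z ^ (1 / 2 : ℝ) : ℝ) : ℂ) := by
    intro z hz
    rw [← Complex.ofReal_mul, ← Real.rpow_add hz]
    norm_num
  rw [e hx, e hy] at h2
  simp only [neg_mul, one_mul]
  rw [← h2]
  ring

/-- the quadratic form `X ↦ ⟨w, X w⟩` as a linear map. -/
noncomputable def af_quadL (w : n → ℂ) : Matrix n n ℂ →ₗ[ℂ] ℂ where
  toFun X := star w ⬝ᵥ (X *ᵥ w)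
  map_add' X Y := by rw [add_mulVec, dotProduct_add]
  map_smul' c X := by rw [smul_mulVec, dotProduct_smul]; rfl

/-- **`transport:norm-derivative` + Fourier**: for a curve `M s` of positive definite matrices with
`M' = M^{1/2} H M^{1/2}` at `t`, and `y = M^{-1/4} w`:
`d/ds ⟨w, M(s)^{-1/2} w⟩ = - ∫ m4 u ⟨M^{-iu} y, H M^{-iu} y⟩ du`. -/
theorem af_norm_hasDerivAt {M : ℝ → Matrix n n ℂ} {H : Matrix n n ℂ} {t : ℝ}
    (hM : HasDerivAt M (rpw (M t) (1 / 2) * H * rpw (M t) (1 / 2)) t)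
    (hP : ∀ᶠ s in 𝓝 t, (M s).PosDef) (w : n → ℂ) :
    Integrable (fun u : ℝ => (m4 u : ℂ) *
        (star (flow (M t) (-u) *ᵥ (rpw (M t) (-(1 / 4)) *ᵥ w)) ⬝ᵥ
          (H *ᵥ (flow (M t) (-u) *ᵥ (rpw (M t) (-(1 / 4)) *ᵥ w))))) ∧
      HasDerivAt (fun s => star w ⬝ᵥ (rpw (M s) (-(1 / 2)) *ᵥ w))
        (- ∫ u : ℝ, (m4 u : ℂ) *
          (star (flow (M t) (-u) *ᵥ (rpw (M t) (-(1 / 4)) *ᵥ w)) ⬝ᵥ
            (H *ᵥ (flow (M t) (-u) *ᵥ (rpw (M t) (-(1 / 4)) *ᵥ w))))) t := by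
  have hPt : (M t).PosDef := hP.self_of_nhds
  have hF := af_dop₂_fourier_form (μ := fun u => (m4 u : ℂ)) fp_m4_integrable.ofReal
    (fun z => ((1 / (2 * Real.cosh (z / 4)) : ℝ) : ℂ)) hPt hPt
    (fun i j => (fp_m4_fourier _).symm) H (rpw (M t) (-(1 / 4)) *ᵥ w) (rpw (M t) (-(1 / 4)) *ᵥ w)
  refine ⟨hF.1, ?_⟩
  rw [← hF.2]
  have hD := dk_rpw_hasDerivAt (-(1 / 2)) hM hP
  have hL := ((LinearMap.toContinuousLinearMap (af_quadL w)).restrictScalars ℝ).hasFDerivAt.comp_hasDerivAt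
    t hD
  have hK := af_norm_kernel_dop hPt H
  set D := dop (ddp (-(1 / 2))) (M t) (rpw (M t) (1 / 2) * H * rpw (M t) (1 / 2)) with hDdef
  have hL' : HasDerivAt (fun s => star w ⬝ᵥ (rpw (M s) (-(1 / 2)) *ᵥ w)) (star w ⬝ᵥ (D *ᵥ w)) t :=
    hL
  refine hL'.congr_deriv ?_
  set R := rpw (M t) (1 / 4) with hR
  set R' := rpw (M t) (-(1 / 4)) with hR'
  have h1 : R' * R = 1 := rpw_neg_mul hPt.1 _
  have h2 : R * R' = 1 := rpw_mul_neg hPt.1 _
  have hDeq : D = R' * (R * D * R) * R' := by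
    calc D = (R' * R) * D * (R * R') := by rw [h1, h2]; simp
      _ = R' * (R * D * R) * R' := by simp only [Matrix.mul_assoc]
  have hH : R'ᴴ = R' := rpw_isHermitian _ _
  rw [hDeq, hK, star_mulVec, hH, ← dotProduct_mulVec, mulVec_mulVec, mulVec_mulVec]
  simp only [Matrix.mul_neg, Matrix.neg_mul, neg_mulVec, dotProduct_neg, Matrix.mul_assoc]
  rfl

end Claimed.Agent.R296
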