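/-
Row 296, chain BB_Means (P1 Sec 6, Lemma `transport:fourier` and its use in `prop:transport`), file 8c:
the multipliers `g_{1/4}(ad_{log M})`, `h_±(ad_{log M})` in helper9's INTEGRAL-FREE form (his msg 3261,
(a)-(e)):   `adG M = dop (1/(2 cosh(δ/4))) M`,  `adH (±1) M = dop (h_±(δ)) M`,  `δ = log x - log y`.
Fourier analysis only enters the PROOFS (via `AdFourier.lean`: `af_dop₂_fourier_form`, and
`FourierMain.lean`).   Prefix `ad`.   Owner: helper80.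
-/
import Claimed.Agent.R296.AdFourier
import Claimed.Agent.R296.MeansEdgeB

set_option autoImplicit false
set_option linter.unusedSectionVars false
set_option linter.unusedDecidableInType false

namespace Claimed.Agent.R296

open Matrix Filter Topology MeasureTheory
open scoped MatrixOrder Matrix.Norms.L2Operator ComplexOrder

variable {n m : Type*} [Fintype n] [DecidableEq n] [Fintype m] [DecidableEq m]

/-- scalar `h_±(δ) = (e^{±δ/4} - 1)/(2 sinh(δ/2))`, continuous at `0` (value `±1/4`). -/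
noncomputable def hS (sgn δ : ℝ) : ℝ :=
  if δ = 0 then sgn / 4 else (Real.exp (sgn * δ / 4) - 1) / (2 * Real.sinh (δ / 2))

/-- `g_{1/4}(ad_{log M})`. -/
noncomputable def adG (M : Matrix n n ℂ) : Matrix n n ℂ →ₗ[ℂ] Matrix n n ℂ :=
  dopL (fun x y => ((1 / (2 * Real.cosh ((Real.log x - Real.log y) / 4)) : ℝ) : ℂ)) M

/-- `h_±(ad_{log M})`, `sgn = ±1`. -/
noncomputable def adH (sgn : ℝ) (M : Matrix n n ℂ) : Matrix n n ℂ →ₗ[ℂ] Matrix n n ℂ :=
  dopL (fun x y => (hS sgn (Real.log x - Real.log y) : ℂ)) M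

/-! ## (A) scalar facts -/

theorem ad_qP_add_neg (u : ℝ) : qP u + qP (-u) = (m4 u : ℂ) := by
  have h1 := fp_qP_den_ne u
  have h2 := fp_qP_den_ne (-u)
  unfold qP m4
  have e : 2 * Real.pi * -u = -(2 * Real.pi * u) := by ring
  rw [e, Real.cosh_neg, Real.sinh_neg] at h2 ⊢
  set c := Real.cosh (2 * Real.pi * u) with hc
  set s := Real.sinh (2 * Real.pi * u) with hs
  have hc0 : (c : ℂ) ≠ 0 := by exact_mod_cast (Real.cosh_pos _).ne'
  have hcs : (c : ℂ) ^ 2 - (s : ℂ) ^ 2 = 1 := by exact_mod_cast Real.cosh_sq_sub_sinh_sq _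
  push_cast at h2 ⊢
  rw [div_add_div _ _ h1 h2, div_eq_div_iff (mul_ne_zero h1 h2) hc0]
  have hI : Complex.I ^ 2 = -1 := Complex.I_sq
  linear_combination (1 : ℂ) * hcs + (s : ℂ) ^ 2 * hI

theorem ad_qP_integral : ∫ u : ℝ, qP u = 1 / 4 := by
  have h1 : ∫ u : ℝ, qP (-u) = ∫ u : ℝ, qP u := integral_neg_eq_self qP volume
  have h2 : ∫ u : ℝ, (qP u + qP (-u)) = ((1 / 2 : ℝ) : ℂ) := by
    simp only [ad_qP_add_neg]
    rw [integral_complex_ofReal, fp_m4_integral]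
  rw [integral_add fp_qP_integrable fp_qP_integrable.comp_neg, h1] at h2
  push_cast at h2
  linear_combination (1 / 2 : ℂ) * h2

theorem ad_qM_integral : ∫ u : ℝ, qM u = -(1 / 4) := by
  simp only [fp_qM_eq]
  rw [integral_neg, integral_neg_eq_self qP volume, ad_qP_integral]

theorem ad_sinh_ne {z : ℝ} (hz : z ≠ 0) : 2 * Real.sinh (z / 2) ≠ 0 := by
  refine mul_ne_zero two_ne_zero ?_
  rw [Ne, Real.sinh_eq_zero]
  intro h
  apply hz
  linarith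

theorem ad_hS_one (z : ℝ) : (hS 1 z : ℂ) = ∫ u : ℝ, Complex.exp (Complex.I * u * z) * qP u := by
  unfold hS
  by_cases hz : z = 0
  · subst hz
    simp [ad_qP_integral]
  · rw [if_neg hz]
    have h := fp_qP_fourier z
    have h0 : ((2 * Real.sinh (z / 2) : ℝ) : ℂ) ≠ 0 := by exact_mod_cast ad_sinh_ne hz
    rw [Complex.ofReal_div, div_eq_iff h0, mul_comm _ ((2 * Real.sinh (z / 2) : ℝ) : ℂ), h, one_mul]

theorem ad_hS_neg_one (z : ℝ) :
    (hS (-1) z : ℂ) = ∫ u : ℝ, Complex.exp (Complex.I * u * z) * qM u := by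
  unfold hS
  by_cases hz : z = 0
  · subst hz
    simp [ad_qM_integral]
    ring
  · rw [if_neg hz]
    have h := fp_qM_fourier z
    have h0 : ((2 * Real.sinh (z / 2) : ℝ) : ℂ) ≠ 0 := by exact_mod_cast ad_sinh_ne hz
    rw [Complex.ofReal_div, div_eq_iff h0, mul_comm _ ((2 * Real.sinh (z / 2) : ℝ) : ℂ), h]
    congr 3
    ring

theorem ad_hS_mul (sgn δ : ℝ) : hS sgn δ * (2 * Real.sinh (δ / 2)) = Real.exp (sgn * δ / 4) - 1 := by
  unfold hS
  by_cases hz : δ = 0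
  · subst hz
    simp
  · rw [if_neg hz, div_mul_cancel₀ _ (ad_sinh_ne hz)]

/-! ## (B) `adG` -/

theorem adG_one {M : Matrix n n ℂ} (hM : M.IsHermitian) : adG M 1 = (1 / 2 : ℂ) • 1 := by
  unfold adG
  rw [dopL_apply]
  conv_lhs => rw [← mfun_one hM]
  rw [dop_mfun, ← mfun_const hM]
  congr 1
  ext x
  simp

theorem adG_form {M : Matrix n n ℂ} (hM : M.PosDef) (X : Matrix n n ℂ) (a b : n → ℂ) :
    Integrable (fun u : ℝ => (m4 u : ℂ) * (star (flow M (-u) *ᵥ a) ⬝ᵥ (X *ᵥ (flow M (-u) *ᵥ b)))) ∧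
      star a ⬝ᵥ (adG M X *ᵥ b) =
        ∫ u : ℝ, (m4 u : ℂ) * (star (flow M (-u) *ᵥ a) ⬝ᵥ (X *ᵥ (flow M (-u) *ᵥ b))) :=
  af_dop₂_fourier_form (μ := fun u => (m4 u : ℂ)) fp_m4_integrable.ofReal
    (fun z => ((1 / (2 * Real.cosh (z / 4)) : ℝ) : ℂ)) hM hM
    (fun _ _ => (fp_m4_fourier _).symm) X a b

theorem adG_conjTranspose (M X : Matrix n n ℂ) : (adG M X)ᴴ = adG M Xᴴ := by
  unfold adG
  rw [dopL_apply, dopL_apply, dop, dop, dop₂_conjTranspose]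
  congr 1
  ext x y
  rw [Complex.star_def, Complex.conj_ofReal]
  have e : (Real.log y - Real.log x) / 4 = -((Real.log x - Real.log y) / 4) := by ring
  rw [e, Real.cosh_neg]

theorem adG_isHermitian (M : Matrix n n ℂ) {X : Matrix n n ℂ} (hX : X.IsHermitian) :
    (adG M X).IsHermitian := by
  rw [IsHermitian, adG_conjTranspose, hX.eq]

theorem adG_posSemidef {M : Matrix n n ℂ} (hM : M.PosDef) {X : Matrix n n ℂ} (hX : X.PosSemidef) :
    (adG M X).PosSemidef := by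
  refine PosSemidef.of_dotProduct_mulVec_nonneg (adG_isHermitian M hX.1) fun x => ?_
  rw [(adG_form hM X x x).2]
  refine integral_nonneg fun u => ?_
  exact mul_nonneg (Complex.zero_le_real.2 (fp_m4_pos u).le) (hX.dotProduct_mulVec_nonneg _)

theorem adG_fromBlocks₁₁ {M : Matrix n n ℂ} {M' : Matrix m m ℂ} (hM : M.IsHermitian)
    (hM' : M'.IsHermitian) (Z : Matrix (n ⊕ m) (n ⊕ m) ℂ) :
    (adG (fromBlocks M 0 0 M') Z).toBlocks₁₁ = adG M Z.toBlocks₁₁ := by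
  unfold adG
  simp only [dopL_apply]
  conv_lhs => rw [← fromBlocks_toBlocks Z]
  rw [dop_fromBlocks _ hM hM', toBlocks_fromBlocks₁₁]

theorem ad_invSqrt_hasDerivAt {M : ℝ → Matrix n n ℂ} {H : Matrix n n ℂ} {t : ℝ}
    (hM : HasDerivAt M (rpw (M t) (1 / 2) * H * rpw (M t) (1 / 2)) t)
    (hP : ∀ᶠ s in 𝓝 t, (M s).PosDef) :
    HasDerivAt (fun s => rpw (M s) (-(1 / 2)))
      (-(rpw (M t) (-(1 / 4)) * adG (M t) H * rpw (M t) (-(1 / 4)))) t := by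
  have hPt : (M t).PosDef := hP.self_of_nhds
  have hD := dk_rpw_hasDerivAt (-(1 / 2)) hM hP
  have hK := af_norm_kernel_dop hPt H
  set D := dop (ddp (-(1 / 2))) (M t) (rpw (M t) (1 / 2) * H * rpw (M t) (1 / 2)) with hDdef
  refine hD.congr_deriv ?_
  set R := rpw (M t) (1 / 4) with hR
  set R' := rpw (M t) (-(1 / 4)) with hR'
  have h1 : R' * R = 1 := rpw_neg_mul hPt.1 _
  have h2 : R * R' = 1 := rpw_mul_neg hPt.1 _
  have hDeq : D = R' * (R * D * R) * R' := by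
    calc D = (R' * R) * D * (R * R') := by rw [h1, h2]; simp
      _ = R' * (R * D * R) * R' := by simp only [Matrix.mul_assoc]
  rw [hDeq, hK]
  simp only [Matrix.mul_neg, Matrix.neg_mul]
  rfl

/-- duality of the double operator calculus w.r.t. the trace pairing. -/
theorem ad_trace_dop₂_mul (g : ℝ → ℝ → ℂ) (A : Matrix n n ℂ) (B : Matrix m m ℂ)
    (X : Matrix n m ℂ) (Z : Matrix m n ℂ) :
    trace (dop₂ g A B X * Z) = trace (X * dop₂ (fun x y => g y x) B A Z) := by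
  by_cases hA : A.IsHermitian
  · by_cases hB : B.IsHermitian
    · rw [dop₂_eq_sum_eigP g hA hB, dop₂_eq_sum_eigP _ hB hA, Finset.sum_comm]
      simp only [Matrix.sum_mul, Matrix.mul_sum, trace_sum, Matrix.smul_mul, Matrix.mul_smul,
        trace_smul]
      refine Finset.sum_congr rfl fun i _ => Finset.sum_congr rfl fun j _ => ?_
      congr 1
      rw [Matrix.mul_assoc, Matrix.mul_assoc, trace_mul_comm]
      simp only [Matrix.mul_assoc]
    · simp [dop₂_of_not_right hB, dop₂_of_not_left hB]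
  · simp [dop₂_of_not_left hA, dop₂_of_not_right hA]

theorem adG_trace_mul (M X Z : Matrix n n ℂ) : trace (adG M X * Z) = trace (X * adG M Z) := by
  unfold adG
  rw [dopL_apply, dopL_apply, dop, dop, ad_trace_dop₂_mul]
  congr 3
  ext x y
  have e : (Real.log y - Real.log x) / 4 = -((Real.log x - Real.log y) / 4) := by ring
  rw [e, Real.cosh_neg]

theorem adG_quadratic_eq_trace (M Z : Matrix n n ℂ) (y : n → ℂ) :
    star y ⬝ᵥ (adG M Z *ᵥ y) = trace (adG M (vecMulVec y (star y)) * Z) := by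
  rw [adG_trace_mul, trace_mul_comm, mul_vecMulVec, trace_vecMulVec, dotProduct_comm]


/-! ## (C) `adH` -/

theorem ad_kernel_rot (sgn : ℝ) {x y : ℝ} (hx : 0 < x) (hy : 0 < y) :
    hS sgn (Real.log x - Real.log y) *
        (x ^ (1 / 2 : ℝ) * y ^ (-(1 / 2) : ℝ) - x ^ (-(1 / 2) : ℝ) * y ^ (1 / 2 : ℝ)) =
      x ^ (sgn / 4) * y ^ (-(sgn / 4)) - 1 := by
  have h := ad_hS_mul sgn (Real.log x - Real.log y)
  simp only [Real.rpow_def_of_pos hx, Real.rpow_def_of_pos hy, ← Real.exp_add]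
  rw [Real.sinh_eq] at h
  have e1 : Real.log x * (1 / 2) + Real.log y * -(1 / 2) = (Real.log x - Real.log y) / 2 := by ring
  have e2 : Real.log x * -(1 / 2) + Real.log y * (1 / 2) = -((Real.log x - Real.log y) / 2) := by
    ring
  have e3 : Real.log x * (sgn / 4) + Real.log y * -(sgn / 4) =
      sgn * (Real.log x - Real.log y) / 4 := by ring
  rw [e1, e2, e3, ← h]
  ring

theorem adH_rot (sgn : ℝ) {M : Matrix n n ℂ} (hM : M.PosDef) (L : Matrix n n ℂ) :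
    adH sgn M (skw L M) = rpw M (sgn / 4) * L * rpw M (-(sgn / 4)) - L := by
  unfold adH skw
  rw [dopL_apply, dop]
  simp only [rpw_eq_mfun hM, ← dop₂_prod]
  conv_rhs => rw [← dop₂_one hM.1 hM.1 L]
  rw [dop₂_dop₂, ← dop₂_sub, ← dop₂_sub, dop₂_dop₂]
  refine dop₂_congr hM.1 hM.1 (fun i j => ?_) L
  have h := ad_kernel_rot sgn (hM.eigenvalues_pos i) (hM.eigenvalues_pos j)
  simp only [mul_one]
  exact_mod_cast h

/-- kernel algebra. -/
theorem adH_rot_plus {M : Matrix n n ℂ} (hM : M.PosDef) (L : Matrix n n ℂ) :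
    adH 1 M (skw L M) = rpw M (1 / 4) * L * rpw M (-(1 / 4)) - L :=
  adH_rot 1 hM L

theorem adH_rot_minus {M : Matrix n n ℂ} (hM : M.PosDef) (L : Matrix n n ℂ) :
    adH (-1) M (skw L M) = rpw M (-(1 / 4)) * L * rpw M (1 / 4) - L := by
  have h := adH_rot (-1) hM L
  have e1 : (-1 : ℝ) / 4 = -(1 / 4) := by ring
  rw [e1, neg_neg] at h
  exact h

theorem adH_form_plus {M : Matrix n n ℂ} (hM : M.PosDef) (Y : Matrix n n ℂ) (a b : n → ℂ) :
    Integrable (fun u : ℝ => qP u * (star (flow M (-u) *ᵥ a) ⬝ᵥ (Y *ᵥ (flow M (-u) *ᵥ b)))) ∧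
      star a ⬝ᵥ (adH 1 M Y *ᵥ b) =
        ∫ u : ℝ, qP u * (star (flow M (-u) *ᵥ a) ⬝ᵥ (Y *ᵥ (flow M (-u) *ᵥ b))) :=
  af_dop₂_fourier_form fp_qP_integrable (fun z => (hS 1 z : ℂ)) hM hM
    (fun _ _ => ad_hS_one _) Y a b

theorem adH_form_minus {M : Matrix n n ℂ} (hM : M.PosDef) (Y : Matrix n n ℂ) (a b : n → ℂ) :
    Integrable (fun u : ℝ => qM u * (star (flow M (-u) *ᵥ a) ⬝ᵥ (Y *ᵥ (flow M (-u) *ᵥ b)))) ∧
      star a ⬝ᵥ (adH (-1) M Y *ᵥ b) =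
        ∫ u : ℝ, qM u * (star (flow M (-u) *ᵥ a) ⬝ᵥ (Y *ᵥ (flow M (-u) *ᵥ b))) :=
  af_dop₂_fourier_form fp_qM_integrable (fun z => (hS (-1) z : ℂ)) hM hM
    (fun _ _ => ad_hS_neg_one _) Y a b

/-- pointwise weighted AM-GM/Cauchy-Schwarz: `Re (c ⟨a, w⟩) ≤ μ (‖a‖² + ‖w‖²/8)` if `|c| ≤ μ/√2`. -/
theorem ad_pointwise {μ : ℝ} (hμ : 0 < μ) {c : ℂ} (hc : ‖c‖ ≤ μ / Real.sqrt 2) (a w : n → ℂ) :
    (c * (star a ⬝ᵥ w)).re ≤ μ * ((star a ⬝ᵥ a).re + (star w ⬝ᵥ w).re / 8) := by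
  set κ : ℂ := c / (2 * μ) with hκ
  set z : ℂ := star a ⬝ᵥ w with hz
  have h0 : 0 ≤ (star (a - κ • w) ⬝ᵥ (a - κ • w)).re :=
    (Complex.le_def.1 (dotProduct_star_self_nonneg _)).1
  have hW : 0 ≤ (star w ⬝ᵥ w).re := (Complex.le_def.1 (dotProduct_star_self_nonneg _)).1
  have hexp : star (a - κ • w) ⬝ᵥ (a - κ • w) =
      star a ⬝ᵥ a - κ * z - star (κ * z) + ((‖κ‖ ^ 2 : ℝ) : ℂ) * (star w ⬝ᵥ w) := by
    rw [star_sub, star_smul, sub_dotProduct, dotProduct_sub, dotProduct_sub, smul_dotProduct,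
      smul_dotProduct, dotProduct_smul, dotProduct_smul, star_dotProduct w a, ← hz]
    simp only [smul_eq_mul, star_mul']
    have : star κ * κ = ((‖κ‖ ^ 2 : ℝ) : ℂ) := by
      rw [Complex.star_def, Complex.conj_mul']
      push_cast
      rfl
    linear_combination (star w ⬝ᵥ w) * this
  rw [hexp] at h0
  simp only [Complex.add_re, Complex.sub_re, Complex.re_ofReal_mul, Complex.star_def,
    Complex.conj_re] at h0
  have hμc : (μ : ℂ) ≠ 0 := by exact_mod_cast hμ.ne'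
  have h1 : (κ * z).re = (c * z).re / (2 * μ) := by
    have : κ * z = ((1 / (2 * μ) : ℝ) : ℂ) * (c * z) := by
      rw [hκ]
      push_cast
      field_simp
    rw [this, Complex.re_ofReal_mul]
    ring
  have h2 : ‖κ‖ ^ 2 ≤ 1 / 8 := by
    have hs : Real.sqrt 2 ^ 2 = 2 := Real.sq_sqrt (by norm_num)
    have hs0 : 0 < Real.sqrt 2 := by positivity
    have : ‖κ‖ = ‖c‖ / (2 * μ) := by
      rw [hκ, norm_div]
      congr 1
      rw [norm_mul, Complex.norm_real, Real.norm_eq_abs, abs_of_pos hμ]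
      simp
    rw [this, div_pow]
    have h3 : ‖c‖ ^ 2 ≤ μ ^ 2 / 2 := by
      calc ‖c‖ ^ 2 ≤ (μ / Real.sqrt 2) ^ 2 := by gcongr
        _ = μ ^ 2 / 2 := by rw [div_pow, hs]
    rw [div_le_iff₀ (by positivity)]
    nlinarith
  rw [h1] at h0
  have h4 : ‖κ‖ ^ 2 * (star w ⬝ᵥ w).re ≤ 1 / 8 * (star w ⬝ᵥ w).re :=
    mul_le_mul_of_nonneg_right h2 hW
  have h5 : (c * z).re / (2 * μ) + (c * z).re / (2 * μ) = (c * z).re / μ := by
    field_simp
    ring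
  have h6 : (c * z).re / μ ≤ (star a ⬝ᵥ a).re + (star w ⬝ᵥ w).re / 8 := by linarith
  rw [div_le_iff₀ hμ] at h6
  linarith

theorem ad_form_sq (Y : Matrix n n ℂ) (v : n → ℂ) :
    star v ⬝ᵥ ((Yᴴ * Y) *ᵥ v) = star (Y *ᵥ v) ⬝ᵥ (Y *ᵥ v) := by
  rw [star_mulVec, ← dotProduct_mulVec, mulVec_mulVec]

theorem ad_normsq_eq (v : n → ℂ) : star v ⬝ᵥ v = (((star v ⬝ᵥ v).re : ℝ) : ℂ) := by
  have h := (Complex.le_def.1 (dotProduct_star_self_nonneg v)).2
  apply Complex.ext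
  · simp
  · rw [Complex.ofReal_im, ← h, Complex.zero_im]

theorem ad_normsq_nonneg (v : n → ℂ) : 0 ≤ (star v ⬝ᵥ v).re :=
  (Complex.le_def.1 (dotProduct_star_self_nonneg v)).1

theorem ad_m4_sq_integrable {M : Matrix n n ℂ} (hM : M.PosDef) (Y : Matrix n n ℂ) (b : n → ℂ) :
    Integrable (fun u : ℝ =>
      m4 u * (star (Y *ᵥ (flow M (-u) *ᵥ b)) ⬝ᵥ (Y *ᵥ (flow M (-u) *ᵥ b))).re) := by
  have h := (adG_form hM (Yᴴ * Y) b b).1.re
  refine h.congr (Eventually.of_forall fun u => ?_)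
  simp only [ad_form_sq, RCLike.re_to_complex, Complex.re_ofReal_mul]

/-- abstract Fourier-Cauchy-Schwarz: if `⟨a, y⟩ = ∫ q u ⟨U_u a, Y U_u b⟩ du` for all `a`
(`U_u = flow M (-u)`, norm preserving) and `|q| ≤ m4 / √2`, then
`‖y‖² ≤ (1/4) ∫ m4 u ‖Y U_u b‖² du`.
(Take `a = y`: `‖y‖² ≤ ‖y‖ ∫ |q| ‖Y U_u b‖`, then Cauchy-Schwarz for the measure `m4 u du` of mass `1/2`.) -/
theorem ad_cauchy_schwarz {M : Matrix n n ℂ} (hM : M.PosDef) (Y : Matrix n n ℂ) {q : ℝ → ℂ}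
    (hq : Continuous q) (hqc : ∀ u, ‖q u‖ ≤ m4 u / Real.sqrt 2) (y b : n → ℂ)
    (hy : ∀ a : n → ℂ, star a ⬝ᵥ y =
      ∫ u : ℝ, q u * (star (flow M (-u) *ᵥ a) ⬝ᵥ (Y *ᵥ (flow M (-u) *ᵥ b)))) :
    (star y ⬝ᵥ y).re ≤ (1 / 4) *
      ∫ u : ℝ, m4 u * (star (Y *ᵥ (flow M (-u) *ᵥ b)) ⬝ᵥ (Y *ᵥ (flow M (-u) *ᵥ b))).re := by
  have hWi := ad_m4_sq_integrable hM Y b
  set W : ℝ → ℝ := fun u =>
    (star (Y *ᵥ (flow M (-u) *ᵥ b)) ⬝ᵥ (Y *ᵥ (flow M (-u) *ᵥ b))).re with hW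
  have hW0 : ∀ u, 0 ≤ W u := fun u => ad_normsq_nonneg _
  by_cases hI : Integrable
      (fun u : ℝ => q u * (star (flow M (-u) *ᵥ y) ⬝ᵥ (Y *ᵥ (flow M (-u) *ᵥ b))))
  · set A : ℝ := (star y ⬝ᵥ y).re with hA
    have h1 : A = ∫ u : ℝ, (q u * (star (flow M (-u) *ᵥ y) ⬝ᵥ (Y *ᵥ (flow M (-u) *ᵥ b)))).re := by
      rw [hA, hy y]
      exact (integral_re hI).symm
    have hJ : Integrable (fun u => m4 u * A + (1 / 8) * (m4 u * W u)) :=
      (fp_m4_integrable.mul_const A).add (hWi.const_mul _)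
    have h2 : ∫ u : ℝ, (q u * (star (flow M (-u) *ᵥ y) ⬝ᵥ (Y *ᵥ (flow M (-u) *ᵥ b)))).re ≤
        ∫ u : ℝ, (m4 u * A + (1 / 8) * (m4 u * W u)) := by
      refine integral_mono hI.re hJ fun u => ?_
      have := ad_pointwise (fp_m4_pos u) (hqc u) (flow M (-u) *ᵥ y) (Y *ᵥ (flow M (-u) *ᵥ b))
      rw [flow_norm_sq hM.1] at this
      calc _ ≤ _ := this
        _ = _ := by simp only [hW, hA]; ring
    have h3 : ∫ u : ℝ, (m4 u * A + (1 / 8) * (m4 u * W u)) =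
        A / 2 + (1 / 8) * ∫ u : ℝ, m4 u * W u := by
      rw [integral_add (fp_m4_integrable.mul_const A) (hWi.const_mul _), integral_mul_const,
        integral_const_mul, fp_m4_integral]
      ring
    linarith
  · have h0 : star y ⬝ᵥ y = 0 := by rw [hy y, integral_undef hI]
    rw [h0, Complex.zero_re]
    exact mul_nonneg (by norm_num) (integral_nonneg fun u => mul_nonneg (fp_m4_pos u).le (hW0 u))

theorem adH_schwarz_aux {M : Matrix n n ℂ} (hM : M.PosDef) (Y K : Matrix n n ℂ) {q : ℝ → ℂ}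
    (hq : Continuous q) (hqc : ∀ u, ‖q u‖ ≤ m4 u / Real.sqrt 2)
    (hK : ∀ a b : n → ℂ, star a ⬝ᵥ (K *ᵥ b) =
      ∫ u : ℝ, q u * (star (flow M (-u) *ᵥ a) ⬝ᵥ (Y *ᵥ (flow M (-u) *ᵥ b)))) :
    Kᴴ * K ≤ (1 / 4 : ℂ) • adG M (Yᴴ * Y) := by
  rw [Matrix.le_iff]
  have hG := adG_posSemidef hM (posSemidef_conjTranspose_mul_self Y)
  have h4 : (0 : ℂ) ≤ 1 / 4 := by
    have : (1 / 4 : ℂ) = ((1 / 4 : ℝ) : ℂ) := by push_cast; rfl
    rw [this]
    exact Complex.zero_le_real.2 (by norm_num)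
  refine PosSemidef.of_dotProduct_mulVec_nonneg
    ((hG.smul h4).1.sub (isHermitian_conjTranspose_mul_self K)) fun b => ?_
  have hcs := ad_cauchy_schwarz hM Y hq hqc (K *ᵥ b) b (fun a => hK a b)
  rw [sub_mulVec, dotProduct_sub, smul_mulVec, dotProduct_smul, ad_form_sq, (adG_form hM _ b b).2]
  simp only [ad_form_sq]
  have e : ∀ u : ℝ, (m4 u : ℂ) *
      (star (Y *ᵥ (flow M (-u) *ᵥ b)) ⬝ᵥ (Y *ᵥ (flow M (-u) *ᵥ b))) =
      ((m4 u * (star (Y *ᵥ (flow M (-u) *ᵥ b)) ⬝ᵥ (Y *ᵥ (flow M (-u) *ᵥ b))).re : ℝ) : ℂ) := by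
    intro u
    rw [Complex.ofReal_mul, ← ad_normsq_eq]
  simp only [e]
  rw [integral_complex_ofReal, ad_normsq_eq (K *ᵥ b), smul_eq_mul]
  have e2 : (1 / 4 : ℂ) = ((1 / 4 : ℝ) : ℂ) := by push_cast; rfl
  rw [e2, ← Complex.ofReal_mul, ← Complex.ofReal_sub]
  exact Complex.zero_le_real.2 (sub_nonneg.2 hcs)

/-- **Fourier-Cauchy-Schwarz** (behind `transport:block-bound`). -/
theorem adH_schwarz_plus {M : Matrix n n ℂ} (hM : M.PosDef) (Y : Matrix n n ℂ) :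
    (adH 1 M Y)ᴴ * adH 1 M Y ≤ (1 / 4 : ℂ) • adG M (Yᴴ * Y) :=
  adH_schwarz_aux hM Y _ fp_qP_continuous fp_norm_qP_le fun a b => (adH_form_plus hM Y a b).2

theorem adH_schwarz_minus {M : Matrix n n ℂ} (hM : M.PosDef) (Y : Matrix n n ℂ) :
    (adH (-1) M Y)ᴴ * adH (-1) M Y ≤ (1 / 4 : ℂ) • adG M (Yᴴ * Y) :=
  adH_schwarz_aux hM Y _ fp_qM_continuous fp_norm_qM_le fun a b => (adH_form_minus hM Y a b).2

end Claimed.Agent.R296
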