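import Mathlib

/-!
# Row 296, paper 1, Section 9 (amplification), file 1: abstract quasi-local channel averages

The random products of the paper (independent rate-one Poisson clocks) are replaced by POWERS OF THE
AVERAGE over the labels (no probability at all; the time of the paper is `t = N / #labels`).
Everything in this file takes place in a normed space `V` carrying a family of commuting idempotent
contractions `T y` (one-site conditional expectations).  Owner: helper286.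

Main results:
* `AmpChan.propagation` : discrete Gronwall bound for the oscillations (eq. 9.11);
* `AmpChan.omission`    : norm of (full average)^N - (retained average)^N (eq. 9.13).
-/

set_option autoImplicit false
set_option linter.unusedSectionVars false

namespace Claimed.Agent.R296

open Finset

/-! ## Locality structure on a normed group -/

/-- a family of commuting idempotent additive contractions (`T y` removes the site `y`) -/
structure AmpLoc (V : Type*) [NormedAddCommGroup V] [NormedSpace ℂ V] (Λ : Type*) where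
  T : Λ → V →ₗ[ℂ] V
  T_norm : ∀ y B, ‖T y B‖ ≤ ‖B‖
  T_idem : ∀ y B, T y (T y B) = T y B
  T_comm : ∀ y z B, T y (T z B) = T z (T y B)

section Loc

variable {V : Type*} [NormedAddCommGroup V] [NormedSpace ℂ V] {Λ : Type*}

/-- oscillation of `B` at the site `y` -/
def AmpLoc.osc (L : AmpLoc V Λ) (y : Λ) (B : V) : ℝ := ‖B - L.T y B‖

theorem AmpLoc.osc_nonneg (L : AmpLoc V Λ) (y : Λ) (B : V) : 0 ≤ L.osc y B := norm_nonneg _

theorem AmpLoc.osc_le_two (L : AmpLoc V Λ) (y : Λ) (B : V) : L.osc y B ≤ 2 * ‖B‖ := by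
  unfold AmpLoc.osc
  calc ‖B - L.T y B‖ ≤ ‖B‖ + ‖L.T y B‖ := norm_sub_le _ _
    _ ≤ ‖B‖ + ‖B‖ := by gcongr; exact L.T_norm y B
    _ = 2 * ‖B‖ := by ring

theorem AmpLoc.osc_add (L : AmpLoc V Λ) (y : Λ) (B C : V) :
    L.osc y (B + C) ≤ L.osc y B + L.osc y C := by
  unfold AmpLoc.osc
  rw [map_add]
  calc ‖B + C - (L.T y B + L.T y C)‖ = ‖(B - L.T y B) + (C - L.T y C)‖ := by congr 1; abel
    _ ≤ _ := norm_add_le _ _

theorem AmpLoc.osc_smul (L : AmpLoc V Λ) (y : Λ) (c : ℂ) (B : V) :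
    L.osc y (c • B) = ‖c‖ * L.osc y B := by
  unfold AmpLoc.osc
  rw [map_smul, ← smul_sub, norm_smul]

theorem AmpLoc.osc_zero (L : AmpLoc V Λ) (y : Λ) : L.osc y 0 = 0 := by
  simp [AmpLoc.osc]

theorem AmpLoc.osc_sum_le {ι : Type*} (L : AmpLoc V Λ) (y : Λ) (s : Finset ι) (B : ι → V) :
    L.osc y (∑ i ∈ s, B i) ≤ ∑ i ∈ s, L.osc y (B i) := by
  classical
  induction s using Finset.induction_on with
  | empty => simp [L.osc_zero]
  | insert a s ha ih =>
    rw [Finset.sum_insert ha, Finset.sum_insert ha]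
    exact (L.osc_add _ _ _).trans (add_le_add le_rfl ih)

/-- removing the sites of `Q` one at a time -/
theorem AmpLoc.exists_invariant [DecidableEq Λ] (L : AmpLoc V Λ) (Q : Finset Λ) (B : V) :
    ∃ C : V, (∀ z ∈ Q, L.T z C = C) ∧ ‖B - C‖ ≤ ∑ z ∈ Q, L.osc z B := by
  induction Q using Finset.induction_on with
  | empty => exact ⟨B, by simp, by simp⟩
  | insert z Q hz ih =>
    obtain ⟨C, hC, hn⟩ := ih
    refine ⟨L.T z C, ?_, ?_⟩
    · intro z' hz'
      rcases Finset.mem_insert.1 hz' with rfl | h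
      · exact L.T_idem _ _
      · rw [L.T_comm, hC z' h]
    · rw [Finset.sum_insert hz]
      calc ‖B - L.T z C‖ = ‖(B - L.T z B) + L.T z (B - C)‖ := by
            rw [map_sub]; congr 1; abel
        _ ≤ ‖B - L.T z B‖ + ‖L.T z (B - C)‖ := norm_add_le _ _
        _ ≤ L.osc z B + ∑ z ∈ Q, L.osc z B := by
            refine add_le_add le_rfl ((L.T_norm z _).trans hn)

end Loc

/-! ## Quasi-local channels -/

/-- A family of contractions `E i` on `V` together with strictly local approximants.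
`sh i 0` is the identity and `sh i (l+1)` is the approximant of radius `l`, localised in `Nb i l`. -/
structure AmpChan {V : Type*} [NormedAddCommGroup V] [NormedSpace ℂ V] {Λ : Type*}
    (L : AmpLoc V Λ) (I : Type*) where
  Nb : I → ℕ → Finset Λ
  Nb_mono : ∀ i l, Nb i l ⊆ Nb i (l + 1)
  E : I → V →ₗ[ℂ] V
  sh : I → ℕ → V →ₗ[ℂ] V
  sh_zero : ∀ i B, sh i 0 B = B
  E_norm : ∀ i B, ‖E i B‖ ≤ ‖B‖
  sh_norm : ∀ i l B, ‖sh i l B‖ ≤ ‖B‖
  sh_comm : ∀ i l y, y ∉ Nb i l → ∀ B, sh i (l + 1) (L.T y B) = L.T y (sh i (l + 1) B)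
  sh_fix : ∀ i l C, (∀ z ∈ Nb i l, L.T z C = C) → sh i (l + 1) C = C
  eps : ℕ → ℝ
  eps_nonneg : ∀ l, 0 ≤ eps l
  sh_diff : ∀ i l B, ‖sh i (l + 1) B - sh i l B‖ ≤ eps l * ‖B‖
  del : ℕ → ℝ
  del_nonneg : ∀ l, 0 ≤ del l
  del_tendsto : Filter.Tendsto del Filter.atTop (nhds 0)
  sh_lim : ∀ i l B, ‖E i B - sh i l B‖ ≤ del l * ‖B‖

section Chan

variable {V : Type*} [NormedAddCommGroup V] [NormedSpace ℂ V] {Λ : Type*} [DecidableEq Λ]
  {L : AmpLoc V Λ}
  {I : Type*} (Ch : AmpChan L I)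

/-- eq. (9.7): a shell is controlled by the oscillations inside its ball -/
theorem AmpChan.shell_le (i : I) (l : ℕ) (B : V) :
    ‖Ch.sh i (l + 1) B - Ch.sh i l B‖ ≤ Ch.eps l * ∑ z ∈ Ch.Nb i l, L.osc z B := by
  obtain ⟨C, hC, hn⟩ := L.exists_invariant (Ch.Nb i l) B
  have h1 : Ch.sh i (l + 1) C = C := Ch.sh_fix i l C hC
  have h2 : Ch.sh i l C = C := by
    cases l with
    | zero => exact Ch.sh_zero i C
    | succ l => exact Ch.sh_fix i l C fun z hz => hC z (Ch.Nb_mono i l hz)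
  have h3 : Ch.sh i (l + 1) B - Ch.sh i l B =
      Ch.sh i (l + 1) (B - C) - Ch.sh i l (B - C) := by
    rw [map_sub, map_sub, h1, h2]; abel
  rw [h3]
  exact (Ch.sh_diff i l (B - C)).trans (mul_le_mul_of_nonneg_left hn (Ch.eps_nonneg l))

/-- the weighted sum of oscillations which bounds the increment at `y` caused by the label `i`,
radii below `Lc` -/
noncomputable def AmpChan.inc (i : I) (Lc : ℕ) (y : Λ) (f : Λ → ℝ) : ℝ :=
  ∑ l ∈ Finset.range Lc, if y ∈ Ch.Nb i l then 2 * Ch.eps l * ∑ z ∈ Ch.Nb i l, f z else 0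

theorem AmpChan.inc_nonneg (i : I) (Lc : ℕ) (y : Λ) {f : Λ → ℝ} (hf : ∀ z, 0 ≤ f z) :
    0 ≤ Ch.inc i Lc y f := by
  unfold AmpChan.inc
  refine Finset.sum_nonneg fun l _ => ?_
  split_ifs
  · exact mul_nonneg (mul_nonneg zero_le_two (Ch.eps_nonneg l)) (Finset.sum_nonneg fun z _ => hf z)
  · exact le_rfl

theorem AmpChan.inc_succ (i : I) (Lc : ℕ) (y : Λ) (f : Λ → ℝ) :
    Ch.inc i (Lc + 1) y f = Ch.inc i Lc y f +
      if y ∈ Ch.Nb i Lc then 2 * Ch.eps Lc * ∑ z ∈ Ch.Nb i Lc, f z else 0 := by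
  unfold AmpChan.inc
  rw [Finset.sum_range_succ]

/-- eq. (9.8) for the local approximants -/
theorem AmpChan.osc_sh_le (i : I) (l : ℕ) (y : Λ) (B : V) :
    L.osc y (Ch.sh i l B) ≤ L.osc y B + Ch.inc i l y (fun z => L.osc z B) := by
  induction l with
  | zero => simp [AmpChan.inc, Ch.sh_zero]
  | succ l ih =>
    have hnn : 0 ≤ Ch.inc i (l + 1) y (fun z => L.osc z B) :=
      Ch.inc_nonneg i (l + 1) y fun z => L.osc_nonneg z B
    by_cases hy : y ∈ Ch.Nb i l
    · rw [Ch.inc_succ, if_pos hy]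
      have h1 : Ch.sh i (l + 1) B = Ch.sh i l B + (Ch.sh i (l + 1) B - Ch.sh i l B) := by abel
      calc L.osc y (Ch.sh i (l + 1) B)
          = L.osc y (Ch.sh i l B + (Ch.sh i (l + 1) B - Ch.sh i l B)) := by rw [← h1]
        _ ≤ L.osc y (Ch.sh i l B) + L.osc y (Ch.sh i (l + 1) B - Ch.sh i l B) := L.osc_add _ _ _
        _ ≤ (L.osc y B + Ch.inc i l y (fun z => L.osc z B)) +
              2 * (Ch.eps l * ∑ z ∈ Ch.Nb i l, L.osc z B) := by
            refine add_le_add ih ((L.osc_le_two _ _).trans ?_)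
            exact mul_le_mul_of_nonneg_left (Ch.shell_le i l B) zero_le_two
        _ = _ := by ring
    · have h1 : L.osc y (Ch.sh i (l + 1) B) ≤ L.osc y B := by
        unfold AmpLoc.osc
        rw [← Ch.sh_comm i l y hy B, ← map_sub]
        exact Ch.sh_norm i (l + 1) _
      linarith

/-- eq. (9.8) for the exact channel, up to the vanishing remainder `del` -/
theorem AmpChan.osc_E_le (i : I) (l : ℕ) (y : Λ) (B : V) :
    L.osc y (Ch.E i B) ≤ L.osc y B + Ch.inc i l y (fun z => L.osc z B) + 2 * (Ch.del l * ‖B‖) := by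
  have h1 : Ch.E i B = Ch.sh i l B + (Ch.E i B - Ch.sh i l B) := by abel
  calc L.osc y (Ch.E i B) = L.osc y (Ch.sh i l B + (Ch.E i B - Ch.sh i l B)) := by rw [← h1]
    _ ≤ L.osc y (Ch.sh i l B) + L.osc y (Ch.E i B - Ch.sh i l B) := L.osc_add _ _ _
    _ ≤ (L.osc y B + Ch.inc i l y (fun z => L.osc z B)) + 2 * (Ch.del l * ‖B‖) := by
        refine add_le_add (Ch.osc_sh_le i l y B) ((L.osc_le_two _ _).trans ?_)
        exact mul_le_mul_of_nonneg_left (Ch.sh_lim i l B) zero_le_two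

/-- total shell weight of the label `i`, radii below `Lc` -/
noncomputable def AmpChan.tot (i : I) (Lc : ℕ) (f : Λ → ℝ) : ℝ :=
  ∑ l ∈ Finset.range Lc, Ch.eps l * ∑ z ∈ Ch.Nb i l, f z

theorem AmpChan.sh_sub_le (i : I) (l : ℕ) (B : V) :
    ‖Ch.sh i l B - B‖ ≤ Ch.tot i l (fun z => L.osc z B) := by
  induction l with
  | zero => simp [AmpChan.tot, Ch.sh_zero]
  | succ l ih =>
    unfold AmpChan.tot at ih ⊢
    rw [Finset.sum_range_succ]
    calc ‖Ch.sh i (l + 1) B - B‖ = ‖(Ch.sh i l B - B) + (Ch.sh i (l + 1) B - Ch.sh i l B)‖ := by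
          congr 1; abel
      _ ≤ ‖Ch.sh i l B - B‖ + ‖Ch.sh i (l + 1) B - Ch.sh i l B‖ := norm_add_le _ _
      _ ≤ _ := add_le_add ih (Ch.shell_le i l B)

/-- one event changes `B` by at most the total shell weight (sum of eq. (9.7) over the radii) -/
theorem AmpChan.E_sub_le (i : I) (l : ℕ) (B : V) :
    ‖Ch.E i B - B‖ ≤ Ch.tot i l (fun z => L.osc z B) + Ch.del l * ‖B‖ := by
  calc ‖Ch.E i B - B‖ = ‖(Ch.sh i l B - B) + (Ch.E i B - Ch.sh i l B)‖ := by congr 1; abel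
    _ ≤ ‖Ch.sh i l B - B‖ + ‖Ch.E i B - Ch.sh i l B‖ := norm_add_le _ _
    _ ≤ _ := add_le_add (Ch.sh_sub_le i l B) (Ch.sh_lim i l B)

/-! ## The two averaged maps -/

theorem AmpChan.inc_mono (i : I) (Lc : ℕ) (y : Λ) {f g : Λ → ℝ} (h : ∀ z, f z ≤ g z) :
    Ch.inc i Lc y f ≤ Ch.inc i Lc y g := by
  unfold AmpChan.inc
  refine Finset.sum_le_sum fun l _ => ?_
  split_ifs
  · exact mul_le_mul_of_nonneg_left (Finset.sum_le_sum fun z _ => h z)
      (mul_nonneg zero_le_two (Ch.eps_nonneg l))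
  · exact le_rfl

theorem AmpChan.inc_mul (i : I) (Lc : ℕ) (y : Λ) (c : ℝ) (f : Λ → ℝ) :
    Ch.inc i Lc y (fun z => c * f z) = c * Ch.inc i Lc y f := by
  unfold AmpChan.inc
  rw [Finset.mul_sum]
  refine Finset.sum_congr rfl fun l _ => ?_
  split_ifs
  · rw [← Finset.mul_sum]; ring
  · simp

theorem AmpChan.tot_nonneg (i : I) (Lc : ℕ) {f : Λ → ℝ} (hf : ∀ z, 0 ≤ f z) :
    0 ≤ Ch.tot i Lc f := by
  unfold AmpChan.tot
  exact Finset.sum_nonneg fun l _ =>
    mul_nonneg (Ch.eps_nonneg l) (Finset.sum_nonneg fun z _ => hf z)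

theorem AmpChan.tot_mono (i : I) (Lc : ℕ) {f g : Λ → ℝ} (h : ∀ z, f z ≤ g z) :
    Ch.tot i Lc f ≤ Ch.tot i Lc g := by
  unfold AmpChan.tot
  exact Finset.sum_le_sum fun l _ =>
    mul_le_mul_of_nonneg_left (Finset.sum_le_sum fun z _ => h z) (Ch.eps_nonneg l)

theorem AmpChan.tot_mul (i : I) (Lc : ℕ) (c : ℝ) (f : Λ → ℝ) :
    Ch.tot i Lc (fun z => c * f z) = c * Ch.tot i Lc f := by
  unfold AmpChan.tot
  rw [Finset.mul_sum]
  refine Finset.sum_congr rfl fun l _ => ?_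
  rw [← Finset.mul_sum]; ring

variable [Fintype I] [DecidableEq I] (Ret : Finset I)

/-- the average of all channels -/
noncomputable def AmpChan.avgF (B : V) : V := ((Fintype.card I : ℂ)⁻¹) • ∑ i, Ch.E i B

/-- the average of the channels, the labels outside `Ret` being replaced by the identity -/
noncomputable def AmpChan.avgR (B : V) : V :=
  ((Fintype.card I : ℂ)⁻¹) • ∑ i, if i ∈ Ret then Ch.E i B else B

theorem amp_norm_inv_card : ‖((Fintype.card I : ℂ)⁻¹)‖ = (Fintype.card I : ℝ)⁻¹ := by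
  rw [norm_inv, Complex.norm_natCast]

theorem AmpChan.avgF_sub (B C : V) : Ch.avgF (B - C) = Ch.avgF B - Ch.avgF C := by
  unfold AmpChan.avgF
  simp only [map_sub, Finset.sum_sub_distrib, smul_sub]

theorem AmpChan.avgF_norm [Nonempty I] (B : V) : ‖Ch.avgF B‖ ≤ ‖B‖ := by
  have hm : (0 : ℝ) < Fintype.card I := by exact_mod_cast Fintype.card_pos
  unfold AmpChan.avgF
  rw [norm_smul, amp_norm_inv_card]
  calc (Fintype.card I : ℝ)⁻¹ * ‖∑ i, Ch.E i B‖
      ≤ (Fintype.card I : ℝ)⁻¹ * ∑ _i : I, ‖B‖ := by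
        refine mul_le_mul_of_nonneg_left ?_ (by positivity)
        exact (norm_sum_le _ _).trans (Finset.sum_le_sum fun i _ => Ch.E_norm i B)
    _ = ‖B‖ := by
        rw [Finset.sum_const, Finset.card_univ, nsmul_eq_mul]
        field_simp

theorem AmpChan.avgR_norm [Nonempty I] (B : V) : ‖Ch.avgR Ret B‖ ≤ ‖B‖ := by
  have hm : (0 : ℝ) < Fintype.card I := by exact_mod_cast Fintype.card_pos
  unfold AmpChan.avgR
  rw [norm_smul, amp_norm_inv_card]
  calc (Fintype.card I : ℝ)⁻¹ * ‖∑ i, if i ∈ Ret then Ch.E i B else B‖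
      ≤ (Fintype.card I : ℝ)⁻¹ * ∑ _i : I, ‖B‖ := by
        refine mul_le_mul_of_nonneg_left ?_ (by positivity)
        refine (norm_sum_le _ _).trans (Finset.sum_le_sum fun i _ => ?_)
        split_ifs
        · exact Ch.E_norm i B
        · exact le_rfl
    _ = ‖B‖ := by
        rw [Finset.sum_const, Finset.card_univ, nsmul_eq_mul]
        field_simp

theorem AmpChan.iter_avgR_norm [Nonempty I] (N : ℕ) (B : V) : ‖(Ch.avgR Ret)^[N] B‖ ≤ ‖B‖ := by
  induction N with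
  | zero => exact le_rfl
  | succ N ih =>
    rw [Function.iterate_succ_apply']
    exact (Ch.avgR_norm Ret _).trans ih

/-- one step of the retained average, oscillation at `y` -/
theorem AmpChan.osc_avgR_le [Nonempty I] (Lc : ℕ) (y : Λ) (B : V) :
    L.osc y (Ch.avgR Ret B) ≤ L.osc y B +
      (Fintype.card I : ℝ)⁻¹ * ∑ i ∈ Ret, Ch.inc i Lc y (fun z => L.osc z B) +
      2 * (Ch.del Lc * ‖B‖) := by
  have hm : (0 : ℝ) < Fintype.card I := by exact_mod_cast Fintype.card_pos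
  set m : ℝ := (Fintype.card I : ℝ) with hmdef
  have hd : 0 ≤ 2 * (Ch.del Lc * ‖B‖) :=
    mul_nonneg zero_le_two (mul_nonneg (Ch.del_nonneg Lc) (norm_nonneg _))
  have h1 : ∀ i : I, L.osc y (if i ∈ Ret then Ch.E i B else B) ≤
      L.osc y B + ((if i ∈ Ret then Ch.inc i Lc y (fun z => L.osc z B) else 0) +
        2 * (Ch.del Lc * ‖B‖)) := by
    intro i
    by_cases hi : i ∈ Ret
    · rw [if_pos hi, if_pos hi]
      have := Ch.osc_E_le i Lc y B
      linarith
    · rw [if_neg hi, if_neg hi]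
      linarith
  unfold AmpChan.avgR
  rw [L.osc_smul, amp_norm_inv_card]
  calc m⁻¹ * L.osc y (∑ i, if i ∈ Ret then Ch.E i B else B)
      ≤ m⁻¹ * (m * L.osc y B + (∑ i ∈ Ret, Ch.inc i Lc y (fun z => L.osc z B) +
          m * (2 * (Ch.del Lc * ‖B‖)))) := by
        refine mul_le_mul_of_nonneg_left ?_ (by positivity)
        refine (L.osc_sum_le y _ _).trans ((Finset.sum_le_sum fun i _ => h1 i).trans (le_of_eq ?_))
        rw [Finset.sum_add_distrib, Finset.sum_add_distrib, Finset.sum_const, Finset.sum_const,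
          Finset.card_univ, nsmul_eq_mul, nsmul_eq_mul, Finset.sum_ite_mem, Finset.univ_inter]
    _ = _ := by
        field_simp
        ring

/-- **Propagation bound** (eq. (9.11)): discrete Gronwall inequality for the oscillations of the
iterates of the retained average.  `ω` is the spatial weight, `v` the weighted row sum. -/
theorem AmpChan.propagation [Nonempty I] (B : V) (ω : Λ → ℝ) (v K0 : ℝ)
    (hK0 : 0 ≤ K0) (hv : 0 ≤ v)
    (h0 : ∀ y, L.osc y B ≤ K0 * ω y)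
    (hker : ∀ Lc y, ∑ i ∈ Ret, Ch.inc i Lc y ω ≤ v * ω y) (N : ℕ) (y : Λ) :
    L.osc y ((Ch.avgR Ret)^[N] B) ≤ K0 * (1 + v / (Fintype.card I : ℝ)) ^ N * ω y := by
  have hm : (0 : ℝ) < Fintype.card I := by exact_mod_cast Fintype.card_pos
  induction N generalizing y with
  | zero => simpa using h0 y
  | succ N ih =>
    set m : ℝ := (Fintype.card I : ℝ) with hmdef
    set K : ℝ := K0 * (1 + v / m) ^ N with hK
    have hKnn : 0 ≤ K := by positivity
    set B' : V := (Ch.avgR Ret)^[N] B with hB'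
    have key : ∀ Lc : ℕ, L.osc y (Ch.avgR Ret B') ≤
        K * (1 + v / m) * ω y + 2 * (Ch.del Lc * ‖B‖) := by
      intro Lc
      have h7 : ∑ i ∈ Ret, Ch.inc i Lc y (fun z => L.osc z B') ≤ K * (v * ω y) := by
        calc ∑ i ∈ Ret, Ch.inc i Lc y (fun z => L.osc z B')
            ≤ ∑ i ∈ Ret, Ch.inc i Lc y (fun z => K * ω z) :=
              Finset.sum_le_sum fun i _ => Ch.inc_mono i Lc y fun z => ih z
          _ = K * ∑ i ∈ Ret, Ch.inc i Lc y ω := by
              rw [Finset.mul_sum]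
              exact Finset.sum_congr rfl fun i _ => Ch.inc_mul i Lc y K ω
          _ ≤ K * (v * ω y) := mul_le_mul_of_nonneg_left (hker Lc y) hKnn
      have h8 : 2 * (Ch.del Lc * ‖B'‖) ≤ 2 * (Ch.del Lc * ‖B‖) :=
        mul_le_mul_of_nonneg_left
          (mul_le_mul_of_nonneg_left (Ch.iter_avgR_norm Ret N B) (Ch.del_nonneg Lc)) zero_le_two
      calc L.osc y (Ch.avgR Ret B')
          ≤ L.osc y B' + m⁻¹ * ∑ i ∈ Ret, Ch.inc i Lc y (fun z => L.osc z B') +
              2 * (Ch.del Lc * ‖B'‖) := Ch.osc_avgR_le Ret Lc y B'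
        _ ≤ K * ω y + m⁻¹ * (K * (v * ω y)) + 2 * (Ch.del Lc * ‖B‖) := by
            refine add_le_add (add_le_add (ih y) ?_) h8
            exact mul_le_mul_of_nonneg_left h7 (by positivity)
        _ = K * (1 + v / m) * ω y + 2 * (Ch.del Lc * ‖B‖) := by
            field_simp
    have hlim : Filter.Tendsto (fun Lc : ℕ => K * (1 + v / m) * ω y + 2 * (Ch.del Lc * ‖B‖))
        Filter.atTop (nhds (K * (1 + v / m) * ω y + 2 * (0 * ‖B‖))) :=
      (((Ch.del_tendsto.mul_const ‖B‖).const_mul 2).const_add _)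
    have hfin := ge_of_tendsto' hlim key
    rw [Function.iterate_succ_apply']
    calc L.osc y (Ch.avgR Ret B') ≤ K * (1 + v / m) * ω y + 2 * (0 * ‖B‖) := hfin
      _ = K0 * (1 + v / m) ^ (N + 1) * ω y := by rw [hK]; ring

/-- difference of the two averages on one argument -/
theorem AmpChan.avgF_sub_avgR_le [Nonempty I] (Lc : ℕ) (B : V) :
    ‖Ch.avgF B - Ch.avgR Ret B‖ ≤
      (Fintype.card I : ℝ)⁻¹ * ∑ i ∈ Retᶜ, Ch.tot i Lc (fun z => L.osc z B) +
      Ch.del Lc * ‖B‖ := by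
  have hm : (0 : ℝ) < Fintype.card I := by exact_mod_cast Fintype.card_pos
  set m : ℝ := (Fintype.card I : ℝ) with hmdef
  have hd : 0 ≤ Ch.del Lc * ‖B‖ := mul_nonneg (Ch.del_nonneg Lc) (norm_nonneg _)
  have h1 : ∀ i : I, ‖Ch.E i B - (if i ∈ Ret then Ch.E i B else B)‖ ≤
      (if i ∈ Retᶜ then Ch.tot i Lc (fun z => L.osc z B) else 0) + Ch.del Lc * ‖B‖ := by
    intro i
    by_cases hi : i ∈ Ret
    · have hi' : i ∉ Retᶜ := by simpa using hi
      rw [if_pos hi, if_neg hi']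
      simpa using hd
    · have hi' : i ∈ Retᶜ := by simpa using hi
      rw [if_neg hi, if_pos hi']
      exact Ch.E_sub_le i Lc B
  unfold AmpChan.avgF AmpChan.avgR
  rw [← smul_sub, ← Finset.sum_sub_distrib, norm_smul, amp_norm_inv_card]
  calc m⁻¹ * ‖∑ i, (Ch.E i B - if i ∈ Ret then Ch.E i B else B)‖
      ≤ m⁻¹ * (∑ i ∈ Retᶜ, Ch.tot i Lc (fun z => L.osc z B) + m * (Ch.del Lc * ‖B‖)) := by
        refine mul_le_mul_of_nonneg_left ?_ (by positivity)
        refine (norm_sum_le _ _).trans ((Finset.sum_le_sum fun i _ => h1 i).trans (le_of_eq ?_))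
        rw [Finset.sum_add_distrib, Finset.sum_const, Finset.card_univ, nsmul_eq_mul,
          Finset.sum_ite_mem, Finset.univ_inter]
    _ = _ := by
        field_simp

/-- **Omission bound** (eq. (9.13)): norm of the difference of the `N`-th iterates of the full and
of the retained average. -/
theorem AmpChan.omission [Nonempty I] (B : V) (ω : Λ → ℝ) (v K0 Θ : ℝ)
    (hK0 : 0 ≤ K0) (hv : 0 ≤ v)
    (h0 : ∀ y, L.osc y B ≤ K0 * ω y)
    (hker : ∀ Lc y, ∑ i ∈ Ret, Ch.inc i Lc y ω ≤ v * ω y)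
    (hΘ : ∀ Lc, ∑ i ∈ Retᶜ, Ch.tot i Lc ω ≤ Θ) (N : ℕ) :
    ‖Ch.avgF^[N] B - (Ch.avgR Ret)^[N] B‖ ≤
      (N : ℝ) / (Fintype.card I : ℝ) * (K0 * (1 + v / (Fintype.card I : ℝ)) ^ N * Θ) := by
  have hm : (0 : ℝ) < Fintype.card I := by exact_mod_cast Fintype.card_pos
  set m : ℝ := (Fintype.card I : ℝ) with hmdef
  have hΘ0 : 0 ≤ Θ := by simpa [AmpChan.tot] using hΘ 0
  have hbase : (1 : ℝ) ≤ 1 + v / m := by
    have : 0 ≤ v / m := by positivity
    linarith
  induction N with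
  | zero => simp
  | succ N ih =>
    set K : ℝ := K0 * (1 + v / m) ^ N with hK
    have hKnn : 0 ≤ K := by positivity
    set B' : V := (Ch.avgR Ret)^[N] B with hB'
    have hprop : ∀ z, L.osc z B' ≤ K * ω z := fun z =>
      Ch.propagation Ret B ω v K0 hK0 hv h0 hker N z
    set D : ℝ := ‖Ch.avgF^[N] B - B'‖ with hD
    have key : ∀ Lc : ℕ, ‖Ch.avgF^[N + 1] B - (Ch.avgR Ret)^[N + 1] B‖ ≤
        D + m⁻¹ * (K * Θ) + Ch.del Lc * ‖B‖ := by
      intro Lc
      have h7 : ∑ i ∈ Retᶜ, Ch.tot i Lc (fun z => L.osc z B') ≤ K * Θ := by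
        calc ∑ i ∈ Retᶜ, Ch.tot i Lc (fun z => L.osc z B')
            ≤ ∑ i ∈ Retᶜ, Ch.tot i Lc (fun z => K * ω z) :=
              Finset.sum_le_sum fun i _ => Ch.tot_mono i Lc fun z => hprop z
          _ = K * ∑ i ∈ Retᶜ, Ch.tot i Lc ω := by
              rw [Finset.mul_sum]
              exact Finset.sum_congr rfl fun i _ => Ch.tot_mul i Lc K ω
          _ ≤ K * Θ := mul_le_mul_of_nonneg_left (hΘ Lc) hKnn
      rw [Function.iterate_succ_apply', Function.iterate_succ_apply']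
      have h5 : Ch.avgF (Ch.avgF^[N] B) - Ch.avgR Ret B' =
          Ch.avgF (Ch.avgF^[N] B - B') + (Ch.avgF B' - Ch.avgR Ret B') := by
        rw [Ch.avgF_sub]; abel
      rw [h5]
      calc ‖Ch.avgF (Ch.avgF^[N] B - B') + (Ch.avgF B' - Ch.avgR Ret B')‖
          ≤ ‖Ch.avgF (Ch.avgF^[N] B - B')‖ + ‖Ch.avgF B' - Ch.avgR Ret B'‖ := norm_add_le _ _
        _ ≤ D + (m⁻¹ * ∑ i ∈ Retᶜ, Ch.tot i Lc (fun z => L.osc z B') + Ch.del Lc * ‖B'‖) :=
            add_le_add (Ch.avgF_norm _) (Ch.avgF_sub_avgR_le Ret Lc B')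
        _ ≤ D + (m⁻¹ * (K * Θ) + Ch.del Lc * ‖B‖) := by
            refine add_le_add le_rfl (add_le_add ?_ ?_)
            · exact mul_le_mul_of_nonneg_left h7 (by positivity)
            · exact mul_le_mul_of_nonneg_left (Ch.iter_avgR_norm Ret N B) (Ch.del_nonneg Lc)
        _ = D + m⁻¹ * (K * Θ) + Ch.del Lc * ‖B‖ := by ring
    have hlim : Filter.Tendsto (fun Lc : ℕ => D + m⁻¹ * (K * Θ) + Ch.del Lc * ‖B‖)
        Filter.atTop (nhds (D + m⁻¹ * (K * Θ) + 0 * ‖B‖)) :=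
      ((Ch.del_tendsto.mul_const ‖B‖).const_add _)
    have hfin := ge_of_tendsto' hlim key
    have hKle : K ≤ K0 * (1 + v / m) ^ (N + 1) := by
      rw [hK, pow_succ]
      have : 0 ≤ K0 * (1 + v / m) ^ N := by positivity
      nlinarith
    calc ‖Ch.avgF^[N + 1] B - (Ch.avgR Ret)^[N + 1] B‖
        ≤ D + m⁻¹ * (K * Θ) + 0 * ‖B‖ := hfin
      _ ≤ (N : ℝ) / m * (K * Θ) + m⁻¹ * (K * Θ) := by
          rw [zero_mul, add_zero]
          exact add_le_add ih le_rfl
      _ = ((N : ℝ) + 1) / m * (K * Θ) := by ring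
      _ ≤ ((N : ℝ) + 1) / m * (K0 * (1 + v / m) ^ (N + 1) * Θ) := by
          refine mul_le_mul_of_nonneg_left ?_ (by positivity)
          exact mul_le_mul_of_nonneg_right hKle hΘ0
      _ = ((N + 1 : ℕ) : ℝ) / m * (K0 * (1 + v / m) ^ (N + 1) * Θ) := by push_cast; ring

end Chan

end Claimed.Agent.R296
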