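import Claimed.Agent.R296.AmpTyp

/-!
# Row 296, paper 1, Section 9 (amplification), file 9: the blocks

Bipartite `ρ` on `a × b`: the blocks `ampBlk ρ w (s,e) = Q (Γ |s⟩⟨e| ⊗ T₀)`,
`Q = ampTypP ρ w`, `Γ = ampTypG (ptrFst ρ) w`, `T₀ = ampTypP (ptrSnd ρ) w`, with the
Gram bound (N) `ampBlk_gram_le` and the expectation bound (G) `ampBlk_expect_le`.
Use the statements of `AmpTyp.lean` as black boxes.
Architect: helper286.  Proofs: helper43.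
-/

set_option autoImplicit false
set_option linter.unusedSectionVars false
set_option linter.unusedDecidableInType false

namespace Claimed.Agent.R296

open Matrix Kronecker Claimed.Agent.R298
open scoped MatrixOrder Matrix.Norms.L2Operator ComplexOrder

section Bip

variable {a b : Type} [Fintype a] [DecidableEq a] [Fintype b] [DecidableEq b]

/-- monotonicity of the partial traces -/
theorem amp_ptrFst_mono {M N : Matrix (a × b) (a × b) ℂ} (h : M ≤ N) : ptrFst M ≤ ptrFst N := by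
  rw [Matrix.le_iff, ← ptrFst_sub]
  exact ptrFst_posSemidef (Matrix.le_iff.1 h)

theorem amp_ptrSnd_mono {M N : Matrix (a × b) (a × b) ℂ} (h : M ≤ N) : ptrSnd M ≤ ptrSnd N := by
  rw [Matrix.le_iff, ← ptrSnd_sub]
  exact ptrSnd_posSemidef (Matrix.le_iff.1 h)

/-- cyclicity in the traced factor -/
theorem ampb_ptrSnd_cyc (K : Matrix a a ℂ) (M : Matrix (a × b) (a × b) ℂ) :
    ptrSnd ((K ⊗ₖ (1 : Matrix b b ℂ)) * M) = ptrSnd (M * (K ⊗ₖ (1 : Matrix b b ℂ))) := by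
  ext j j'
  simp only [ptrSnd_apply, Matrix.mul_apply, Fintype.sum_prod_type, kroneckerMap_apply,
    Matrix.one_apply, mul_ite, mul_one, mul_zero, ite_mul, zero_mul, Finset.sum_ite_eq,
    Finset.sum_ite_eq', Finset.mem_univ, if_true]
  rw [Finset.sum_comm]
  refine Finset.sum_congr rfl fun u _ => Finset.sum_congr rfl fun i _ => ?_
  ring

theorem ampb_ptrFst_cyc (T : Matrix b b ℂ) (M : Matrix (a × b) (a × b) ℂ) :
    ptrFst (((1 : Matrix a a ℂ) ⊗ₖ T) * M) = ptrFst (M * ((1 : Matrix a a ℂ) ⊗ₖ T)) := by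
  ext i i'
  simp only [ptrFst_apply, Matrix.mul_apply, Fintype.sum_prod_type, kroneckerMap_apply,
    Matrix.one_apply, mul_ite, mul_zero, ite_mul, one_mul, zero_mul]
  have h1 : ∀ j : b, (∑ x : a, ∑ v : b, if i = x then T j v * M (x, v) (i', j) else 0)
      = ∑ v : b, T j v * M (i, v) (i', j) := by
    intro j
    rw [Finset.sum_eq_single i]
    · simp
    · intro x _ hx; simp [Ne.symm hx]
    · simp
  have h2 : ∀ j : b, (∑ x : a, ∑ v : b, if x = i' then M (i, j) (x, v) * T v j else 0)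
      = ∑ v : b, M (i, j) (i', v) * T v j := by
    intro j
    rw [Finset.sum_eq_single i']
    · simp
    · intro x _ hx; simp [hx]
    · simp
  simp only [h1, h2]
  rw [Finset.sum_comm]
  refine Finset.sum_congr rfl fun u _ => Finset.sum_congr rfl fun i _ => ?_
  ring

theorem ampb_sub_kronecker {l m n p : Type} (A A' : Matrix l m ℂ) (B : Matrix n p ℂ) :
    (A - A') ⊗ₖ B = A ⊗ₖ B - A' ⊗ₖ B := by
  ext x y; simp [kroneckerMap_apply, sub_mul]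

theorem ampb_kronecker_sub {l m n p : Type} (A : Matrix l m ℂ) (B B' : Matrix n p ℂ) :
    A ⊗ₖ (B - B') = A ⊗ₖ B - A ⊗ₖ B' := by
  ext x y; simp [kroneckerMap_apply, mul_sub]

/-- conjugation is monotone -/
theorem ampb_conj_mono {n m : Type} [Fintype n] [Fintype m] {M N : Matrix n n ℂ} (h : M ≤ N)
    (R : Matrix m n ℂ) : R * M * Rᴴ ≤ R * N * Rᴴ := by
  rw [Matrix.le_iff, ← Matrix.sub_mul, ← Matrix.mul_sub]
  exact (Matrix.le_iff.1 h).mul_mul_conjTranspose_same R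

theorem ampb_smul_mono {n : Type} [Fintype n] {M N : Matrix n n ℂ} (h : M ≤ N) {c : ℝ}
    (hc : 0 ≤ c) : ((c : ℝ) : ℂ) • M ≤ ((c : ℝ) : ℂ) • N := by
  rw [Matrix.le_iff, ← smul_sub]
  exact (Matrix.le_iff.1 h).smul (by exact_mod_cast hc)

/-- `Tr_a ((G ⊗ 1) M (G ⊗ 1)) ≤ c Tr_a M` if `G² ≤ c`, `M ≥ 0`, `G` Hermitian
(cyclicity in the traced factor: test on `v`, `M = RᴴR`) -/
theorem amp_ptrSnd_conj_le {M : Matrix (a × b) (a × b) ℂ} (hM : 0 ≤ M) {G : Matrix a a ℂ}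
    (hG : G.IsHermitian) {c : ℝ} (hc : G * G ≤ (c : ℂ) • 1) :
    ptrSnd ((G ⊗ₖ (1 : Matrix b b ℂ)) * M * (G ⊗ₖ (1 : Matrix b b ℂ))) ≤ (c : ℂ) • ptrSnd M := by
  obtain ⟨R, hR⟩ := exists_eq_conjTranspose_mul_self (Matrix.le_iff.1 hc)
  have hM' := Matrix.nonneg_iff_posSemidef.1 hM
  have h1 : (c : ℂ) • ptrSnd M -
      ptrSnd ((G ⊗ₖ (1 : Matrix b b ℂ)) * M * (G ⊗ₖ (1 : Matrix b b ℂ))) =
      ptrSnd ((R ⊗ₖ (1 : Matrix b b ℂ)) * M * (R ⊗ₖ (1 : Matrix b b ℂ))ᴴ) := by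
    rw [conjTranspose_kronecker, conjTranspose_one, ← ampb_ptrSnd_cyc, ← ampb_ptrSnd_cyc,
      ← Matrix.mul_assoc, ← Matrix.mul_assoc, ← mul_kronecker_mul, ← mul_kronecker_mul,
      Matrix.one_mul, ← hR, ← ptrSnd_smul, ← ptrSnd_sub]
    congr 1
    rw [ampb_sub_kronecker, Matrix.sub_mul, smul_kronecker, one_kronecker_one, Matrix.smul_mul,
      Matrix.one_mul]
  rw [Matrix.le_iff, h1]
  exact ptrSnd_posSemidef (hM'.mul_mul_conjTranspose_same _)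

/-- `Tr_b ((1 ⊗ T) M) = Tr_b ((1 ⊗ T) M (1 ⊗ T))` for a projection `T`, and it lies in `[0, Tr_b M]` -/
theorem amp_ptrFst_proj {M : Matrix (a × b) (a × b) ℂ} (hM : 0 ≤ M) {T : Matrix b b ℂ}
    (hT : T.IsHermitian) (hTT : T * T = T) :
    0 ≤ ptrFst (((1 : Matrix a a ℂ) ⊗ₖ T) * M) ∧ ptrFst (((1 : Matrix a a ℂ) ⊗ₖ T) * M) ≤ ptrFst M := by
  have hM' := Matrix.nonneg_iff_posSemidef.1 hM
  have key : ∀ T' : Matrix b b ℂ, T'.IsHermitian → T' * T' = T' →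
      (ptrFst (((1 : Matrix a a ℂ) ⊗ₖ T') * M)).PosSemidef := by
    intro T' hT' hTT'
    have h1 : ptrFst (((1 : Matrix a a ℂ) ⊗ₖ T') * M) =
        ptrFst (((1 : Matrix a a ℂ) ⊗ₖ T') * M * ((1 : Matrix a a ℂ) ⊗ₖ T')ᴴ) := by
      rw [conjTranspose_kronecker, conjTranspose_one, hT'.eq, ← ampb_ptrFst_cyc,
        ← Matrix.mul_assoc, ← mul_kronecker_mul, Matrix.one_mul, hTT']
    rw [h1]
    exact ptrFst_posSemidef (hM'.mul_mul_conjTranspose_same _)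
  refine ⟨Matrix.nonneg_iff_posSemidef.2 (key T hT hTT), ?_⟩
  have h2 := key (1 - T) (by
      rw [IsHermitian, conjTranspose_sub, conjTranspose_one, hT.eq]) (by
      rw [Matrix.mul_sub, Matrix.sub_mul, Matrix.sub_mul, Matrix.one_mul, Matrix.one_mul,
        Matrix.mul_one, hTT]; abel)
  rw [ampb_kronecker_sub, one_kronecker_one, Matrix.sub_mul, Matrix.one_mul, ptrFst_sub] at h2
  exact Matrix.le_iff.2 h2

/-- the blocks `B_{(s,e)} = Q (Γ |s⟩⟨e| ⊗ T₀)` -/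
noncomputable def ampBlk (ρ : Matrix (a × b) (a × b) ℂ) (w : ℝ) (p : a × a) :
    Matrix (a × b) (a × b) ℂ :=
  ampTypP ρ w * ((ampTypG (ptrFst ρ) w * Matrix.single p.1 p.2 1) ⊗ₖ ampTypP (ptrSnd ρ) w)

/-- `∑_{s,e} (|e⟩⟨s| ⊗ 1) Y (|s⟩⟨e| ⊗ 1) = 1 ⊗ Tr_a Y` -/
theorem ampb_sum_single_conj (Y : Matrix (a × b) (a × b) ℂ) :
    ∑ p : a × a, ((Matrix.single p.2 p.1 (1 : ℂ)) ⊗ₖ (1 : Matrix b b ℂ)) * Y *
        ((Matrix.single p.1 p.2 (1 : ℂ)) ⊗ₖ (1 : Matrix b b ℂ)) =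
      (1 : Matrix a a ℂ) ⊗ₖ ptrSnd Y := by
  ext ⟨x, y⟩ ⟨x', y'⟩
  simp only [Matrix.sum_apply, Matrix.mul_apply, Fintype.sum_prod_type, kroneckerMap_apply,
    Matrix.one_apply, Matrix.single_apply, ptrSnd_apply]
  have h : ∀ s e : a, (∑ u' : a, ∑ v' : b, (∑ u : a, ∑ v : b,
      ((if e = x ∧ s = u then (1 : ℂ) else 0) * (if y = v then 1 else 0)) * Y (u, v) (u', v')) *
      ((if s = u' ∧ e = x' then (1 : ℂ) else 0) * (if v' = y' then 1 else 0)))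
      = if e = x ∧ e = x' then Y (s, y) (s, y') else 0 := by
    intro s e
    rw [Finset.sum_eq_single s, Finset.sum_eq_single y', Finset.sum_eq_single s,
      Finset.sum_eq_single y]
    · by_cases h1 : e = x <;> by_cases h2 : e = x' <;> simp [h1, h2]
    · intro v _ hv; simp [Ne.symm hv]
    · simp
    · intro u _ hu; simp [Ne.symm hu]
    · simp
    · intro v _ hv; simp [hv]
    · simp
    · intro u _ hu; simp [Ne.symm hu]
    · simp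
  simp only [h]
  rw [Finset.sum_comm]
  by_cases hxx : x = x'
  · subst hxx
    rw [Finset.sum_eq_single x]
    · simp
    · intro e _ he; simp [he]
    · simp
  · rw [if_neg hxx, zero_mul]
    refine Finset.sum_eq_zero fun e _ => Finset.sum_eq_zero fun s _ => ?_
    rw [if_neg]
    rintro ⟨rfl, h2⟩
    exact hxx h2

/-- `∑_{s,e} Bᴴ B = 1 ⊗ T₀ Tr_a((Γ ⊗ 1) Q (Γ ⊗ 1)) T₀` -/
theorem ampBlk_gram (ρ : Matrix (a × b) (a × b) ℂ) (w : ℝ) :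
    ∑ p, (ampBlk ρ w p)ᴴ * ampBlk ρ w p =
      (1 : Matrix a a ℂ) ⊗ₖ (ampTypP (ptrSnd ρ) w *
        ptrSnd ((ampTypG (ptrFst ρ) w ⊗ₖ (1 : Matrix b b ℂ)) * ampTypP ρ w *
          (ampTypG (ptrFst ρ) w ⊗ₖ (1 : Matrix b b ℂ))) * ampTypP (ptrSnd ρ) w) := by
  set Q := ampTypP ρ w with hQ
  set Γ := ampTypG (ptrFst ρ) w with hΓ
  set T := ampTypP (ptrSnd ρ) w with hT
  have hQH : Qᴴ = Q := (ampTypP_isHermitian ρ w).eq
  have hΓH : Γᴴ = Γ := (ampTypG_isHermitian _ w).eq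
  have hTH : Tᴴ = T := (ampTypP_isHermitian _ w).eq
  have hQQ : Q * Q = Q := ampTypP_mul_self ρ w
  have h1 : ∀ p : a × a, (ampBlk ρ w p)ᴴ * ampBlk ρ w p =
      ((1 : Matrix a a ℂ) ⊗ₖ T) * (((Matrix.single p.2 p.1 (1 : ℂ)) ⊗ₖ (1 : Matrix b b ℂ)) *
        ((Γ ⊗ₖ (1 : Matrix b b ℂ)) * Q * (Γ ⊗ₖ (1 : Matrix b b ℂ))) *
        ((Matrix.single p.1 p.2 (1 : ℂ)) ⊗ₖ (1 : Matrix b b ℂ))) * ((1 : Matrix a a ℂ) ⊗ₖ T) := by
    intro p
    have e1 : (Γ * Matrix.single p.1 p.2 (1 : ℂ)) ⊗ₖ T =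
        (Γ ⊗ₖ (1 : Matrix b b ℂ)) * ((Matrix.single p.1 p.2 (1 : ℂ)) ⊗ₖ (1 : Matrix b b ℂ)) *
          ((1 : Matrix a a ℂ) ⊗ₖ T) := by
      rw [← mul_kronecker_mul, ← mul_kronecker_mul, Matrix.one_mul, Matrix.one_mul,
        Matrix.mul_one]
    have e2 : ((Γ * Matrix.single p.1 p.2 (1 : ℂ)) ⊗ₖ T)ᴴ =
        ((1 : Matrix a a ℂ) ⊗ₖ T) * ((Matrix.single p.2 p.1 (1 : ℂ)) ⊗ₖ (1 : Matrix b b ℂ)) *
          (Γ ⊗ₖ (1 : Matrix b b ℂ)) := by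
      rw [conjTranspose_kronecker, conjTranspose_mul, hΓH, hTH, conjTranspose_single, star_one,
        ← mul_kronecker_mul, ← mul_kronecker_mul, Matrix.one_mul, Matrix.mul_one,
        Matrix.mul_one]
    unfold ampBlk
    rw [conjTranspose_mul, ← hQ, ← hΓ, ← hT, hQH, e2, e1]
    calc _ = (1 : Matrix a a ℂ) ⊗ₖ T * Matrix.single p.2 p.1 (1 : ℂ) ⊗ₖ (1 : Matrix b b ℂ) *
          Γ ⊗ₖ (1 : Matrix b b ℂ) * (Q * Q) *
          (Γ ⊗ₖ (1 : Matrix b b ℂ) * Matrix.single p.1 p.2 (1 : ℂ) ⊗ₖ (1 : Matrix b b ℂ) *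
            (1 : Matrix a a ℂ) ⊗ₖ T) := by simp only [Matrix.mul_assoc]
      _ = _ := by rw [hQQ]; simp only [Matrix.mul_assoc]
  simp only [h1]
  rw [← Finset.sum_mul, ← Finset.mul_sum, ampb_sum_single_conj, ← mul_kronecker_mul,
    ← mul_kronecker_mul, Matrix.one_mul, Matrix.one_mul]

/-- **(N)** `∑ Bᴴ B ≤ exp (S_a + S_{ab} - S_b + 3 w)`:
`Q ≤ e^{S_ab + w} ρ`, `Γ² ≤ e^{S_a + w}`, `T₀ ρ_b T₀ ≤ e^{-S_b + w} T₀ ≤ e^{-S_b+w}`. -/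
theorem ampBlk_gram_le {ρ : Matrix (a × b) (a × b) ℂ} (hρ : IsDensity ρ) (w : ℝ) :
    ∑ p, (ampBlk ρ w p)ᴴ * ampBlk ρ w p ≤
      ((Real.exp (vnEnt (ptrFst ρ) + vnEnt ρ - vnEnt (ptrSnd ρ) + 3 * w) : ℝ) : ℂ) • 1 := by
  rw [ampBlk_gram]
  set Q := ampTypP ρ w with hQ
  set Γ := ampTypG (ptrFst ρ) w with hΓ
  set T := ampTypP (ptrSnd ρ) w with hT
  have hΓH : Γᴴ = Γ := (ampTypG_isHermitian _ w).eq
  have hTH : Tᴴ = T := (ampTypP_isHermitian _ w).eq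
  have hρa : (ptrFst ρ).PosSemidef := ptrFst_posSemidef hρ.1
  have hρb : (ptrSnd ρ).PosSemidef := ptrSnd_posSemidef hρ.1
  set c1 := Real.exp (vnEnt ρ + w) with hc1
  set c2 := Real.exp (vnEnt (ptrFst ρ) + w) with hc2
  set c3 := Real.exp (-vnEnt (ptrSnd ρ) + w) with hc3
  have hc1p : 0 ≤ c1 := (Real.exp_pos _).le
  have hc2p : 0 ≤ c2 := (Real.exp_pos _).le
  have hc3p : 0 ≤ c3 := (Real.exp_pos _).le
  have hG1 : (Γ ⊗ₖ (1 : Matrix b b ℂ))ᴴ = Γ ⊗ₖ (1 : Matrix b b ℂ) := by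
    rw [conjTranspose_kronecker, conjTranspose_one, hΓH]
  -- step 1: `Q ≤ c1 ρ`
  have s1 : (Γ ⊗ₖ (1 : Matrix b b ℂ)) * Q * (Γ ⊗ₖ (1 : Matrix b b ℂ)) ≤
      ((c1 : ℝ) : ℂ) • ((Γ ⊗ₖ (1 : Matrix b b ℂ)) * ρ * (Γ ⊗ₖ (1 : Matrix b b ℂ))) := by
    have h := ampb_conj_mono (ampTypP_le_smul hρ.1 w) (Γ ⊗ₖ (1 : Matrix b b ℂ))
    rw [hG1, Matrix.mul_smul, Matrix.smul_mul] at h
    exact h
  -- step 2: partial trace and `Γ² ≤ c2`
  have s2 : ptrSnd ((Γ ⊗ₖ (1 : Matrix b b ℂ)) * Q * (Γ ⊗ₖ (1 : Matrix b b ℂ))) ≤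
      ((c1 : ℝ) : ℂ) • (((c2 : ℝ) : ℂ) • ptrSnd ρ) := by
    refine (amp_ptrSnd_mono s1).trans ?_
    rw [ptrSnd_smul]
    exact ampb_smul_mono (amp_ptrSnd_conj_le (Matrix.nonneg_iff_posSemidef.2 hρ.1)
      (ampTypG_isHermitian _ w) (ampTypG_sq_le hρa w)) hc1p
  -- step 3: conjugation by `T`
  have s3 : T * ptrSnd ((Γ ⊗ₖ (1 : Matrix b b ℂ)) * Q * (Γ ⊗ₖ (1 : Matrix b b ℂ))) * T ≤
      ((c1 : ℝ) : ℂ) • (((c2 : ℝ) : ℂ) • (((c3 : ℝ) : ℂ) • (1 : Matrix b b ℂ))) := by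
    have h := ampb_conj_mono s2 T
    rw [hTH, Matrix.mul_smul, Matrix.mul_smul, Matrix.smul_mul, Matrix.smul_mul] at h
    refine h.trans (ampb_smul_mono (ampb_smul_mono ?_ hc2p) hc1p)
    exact (ampTypP_mul_mul_le hρb w).trans (ampb_smul_mono (ampTypP_le_one _ w) hc3p)
  have hc : ((Real.exp (vnEnt (ptrFst ρ) + vnEnt ρ - vnEnt (ptrSnd ρ) + 3 * w) : ℝ) : ℂ)
      = ((c1 : ℝ) : ℂ) * (((c2 : ℝ) : ℂ) * ((c3 : ℝ) : ℂ)) := by
    rw [← Complex.ofReal_mul, ← Complex.ofReal_mul, hc1, hc2, hc3, ← Real.exp_add,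
      ← Real.exp_add]
    congr 2; ring
  rw [smul_smul, smul_smul] at s3
  rw [hc, ← mul_assoc, Matrix.le_iff]
  have h4 := (Matrix.PosSemidef.one (n := a) (R := ℂ)).kronecker (Matrix.le_iff.1 s3)
  rw [ampb_kronecker_sub, kronecker_smul, one_kronecker_one] at h4
  exact h4

/-- `Tr ρ B_{(s,e)} = (M Γ)(e,s)` with `M = Tr_b ((1 ⊗ T₀) ρ Q)` -/
theorem ampBlk_expect (ρ : Matrix (a × b) (a × b) ℂ) (w : ℝ) (p : a × a) :
    (ρ * ampBlk ρ w p).trace =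
      (ptrFst (((1 : Matrix a a ℂ) ⊗ₖ ampTypP (ptrSnd ρ) w) * (ρ * ampTypP ρ w)) *
        ampTypG (ptrFst ρ) w) p.2 p.1 := by
  set Q := ampTypP ρ w with hQ
  set Γ := ampTypG (ptrFst ρ) w with hΓ
  set T := ampTypP (ptrSnd ρ) w with hT
  have e1 : (Γ * Matrix.single p.1 p.2 (1 : ℂ)) ⊗ₖ T =
      ((Γ * Matrix.single p.1 p.2 (1 : ℂ)) ⊗ₖ (1 : Matrix b b ℂ)) *
        ((1 : Matrix a a ℂ) ⊗ₖ T) := by
    rw [← mul_kronecker_mul, Matrix.one_mul, Matrix.mul_one]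
  unfold ampBlk
  rw [← hQ, ← hΓ, ← hT, e1, ← Matrix.mul_assoc, ← Matrix.mul_assoc, Matrix.trace_mul_comm,
    ← Matrix.mul_assoc, ← ptrFst_trace_mul, ← Matrix.mul_assoc, Matrix.trace_mul_comm,
    Matrix.trace_single_mul]
  simp

/-- `Tr (Γ M² Γ) ≤ Tr M` if `0 ≤ M ≤ ρ`, `Γ ρ Γ ≤ 1`:  `X = M^{1/2} Γ`, `XᴴX = Γ M Γ ≤ 1`, hence
`X Xᴴ ≤ 1` and `Tr (Γ M² Γ) = Tr (M^{1/2} X Xᴴ M^{1/2}) ≤ Tr M` -/
theorem amp_hs_le {M ρ' G : Matrix a a ℂ} (hM : 0 ≤ M) (hMρ : M ≤ ρ') (hG : G.IsHermitian)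
    (hGρ : G * ρ' * G ≤ 1) : ∑ x, ∑ y, ‖(M * G) x y‖ ^ 2 ≤ M.trace.re := by
  have hM' := Matrix.nonneg_iff_posSemidef.1 hM
  set Rt := ampRoot M with hRt
  have hRH : Rtᴴ = Rt := (ampRoot_isHermitian M).eq
  have hRR : Rt * Rt = M := ampRoot_mul_self hM'
  set X : Matrix a a ℂ := Rt * G with hX
  have hXX : Xᴴ * X ≤ 1 := by
    have h1 : Xᴴ * X = G * M * Gᴴ := by
      rw [hX, conjTranspose_mul, hRH, hG.eq, ← hRR]; simp only [Matrix.mul_assoc]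
    rw [h1]
    have h2 := ampb_conj_mono hMρ G
    rw [hG.eq] at h2 ⊢
    exact h2.trans hGρ
  have hXX' : X * Xᴴ ≤ 1 := by
    have h1 : ‖star X * X‖ ≤ 1 :=
      (CStarAlgebra.norm_le_one_iff_of_nonneg _ (star_mul_self_nonneg X)).2 hXX
    rw [CStarRing.norm_star_mul_self] at h1
    have h2 : ‖X * star X‖ ≤ 1 := by rw [CStarRing.norm_self_mul_star]; exact h1
    exact (CStarAlgebra.norm_le_one_iff_of_nonneg _ (mul_star_self_nonneg X)).1 h2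
  -- the Hilbert-Schmidt norm as a trace
  have h3 : ((∑ x, ∑ y, ‖(M * G) x y‖ ^ 2 : ℝ) : ℂ) = ((M * G) * (M * G)ᴴ).trace := by
    simp only [Matrix.trace, Matrix.diag_apply, Matrix.mul_apply (M := M * G),
      conjTranspose_apply, Complex.ofReal_sum]
    refine Finset.sum_congr rfl fun x _ => Finset.sum_congr rfl fun y _ => ?_
    rw [RCLike.star_def, Complex.mul_conj, Complex.normSq_eq_norm_sq]
  have h4 : (M * G) * (M * G)ᴴ = Rt * (X * Xᴴ) * Rtᴴ := by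
    rw [hX, conjTranspose_mul, conjTranspose_mul, hM'.isHermitian.eq, hRH, ← hRR]
    simp only [Matrix.mul_assoc]
  have h5 : Rt * (X * Xᴴ) * Rtᴴ ≤ M := by
    have := ampb_conj_mono hXX' Rt
    rw [Matrix.mul_one, hRH, hRR] at this
    rwa [hRH]
  have h6 := (Matrix.le_iff.1 h5).trace_nonneg
  rw [Matrix.trace_sub, ← h4, ← h3] at h6
  have h7 := (Complex.le_def.1 h6).1
  simp only [Complex.zero_re, Complex.sub_re, Complex.ofReal_re] at h7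
  linarith

/-- **(G)** `∑ |Tr ρ B|² ≤ 1` -/
theorem ampBlk_expect_le {ρ : Matrix (a × b) (a × b) ℂ} (hρ : IsDensity ρ) (w : ℝ) :
    ∑ p, ‖(ρ * ampBlk ρ w p).trace‖ ^ 2 ≤ 1 := by
  have hρa : (ptrFst ρ).PosSemidef := ptrFst_posSemidef hρ.1
  obtain ⟨hN0, hN1⟩ := ampTypP_mul_le hρ.1 w
  obtain ⟨hM0, hM1⟩ := amp_ptrFst_proj hN0 (ampTypP_isHermitian (ptrSnd ρ) w)
    (ampTypP_mul_self (ptrSnd ρ) w)
  have hM2 := hM1.trans (amp_ptrFst_mono hN1)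
  have h := amp_hs_le hM0 hM2 (ampTypG_isHermitian (ptrFst ρ) w)
    (by rw [ampTypG_mul_mul hρa]; exact ampTypP_le_one _ w)
  have htr : (ptrFst (((1 : Matrix a a ℂ) ⊗ₖ ampTypP (ptrSnd ρ) w) *
      (ρ * ampTypP ρ w))).trace.re ≤ 1 := by
    have h6 := (Matrix.le_iff.1 hM2).trace_nonneg
    rw [Matrix.trace_sub, trace_ptrFst ρ, hρ.2] at h6
    have h7 := (Complex.le_def.1 h6).1
    simp only [Complex.zero_re, Complex.sub_re, Complex.one_re] at h7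
    linarith
  refine le_trans (le_of_eq ?_) (h.trans htr)
  simp only [ampBlk_expect]
  rw [Fintype.sum_prod_type, Finset.sum_comm]

end Bip

end Claimed.Agent.R296
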