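import Mathlib
import Claimed.Prelude.Def_0473

/-!
# Row 296: common definitions (sites, configurations, partial trace, entropy)

Binding conventions for every file of `Claimed/Agent/R296/`.

* operators are `Matrix n n ℂ` on a `Fintype` index; use
  `open scoped MatrixOrder Matrix.Norms.L2Operator ComplexOrder`
  (Loewner order, operator norm, C⋆-algebra structure, continuous functional calculus);
* a many-body system is a finite type `s` of sites with local index types `io x`;
* subsystems are `Finset s`; `ptr A M` is the partial trace onto `A`, `emb A K` is `K ⊗ 1`;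
* the entropy is the frozen expression (sum of `negMulLog` over the roots of the
  characteristic polynomial), so that the bridge to `Def_0473` is definitional.
-/

set_option autoImplicit false

namespace Claimed.Agent.R296

open Matrix
open scoped ComplexOrder

section Sites

variable {s : Type} [DecidableEq s] (io : s → Type)

/-- configurations of the whole system -/
abbrev Cfg : Type := ∀ x : s, io x

/-- configurations of the subsystem `A` -/
abbrev CfgOn (A : Finset s) : Type := ∀ x : {x // x ∈ A}, io x

/-- configurations of the complement of `A` -/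
abbrev CfgOff (A : Finset s) : Type := ∀ x : {x // x ∉ A}, io x

variable {io}

/-- glue a configuration on `A` and one off `A` -/
def cglue (A : Finset s) (a : CfgOn io A) (b : CfgOff io A) : Cfg io :=
  fun x => if h : x ∈ A then a ⟨x, h⟩ else b ⟨x, h⟩

/-- restriction of a configuration to `A` -/
def crOn (A : Finset s) (σ : Cfg io) : CfgOn io A := fun x => σ x

/-- restriction of a configuration to the complement of `A` -/
def crOff (A : Finset s) (σ : Cfg io) : CfgOff io A := fun x => σ x

/-- `Cfg ≃ CfgOn A × CfgOff A` -/
def cfgSplit (A : Finset s) : Cfg io ≃ CfgOn io A × CfgOff io A where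
  toFun σ := (crOn A σ, crOff A σ)
  invFun p := cglue A p.1 p.2
  left_inv σ := by
    funext x
    by_cases h : x ∈ A <;> simp [cglue, crOn, crOff, h]
  right_inv p := by
    rcases p with ⟨a, b⟩
    refine Prod.ext ?_ ?_
    · funext x
      simp [cglue, crOn, x.2]
    · funext x
      simp [cglue, crOff, x.2]

variable [Fintype s] [∀ x, Fintype (io x)] [∀ x, DecidableEq (io x)]

/-- partial trace onto the subsystem `A` -/
def ptr (A : Finset s) (M : Matrix (Cfg io) (Cfg io) ℂ) :
    Matrix (CfgOn io A) (CfgOn io A) ℂ :=
  Matrix.of fun a a' => ∑ b : CfgOff io A, M (cglue A a b) (cglue A a' b)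

/-- `K ⊗ 1`: the operator `K` on the subsystem `A`, extended by the identity -/
def emb (A : Finset s) (K : Matrix (CfgOn io A) (CfgOn io A) ℂ) :
    Matrix (Cfg io) (Cfg io) ℂ :=
  Matrix.of fun σ τ => if crOff A σ = crOff A τ then K (crOn A σ) (crOn A τ) else 0

/-- an operator is supported in `A` -/
def SuppIn (A : Finset s) (M : Matrix (Cfg io) (Cfg io) ℂ) : Prop :=
  ∃ K, M = emb A K

end Sites

/-- rank-one projector (not normalised) `|Ω⟩⟨Ω|` -/
def pureOp {n : Type} (Ω : n → ℂ) : Matrix n n ℂ := vecMulVec Ω (star Ω)

/-- von Neumann entropy of a matrix, in the frozen form of `Def_0473` -/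
noncomputable def vnEnt {n : Type} [Fintype n] [DecidableEq n] (M : Matrix n n ℂ) : ℝ :=
  ((M.charpoly.roots).map fun z => Real.negMulLog z.re).sum

section Ent

variable {s : Type} [DecidableEq s] [Fintype s] {io : s → Type}
  [∀ x, Fintype (io x)] [∀ x, DecidableEq (io x)]

/-- entropy of the marginal of `ρ` on `A` -/
noncomputable def ent (ρ : Matrix (Cfg io) (Cfg io) ℂ) (A : Finset s) : ℝ :=
  vnEnt (ptr A ρ)

/-- conditional entropy `S(A|B) = S(A ∪ B) - S(B)` -/
noncomputable def centr (ρ : Matrix (Cfg io) (Cfg io) ℂ) (A B : Finset s) : ℝ :=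
  ent ρ (A ∪ B) - ent ρ B

/-- mutual information `I(A:B) = S(A) + S(B) - S(A ∪ B)` -/
noncomputable def minfo (ρ : Matrix (Cfg io) (Cfg io) ℂ) (A B : Finset s) : ℝ :=
  ent ρ A + ent ρ B - ent ρ (A ∪ B)

/-- conditional mutual information `I(A:C|B)` -/
noncomputable def cminfo (ρ : Matrix (Cfg io) (Cfg io) ℂ) (A C B : Finset s) : ℝ :=
  ent ρ (A ∪ B) + ent ρ (B ∪ C) - ent ρ B - ent ρ (A ∪ B ∪ C)

/-- a density matrix: positive semidefinite of trace one -/
def IsDensity {n : Type} [Fintype n] (ρ : Matrix n n ℂ) : Prop :=
  ρ.PosSemidef ∧ ρ.trace = 1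

end Ent

section Bridge

open Claims.C0473

variable {Λ : Type} [Fintype Λ] [DecidableEq Λ] {q : ℕ}

/-- the frozen reduced density matrix is `ptr` of the pure state -/
theorem reducedDensity_eq_ptr (Ω : (Λ → Fin q) → ℂ) (A : Finset Λ) :
    reducedDensity Ω A = ptr (io := fun _ : Λ => Fin q) A (pureOp Ω) := by
  ext a a'
  simp only [reducedDensity, ptr, pureOp, vecMulVec_apply, Matrix.of_apply, Pi.star_apply]
  rfl

/-- the frozen entanglement entropy is `ent` of the pure state -/
theorem entanglementEntropy_eq_ent (Ω : (Λ → Fin q) → ℂ) (A : Finset Λ) :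
    entanglementEntropy Ω A = ent (io := fun _ : Λ => Fin q) (pureOp Ω) A := by
  unfold entanglementEntropy ent vnEnt
  rw [reducedDensity_eq_ptr]

end Bridge

end Claimed.Agent.R296
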