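import Mathlib
import Claimed.Prelude.Def_0473
import Claimed.Agent.R296.Defs

/-!
# Row 296: bridge between the frozen definitions `Def_0473` and `R296/Defs.lean`

* `br_isPSD_iff`       : frozen `IsPSD` is Mathlib's `Matrix.PosSemidef`;
* `br_embedAt_eq_emb`  : frozen `embedAt X k` is `emb X (br_loc X k)`;
* `br_vnEnt_idem`      : the frozen entropy expression vanishes on idempotent matrices;
* `br_ker_unique`      : the gap inequality makes the ground vector unique.
-/

set_option autoImplicit false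

namespace Claimed.Agent.R296

open Matrix Claims.C0473
open scoped ComplexOrder

section PSD

variable {n : Type} [Fintype n]

/-- for a Hermitian matrix the quadratic form is real -/
theorem br_quad_im_zero {M : Matrix n n ℂ} (hM : M.IsHermitian) (v : n → ℂ) :
    (star v ⬝ᵥ (M *ᵥ v)).im = 0 := by
  have h : star (star v ⬝ᵥ (M *ᵥ v)) = star v ⬝ᵥ (M *ᵥ v) := by
    rw [← star_dotProduct_star, star_star, star_mulVec, hM.eq, dotProduct_mulVec]
  have h2 := congrArg Complex.im h
  simp only [Complex.star_def, Complex.conj_im] at h2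
  linarith

/-- the frozen `IsPSD` is `Matrix.PosSemidef` -/
theorem br_isPSD_iff {M : Matrix n n ℂ} : IsPSD M ↔ M.PosSemidef := by
  rw [posSemidef_iff_dotProduct_mulVec]
  constructor
  · rintro ⟨h1, h2⟩
    refine ⟨h1, fun v => ?_⟩
    rw [Complex.le_def]
    exact ⟨by simpa using h2 v, by simpa using (br_quad_im_zero h1 v).symm⟩
  · rintro ⟨h1, h2⟩
    refine ⟨h1, fun v => ?_⟩
    have := (Complex.le_def.mp (h2 v)).1
    simpa using this

end PSD

section Embed

variable {Λ : Type} [Fintype Λ] [DecidableEq Λ] {q : ℕ} [NeZero q]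

/-- extension by `0` of a configuration on `X` -/
def br_ext0 (X : Finset Λ) (a : CfgOn (fun _ : Λ => Fin q) X) : Λ → Fin q :=
  fun x => if h : x ∈ X then a ⟨x, h⟩ else 0

/-- the local matrix of the frozen `embedAt X k` -/
def br_loc (X : Finset Λ) (k : Matrix (Λ → Fin q) (Λ → Fin q) ℂ) :
    Matrix (CfgOn (fun _ : Λ => Fin q) X) (CfgOn (fun _ : Λ => Fin q) X) ℂ :=
  Matrix.of fun a a' => k (br_ext0 X a) (br_ext0 X a')

theorem br_ext0_crOn (X : Finset Λ) (σ : Λ → Fin q) :
    br_ext0 X (crOn (io := fun _ : Λ => Fin q) X σ) = fun x => if x ∈ X then σ x else 0 := by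
  funext x
  by_cases h : x ∈ X <;> simp [br_ext0, crOn, h]

theorem br_crOff_eq_iff {s : Type} [DecidableEq s] {io : s → Type} (X : Finset s)
    (σ τ : Cfg io) : crOff X σ = crOff X τ ↔ ∀ x, x ∉ X → σ x = τ x := by
  constructor
  · intro h x hx
    exact congrFun h ⟨x, hx⟩
  · intro h
    funext x
    exact h x.1 x.2

theorem br_crOn_eq_iff {s : Type} [DecidableEq s] {io : s → Type} (X : Finset s)
    (σ τ : Cfg io) : crOn X σ = crOn X τ ↔ ∀ x, x ∈ X → σ x = τ x := by
  constructor
  · intro h x hx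
    exact congrFun h ⟨x, hx⟩
  · intro h
    funext x
    exact h x.1 x.2

/-- the frozen `embedAt X k` is `emb X (br_loc X k)` -/
theorem br_embedAt_eq_emb (X : Finset Λ) (k : Matrix (Λ → Fin q) (Λ → Fin q) ℂ) :
    embedAt X k = emb (io := fun _ : Λ => Fin q) X (br_loc X k) := by
  ext σ τ
  simp only [embedAt, emb, br_loc, Matrix.of_apply, br_ext0_crOn, br_crOff_eq_iff]

theorem br_suppIn_embedAt (X : Finset Λ) (k : Matrix (Λ → Fin q) (Λ → Fin q) ℂ) :
    SuppIn (io := fun _ : Λ => Fin q) X (embedAt X k) :=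
  ⟨_, br_embedAt_eq_emb X k⟩

end Embed

end Claimed.Agent.R296
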