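import Mathlib
import Claimed.Agent.R296.Defs

/-!
# Row 296, ENT-BASE 1: the von Neumann entropy `vnEnt` of a single matrix

Eigenvalue formula, invariances, diagonal / block diagonal / Kronecker formulas, bounds.
-/

set_option autoImplicit false
set_option linter.unusedSectionVars false
set_option linter.unusedSimpArgs false

namespace Claimed.Agent.R296

open Matrix Polynomial
open scoped ComplexOrder Kronecker

section Basic

variable {m n k : Type} [Fintype m] [DecidableEq m] [Fintype n] [DecidableEq n]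
  [Fintype k] [DecidableEq k]

/-- the entropy only depends on the characteristic polynomial -/
theorem vnEnt_congr_charpoly {M : Matrix m m ℂ} {N : Matrix n n ℂ}
    (h : M.charpoly = N.charpoly) : vnEnt M = vnEnt N := by
  unfold vnEnt
  rw [h]

theorem vnEnt_eq_sum_eigenvalues {M : Matrix n n ℂ} (hM : M.IsHermitian) :
    vnEnt M = ∑ i, Real.negMulLog (hM.eigenvalues i) := by
  unfold vnEnt
  rw [hM.roots_charpoly_eq_eigenvalues, Multiset.map_map]
  simp

theorem vnEnt_reindex (e : m ≃ n) (M : Matrix m m ℂ) :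
    vnEnt (Matrix.reindex e e M) = vnEnt M :=
  vnEnt_congr_charpoly (Matrix.charpoly_reindex e M)

theorem vnEnt_submatrix_equiv (e : n ≃ m) (M : Matrix m m ℂ) :
    vnEnt (M.submatrix e e) = vnEnt M := by
  have := vnEnt_reindex e.symm M
  simpa [Matrix.reindex_apply] using this

theorem vnEnt_transpose (M : Matrix n n ℂ) : vnEnt Mᵀ = vnEnt M :=
  vnEnt_congr_charpoly (Matrix.charpoly_transpose M)

theorem vnEnt_of_charpoly_eq_prod {M : Matrix n n ℂ} {ι : Type} [Fintype ι] (d : ι → ℂ)
    (h : M.charpoly = ∏ i, (X - C (d i))) :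
    vnEnt M = ∑ i, Real.negMulLog (d i).re := by
  unfold vnEnt
  rw [h, Polynomial.roots_prod]
  · simp
  · simp [Finset.prod_ne_zero_iff, Polynomial.X_sub_C_ne_zero]

theorem vnEnt_diagonal (d : n → ℂ) :
    vnEnt (diagonal d) = ∑ i, Real.negMulLog (d i).re :=
  vnEnt_of_charpoly_eq_prod d (Matrix.charpoly_diagonal d)

theorem vnEnt_diagonal_real (d : n → ℝ) :
    vnEnt (diagonal fun i => (d i : ℂ)) = ∑ i, Real.negMulLog (d i) := by
  rw [vnEnt_diagonal]
  simp

/-- `S(AB) = S(BA)` for rectangular matrices (the extra roots are zeros) -/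
theorem vnEnt_mul_comm (A : Matrix m n ℂ) (B : Matrix n m ℂ) :
    vnEnt (A * B) = vnEnt (B * A) := by
  have h := Matrix.charpoly_mul_comm' A B
  have h1 : (A * B).charpoly ≠ 0 := (Matrix.charpoly_monic _).ne_zero
  have h2 : (B * A).charpoly ≠ 0 := (Matrix.charpoly_monic _).ne_zero
  have hX : ∀ j : ℕ, (X : ℂ[X]) ^ j ≠ 0 := fun j => pow_ne_zero _ X_ne_zero
  have h3 := congrArg Polynomial.roots h
  rw [Polynomial.roots_mul (mul_ne_zero (hX _) h1), Polynomial.roots_mul (mul_ne_zero (hX _) h2),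
    Polynomial.roots_pow, Polynomial.roots_pow, Polynomial.roots_X] at h3
  have h4 := congrArg (fun s : Multiset ℂ => (s.map fun z => Real.negMulLog z.re).sum) h3
  simp only [Multiset.map_add, Multiset.sum_add, Multiset.map_nsmul, Multiset.sum_nsmul,
    Multiset.map_singleton, Multiset.sum_singleton, Complex.zero_re, Real.negMulLog_zero,
    smul_zero, zero_add] at h4
  exact h4

theorem vnEnt_unitary_conj (U : Matrix n n ℂ) (hU : U * star U = 1) (M : Matrix n n ℂ) :
    vnEnt (U * M * star U) = vnEnt M := by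
  have hU' : star U * U = 1 := by
    exact mul_eq_one_comm.mp hU
  rw [vnEnt_mul_comm, ← mul_assoc, hU', one_mul]

theorem vnEnt_zero : vnEnt (0 : Matrix n n ℂ) = 0 := by
  have : (0 : Matrix n n ℂ) = diagonal fun _ => (0 : ℂ) := by simp
  rw [this, vnEnt_diagonal]
  simp

end Basic

section Spec

variable {m n k : Type} [Fintype m] [DecidableEq m] [Fintype n] [DecidableEq n]
  [Fintype k] [DecidableEq k]

/-- unitary diagonalisation in elementary form -/
theorem herm_diag {M : Matrix n n ℂ} (hM : M.IsHermitian) :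
    ∃ U : Matrix n n ℂ, U * star U = 1 ∧ star U * U = 1 ∧
      M = U * diagonal (fun i => (hM.eigenvalues i : ℂ)) * star U := by
  refine ⟨hM.eigenvectorUnitary, ?_, ?_, ?_⟩
  · exact Unitary.coe_mul_star_self _
  · exact Unitary.coe_star_mul_self _
  · have := hM.spectral_theorem
    rw [Unitary.conjStarAlgAut_apply] at this
    exact this

theorem vnEnt_of_diag {M U : Matrix n n ℂ} {d : n → ℝ} (hU : U * star U = 1)
    (hM : M = U * diagonal (fun i => (d i : ℂ)) * star U) :
    vnEnt M = ∑ i, Real.negMulLog (d i) := by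
  rw [hM, vnEnt_unitary_conj U hU, vnEnt_diagonal_real]

theorem trace_re_eq_sum_eigenvalues {M : Matrix n n ℂ} (hM : M.IsHermitian) :
    M.trace.re = ∑ i, hM.eigenvalues i := by
  rw [hM.trace_eq_sum_eigenvalues]
  simp

theorem vnEnt_eq_trace_cfc {M : Matrix n n ℂ} (hM : M.IsHermitian) :
    vnEnt M = (Matrix.trace (cfc Real.negMulLog M)).re := by
  rw [hM.cfc_eq, Matrix.IsHermitian.cfc, Unitary.conjStarAlgAut_apply, Matrix.trace_mul_comm,
    ← mul_assoc, Unitary.coe_star_mul_self, one_mul, Matrix.trace_diagonal,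
    vnEnt_eq_sum_eigenvalues hM]
  simp

theorem IsDensity.eigenvalues_nonneg {ρ : Matrix n n ℂ} (h : IsDensity ρ) (i : n) :
    0 ≤ h.1.1.eigenvalues i := h.1.eigenvalues_nonneg i

theorem IsDensity.sum_eigenvalues {ρ : Matrix n n ℂ} (h : IsDensity ρ) :
    ∑ i, h.1.1.eigenvalues i = 1 := by
  rw [← trace_re_eq_sum_eigenvalues, h.2]; simp

theorem IsDensity.eigenvalues_le_one {ρ : Matrix n n ℂ} (h : IsDensity ρ) (i : n) :
    h.1.1.eigenvalues i ≤ 1 := by
  rw [← h.sum_eigenvalues]
  exact Finset.single_le_sum (f := h.1.1.eigenvalues) (fun j _ => h.eigenvalues_nonneg j)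
    (Finset.mem_univ i)

theorem vnEnt_nonneg {ρ : Matrix n n ℂ} (h : IsDensity ρ) : 0 ≤ vnEnt ρ := by
  rw [vnEnt_eq_sum_eigenvalues h.1.1]
  exact Finset.sum_nonneg fun i _ =>
    Real.negMulLog_nonneg (h.eigenvalues_nonneg i) (h.eigenvalues_le_one i)

/-- Shannon entropy bound -/
theorem sum_negMulLog_le_log_card {ι : Type} [Fintype ι] (p : ι → ℝ) (hp : ∀ i, 0 ≤ p i)
    (hsum : ∑ i, p i = 1) : ∑ i, Real.negMulLog (p i) ≤ Real.log (Fintype.card ι) := by
  classical
  have hne : Nonempty ι := by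
    by_contra hn
    rw [not_nonempty_iff] at hn
    simp at hsum
  have hc : (0 : ℝ) < Fintype.card ι := by exact_mod_cast Fintype.card_pos
  have hJ := Real.concaveOn_negMulLog.le_map_sum (t := Finset.univ)
    (w := fun _ : ι => (Fintype.card ι : ℝ)⁻¹) (p := p)
    (fun i _ => by positivity) (by simp [Finset.card_univ, hc.ne']) (fun i _ => hp i)
  simp only [smul_eq_mul, ← Finset.mul_sum, hsum, mul_one] at hJ
  have h2 : Real.negMulLog ((Fintype.card ι : ℝ)⁻¹) = (Fintype.card ι : ℝ)⁻¹ * Real.log (Fintype.card ι) := by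
    simp [Real.negMulLog, Real.log_inv]
  rw [h2] at hJ
  exact le_of_mul_le_mul_left hJ (by positivity)

theorem vnEnt_le_log_card {ρ : Matrix n n ℂ} (h : IsDensity ρ) :
    vnEnt ρ ≤ Real.log (Fintype.card n) := by
  rw [vnEnt_eq_sum_eigenvalues h.1.1]
  exact sum_negMulLog_le_log_card _ h.eigenvalues_nonneg h.sum_eigenvalues

/-- scaling -/
theorem vnEnt_smul {M : Matrix n n ℂ} (hM : M.IsHermitian) (c : ℝ) :
    vnEnt (c • M) = c * vnEnt M + Real.negMulLog c * M.trace.re := by
  obtain ⟨U, hU, -, hd⟩ := herm_diag hM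
  have h1 : c • M = U * diagonal (fun i => ((c * hM.eigenvalues i : ℝ) : ℂ)) * star U := by
    conv_lhs => rw [hd]
    have : diagonal (fun i => ((c * hM.eigenvalues i : ℝ) : ℂ))
        = c • diagonal (fun i => (hM.eigenvalues i : ℂ)) := by
      ext i j
      by_cases hij : i = j <;> simp [hij, Matrix.diagonal_apply]
    rw [this]
    simp
  rw [vnEnt_of_diag hU h1, vnEnt_eq_sum_eigenvalues hM, trace_re_eq_sum_eigenvalues hM]
  simp only [Real.negMulLog_mul, Finset.sum_add_distrib, ← Finset.mul_sum, ← Finset.sum_mul]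
  ring

/-- entropy of a Kronecker product (Hermitian factors) -/
theorem vnEnt_kronecker' {A : Matrix m m ℂ} {B : Matrix n n ℂ} (hA : A.IsHermitian)
    (hB : B.IsHermitian) :
    vnEnt (A ⊗ₖ B) = B.trace.re * vnEnt A + A.trace.re * vnEnt B := by
  obtain ⟨U, hU, -, hdA⟩ := herm_diag hA
  obtain ⟨V, hV, -, hdB⟩ := herm_diag hB
  have h1 : A ⊗ₖ B = (U ⊗ₖ V) *
      diagonal (fun p : m × n => ((hA.eigenvalues p.1 * hB.eigenvalues p.2 : ℝ) : ℂ)) *
      star (U ⊗ₖ V) := by
    conv_lhs => rw [hdA, hdB]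
    rw [Matrix.mul_kronecker_mul, Matrix.mul_kronecker_mul, Matrix.diagonal_kronecker_diagonal,
      star_eq_conjTranspose, star_eq_conjTranspose, star_eq_conjTranspose,
      Matrix.conjTranspose_kronecker]
    simp
  have hUV : (U ⊗ₖ V) * star (U ⊗ₖ V) = 1 := by
    rw [star_eq_conjTranspose, Matrix.conjTranspose_kronecker, ← Matrix.mul_kronecker_mul,
      ← star_eq_conjTranspose, ← star_eq_conjTranspose, hU, hV, Matrix.one_kronecker_one]
  rw [vnEnt_of_diag hUV h1, vnEnt_eq_sum_eigenvalues hA, vnEnt_eq_sum_eigenvalues hB,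
    trace_re_eq_sum_eigenvalues hA, trace_re_eq_sum_eigenvalues hB, Fintype.sum_prod_type]
  simp only [Real.negMulLog_mul, Finset.sum_add_distrib, ← Finset.mul_sum, ← Finset.sum_mul]

theorem vnEnt_kronecker {A : Matrix m m ℂ} {B : Matrix n n ℂ} (hA : IsDensity A)
    (hB : IsDensity B) : vnEnt (A ⊗ₖ B) = vnEnt A + vnEnt B := by
  rw [vnEnt_kronecker' hA.1.1 hB.1.1, hA.2, hB.2]
  simp

/-- characteristic polynomial of a block diagonal matrix -/
theorem charpoly_blockDiagonal_eq (A : k → Matrix n n ℂ) :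
    (blockDiagonal A).charpoly = ∏ j, (A j).charpoly := by
  unfold Matrix.charpoly
  rw [← Matrix.det_blockDiagonal]
  congr 1
  ext ⟨i, x⟩ ⟨j, y⟩
  by_cases hxy : x = y
  · subst hxy
    by_cases hij : i = j
    · subst hij
      simp [Matrix.charmatrix_apply, Matrix.blockDiagonal_apply]
    · simp [Matrix.charmatrix_apply, Matrix.blockDiagonal_apply, hij]
  · simp [Matrix.charmatrix_apply, Matrix.blockDiagonal_apply, hxy]

theorem vnEnt_blockDiagonal (A : k → Matrix n n ℂ) :
    vnEnt (blockDiagonal A) = ∑ j, vnEnt (A j) := by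
  unfold vnEnt
  rw [charpoly_blockDiagonal_eq, Polynomial.roots_prod]
  · simp [Multiset.map_bind, Multiset.sum_bind]
  · exact Finset.prod_ne_zero_iff.mpr fun j _ => (Matrix.charpoly_monic _).ne_zero

end Spec

end Claimed.Agent.R296
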