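import Claimed.Agent.R296.Defs

/-!
# Row 296: partial traces on abstract product index types (definitions only)

Shared by ENT-REL (helper19) and ENT-BASE (helper46).
`ptrFst M` is the marginal living on the FIRST factor (the second one is traced out),
`ptrSnd M` is the marginal living on the SECOND factor, and for a triple product
`a × b × c = a × (b × c)` the marginal on the first two factors is `ptr12 M`.
-/

set_option autoImplicit false

namespace Claimed.Agent.R296

open Matrix

/-- marginal on the first factor: `(ptrFst M) i i' = ∑ j, M (i,j) (i',j)` -/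
def ptrFst {a b : Type} [Fintype b] (M : Matrix (a × b) (a × b) ℂ) : Matrix a a ℂ :=
  Matrix.of fun i i' => ∑ j, M (i, j) (i', j)

/-- marginal on the second factor: `(ptrSnd M) j j' = ∑ i, M (i,j) (i,j')` -/
def ptrSnd {a b : Type} [Fintype a] (M : Matrix (a × b) (a × b) ℂ) : Matrix b b ℂ :=
  Matrix.of fun j j' => ∑ i, M (i, j) (i, j')

/-- marginal of a triple product on the first two factors -/
def ptr12 {a b c : Type} [Fintype c] (M : Matrix (a × b × c) (a × b × c) ℂ) :
    Matrix (a × b) (a × b) ℂ :=
  Matrix.of fun x y => ∑ k, M (x.1, x.2, k) (y.1, y.2, k)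

theorem ptrFst_apply {a b : Type} [Fintype b] (M : Matrix (a × b) (a × b) ℂ) (i i' : a) :
    ptrFst M i i' = ∑ j, M (i, j) (i', j) := rfl

theorem ptrSnd_apply {a b : Type} [Fintype a] (M : Matrix (a × b) (a × b) ℂ) (j j' : b) :
    ptrSnd M j j' = ∑ i, M (i, j) (i, j') := rfl

theorem ptr12_apply {a b c : Type} [Fintype c] (M : Matrix (a × b × c) (a × b × c) ℂ)
    (x y : a × b) : ptr12 M x y = ∑ k, M (x.1, x.2, k) (y.1, y.2, k) := rfl

end Claimed.Agent.R296
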