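import Mathlib
import Claimed.Agent.R296.Defs
import Claimed.Agent.R296.EntProd

/-!
# Row 296, ENT-BASE 2: partial traces on abstract product index types

Calculus for `ptrFst`, `ptrSnd`, `ptr12` of `EntProd.lean` (helper19) and `ptr13` (keeps the
first and third factor of `a × b × c`).
-/

set_option autoImplicit false
set_option linter.unusedSectionVars false
set_option linter.unusedSimpArgs false

namespace Claimed.Agent.R296

open Matrix
open scoped ComplexOrder Kronecker

section Defs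

variable {a b c : Type} [Fintype a] [Fintype b] [Fintype c]

/-- partial trace over the middle factor -/
def ptr13 (M : Matrix (a × b × c) (a × b × c) ℂ) : Matrix (a × c) (a × c) ℂ :=
  Matrix.of fun p q => ∑ k, M (p.1, k, p.2) (q.1, k, q.2)

theorem ptr13_apply (M : Matrix (a × b × c) (a × b × c) ℂ) (p q : a × c) :
    ptr13 M p q = ∑ k, M (p.1, k, p.2) (q.1, k, q.2) := rfl

/-! ### linearity -/

theorem ptrFst_add (M N : Matrix (a × b) (a × b) ℂ) : ptrFst (M + N) = ptrFst M + ptrFst N := by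
  ext i j; simp [ptrFst_apply, Finset.sum_add_distrib]

theorem ptrSnd_add (M N : Matrix (a × b) (a × b) ℂ) : ptrSnd (M + N) = ptrSnd M + ptrSnd N := by
  ext i j; simp [ptrSnd_apply, Finset.sum_add_distrib]

theorem ptrFst_sub (M N : Matrix (a × b) (a × b) ℂ) : ptrFst (M - N) = ptrFst M - ptrFst N := by
  ext i j; simp [ptrFst_apply, Finset.sum_sub_distrib]

theorem ptrSnd_sub (M N : Matrix (a × b) (a × b) ℂ) : ptrSnd (M - N) = ptrSnd M - ptrSnd N := by
  ext i j; simp [ptrSnd_apply, Finset.sum_sub_distrib]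

theorem ptrFst_smul (z : ℂ) (M : Matrix (a × b) (a × b) ℂ) : ptrFst (z • M) = z • ptrFst M := by
  ext i j; simp [ptrFst_apply, Finset.mul_sum]

theorem ptrSnd_smul (z : ℂ) (M : Matrix (a × b) (a × b) ℂ) : ptrSnd (z • M) = z • ptrSnd M := by
  ext i j; simp [ptrSnd_apply, Finset.mul_sum]

theorem ptrFst_rsmul (z : ℝ) (M : Matrix (a × b) (a × b) ℂ) : ptrFst (z • M) = z • ptrFst M := by
  ext i j; simp [ptrFst_apply, Finset.mul_sum]

theorem ptrSnd_rsmul (z : ℝ) (M : Matrix (a × b) (a × b) ℂ) : ptrSnd (z • M) = z • ptrSnd M := by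
  ext i j; simp [ptrSnd_apply, Finset.mul_sum]

theorem ptrFst_zero : ptrFst (0 : Matrix (a × b) (a × b) ℂ) = 0 := by
  ext i j; simp [ptrFst_apply]

theorem ptrSnd_zero : ptrSnd (0 : Matrix (a × b) (a × b) ℂ) = 0 := by
  ext i j; simp [ptrSnd_apply]

theorem ptrFst_sum {ι : Type} (t : Finset ι) (M : ι → Matrix (a × b) (a × b) ℂ) :
    ptrFst (∑ j ∈ t, M j) = ∑ j ∈ t, ptrFst (M j) := by
  classical
  induction t using Finset.induction_on with
  | empty => simp [ptrFst_zero]
  | insert j t hj ih => rw [Finset.sum_insert hj, Finset.sum_insert hj, ptrFst_add, ih]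

theorem ptrSnd_sum {ι : Type} (t : Finset ι) (M : ι → Matrix (a × b) (a × b) ℂ) :
    ptrSnd (∑ j ∈ t, M j) = ∑ j ∈ t, ptrSnd (M j) := by
  classical
  induction t using Finset.induction_on with
  | empty => simp [ptrSnd_zero]
  | insert j t hj ih => rw [Finset.sum_insert hj, Finset.sum_insert hj, ptrSnd_add, ih]

/-! ### swap, trace, adjoint -/

/-- `ptrSnd` is `ptrFst` after swapping the factors -/
theorem ptrSnd_eq_ptrFst_swap (M : Matrix (a × b) (a × b) ℂ) :
    ptrSnd M = ptrFst (M.submatrix (Equiv.prodComm b a) (Equiv.prodComm b a)) := by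
  ext k l; simp [ptrFst_apply, ptrSnd_apply]

theorem ptrFst_eq_ptrSnd_swap (M : Matrix (a × b) (a × b) ℂ) :
    ptrFst M = ptrSnd (M.submatrix (Equiv.prodComm b a) (Equiv.prodComm b a)) := by
  ext k l; simp [ptrFst_apply, ptrSnd_apply]

theorem trace_ptrFst (M : Matrix (a × b) (a × b) ℂ) : (ptrFst M).trace = M.trace := by
  simp [Matrix.trace, ptrFst_apply, Fintype.sum_prod_type]

theorem trace_ptrSnd (M : Matrix (a × b) (a × b) ℂ) : (ptrSnd M).trace = M.trace := by
  simp only [Matrix.trace, ptrSnd_apply, Fintype.sum_prod_type, Matrix.diag_apply]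
  exact Finset.sum_comm

theorem ptrFst_conjTranspose (M : Matrix (a × b) (a × b) ℂ) : ptrFst Mᴴ = (ptrFst M)ᴴ := by
  ext i j; simp [ptrFst_apply, Matrix.conjTranspose_apply]

theorem ptrSnd_conjTranspose (M : Matrix (a × b) (a × b) ℂ) : ptrSnd Mᴴ = (ptrSnd M)ᴴ := by
  ext i j; simp [ptrSnd_apply, Matrix.conjTranspose_apply]

theorem ptrFst_isHermitian {M : Matrix (a × b) (a × b) ℂ} (h : M.IsHermitian) :
    (ptrFst M).IsHermitian := by
  unfold Matrix.IsHermitian at *
  rw [← ptrFst_conjTranspose, h]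

theorem ptrSnd_isHermitian {M : Matrix (a × b) (a × b) ℂ} (h : M.IsHermitian) :
    (ptrSnd M).IsHermitian := by
  unfold Matrix.IsHermitian at *
  rw [← ptrSnd_conjTranspose, h]

end Defs

section Kron

variable {a b c : Type} [Fintype a] [Fintype b] [Fintype c]
  [DecidableEq a] [DecidableEq b] [DecidableEq c]

theorem ptrFst_kronecker (A : Matrix a a ℂ) (B : Matrix b b ℂ) :
    ptrFst (A ⊗ₖ B) = B.trace • A := by
  ext i j
  simp [ptrFst_apply, Matrix.kroneckerMap_apply, Matrix.trace, ← Finset.mul_sum, mul_comm]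

theorem ptrSnd_kronecker (A : Matrix a a ℂ) (B : Matrix b b ℂ) :
    ptrSnd (A ⊗ₖ B) = A.trace • B := by
  ext i j
  simp [ptrSnd_apply, Matrix.kroneckerMap_apply, Matrix.trace, ← Finset.sum_mul]

/-- `Tr_b ((K ⊗ 1) M) = K Tr_b M` -/
theorem ptrFst_kron_one_mul (K : Matrix a a ℂ) (M : Matrix (a × b) (a × b) ℂ) :
    ptrFst ((K ⊗ₖ (1 : Matrix b b ℂ)) * M) = K * ptrFst M := by
  ext i j
  simp only [ptrFst_apply, Matrix.mul_apply, Matrix.kroneckerMap_apply, Fintype.sum_prod_type,
    Matrix.one_apply, mul_ite, mul_one, mul_zero, ite_mul, zero_mul, Finset.sum_ite_eq,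
    Finset.mem_univ, if_true, Finset.mul_sum]
  exact Finset.sum_comm

theorem ptrFst_mul_kron_one (K : Matrix a a ℂ) (M : Matrix (a × b) (a × b) ℂ) :
    ptrFst (M * (K ⊗ₖ (1 : Matrix b b ℂ))) = ptrFst M * K := by
  ext i j
  simp only [ptrFst_apply, Matrix.mul_apply, Matrix.kroneckerMap_apply, Fintype.sum_prod_type,
    Matrix.one_apply, mul_ite, mul_one, mul_zero, Finset.sum_ite_eq',
    Finset.mem_univ, if_true, Finset.sum_mul]
  exact Finset.sum_comm

theorem ptrSnd_one_kron_mul (K : Matrix b b ℂ) (M : Matrix (a × b) (a × b) ℂ) :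
    ptrSnd (((1 : Matrix a a ℂ) ⊗ₖ K) * M) = K * ptrSnd M := by
  ext k l
  simp only [ptrSnd_apply, Matrix.mul_apply, Matrix.kroneckerMap_apply, Fintype.sum_prod_type,
    Matrix.one_apply, ite_mul, one_mul, zero_mul, Finset.mul_sum]
  rw [Finset.sum_comm (s := (Finset.univ : Finset b))]
  refine Finset.sum_congr rfl fun i _ => ?_
  rw [Finset.sum_comm]
  simp

theorem ptrSnd_mul_one_kron (K : Matrix b b ℂ) (M : Matrix (a × b) (a × b) ℂ) :
    ptrSnd (M * ((1 : Matrix a a ℂ) ⊗ₖ K)) = ptrSnd M * K := by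
  ext k l
  simp only [ptrSnd_apply, Matrix.mul_apply, Matrix.kroneckerMap_apply, Fintype.sum_prod_type,
    Matrix.one_apply, ite_mul, one_mul, zero_mul, mul_ite, mul_zero, Finset.sum_mul]
  rw [Finset.sum_comm (s := (Finset.univ : Finset b))]
  refine Finset.sum_congr rfl fun i _ => ?_
  rw [Finset.sum_comm]
  simp

/-- adjointness of `ptrFst` and `K ↦ K ⊗ 1` for the trace pairing -/
theorem ptrFst_trace_mul (M : Matrix (a × b) (a × b) ℂ) (K : Matrix a a ℂ) :
    (ptrFst M * K).trace = (M * (K ⊗ₖ (1 : Matrix b b ℂ))).trace := by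
  rw [← ptrFst_mul_kron_one, trace_ptrFst]

theorem ptrSnd_trace_mul (M : Matrix (a × b) (a × b) ℂ) (K : Matrix b b ℂ) :
    (ptrSnd M * K).trace = (M * ((1 : Matrix a a ℂ) ⊗ₖ K)).trace := by
  rw [← ptrSnd_mul_one_kron, trace_ptrSnd]

end Kron

section Pos

variable {a b c : Type} [Fintype a] [Fintype b] [Fintype c]

theorem ptrFst_eq_sum_submatrix (M : Matrix (a × b) (a × b) ℂ) :
    ptrFst M = ∑ k, M.submatrix (fun i => (i, k)) (fun i => (i, k)) := by
  ext i j; simp [ptrFst_apply, Matrix.sum_apply]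

theorem ptrSnd_eq_sum_submatrix (M : Matrix (a × b) (a × b) ℂ) :
    ptrSnd M = ∑ i, M.submatrix (fun k => (i, k)) (fun k => (i, k)) := by
  ext i j; simp [ptrSnd_apply, Matrix.sum_apply]

theorem ptr12_eq_sum_submatrix (M : Matrix (a × b × c) (a × b × c) ℂ) :
    ptr12 M = ∑ k, M.submatrix (fun p : a × b => (p.1, p.2, k)) (fun p => (p.1, p.2, k)) := by
  ext i j; simp [ptr12_apply, Matrix.sum_apply]

theorem ptr13_eq_sum_submatrix (M : Matrix (a × b × c) (a × b × c) ℂ) :
    ptr13 M = ∑ k, M.submatrix (fun p : a × c => (p.1, k, p.2)) (fun p => (p.1, k, p.2)) := by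
  ext i j; simp [ptr13_apply, Matrix.sum_apply]

theorem ptrFst_posSemidef {M : Matrix (a × b) (a × b) ℂ} (h : M.PosSemidef) :
    (ptrFst M).PosSemidef := by
  rw [ptrFst_eq_sum_submatrix]
  exact Matrix.posSemidef_sum _ fun k _ => h.submatrix _

theorem ptrSnd_posSemidef {M : Matrix (a × b) (a × b) ℂ} (h : M.PosSemidef) :
    (ptrSnd M).PosSemidef := by
  rw [ptrSnd_eq_sum_submatrix]
  exact Matrix.posSemidef_sum _ fun k _ => h.submatrix _

theorem ptr12_posSemidef {M : Matrix (a × b × c) (a × b × c) ℂ} (h : M.PosSemidef) :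
    (ptr12 M).PosSemidef := by
  rw [ptr12_eq_sum_submatrix]
  exact Matrix.posSemidef_sum _ fun k _ => h.submatrix _

theorem ptr13_posSemidef {M : Matrix (a × b × c) (a × b × c) ℂ} (h : M.PosSemidef) :
    (ptr13 M).PosSemidef := by
  rw [ptr13_eq_sum_submatrix]
  exact Matrix.posSemidef_sum _ fun k _ => h.submatrix _

theorem trace_ptr12 (M : Matrix (a × b × c) (a × b × c) ℂ) : (ptr12 M).trace = M.trace := by
  simp [Matrix.trace, ptr12_apply, Fintype.sum_prod_type]

theorem trace_ptr13 (M : Matrix (a × b × c) (a × b × c) ℂ) : (ptr13 M).trace = M.trace := by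
  simp only [Matrix.trace, ptr13_apply, Fintype.sum_prod_type, Matrix.diag_apply]
  refine Finset.sum_congr rfl fun i _ => ?_
  exact Finset.sum_comm

theorem ptrFst_isDensity {M : Matrix (a × b) (a × b) ℂ} (h : IsDensity M) : IsDensity (ptrFst M) :=
  ⟨ptrFst_posSemidef h.1, by rw [trace_ptrFst, h.2]⟩

theorem ptrSnd_isDensity {M : Matrix (a × b) (a × b) ℂ} (h : IsDensity M) : IsDensity (ptrSnd M) :=
  ⟨ptrSnd_posSemidef h.1, by rw [trace_ptrSnd, h.2]⟩

theorem ptr12_isDensity {M : Matrix (a × b × c) (a × b × c) ℂ} (h : IsDensity M) :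
    IsDensity (ptr12 M) :=
  ⟨ptr12_posSemidef h.1, by rw [trace_ptr12, h.2]⟩

theorem ptr13_isDensity {M : Matrix (a × b × c) (a × b × c) ℂ} (h : IsDensity M) :
    IsDensity (ptr13 M) :=
  ⟨ptr13_posSemidef h.1, by rw [trace_ptr13, h.2]⟩

/-! ### compatibilities between the partial traces of a triple product -/

theorem ptrFst_ptr12 (M : Matrix (a × b × c) (a × b × c) ℂ) : ptrFst (ptr12 M) = ptrFst M := by
  ext i j; simp [ptrFst_apply, ptr12_apply, Fintype.sum_prod_type]

theorem ptrSnd_ptr12 (M : Matrix (a × b × c) (a × b × c) ℂ) : ptrSnd (ptr12 M) = ptrFst (ptrSnd M) := by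
  ext i j; simp only [ptrFst_apply, ptrSnd_apply, ptr12_apply]
  exact Finset.sum_comm

theorem ptrFst_ptr13 (M : Matrix (a × b × c) (a × b × c) ℂ) : ptrFst (ptr13 M) = ptrFst M := by
  ext i j; simp only [ptrFst_apply, ptr13_apply, Fintype.sum_prod_type]
  exact Finset.sum_comm

theorem ptrSnd_ptr13 (M : Matrix (a × b × c) (a × b × c) ℂ) : ptrSnd (ptr13 M) = ptrSnd (ptrSnd M) := by
  ext i j; simp only [ptrSnd_apply, ptr13_apply]
  exact Finset.sum_comm

/-- `ptr12` is `ptrFst` after re-association -/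
theorem ptr12_eq_ptrFst_assoc (M : Matrix (a × b × c) (a × b × c) ℂ) :
    ptr12 M = ptrFst (M.submatrix (Equiv.prodAssoc a b c) (Equiv.prodAssoc a b c)) := by
  ext p q; simp [ptrFst_apply, ptr12_apply]

end Pos

section Density

variable {n m : Type} [Fintype n] [Fintype m]

theorem IsDensity.isHermitian {ρ : Matrix n n ℂ} (h : IsDensity ρ) : ρ.IsHermitian := h.1.1

theorem IsDensity.submatrix_equiv {ρ : Matrix n n ℂ} (h : IsDensity ρ) (e : m ≃ n) :
    IsDensity (ρ.submatrix e e) := by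
  refine ⟨h.1.submatrix _, ?_⟩
  rw [← h.2]
  simp only [Matrix.trace, Matrix.diag_apply, Matrix.submatrix_apply]
  exact e.sum_comp fun i => ρ i i

theorem IsDensity.nonempty {ρ : Matrix n n ℂ} (h : IsDensity ρ) : Nonempty n := by
  by_contra hn
  rw [not_nonempty_iff] at hn
  have := h.2
  simp [Matrix.trace] at this

/-- convex combinations of density matrices -/
theorem IsDensity.convex_sum {ι : Type} [Fintype ι] {p : ι → ℝ} {τ : ι → Matrix n n ℂ}
    (hp : ∀ j, 0 ≤ p j) (hsum : ∑ j, p j = 1) (hτ : ∀ j, IsDensity (τ j)) :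
    IsDensity (∑ j, p j • τ j) := by
  refine ⟨Matrix.posSemidef_sum _ fun j _ => (hτ j).1.smul (hp j), ?_⟩
  rw [Matrix.trace_sum]
  simp only [Matrix.trace_smul, (hτ _).2]
  have : (∑ j, (p j : ℂ)) = 1 := by exact_mod_cast hsum
  simpa [Complex.real_smul] using this

end Density

end Claimed.Agent.R296
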