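import Claimed.Agent.R296.EntProd
import Claimed.Agent.R296.MatFun

/-!
# Row 296, ENT-REL file 1: partial trace / embedding along a splitting `e : n ≃ m × r`

`ptrE e M` is the partial trace of `M` onto the factor `m`, `embE e Y` is `Y ⊗ 1`.
All concrete partial traces of the row are instances BY `rfl`:
`ptrFst`, `ptrSnd`, `ptr12` (product index types) and `ptr A`, `emb A` (sites).
Owner: helper19.
-/

set_option autoImplicit false
set_option linter.unusedSectionVars false
set_option linter.unusedDecidableInType false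
set_option linter.unusedFintypeInType false

namespace Claimed.Agent.R296

open Matrix
open scoped ComplexOrder

section PtrE

variable {n m r : Type} [Fintype n] [DecidableEq n] [Fintype m] [DecidableEq m]
  [Fintype r] [DecidableEq r]

/-- partial trace onto the first factor of the splitting `e` -/
def ptrE (e : n ≃ m × r) (M : Matrix n n ℂ) : Matrix m m ℂ :=
  Matrix.of fun x x' => ∑ k, M (e.symm (x, k)) (e.symm (x', k))

/-- `Y ⊗ 1` with respect to the splitting `e` -/
def embE (e : n ≃ m × r) (Y : Matrix m m ℂ) : Matrix n n ℂ :=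
  Matrix.of fun u u' => if (e u).2 = (e u').2 then Y (e u).1 (e u').1 else 0

theorem ptrE_apply (e : n ≃ m × r) (M : Matrix n n ℂ) (x x' : m) :
    ptrE e M x x' = ∑ k, M (e.symm (x, k)) (e.symm (x', k)) := rfl

theorem embE_apply (e : n ≃ m × r) (Y : Matrix m m ℂ) (u u' : n) :
    embE e Y u u' = if (e u).2 = (e u').2 then Y (e u).1 (e u').1 else 0 := rfl

/-! ### linearity -/

theorem ptrE_add (e : n ≃ m × r) (M N : Matrix n n ℂ) : ptrE e (M + N) = ptrE e M + ptrE e N := by
  ext x x'; simp [ptrE_apply, Finset.sum_add_distrib]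

theorem ptrE_sub (e : n ≃ m × r) (M N : Matrix n n ℂ) : ptrE e (M - N) = ptrE e M - ptrE e N := by
  ext x x'; simp [ptrE_apply, Finset.sum_sub_distrib]

theorem ptrE_smul (e : n ≃ m × r) (c : ℂ) (M : Matrix n n ℂ) : ptrE e (c • M) = c • ptrE e M := by
  ext x x'; simp [ptrE_apply, Finset.mul_sum]

theorem ptrE_zero (e : n ≃ m × r) : ptrE e (0 : Matrix n n ℂ) = 0 := by
  ext x x'; simp [ptrE_apply]

theorem ptrE_sum {ι : Type*} (e : n ≃ m × r) (s : Finset ι) (M : ι → Matrix n n ℂ) :
    ptrE e (∑ i ∈ s, M i) = ∑ i ∈ s, ptrE e (M i) := by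
  classical
  induction s using Finset.induction_on with
  | empty => simp [ptrE_zero]
  | insert a s ha ih => simp only [Finset.sum_insert ha, ptrE_add, ih]

theorem embE_add (e : n ≃ m × r) (Y Z : Matrix m m ℂ) : embE e (Y + Z) = embE e Y + embE e Z := by
  ext u u'; by_cases h : (e u).2 = (e u').2 <;> simp [embE_apply, h]

theorem embE_sub (e : n ≃ m × r) (Y Z : Matrix m m ℂ) : embE e (Y - Z) = embE e Y - embE e Z := by
  ext u u'; by_cases h : (e u).2 = (e u').2 <;> simp [embE_apply, h]

theorem embE_smul (e : n ≃ m × r) (c : ℂ) (Y : Matrix m m ℂ) : embE e (c • Y) = c • embE e Y := by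
  ext u u'; by_cases h : (e u).2 = (e u').2 <;> simp [embE_apply, h]

theorem embE_zero (e : n ≃ m × r) : embE e (0 : Matrix m m ℂ) = 0 := by
  ext u u'; simp [embE_apply]

/-! ### `embE` is a unital star homomorphism -/

theorem embE_one (e : n ≃ m × r) : embE e (1 : Matrix m m ℂ) = 1 := by
  ext u u'
  by_cases h : u = u'
  · subst h; simp [embE_apply]
  · have : ¬ ((e u).2 = (e u').2 ∧ (e u).1 = (e u').1) := by
      rintro ⟨h2, h1⟩
      exact h (e.injective (Prod.ext h1 h2))
    rw [embE_apply, Matrix.one_apply_ne h]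
    by_cases h2 : (e u).2 = (e u').2
    · have h1 : (e u).1 ≠ (e u').1 := fun h1 => this ⟨h2, h1⟩
      simp [h2, Matrix.one_apply_ne h1]
    · simp [h2]

theorem embE_mul (e : n ≃ m × r) (Y Z : Matrix m m ℂ) : embE e (Y * Z) = embE e Y * embE e Z := by
  ext u u'
  rw [Matrix.mul_apply, ← e.symm.sum_comp, Fintype.sum_prod_type]
  simp only [embE_apply, Equiv.apply_symm_apply]
  by_cases h : (e u).2 = (e u').2
  · rw [if_pos h, Matrix.mul_apply]
    refine Finset.sum_congr rfl fun x _ => ?_
    rw [Finset.sum_eq_single (e u).2]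
    · simp [h]
    · intro k _ hk
      simp [Ne.symm hk]
    · simp
  · rw [if_neg h]
    symm
    refine Finset.sum_eq_zero fun x _ => Finset.sum_eq_zero fun k _ => ?_
    by_cases h1 : (e u).2 = k
    · subst h1; simp [h]
    · simp [h1]

theorem embE_conjTranspose (e : n ≃ m × r) (Y : Matrix m m ℂ) : embE e Yᴴ = (embE e Y)ᴴ := by
  ext u u'
  rw [conjTranspose_apply, embE_apply, embE_apply]
  by_cases h : (e u).2 = (e u').2
  · simp [h]
  · simp [h, Ne.symm h]

/-- `embE` as an algebra homomorphism -/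
def embEHom (e : n ≃ m × r) : Matrix m m ℂ →ₐ[ℂ] Matrix n n ℂ :=
  AlgHom.ofLinearMap
    { toFun := embE e
      map_add' := embE_add e
      map_smul' := fun c Y => by simpa using embE_smul e c Y }
    (embE_one e) (embE_mul e)

theorem embEHom_apply (e : n ≃ m × r) (Y : Matrix m m ℂ) : embEHom e Y = embE e Y := rfl

theorem embE_isHermitian (e : n ≃ m × r) {Y : Matrix m m ℂ} (hY : Y.IsHermitian) :
    (embE e Y).IsHermitian := by
  rw [IsHermitian, ← embE_conjTranspose, hY.eq]

/-- spectral functions commute with `embE` -/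
theorem mfun_embE (f : ℝ → ℂ) (e : n ≃ m × r) {Y : Matrix m m ℂ} (hY : Y.IsHermitian) :
    mfun f (embE e Y) = embE e (mfun f Y) :=
  mfun_algHom f (embEHom e) hY (embE_isHermitian e hY)

/-! ### trace and adjointness -/

theorem trace_ptrE (e : n ≃ m × r) (M : Matrix n n ℂ) : (ptrE e M).trace = M.trace := by
  simp only [Matrix.trace, Matrix.diag_apply, ptrE_apply]
  rw [← e.symm.sum_comp, Fintype.sum_prod_type]

/-- `tr (M (Y ⊗ 1)) = tr (M_m Y)` -/
theorem trace_mul_embE (e : n ≃ m × r) (M : Matrix n n ℂ) (Y : Matrix m m ℂ) :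
    (M * embE e Y).trace = (ptrE e M * Y).trace := by
  simp only [Matrix.trace, Matrix.diag_apply, Matrix.mul_apply, ptrE_apply, embE_apply]
  rw [← e.symm.sum_comp, Fintype.sum_prod_type]
  refine Finset.sum_congr rfl fun x _ => ?_
  have h1 : ∀ k : r, ∑ u : n, M (e.symm (x, k)) u *
      (if (e u).2 = (e (e.symm (x, k))).2 then Y (e u).1 (e (e.symm (x, k))).1 else 0)
      = ∑ x' : m, M (e.symm (x, k)) (e.symm (x', k)) * Y x' x := by
    intro k
    rw [← e.symm.sum_comp, Fintype.sum_prod_type]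
    refine Finset.sum_congr rfl fun x' _ => ?_
    simp only [Equiv.apply_symm_apply]
    rw [Finset.sum_eq_single k]
    · simp
    · intro k' _ hk'
      simp [hk']
    · simp
  simp only [h1]
  rw [Finset.sum_comm]
  refine Finset.sum_congr rfl fun x' _ => ?_
  rw [Finset.sum_mul]

theorem trace_embE_mul (e : n ≃ m × r) (M : Matrix n n ℂ) (Y : Matrix m m ℂ) :
    (embE e Y * M).trace = (Y * ptrE e M).trace := by
  rw [Matrix.trace_mul_comm, trace_mul_embE, Matrix.trace_mul_comm]

theorem ptrE_embE (e : n ≃ m × r) (Y : Matrix m m ℂ) :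
    ptrE e (embE e Y) = (Fintype.card r : ℂ) • Y := by
  ext x x'
  simp [ptrE_apply, embE_apply]

theorem ptrE_one (e : n ≃ m × r) : ptrE e (1 : Matrix n n ℂ) = (Fintype.card r : ℂ) • 1 := by
  rw [← embE_one e, ptrE_embE]

theorem trace_embE (e : n ≃ m × r) (Y : Matrix m m ℂ) :
    (embE e Y).trace = (Fintype.card r : ℂ) * Y.trace := by
  rw [← trace_ptrE e, ptrE_embE, Matrix.trace_smul, smul_eq_mul]

/-- bimodule property of the partial trace -/
theorem ptrE_mul_embE (e : n ≃ m × r) (M : Matrix n n ℂ) (Y : Matrix m m ℂ) :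
    ptrE e (M * embE e Y) = ptrE e M * Y := by
  ext x x'
  simp only [ptrE_apply, Matrix.mul_apply, embE_apply]
  have h1 : ∀ k : r, ∑ u : n, M (e.symm (x, k)) u *
      (if (e u).2 = (e (e.symm (x', k))).2 then Y (e u).1 (e (e.symm (x', k))).1 else 0)
      = ∑ y : m, M (e.symm (x, k)) (e.symm (y, k)) * Y y x' := by
    intro k
    rw [← e.symm.sum_comp, Fintype.sum_prod_type]
    refine Finset.sum_congr rfl fun y _ => ?_
    simp only [Equiv.apply_symm_apply]
    rw [Finset.sum_eq_single k]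
    · simp
    · intro k' _ hk'
      simp [hk']
    · simp
  simp only [h1]
  rw [Finset.sum_comm]
  refine Finset.sum_congr rfl fun y _ => ?_
  rw [Finset.sum_mul]

theorem ptrE_conjTranspose (e : n ≃ m × r) (M : Matrix n n ℂ) : ptrE e Mᴴ = (ptrE e M)ᴴ := by
  ext x x'
  simp [ptrE_apply, conjTranspose_apply]

theorem ptrE_embE_mul (e : n ≃ m × r) (M : Matrix n n ℂ) (Y : Matrix m m ℂ) :
    ptrE e (embE e Y * M) = Y * ptrE e M := by
  have h := ptrE_mul_embE e Mᴴ Yᴴ
  have h2 := congrArg conjTranspose h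
  rw [← ptrE_conjTranspose, conjTranspose_mul, ← embE_conjTranspose, conjTranspose_mul,
    ← ptrE_conjTranspose] at h2
  simpa using h2

theorem ptrE_isHermitian (e : n ≃ m × r) {M : Matrix n n ℂ} (hM : M.IsHermitian) :
    (ptrE e M).IsHermitian := by
  rw [IsHermitian, ← ptrE_conjTranspose, hM.eq]

/-! ### positivity -/

/-- the vector `v ⊗ δ_k` -/
def liftE (e : n ≃ m × r) (k : r) (v : m → ℂ) : n → ℂ :=
  fun u => if (e u).2 = k then v (e u).1 else 0

theorem quad_ptrE (e : n ≃ m × r) (M : Matrix n n ℂ) (v : m → ℂ) :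
    star v ⬝ᵥ (ptrE e M *ᵥ v) = ∑ k, star (liftE e k v) ⬝ᵥ (M *ᵥ liftE e k v) := by
  have h : ∀ k : r, star (liftE e k v) ⬝ᵥ (M *ᵥ liftE e k v)
      = ∑ x : m, ∑ x' : m, star (v x) * (M (e.symm (x, k)) (e.symm (x', k)) * v x') := by
    intro k
    simp only [dotProduct, mulVec, Pi.star_apply, liftE]
    rw [← e.symm.sum_comp, Fintype.sum_prod_type]
    refine Finset.sum_congr rfl fun x _ => ?_
    simp only [Equiv.apply_symm_apply]
    rw [Finset.sum_eq_single k]
    · rw [if_pos rfl, ← e.symm.sum_comp, Fintype.sum_prod_type, Finset.mul_sum]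
      refine Finset.sum_congr rfl fun x' _ => ?_
      simp only [Equiv.apply_symm_apply]
      rw [Finset.sum_eq_single k]
      · simp
      · intro k' _ hk'
        simp [hk']
      · simp
    · intro k' _ hk'
      simp [hk']
    · simp
  simp only [h]
  simp only [dotProduct, mulVec, Pi.star_apply, ptrE_apply]
  rw [Finset.sum_comm]
  refine Finset.sum_congr rfl fun x _ => ?_
  rw [Finset.mul_sum, Finset.sum_comm]
  refine Finset.sum_congr rfl fun x' _ => ?_
  rw [Finset.sum_mul, Finset.mul_sum]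

theorem ptrE_posSemidef (e : n ≃ m × r) {M : Matrix n n ℂ} (hM : M.PosSemidef) :
    (ptrE e M).PosSemidef := by
  refine PosSemidef.of_dotProduct_mulVec_nonneg (ptrE_isHermitian e hM.isHermitian) fun v => ?_
  rw [quad_ptrE]
  exact Finset.sum_nonneg fun k _ => hM.dotProduct_mulVec_nonneg _

theorem liftE_ne_zero (e : n ≃ m × r) (k : r) {v : m → ℂ} (hv : v ≠ 0) : liftE e k v ≠ 0 := by
  intro h
  apply hv
  funext x
  have := congrFun h (e.symm (x, k))
  simpa [liftE] using this

theorem ptrE_posDef [Nonempty r] (e : n ≃ m × r) {M : Matrix n n ℂ} (hM : M.PosDef) :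
    (ptrE e M).PosDef := by
  refine PosDef.of_dotProduct_mulVec_pos (ptrE_isHermitian e hM.isHermitian) fun v hv => ?_
  rw [quad_ptrE]
  exact Finset.sum_pos (fun k _ => hM.dotProduct_mulVec_pos (liftE_ne_zero e k hv))
    Finset.univ_nonempty

/-- a positive semidefinite matrix is `Bᴴ * B` (with `B` its Hermitian square root) -/
theorem exists_eq_conjTranspose_mul_self {Y : Matrix m m ℂ} (hY : Y.PosSemidef) :
    ∃ B : Matrix m m ℂ, Y = Bᴴ * B := by
  refine ⟨mfun (fun x => (Real.sqrt x : ℂ)) Y, ?_⟩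
  rw [(mfun_isHermitian Real.sqrt Y).eq, ← mfun_mul]
  conv_lhs => rw [← mfun_id hY.isHermitian]
  refine mfun_congr hY.isHermitian fun i => ?_
  rw [← Complex.ofReal_mul, Real.mul_self_sqrt (hY.eigenvalues_nonneg i)]

theorem embE_posSemidef (e : n ≃ m × r) {Y : Matrix m m ℂ} (hY : Y.PosSemidef) :
    (embE e Y).PosSemidef := by
  obtain ⟨B, rfl⟩ := exists_eq_conjTranspose_mul_self hY
  rw [embE_mul, embE_conjTranspose]
  exact posSemidef_conjTranspose_mul_self _

end PtrE

/-! ### the concrete partial traces are instances -/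

section Instances

variable {a b c : Type} [Fintype a] [Fintype b] [Fintype c]

theorem ptrFst_eq_ptrE (M : Matrix (a × b) (a × b) ℂ) : ptrFst M = ptrE (Equiv.refl _) M := rfl

theorem ptrSnd_eq_ptrE (M : Matrix (a × b) (a × b) ℂ) :
    ptrSnd M = ptrE (Equiv.prodComm a b) M := rfl

theorem ptr12_eq_ptrE (M : Matrix (a × b × c) (a × b × c) ℂ) :
    ptr12 M = ptrE (Equiv.prodAssoc a b c).symm M := rfl

variable {s : Type} [DecidableEq s] [Fintype s] {io : s → Type}
  [∀ x, Fintype (io x)] [∀ x, DecidableEq (io x)]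

theorem ptr_eq_ptrE (A : Finset s) (M : Matrix (Cfg io) (Cfg io) ℂ) :
    ptr A M = ptrE (cfgSplit A) M := rfl

theorem emb_eq_embE (A : Finset s) (K : Matrix (CfgOn io A) (CfgOn io A) ℂ) :
    emb A K = embE (cfgSplit A) K := rfl

end Instances

end Claimed.Agent.R296
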