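import Mathlib
import Claimed.Agent.R296.Defs
import Claimed.Agent.R296.EntBasic
import Claimed.Agent.R296.EntPtr

/-!
# Row 296, ENT-BASE 3: pure states, Schmidt symmetry, purification
-/

set_option autoImplicit false
set_option linter.unusedSectionVars false
set_option linter.unusedSimpArgs false

namespace Claimed.Agent.R296

open Matrix
open scoped ComplexOrder Kronecker MatrixOrder

section Pure

variable {n a b : Type} [Fintype n] [DecidableEq n] [Fintype a] [DecidableEq a]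
  [Fintype b] [DecidableEq b]

theorem pureOp_apply (Ω : n → ℂ) (i j : n) : pureOp Ω i j = Ω i * star (Ω j) := by
  simp [pureOp, Matrix.vecMulVec_apply]

theorem pureOp_posSemidef (Ω : n → ℂ) : (pureOp Ω).PosSemidef :=
  Matrix.posSemidef_vecMulVec_self_star Ω

theorem trace_pureOp (Ω : n → ℂ) : (pureOp Ω).trace = ∑ i, ((‖Ω i‖ ^ 2 : ℝ) : ℂ) := by
  simp only [Matrix.trace, Matrix.diag_apply, pureOp_apply]
  refine Finset.sum_congr rfl fun i _ => ?_
  rw [Complex.star_def, Complex.mul_conj, Complex.normSq_eq_norm_sq]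

theorem pureOp_isDensity {Ω : n → ℂ} (h : ∑ i, ‖Ω i‖ ^ 2 = 1) : IsDensity (pureOp Ω) := by
  refine ⟨pureOp_posSemidef Ω, ?_⟩
  rw [trace_pureOp]
  exact_mod_cast h

theorem pureOp_submatrix {m : Type} (Ω : n → ℂ) (e : m → n) :
    (pureOp Ω).submatrix e e = pureOp (Ω ∘ e) := by
  ext i j; simp [pureOp, Matrix.vecMulVec_apply]

/-- the entropy of `|Ω⟩⟨Ω|` -/
theorem vnEnt_pureOp' (Ω : n → ℂ) : vnEnt (pureOp Ω) = Real.negMulLog (∑ i, ‖Ω i‖ ^ 2) := by
  have h1 : pureOp Ω = (Matrix.replicateCol Unit Ω) * (Matrix.replicateCol Unit Ω)ᴴ := by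
    ext i j; simp [pureOp_apply, Matrix.mul_apply]
  have h2 : (Matrix.replicateCol Unit Ω)ᴴ * (Matrix.replicateCol Unit Ω)
      = diagonal fun _ : Unit => ((∑ i, ‖Ω i‖ ^ 2 : ℝ) : ℂ) := by
    ext i j
    simp only [Matrix.mul_apply, Matrix.conjTranspose_apply, Matrix.replicateCol_apply,
      Matrix.diagonal_apply, if_true, Complex.ofReal_sum]
    refine Finset.sum_congr rfl fun i _ => ?_
    rw [Complex.star_def, mul_comm, Complex.mul_conj, Complex.normSq_eq_norm_sq]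
  rw [h1, vnEnt_mul_comm, h2, vnEnt_diagonal_real]
  simp

theorem vnEnt_pureOp {Ω : n → ℂ} (h : ∑ i, ‖Ω i‖ ^ 2 = 1) : vnEnt (pureOp Ω) = 0 := by
  rw [vnEnt_pureOp', h, Real.negMulLog_one]

/-- the coefficient matrix of a bipartite vector -/
def coefMat (Ψ : a × b → ℂ) : Matrix a b ℂ := Matrix.of fun i k => Ψ (i, k)

theorem ptrFst_pureOp (Ψ : a × b → ℂ) : ptrFst (pureOp Ψ) = coefMat Ψ * (coefMat Ψ)ᴴ := by
  ext i j; simp [ptrFst_apply, pureOp_apply, coefMat, Matrix.mul_apply]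

theorem ptrSnd_pureOp (Ψ : a × b → ℂ) : ptrSnd (pureOp Ψ) = ((coefMat Ψ)ᴴ * coefMat Ψ)ᵀ := by
  ext i j; simp [ptrSnd_apply, pureOp_apply, coefMat, Matrix.mul_apply, mul_comm]

/-- **Schmidt symmetry**: the two marginals of a pure state have the same entropy
(no normalisation needed) -/
theorem vnEnt_ptrFst_pureOp_eq_ptrSnd (Ψ : a × b → ℂ) :
    vnEnt (ptrFst (pureOp Ψ)) = vnEnt (ptrSnd (pureOp Ψ)) := by
  rw [ptrFst_pureOp, ptrSnd_pureOp, vnEnt_transpose, vnEnt_mul_comm]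

/-- **purification** of a positive semidefinite matrix -/
theorem exists_purification {ρ : Matrix n n ℂ} (hρ : ρ.PosSemidef) :
    ∃ Ψ : n × n → ℂ, ptrFst (pureOp Ψ) = ρ := by
  obtain ⟨B, hB⟩ := CStarAlgebra.nonneg_iff_eq_star_mul_self.mp hρ.nonneg
  refine ⟨fun p => (star B) p.1 p.2, ?_⟩
  rw [ptrFst_pureOp, hB]
  congr 1
  ext i j
  simp [coefMat, Matrix.conjTranspose_apply, Matrix.star_apply]

end Pure

end Claimed.Agent.R296
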