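import Claimed.Agent.R296.EntRelMain
import Claimed.Agent.R296.EntBasic
import Claimed.Agent.R296.EntPtr

/-!
# Row 296, ENT-REL file 5: strong subadditivity

`ent_ssa`: for a positive semidefinite `ρ` on `a × b × c`,
`S(abc) + S(b) ≤ S(ab) + S(bc)`.
Route: `-S(r|m) = D(ρ ‖ ρ_m ⊗ 1)` (regularised by `δ > 0`), monotonicity of `D` under the partial
trace over `c`, and the scalar limit `δ → 0`.
Owner: helper19.
-/

set_option autoImplicit false
set_option linter.unusedSectionVars false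
set_option linter.unusedDecidableInType false
set_option linter.unusedFintypeInType false

namespace Claimed.Agent.R296

open Matrix Filter Topology
open scoped ComplexOrder

section Reg

variable {n m r : Type} [Fintype n] [DecidableEq n] [Fintype m] [DecidableEq m]
  [Fintype r] [DecidableEq r]

/-- `tr (ρ log ρ) = - S(ρ)` -/
theorem re_trace_mul_mlog_self {ρ : Matrix n n ℂ} (hρ : ρ.IsHermitian) :
    (ρ * mlog ρ).trace.re = - vnEnt ρ := by
  rw [trace_mul_mlog_self hρ, Complex.ofReal_re, vnEnt_eq_sum_eigenvalues hρ,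
    ← Finset.sum_neg_distrib]
  refine Finset.sum_congr rfl fun i _ => ?_
  rw [Real.negMulLog]
  ring

/-- `log (τ + δ) = (x ↦ log (x + δ))(τ)` -/
theorem mlog_add_smul_one {τ : Matrix n n ℂ} (hτ : τ.IsHermitian) (δ : ℝ) :
    mlog (τ + (δ : ℂ) • 1) = mfun (fun x => (Real.log (x + δ) : ℂ)) τ := by
  have h : τ + (δ : ℂ) • 1 = mfun (fun x => ((x + δ : ℝ) : ℂ)) τ := by
    have : (fun x : ℝ => ((x + δ : ℝ) : ℂ)) = fun x : ℝ => (x : ℂ) + (δ : ℂ) := by
      funext x; push_cast; rfl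
    rw [this, mfun_add, mfun_id hτ, mfun_const hτ]
  unfold mlog
  rw [h, mfun_comp _ _ _ hτ]

/-- the regularised `tr τ log (τ + δ)` in spectral form -/
theorem re_trace_mul_mlog_add {τ : Matrix n n ℂ} (hτ : τ.IsHermitian) (δ : ℝ) :
    (τ * mlog (τ + (δ : ℂ) • 1)).trace.re
      = ∑ i, hτ.eigenvalues i * Real.log (hτ.eigenvalues i + δ) := by
  rw [mlog_add_smul_one hτ]
  have h : τ * mfun (fun x => (Real.log (x + δ) : ℂ)) τ
      = mfun (fun x => (x : ℂ) * (Real.log (x + δ) : ℂ)) τ := by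
    rw [mfun_mul, mfun_id hτ]
  rw [h, trace_mfun hτ]
  simp only [← Complex.ofReal_mul, ← Complex.ofReal_sum, Complex.ofReal_re]

/-- `tr τ log (τ + δ) → - S(τ)` as `δ → 0` -/
theorem tendsto_re_trace_mul_mlog_add {τ : Matrix n n ℂ} (hτ : τ.PosSemidef) :
    Tendsto (fun δ : ℝ => (τ * mlog (τ + (δ : ℂ) • 1)).trace.re) (𝓝 0) (𝓝 (- vnEnt τ)) := by
  have h1 : (fun δ : ℝ => (τ * mlog (τ + (δ : ℂ) • 1)).trace.re) = fun δ : ℝ =>
      ∑ i, hτ.isHermitian.eigenvalues i * Real.log (hτ.isHermitian.eigenvalues i + δ) := by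
    funext δ; exact re_trace_mul_mlog_add hτ.isHermitian δ
  rw [h1, vnEnt_eq_sum_eigenvalues hτ.isHermitian, ← Finset.sum_neg_distrib]
  refine tendsto_finsetSum _ fun i _ => ?_
  rcases (hτ.eigenvalues_nonneg i).eq_or_lt with h0 | hpos
  · rw [← h0]; simp
  · have h2 : Tendsto (fun δ : ℝ => hτ.isHermitian.eigenvalues i + δ) (𝓝 0)
        (𝓝 (hτ.isHermitian.eigenvalues i + 0)) := tendsto_const_nhds.add tendsto_id
    rw [add_zero] at h2
    have h3 := ((Real.continuousAt_log hpos.ne').tendsto.comp h2).const_mul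
      (hτ.isHermitian.eigenvalues i)
    have h4 : - Real.negMulLog (hτ.isHermitian.eigenvalues i)
        = hτ.isHermitian.eigenvalues i * Real.log (hτ.isHermitian.eigenvalues i) := by
      rw [Real.negMulLog]; ring
    rw [h4]
    exact h3

theorem posDef_add_smul_one {τ : Matrix n n ℂ} (hτ : τ.PosSemidef) {δ : ℝ} (hδ : 0 < δ) :
    (τ + (δ : ℂ) • 1).PosDef := by
  refine PosDef.posSemidef_add hτ ?_
  have h : (0 : ℂ) < (δ : ℂ) := by exact_mod_cast hδ
  exact PosDef.one.smul h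

theorem embE_add_smul_one (e : n ≃ m × r) (τ : Matrix m m ℂ) (δ : ℂ) :
    embE e (τ + δ • 1) = embE e τ + δ • 1 := by
  rw [embE_add, embE_smul, embE_one]

/-- **conditional entropy as a relative entropy** (regularised):
`D(ρ ‖ (τ+δ) ⊗ 1) = - S(ρ) - tr ρ_m log (τ+δ)` -/
theorem relEnt_embE_right (e : n ≃ m × r) {ρ : Matrix n n ℂ} (hρ : ρ.IsHermitian)
    {T : Matrix m m ℂ} (hT : T.IsHermitian) :
    relEnt ρ (embE e T) = - vnEnt ρ - (ptrE e ρ * mlog T).trace.re := by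
  unfold relEnt
  rw [Matrix.mul_sub, Matrix.trace_sub, Complex.sub_re, re_trace_mul_mlog_self hρ]
  congr 1
  unfold mlog
  rw [mfun_embE _ e hT, trace_mul_embE]

end Reg

section SSA

variable {a b c : Type} [Fintype a] [DecidableEq a] [Fintype b] [DecidableEq b]
  [Fintype c] [DecidableEq c]

/-- commuting square: tracing out `c` from `1_a ⊗ T_{bc}` gives `1_a ⊗ (T_{bc})_b` -/
theorem ptr12_embE_prodComm (T : Matrix (b × c) (b × c) ℂ) :
    ptrE (Equiv.prodAssoc a b c).symm (embE (Equiv.prodComm a (b × c)) T)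
      = embE (Equiv.prodComm a b) (ptrFst T) := by
  ext x y
  obtain ⟨i, j⟩ := x
  obtain ⟨i', j'⟩ := y
  simp only [ptrE_apply, embE_apply, ptrFst_apply, Equiv.symm_symm, Equiv.prodAssoc_apply,
    Equiv.prodComm_apply, Prod.swap_prod_mk]
  by_cases h : i = i'
  · simp [h]
  · simp [h]

theorem ptrFst_add_smul_one (T : Matrix (b × c) (b × c) ℂ) (δ : ℂ) :
    ptrFst (T + δ • 1) = ptrFst T + (δ * (Fintype.card c : ℂ)) • 1 := by
  rw [ptrFst_eq_ptrE, ptrFst_eq_ptrE, ptrE_add, ptrE_smul, ptrE_one, smul_smul]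

/-- **Strong subadditivity** for positive semidefinite matrices on `a × b × c`. -/
theorem ent_ssa_psd (ρ : Matrix (a × b × c) (a × b × c) ℂ) (hρ : ρ.PosSemidef) :
    vnEnt ρ + vnEnt (ptrFst (ptrSnd ρ)) ≤ vnEnt (ptr12 ρ) + vnEnt (ptrSnd ρ) := by
  rcases isEmpty_or_nonempty c with hc | hc
  · have h0 : ρ = 0 := Subsingleton.elim _ _
    subst h0
    have h1 : ptrSnd (0 : Matrix (a × b × c) (a × b × c) ℂ) = 0 := Subsingleton.elim _ _
    have h2 : ptr12 (0 : Matrix (a × b × c) (a × b × c) ℂ) = 0 := by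
      rw [ptr12_eq_ptrE, ptrE_zero]
    have h3 : ptrFst (0 : Matrix (b × c) (b × c) ℂ) = 0 := by
      rw [ptrFst_eq_ptrE, ptrE_zero]
    rw [h1, h2, h3]
    simp [vnEnt_zero]
  · set ρbc := ptrSnd ρ with hbc
    set ρb := ptrFst ρbc with hb
    set ρab := ptr12 ρ with hab
    have hρbc : ρbc.PosSemidef := by rw [hbc, ptrSnd_eq_ptrE]; exact ptrE_posSemidef _ hρ
    have hρb : ρb.PosSemidef := by rw [hb, ptrFst_eq_ptrE]; exact ptrE_posSemidef _ hρbc
    have hρab : ρab.PosSemidef := by rw [hab, ptr12_eq_ptrE]; exact ptrE_posSemidef _ hρ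
    have hcard : (0 : ℝ) < Fintype.card c := by exact_mod_cast Fintype.card_pos
    -- the inequality at `δ > 0`
    have key : ∀ δ : ℝ, 0 < δ →
        - vnEnt ρab - (ρb * mlog (ρb + ((δ * Fintype.card c : ℝ) : ℂ) • 1)).trace.re
          ≤ - vnEnt ρ - (ρbc * mlog (ρbc + (δ : ℂ) • 1)).trace.re := by
      intro δ hδ
      have hT : (ρbc + (δ : ℂ) • 1).PosDef := posDef_add_smul_one hρbc hδ
      have hσ : (embE (Equiv.prodComm a (b × c)) (ρbc + (δ : ℂ) • 1)).PosDef := by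
        rw [embE_add_smul_one]
        exact posDef_add_smul_one (embE_posSemidef _ hρbc) hδ
      have hdpi := relEnt_ptrE_le (Equiv.prodAssoc a b c).symm hρ hσ
      rw [ptr12_embE_prodComm, ptrFst_add_smul_one, ← ptr12_eq_ptrE,
        relEnt_embE_right _ hρ.isHermitian hT.isHermitian, ← ptrSnd_eq_ptrE] at hdpi
      have hT' : (ρb + ((δ : ℂ) * (Fintype.card c : ℂ)) • 1).IsHermitian := by
        have : ((δ : ℂ) * (Fintype.card c : ℂ)) = ((δ * Fintype.card c : ℝ) : ℂ) := by push_cast; rfl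
        rw [this]
        exact (posDef_add_smul_one hρb (mul_pos hδ hcard)).isHermitian
      rw [relEnt_embE_right _ hρab.isHermitian hT', ← ptrSnd_eq_ptrE, ptrSnd_ptr12] at hdpi
      have : ((δ * Fintype.card c : ℝ) : ℂ) = ((δ : ℂ) * (Fintype.card c : ℂ)) := by push_cast; rfl
      rw [this]
      exact hdpi
    -- the limit `δ → 0⁺`
    have l1 : Tendsto (fun δ : ℝ => - vnEnt ρ - (ρbc * mlog (ρbc + (δ : ℂ) • 1)).trace.re)
        (𝓝[>] 0) (𝓝 (- vnEnt ρ - - vnEnt ρbc)) :=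
      (tendsto_const_nhds.sub (tendsto_re_trace_mul_mlog_add hρbc)).mono_left nhdsWithin_le_nhds
    have hmul : Tendsto (fun δ : ℝ => δ * (Fintype.card c : ℝ)) (𝓝 0) (𝓝 0) := by
      have := (tendsto_id (α := ℝ) (x := 𝓝 0)).mul_const (Fintype.card c : ℝ)
      simpa using this
    have l2 : Tendsto (fun δ : ℝ => - vnEnt ρab
        - (ρb * mlog (ρb + ((δ * Fintype.card c : ℝ) : ℂ) • 1)).trace.re)
        (𝓝[>] 0) (𝓝 (- vnEnt ρab - - vnEnt ρb)) :=
      (tendsto_const_nhds.sub ((tendsto_re_trace_mul_mlog_add hρb).comp hmul)).mono_left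
        nhdsWithin_le_nhds
    have hle := le_of_tendsto_of_tendsto l2 l1
      (eventually_nhdsWithin_of_forall fun δ hδ => key δ hδ)
    linarith

/-- **Strong subadditivity** (Lieb--Ruskai) in the form consumed by ENT-BASE. -/
theorem ent_ssa (ρ : Matrix (a × b × c) (a × b × c) ℂ) (hρ : IsDensity ρ) :
    vnEnt ρ + vnEnt (ptrFst (ptrSnd ρ)) ≤ vnEnt (ptr12 ρ) + vnEnt (ptrSnd ρ) :=
  ent_ssa_psd ρ hρ.1

end SSA

end Claimed.Agent.R296
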