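import Mathlib
import Claimed.Agent.R296.Defs
import Claimed.Agent.R296.EntBasic
import Claimed.Agent.R296.EntPtr
import Claimed.Agent.R296.EntPure
import Claimed.Agent.R296.EntSSA

/-!
# Row 296, ENT-BASE 4: consequences of strong subadditivity on abstract products

subadditivity, Araki-Lieb, bounds on the conditional entropy, classical registers,
concavity, mixing bounds (paper 1, proof of Lemma 1.1, first display).
-/

set_option autoImplicit false
set_option linter.unusedSectionVars false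
set_option linter.unusedSimpArgs false
set_option linter.unusedVariables false

namespace Claimed.Agent.R296

open Matrix
open scoped ComplexOrder Kronecker

variable {a b n k : Type} [Fintype a] [DecidableEq a] [Fintype b] [DecidableEq b]
  [Fintype n] [DecidableEq n] [Fintype k] [DecidableEq k]

/-- conditional entropy `S(a|b)` of a matrix on `a × b` -/
noncomputable def cEnt (ρ : Matrix (a × b) (a × b) ℂ) : ℝ := vnEnt ρ - vnEnt (ptrSnd ρ)

/-- `a × Unit × b ≃ a × b` -/
def midUnit (a b : Type) : a × Unit × b ≃ a × b where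
  toFun p := (p.1, p.2.2)
  invFun p := (p.1, (), p.2)
  left_inv _ := rfl
  right_inv _ := rfl

/-- **subadditivity** -/
theorem vnEnt_subadd (ρ : Matrix (a × b) (a × b) ℂ) (hρ : IsDensity ρ) :
    vnEnt ρ ≤ vnEnt (ptrFst ρ) + vnEnt (ptrSnd ρ) := by
  set ω : Matrix (a × Unit × b) (a × Unit × b) ℂ := ρ.submatrix (midUnit a b) (midUnit a b)
    with hω
  have hd : IsDensity ω := hρ.submatrix_equiv (midUnit a b)
  have h := ent_ssa ω hd
  have h0 : vnEnt ω = vnEnt ρ := vnEnt_submatrix_equiv (midUnit a b) ρ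
  have h1 : ptr12 ω = (ptrFst ρ).submatrix (Equiv.prodPUnit a) (Equiv.prodPUnit a) := by
    ext p q
    simp [ptr12_apply, ptrFst_apply, hω, midUnit]
  have h2 : ptrSnd ω = (ptrSnd ρ).submatrix (Equiv.punitProd b) (Equiv.punitProd b) := by
    ext p q
    simp [ptrSnd_apply, hω, midUnit]
  have h3 : 0 ≤ vnEnt (ptrFst (ptrSnd ω)) := vnEnt_nonneg (ptrFst_isDensity (ptrSnd_isDensity hd))
  rw [h2] at h3
  rw [h0, h1, h2, vnEnt_submatrix_equiv, vnEnt_submatrix_equiv] at h
  linarith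

/-- **Araki-Lieb** `S(b) - S(a) ≤ S(ab)` -/
theorem vnEnt_araki_lieb (ρ : Matrix (a × b) (a × b) ℂ) (hρ : IsDensity ρ) :
    vnEnt (ptrSnd ρ) - vnEnt (ptrFst ρ) ≤ vnEnt ρ := by
  obtain ⟨Ψ, hΨ⟩ := exists_purification hρ.1
  -- regroup `(a × b) × r` as `b × (a × r)`
  set Ψ' : b × (a × (a × b)) → ℂ := fun p => Ψ ((p.2.1, p.1), p.2.2) with hΨ'
  set ω : Matrix (a × (a × b)) (a × (a × b)) ℂ := ptrSnd (pureOp Ψ') with hω
  have e1 : ptrFst (pureOp Ψ') = ptrSnd ρ := by
    rw [← hΨ]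
    ext i j
    simp [ptrFst_apply, ptrSnd_apply, pureOp_apply, hΨ', Fintype.sum_prod_type]
  have e2 : ptrFst ω = ptrFst ρ := by
    rw [← hΨ]
    ext i j
    simp only [ptrFst_apply, ptrSnd_apply, pureOp_apply, hΨ', hω, Fintype.sum_prod_type]
    refine (Finset.sum_congr rfl fun x _ => Finset.sum_comm).trans ?_
    exact Finset.sum_comm
  have e3 : ptrSnd ω = ptrSnd (pureOp Ψ) := by
    ext i j
    simp only [ptrFst_apply, ptrSnd_apply, pureOp_apply, hΨ', hω, Fintype.sum_prod_type]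
  have htr : (pureOp Ψ').trace = 1 := by
    rw [← trace_ptrFst, e1, trace_ptrSnd, hρ.2]
  have hd : IsDensity ω := ptrSnd_isDensity ⟨pureOp_posSemidef _, htr⟩
  have h1 := vnEnt_subadd ω hd
  have h2 : vnEnt ω = vnEnt (ptrSnd ρ) := by
    rw [hω, ← vnEnt_ptrFst_pureOp_eq_ptrSnd, e1]
  have h3 : vnEnt (ptrSnd (pureOp Ψ)) = vnEnt ρ := by
    rw [← vnEnt_ptrFst_pureOp_eq_ptrSnd, hΨ]
  rw [h2, e2, e3, h3] at h1
  linarith

theorem vnEnt_araki_lieb' (ρ : Matrix (a × b) (a × b) ℂ) (hρ : IsDensity ρ) :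
    vnEnt (ptrFst ρ) - vnEnt (ptrSnd ρ) ≤ vnEnt ρ := by
  have h := vnEnt_araki_lieb (ρ.submatrix (Equiv.prodComm b a) (Equiv.prodComm b a))
    (hρ.submatrix_equiv _)
  rw [← ptrFst_eq_ptrSnd_swap, ← ptrSnd_eq_ptrFst_swap, vnEnt_submatrix_equiv] at h
  exact h

theorem cEnt_le_log_card (ρ : Matrix (a × b) (a × b) ℂ) (hρ : IsDensity ρ) :
    cEnt ρ ≤ Real.log (Fintype.card a) := by
  have h1 := vnEnt_subadd ρ hρ
  have h2 := vnEnt_le_log_card (ptrFst_isDensity hρ)
  unfold cEnt; linarith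

theorem neg_log_card_le_cEnt (ρ : Matrix (a × b) (a × b) ℂ) (hρ : IsDensity ρ) :
    -Real.log (Fintype.card a) ≤ cEnt ρ := by
  have h1 := vnEnt_araki_lieb ρ hρ
  have h2 := vnEnt_le_log_card (ptrFst_isDensity hρ)
  unfold cEnt; linarith

/-- `|S(a|b)| ≤ log dim a` -/
theorem abs_cEnt_le (ρ : Matrix (a × b) (a × b) ℂ) (hρ : IsDensity ρ) :
    |cEnt ρ| ≤ Real.log (Fintype.card a) :=
  abs_le.mpr ⟨neg_log_card_le_cEnt ρ hρ, cEnt_le_log_card ρ hρ⟩

/-! ### classical registers (unnormalised components `A j = p j • τ j`) -/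

theorem blockDiagonal_posSemidef {A : k → Matrix n n ℂ} (hA : ∀ j, (A j).PosSemidef) :
    (blockDiagonal A).PosSemidef := by
  choose C hC using fun j => exists_eq_conjTranspose_mul_self (hA j)
  have : blockDiagonal A = (blockDiagonal C)ᴴ * blockDiagonal C := by
    rw [blockDiagonal_conjTranspose, ← blockDiagonal_mul]
    congr 1
    funext j
    exact hC j
  rw [this]
  exact posSemidef_conjTranspose_mul_self _

theorem trace_blockDiagonal_eq (A : k → Matrix n n ℂ) :
    (blockDiagonal A).trace = (∑ j, A j).trace := by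
  rw [Matrix.trace_sum]
  simp only [Matrix.trace, Matrix.diag_apply, Fintype.sum_prod_type, blockDiagonal_apply, if_true]
  exact Finset.sum_comm

/-- concavity of the conditional entropy, unnormalised form -/
theorem cEnt_sum_ge' (A : k → Matrix (a × b) (a × b) ℂ) (hA : ∀ j, (A j).PosSemidef) :
    ∑ j, vnEnt (A j) + vnEnt (ptrSnd (∑ j, A j)) ≤ vnEnt (∑ j, A j) + ∑ j, vnEnt (ptrSnd (A j)) := by
  set ω : Matrix (a × b × k) (a × b × k) ℂ :=
    (blockDiagonal A).submatrix (Equiv.prodAssoc a b k).symm (Equiv.prodAssoc a b k).symm with hω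
  have hd : ω.PosSemidef := (blockDiagonal_posSemidef hA).submatrix _
  have h := ent_ssa_psd ω hd
  have h0 : vnEnt ω = ∑ j, vnEnt (A j) := by
    rw [hω, vnEnt_submatrix_equiv, vnEnt_blockDiagonal]
  have h1 : ptr12 ω = ∑ j, A j := by
    ext p q
    simp [ptr12_apply, hω, blockDiagonal_apply, Matrix.sum_apply]
  have h2 : ptrSnd ω = blockDiagonal fun j => ptrSnd (A j) := by
    ext ⟨p, x⟩ ⟨q, y⟩
    by_cases hxy : x = y
    · simp [ptrSnd_apply, hω, blockDiagonal_apply, hxy]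
    · simp [ptrSnd_apply, hω, blockDiagonal_apply, hxy]
  have h3 : ptrFst (ptrSnd ω) = ptrSnd (∑ j, A j) := by
    rw [h2, ptrSnd_sum]
    ext p q
    simp [ptrFst_apply, blockDiagonal_apply, Matrix.sum_apply]
  rw [h0, h1, h3, h2, vnEnt_blockDiagonal] at h
  exact h

/-- `k × n × k ≃ n × (k × k)` -/
def regShuf (k n : Type) : k × n × k ≃ n × (k × k) where
  toFun p := (p.2.1, (p.1, p.2.2))
  invFun p := (p.2.1, p.1, p.2.2)
  left_inv _ := rfl
  right_inv _ := rfl

/-- mixing upper bound, unnormalised form: `S(∑ A_j) ≤ ∑ S(A_j)` -/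
theorem vnEnt_sum_le' (A : k → Matrix n n ℂ) (hA : ∀ j, (A j).PosSemidef) :
    vnEnt (∑ j, A j) ≤ ∑ j, vnEnt (A j) := by
  set B : k × k → Matrix n n ℂ := fun x => if x.1 = x.2 then A x.1 else 0 with hB
  have hBpos : ∀ x, (B x).PosSemidef := by
    intro x
    by_cases hx : x.1 = x.2
    · simp [hB, hx, hA]
    · simp [hB, hx, Matrix.PosSemidef.zero]
  set ω : Matrix (k × n × k) (k × n × k) ℂ :=
    (blockDiagonal B).submatrix (regShuf k n) (regShuf k n) with hω
  have hd : ω.PosSemidef := (blockDiagonal_posSemidef hBpos).submatrix _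
  have h := ent_ssa_psd ω hd
  have h0 : vnEnt ω = ∑ j, vnEnt (A j) := by
    rw [hω, vnEnt_submatrix_equiv, vnEnt_blockDiagonal, Fintype.sum_prod_type]
    refine Finset.sum_congr rfl fun x _ => ?_
    rw [Finset.sum_eq_single x]
    · simp [hB]
    · intro y _ hy
      simp [hB, Ne.symm hy, vnEnt_zero]
    · simp
  have h1 : ptr12 ω = (blockDiagonal A).submatrix (Equiv.prodComm k n) (Equiv.prodComm k n) := by
    ext ⟨x, p⟩ ⟨y, q⟩
    simp only [ptr12_apply, hω, regShuf, submatrix_apply, Equiv.coe_fn_mk, blockDiagonal_apply,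
      Equiv.prodComm_apply, Prod.swap_prod_mk, Prod.mk.injEq, hB]
    by_cases hxy : x = y
    · subst hxy
      simp only [and_self, if_true, true_and]
      rw [Finset.sum_eq_single x]
      · simp
      · intro z _ hz
        simp [Ne.symm hz]
      · simp
    · simp [hxy]
  have h2 : ptrSnd ω = blockDiagonal A := by
    ext ⟨p, x⟩ ⟨q, y⟩
    simp only [ptrSnd_apply, hω, regShuf, submatrix_apply, Equiv.coe_fn_mk, blockDiagonal_apply,
      Prod.mk.injEq, hB]
    by_cases hxy : x = y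
    · subst hxy
      simp only [and_self, if_true, true_and]
      rw [Finset.sum_eq_single x]
      · simp
      · intro z _ hz
        simp [hz]
      · simp
    · simp [hxy]
  have h3 : ptrFst (ptrSnd ω) = ∑ j, A j := by
    rw [h2]
    ext p q
    simp [ptrFst_apply, blockDiagonal_apply, Matrix.sum_apply]
  rw [h0, h1, h3, h2, vnEnt_submatrix_equiv, vnEnt_blockDiagonal] at h
  linarith

/-- mixing upper bound, unnormalised form: `S(∑ A_j) ≤ ∑ S(A_j)` -/
theorem vnEnt_sum_le (A : k → Matrix n n ℂ) (hA : ∀ j, (A j).PosSemidef) :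
    vnEnt (∑ j, A j) ≤ ∑ j, vnEnt (A j) := vnEnt_sum_le' A hA

/-- concavity of the conditional entropy, unnormalised form -/
theorem cEnt_sum_ge (A : k → Matrix (a × b) (a × b) ℂ) (hA : ∀ j, (A j).PosSemidef) :
    ∑ j, cEnt (A j) ≤ cEnt (∑ j, A j) := by
  have h := cEnt_sum_ge' A hA
  unfold cEnt
  rw [Finset.sum_sub_distrib]
  linarith

theorem vnEnt_unit (M : Matrix Unit Unit ℂ) : vnEnt M = Real.negMulLog M.trace.re := by
  have : M = diagonal fun _ => M.trace := by
    ext i j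
    simp [Matrix.trace]
  conv_lhs => rw [this]
  rw [vnEnt_diagonal]
  simp

/-- concavity of the entropy, unnormalised form -/
theorem vnEnt_sum_ge (A : k → Matrix n n ℂ) (hA : ∀ j, (A j).PosSemidef) :
    ∑ j, vnEnt (A j) + Real.negMulLog (∑ j, A j).trace.re
      ≤ vnEnt (∑ j, A j) + ∑ j, Real.negMulLog (A j).trace.re := by
  let e : n × Unit ≃ n := Equiv.prodPUnit n
  have h := cEnt_sum_ge' (a := n) (b := Unit)
    (fun j => (A j).submatrix e e) (fun j => (hA j).submatrix _)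
  have h1 : ∑ j, (A j).submatrix e e = (∑ j, A j).submatrix e e := by
    ext p q
    simp [Matrix.sum_apply]
  have h2 : ∀ M : Matrix n n ℂ, (M.submatrix e e).trace = M.trace := by
    intro M
    simp only [Matrix.trace, Matrix.diag_apply, Matrix.submatrix_apply]
    exact e.sum_comp fun i => M i i
  beta_reduce at h
  rw [h1] at h
  simp only [vnEnt_submatrix_equiv, vnEnt_unit, trace_ptrSnd, h2] at h
  exact h

theorem cEnt_smul {τ : Matrix (a × b) (a × b) ℂ} (hτ : τ.IsHermitian) (p : ℝ) :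
    cEnt (p • τ) = p * cEnt τ := by
  unfold cEnt
  rw [ptrSnd_rsmul, vnEnt_smul hτ, vnEnt_smul (ptrSnd_isHermitian hτ), trace_ptrSnd]
  ring

/-- concavity of the conditional entropy (lower bound in the first display of the proof of
paper 1, Lemma 1.1) -/
theorem cEnt_mix_lower (p : k → ℝ) (τ : k → Matrix (a × b) (a × b) ℂ) (hp : ∀ j, 0 ≤ p j)
    (hsum : ∑ j, p j = 1) (hτ : ∀ j, IsDensity (τ j)) :
    ∑ j, p j * cEnt (τ j) ≤ cEnt (∑ j, p j • τ j) := by
  have h := cEnt_sum_ge (fun j => p j • τ j) (fun j => (hτ j).1.smul (hp j))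
  simpa [cEnt_smul (hτ _).1.1] using h

/-- concavity of the von Neumann entropy -/
theorem vnEnt_mix_lower (p : k → ℝ) (τ : k → Matrix n n ℂ) (hp : ∀ j, 0 ≤ p j)
    (hsum : ∑ j, p j = 1) (hτ : ∀ j, IsDensity (τ j)) :
    ∑ j, p j * vnEnt (τ j) ≤ vnEnt (∑ j, p j • τ j) := by
  have h := vnEnt_sum_ge (fun j => p j • τ j) (fun j => (hτ j).1.smul (hp j))
  rw [(IsDensity.convex_sum hp hsum hτ).2] at h
  have h1 : ∀ j, vnEnt (p j • τ j) = p j * vnEnt (τ j) + Real.negMulLog (p j) := by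
    intro j
    rw [vnEnt_smul (hτ j).1.1, (hτ j).2]
    simp
  have h2 : ∀ j, (p j • τ j).trace.re = p j := by
    intro j
    rw [Matrix.trace_smul, (hτ j).2]
    simp
  simp only [h1, h2, Finset.sum_add_distrib, Complex.one_re, Real.negMulLog_one, add_zero] at h
  linarith

/-- mixing upper bound `S(∑ p_j τ_j) ≤ H(p) + ∑ p_j S(τ_j)` -/
theorem vnEnt_mix_upper (p : k → ℝ) (τ : k → Matrix n n ℂ) (hp : ∀ j, 0 ≤ p j)
    (hsum : ∑ j, p j = 1) (hτ : ∀ j, IsDensity (τ j)) :
    vnEnt (∑ j, p j • τ j) ≤ ∑ j, p j * vnEnt (τ j) + ∑ j, Real.negMulLog (p j) := by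
  have h := vnEnt_sum_le (fun j => p j • τ j) (fun j => (hτ j).1.smul (hp j))
  refine h.trans (le_of_eq ?_)
  rw [← Finset.sum_add_distrib]
  refine Finset.sum_congr rfl fun j _ => ?_
  rw [vnEnt_smul (hτ j).1.1, (hτ j).2]
  simp

/-- upper bound in the first display of the proof of paper 1, Lemma 1.1 -/
theorem cEnt_mix_upper (p : k → ℝ) (τ : k → Matrix (a × b) (a × b) ℂ) (hp : ∀ j, 0 ≤ p j)
    (hsum : ∑ j, p j = 1) (hτ : ∀ j, IsDensity (τ j)) :
    cEnt (∑ j, p j • τ j) ≤ ∑ j, p j * cEnt (τ j) + ∑ j, Real.negMulLog (p j) := by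
  have h1 := vnEnt_mix_upper p τ hp hsum hτ
  have h2 := vnEnt_mix_lower p (fun j => ptrSnd (τ j)) hp hsum (fun j => ptrSnd_isDensity (hτ j))
  have h3 : ptrSnd (∑ j, p j • τ j) = ∑ j, p j • ptrSnd (τ j) := by
    rw [ptrSnd_sum]
    simp [ptrSnd_rsmul]
  unfold cEnt
  rw [h3]
  simp only [mul_sub, Finset.sum_sub_distrib]
  linarith

end Claimed.Agent.R296
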