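import Mathlib
import Claimed.Agent.R296.Defs
import Claimed.Agent.R296.EntBasic
import Claimed.Agent.R296.EntPtr
import Claimed.Agent.R296.EntPtrE

/-!
# Row 296, ENT-BASE 6a: transfer of entropies along splittings `e : n ≃ m × r` (leaf T1)
-/

set_option autoImplicit false
set_option linter.unusedSectionVars false
set_option linter.unusedSimpArgs false

namespace Claimed.Agent.R296

open Matrix
open scoped ComplexOrder Kronecker

/-! ### transfer along splittings -/

section Transfer

variable {n m r m' r' : Type} [Fintype n] [DecidableEq n] [Fintype m] [DecidableEq m]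
  [Fintype r] [DecidableEq r] [Fintype m'] [DecidableEq m'] [Fintype r'] [DecidableEq r']

/-- two splittings with the same "first coordinate" and the same "second coordinate"
(up to bijections) give marginals with the same entropy -/
theorem vnEnt_ptrE_congr (e : n ≃ m × r) (e' : n ≃ m' × r')
    (h1 : ∀ u v, (e u).1 = (e v).1 ↔ (e' u).1 = (e' v).1)
    (h2 : ∀ u v, (e u).2 = (e v).2 ↔ (e' u).2 = (e' v).2) (M : Matrix n n ℂ) :
    vnEnt (ptrE e M) = vnEnt (ptrE e' M) := by
  rcases isEmpty_or_nonempty n with hn | ⟨⟨u₀⟩⟩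
  · have z1 : ptrE e M = 0 := by
      ext x x'
      rw [ptrE_apply]
      exact Finset.sum_eq_zero fun k _ => (hn.false (e.symm (x, k))).elim
    have z2 : ptrE e' M = 0 := by
      ext x x'
      rw [ptrE_apply]
      exact Finset.sum_eq_zero fun k _ => (hn.false (e'.symm (x, k))).elim
    rw [z1, z2, vnEnt_zero, vnEnt_zero]
  · set φ : m → m' := fun x => (e' (e.symm (x, (e u₀).2))).1 with hφ
    set ψ : r → r' := fun k => (e' (e.symm ((e u₀).1, k))).2 with hψ
    have key : ∀ x k, e' (e.symm (x, k)) = (φ x, ψ k) := by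
      intro x k
      refine Prod.ext ?_ ?_
      · exact (h1 _ _).mp (by simp)
      · exact (h2 _ _).mp (by simp)
    have key' : ∀ x k, e'.symm (φ x, ψ k) = e.symm (x, k) := by
      intro x k
      rw [← key, Equiv.symm_apply_apply]
    have hφi : Function.Injective φ := by
      intro x y hxy
      have := (h1 (e.symm (x, (e u₀).2)) (e.symm (y, (e u₀).2))).mpr hxy
      simpa using this
    have hψi : Function.Injective ψ := by
      intro x y hxy
      have := (h2 (e.symm ((e u₀).1, x)) (e.symm ((e u₀).1, y))).mpr hxy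
      simpa using this
    have hφs : Function.Surjective φ := by
      intro x'
      refine ⟨(e (e'.symm (x', (e' u₀).2))).1, ?_⟩
      have := key (e (e'.symm (x', (e' u₀).2))).1 (e (e'.symm (x', (e' u₀).2))).2
      rw [Prod.mk.eta, Equiv.symm_apply_apply, Equiv.apply_symm_apply] at this
      exact (congrArg Prod.fst this).symm
    have hψs : Function.Surjective ψ := by
      intro k'
      refine ⟨(e (e'.symm ((e' u₀).1, k'))).2, ?_⟩
      have := key (e (e'.symm ((e' u₀).1, k'))).1 (e (e'.symm ((e' u₀).1, k'))).2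
      rw [Prod.mk.eta, Equiv.symm_apply_apply, Equiv.apply_symm_apply] at this
      exact (congrArg Prod.snd this).symm
    let Φ : m ≃ m' := Equiv.ofBijective φ ⟨hφi, hφs⟩
    let Ψ : r ≃ r' := Equiv.ofBijective ψ ⟨hψi, hψs⟩
    have hsub : ptrE e M = (ptrE e' M).submatrix Φ Φ := by
      ext x y
      rw [Matrix.submatrix_apply, ptrE_apply, ptrE_apply]
      rw [← Ψ.sum_comp]
      refine Finset.sum_congr rfl fun k _ => ?_
      change _ = M (e'.symm (φ x, ψ k)) (e'.symm (φ y, ψ k))
      rw [key', key']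
    rw [hsub, vnEnt_submatrix_equiv]

/-- two splittings with the SAME first coordinate and equivalent second coordinates give the same
partial trace -/
theorem ptrE_congr (e : n ≃ m × r) (e' : n ≃ m × r') (h1 : ∀ u, (e u).1 = (e' u).1)
    (h2 : ∀ u v, (e u).2 = (e v).2 ↔ (e' u).2 = (e' v).2) (M : Matrix n n ℂ) :
    ptrE e M = ptrE e' M := by
  ext x y
  set ψ : r → r' := fun k => (e' (e.symm (x, k))).2 with hψ
  have key : ∀ z k, e' (e.symm (z, k)) = (z, ψ k) := by
    intro z k
    refine Prod.ext ?_ ?_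
    · rw [← h1]; simp
    · exact (h2 _ _).mp (by simp)
  have key' : ∀ z k, e'.symm (z, ψ k) = e.symm (z, k) := by
    intro z k
    rw [← key, Equiv.symm_apply_apply]
  have hψi : Function.Injective ψ := by
    intro k l hkl
    have := (h2 (e.symm (x, k)) (e.symm (x, l))).mpr hkl
    simpa using this
  have hψs : Function.Surjective ψ := by
    intro k'
    refine ⟨(e (e'.symm (x, k'))).2, ?_⟩
    have h3 : (e (e'.symm (x, k'))).1 = x := by rw [h1]; simp
    have h4 := key (e (e'.symm (x, k'))).1 (e (e'.symm (x, k'))).2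
    rw [Prod.mk.eta, Equiv.symm_apply_apply, Equiv.apply_symm_apply] at h4
    exact (congrArg Prod.snd h4).symm
  let Ψ : r ≃ r' := Equiv.ofBijective ψ ⟨hψi, hψs⟩
  rw [ptrE_apply, ptrE_apply, ← Ψ.sum_comp]
  refine Finset.sum_congr rfl fun k _ => ?_
  change _ = M (e'.symm (x, ψ k)) (e'.symm (y, ψ k))
  rw [key', key']

/-- iterated partial traces -/
theorem ptrE_ptrE (e : n ≃ m × r) (e' : m ≃ m' × r') (M : Matrix n n ℂ) :
    ptrE e' (ptrE e M)
      = ptrE (e.trans ((e'.prodCongr (Equiv.refl r)).trans (Equiv.prodAssoc m' r' r))) M := by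
  ext x y
  simp [ptrE_apply, Fintype.sum_prod_type]

theorem ptrE_isDensity (e : n ≃ m × r) {M : Matrix n n ℂ} (h : IsDensity M) :
    IsDensity (ptrE e M) :=
  ⟨ptrE_posSemidef e h.1, by rw [trace_ptrE, h.2]⟩

theorem ptrE_rsmul (e : n ≃ m × r) (c : ℝ) (M : Matrix n n ℂ) :
    ptrE e (c • M) = c • ptrE e M := by
  ext x x'; simp [ptrE_apply, Finset.mul_sum]

variable {a b c : Type} [Fintype a] [DecidableEq a] [Fintype b] [DecidableEq b]
  [Fintype c] [DecidableEq c]

/-- regroupings of iterated partial traces -/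
theorem ptrFst_ptrE (e : n ≃ (a × b) × r) (M : Matrix n n ℂ) :
    ptrFst (ptrE e M) = ptrE (e.trans (Equiv.prodAssoc a b r)) M := by
  ext x y
  simp [ptrFst_apply, ptrE_apply, Fintype.sum_prod_type]

/-- `(a × b) × r ≃ b × (a × r)` -/
def shufSnd (a b r : Type) : (a × b) × r ≃ b × (a × r) where
  toFun p := (p.1.2, (p.1.1, p.2))
  invFun p := ((p.2.1, p.1), p.2.2)
  left_inv _ := rfl
  right_inv _ := rfl

theorem ptrSnd_ptrE (e : n ≃ (a × b) × r) (M : Matrix n n ℂ) :
    ptrSnd (ptrE e M) = ptrE (e.trans (shufSnd a b r)) M := by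
  ext x y
  simp [ptrSnd_apply, ptrE_apply, Fintype.sum_prod_type, shufSnd]

/-- `(a × b × c) × r ≃ (a × b) × (c × r)` -/
def shuf12 (a b c r : Type) : (a × b × c) × r ≃ (a × b) × (c × r) where
  toFun p := ((p.1.1, p.1.2.1), (p.1.2.2, p.2))
  invFun p := ((p.1.1, p.1.2, p.2.1), p.2.2)
  left_inv _ := rfl
  right_inv _ := rfl

theorem ptr12_ptrE (e : n ≃ (a × b × c) × r) (M : Matrix n n ℂ) :
    ptr12 (ptrE e M) = ptrE (e.trans (shuf12 a b c r)) M := by
  ext x y
  simp [ptr12_apply, ptrE_apply, Fintype.sum_prod_type, shuf12]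

end Transfer

end Claimed.Agent.R296
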