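import Mathlib
import Claimed.Agent.R296.Defs
import Claimed.Agent.R296.Bridge
import Claimed.Agent.R296.TopDefs
import Claimed.Agent.R296.EntBasic
import Claimed.Agent.R296.EntPtr
import Claimed.Agent.R296.EntPtrE
import Claimed.Agent.R296.EntPure
import Claimed.Agent.R296.EntSub
import Claimed.Agent.R296.EntTransfer

/-!
# Row 296, ENT-BASE 6: the SITE-LEVEL entropy interface

`ent ρ : Finset s → ℝ` as a set function: (E0) bounds, (E1) submodularity, (E2) purity,
(E3) Alicki-Fannes-Winter, (E4) products, (E5) relabelling of sites, (E6) local unitaries,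
mixtures, and the standard corollaries for `centr`, `minfo`, `cminfo`.

The transfer tool is `ent_eq_ptrE`: the entropy of the region `A` can be computed along ANY
splitting `e : Cfg io ≃ m × r` whose first component "is" the restriction to `A` and whose
second component "is" the restriction to the complement.
-/

set_option autoImplicit false
set_option linter.unusedSectionVars false
set_option linter.unusedSimpArgs false
set_option linter.unusedVariables false

namespace Claimed.Agent.R296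

open Matrix
open scoped ComplexOrder Kronecker

section Site

variable {s : Type} [DecidableEq s] [Fintype s] {io : s → Type}
  [∀ x, Fintype (io x)] [∀ x, DecidableEq (io x)]

/-- **transfer lemma**: compute `ent ρ A` along any splitting adapted to `A` -/
theorem ent_eq_ptrE {m r : Type} [Fintype m] [DecidableEq m] [Fintype r] [DecidableEq r]
    (e : Cfg io ≃ m × r) (A : Finset s)
    (h1 : ∀ σ τ, (e σ).1 = (e τ).1 ↔ ∀ x, x ∈ A → σ x = τ x)
    (h2 : ∀ σ τ, (e σ).2 = (e τ).2 ↔ ∀ x, x ∉ A → σ x = τ x)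
    (ρ : Matrix (Cfg io) (Cfg io) ℂ) : ent ρ A = vnEnt (ptrE e ρ) := by
  unfold ent
  rw [ptr_eq_ptrE]
  refine vnEnt_ptrE_congr (cfgSplit A) e ?_ ?_ ρ
  · intro σ τ
    rw [h1]
    exact br_crOn_eq_iff A σ τ
  · intro σ τ
    rw [h2]
    exact br_crOff_eq_iff A σ τ

theorem ptr_isDensity {ρ : Matrix (Cfg io) (Cfg io) ℂ} (hρ : IsDensity ρ) (A : Finset s) :
    IsDensity (ptr A ρ) := ptrE_isDensity (cfgSplit A) hρ

/-- splitting into two disjoint regions and the rest -/
def cfgSplit2 (A B : Finset s) (hAB : Disjoint A B) :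
    Cfg io ≃ (CfgOn io A × CfgOn io B) × CfgOff io (A ∪ B) where
  toFun σ := ((crOn A σ, crOn B σ), crOff (A ∪ B) σ)
  invFun p := fun x =>
    if hA : x ∈ A then p.1.1 ⟨x, hA⟩
    else if hB : x ∈ B then p.1.2 ⟨x, hB⟩
    else p.2 ⟨x, by simp [hA, hB]⟩
  left_inv σ := by
    funext x
    by_cases hA : x ∈ A
    · simp [hA, crOn]
    · by_cases hB : x ∈ B
      · simp [hA, hB, crOn]
      · simp [hA, hB, crOff]
  right_inv p := by
    obtain ⟨⟨p1, p2⟩, p3⟩ := p
    refine Prod.ext (Prod.ext ?_ ?_) ?_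
    · funext ⟨x, hx⟩
      simp [crOn, hx]
    · funext ⟨x, hx⟩
      have hA : x ∉ A := fun h => Finset.disjoint_left.mp hAB h hx
      simp [crOn, hx, hA]
    · funext ⟨x, hx⟩
      have hA : x ∉ A := fun h => hx (Finset.mem_union_left _ h)
      have hB : x ∉ B := fun h => hx (Finset.mem_union_right _ h)
      simp [crOff, hA, hB]

/-- splitting into three pairwise disjoint regions and the rest -/
def cfgSplit3 (A B C : Finset s) (hAB : Disjoint A B) (hAC : Disjoint A C) (hBC : Disjoint B C) :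
    Cfg io ≃ (CfgOn io A × CfgOn io B × CfgOn io C) × CfgOff io (A ∪ B ∪ C) where
  toFun σ := ((crOn A σ, crOn B σ, crOn C σ), crOff (A ∪ B ∪ C) σ)
  invFun p := fun x =>
    if hA : x ∈ A then p.1.1 ⟨x, hA⟩
    else if hB : x ∈ B then p.1.2.1 ⟨x, hB⟩
    else if hC : x ∈ C then p.1.2.2 ⟨x, hC⟩
    else p.2 ⟨x, by simp [hA, hB, hC]⟩
  left_inv σ := by
    funext x
    by_cases hA : x ∈ A
    · simp [hA, crOn]
    · by_cases hB : x ∈ B
      · simp [hA, hB, crOn]
      · by_cases hC : x ∈ C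
        · simp [hA, hB, hC, crOn]
        · simp [hA, hB, hC, crOff]
  right_inv p := by
    obtain ⟨⟨p1, p2, p3⟩, p4⟩ := p
    refine Prod.ext (Prod.ext ?_ (Prod.ext ?_ ?_)) ?_
    · funext ⟨x, hx⟩
      simp [crOn, hx]
    · funext ⟨x, hx⟩
      have hA : x ∉ A := fun h => Finset.disjoint_left.mp hAB h hx
      simp [crOn, hx, hA]
    · funext ⟨x, hx⟩
      have hA : x ∉ A := fun h => Finset.disjoint_left.mp hAC h hx
      have hB : x ∉ B := fun h => Finset.disjoint_left.mp hBC h hx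
      simp [crOn, hx, hA, hB]
    · funext ⟨x, hx⟩
      have hA : x ∉ A := fun h => hx (by simp [h])
      have hB : x ∉ B := fun h => hx (by simp [h])
      have hC : x ∉ C := fun h => hx (by simp [h])
      simp [crOff, hA, hB, hC]

/-! ### the marginals of the two- and three-region splittings -/

section Split

variable (ρ : Matrix (Cfg io) (Cfg io) ℂ)

theorem ent_split2_all (A B : Finset s) (hAB : Disjoint A B) :
    vnEnt (ptrE (cfgSplit2 A B hAB) ρ) = ent ρ (A ∪ B) := by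
  refine (ent_eq_ptrE _ _ ?_ ?_ ρ).symm
  · intro σ τ
    simp only [cfgSplit2, Equiv.coe_fn_mk, Prod.mk.injEq, br_crOn_eq_iff, Finset.mem_union]
    constructor
    · rintro ⟨h1, h2⟩ x (hx | hx)
      · exact h1 x hx
      · exact h2 x hx
    · intro h
      exact ⟨fun x hx => h x (Or.inl hx), fun x hx => h x (Or.inr hx)⟩
  · intro σ τ
    simp only [cfgSplit2, Equiv.coe_fn_mk, br_crOff_eq_iff]

theorem ent_split2_1 (A B : Finset s) (hAB : Disjoint A B) :
    vnEnt (ptrFst (ptrE (cfgSplit2 A B hAB) ρ)) = ent ρ A := by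
  rw [ptrFst_ptrE]
  refine (ent_eq_ptrE _ _ ?_ ?_ ρ).symm
  · intro σ τ
    simp only [cfgSplit2, Equiv.trans_apply, Equiv.coe_fn_mk, Equiv.prodAssoc_apply,
      br_crOn_eq_iff]
  · intro σ τ
    simp only [cfgSplit2, Equiv.trans_apply, Equiv.coe_fn_mk, Equiv.prodAssoc_apply,
      Prod.mk.injEq, br_crOn_eq_iff, br_crOff_eq_iff, Finset.mem_union, not_or]
    constructor
    · rintro ⟨h1, h2⟩ x hx
      by_cases hB : x ∈ B
      · exact h1 x hB
      · exact h2 x ⟨hx, hB⟩
    · intro h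
      exact ⟨fun x hx => h x (fun hA => Finset.disjoint_left.mp hAB hA hx), fun x hx => h x hx.1⟩

theorem ent_split2_2 (A B : Finset s) (hAB : Disjoint A B) :
    vnEnt (ptrSnd (ptrE (cfgSplit2 A B hAB) ρ)) = ent ρ B := by
  rw [ptrSnd_ptrE]
  refine (ent_eq_ptrE _ _ ?_ ?_ ρ).symm
  · intro σ τ
    simp only [cfgSplit2, Equiv.trans_apply, Equiv.coe_fn_mk, shufSnd, br_crOn_eq_iff]
  · intro σ τ
    simp only [cfgSplit2, Equiv.trans_apply, Equiv.coe_fn_mk, shufSnd,
      Prod.mk.injEq, br_crOn_eq_iff, br_crOff_eq_iff, Finset.mem_union, not_or]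
    constructor
    · rintro ⟨h1, h2⟩ x hx
      by_cases hA : x ∈ A
      · exact h1 x hA
      · exact h2 x ⟨hA, hx⟩
    · intro h
      exact ⟨fun x hx => h x (fun hB => Finset.disjoint_left.mp hAB hx hB), fun x hx => h x hx.2⟩

/-- the conditional entropy of the two-region marginal -/
theorem cEnt_split2 (A B : Finset s) (hAB : Disjoint A B) :
    cEnt (ptrE (cfgSplit2 A B hAB) ρ) = centr ρ A B := by
  unfold cEnt centr
  rw [ent_split2_all, ent_split2_2]

variable (A B C : Finset s) (hAB : Disjoint A B) (hAC : Disjoint A C) (hBC : Disjoint B C)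

theorem ent_split3_all :
    vnEnt (ptrE (cfgSplit3 A B C hAB hAC hBC) ρ) = ent ρ (A ∪ B ∪ C) := by
  refine (ent_eq_ptrE _ _ ?_ ?_ ρ).symm
  · intro σ τ
    simp only [cfgSplit3, Equiv.coe_fn_mk, Prod.mk.injEq, br_crOn_eq_iff, Finset.mem_union]
    constructor
    · rintro ⟨h1, h2, h3⟩ x ((hx | hx) | hx)
      · exact h1 x hx
      · exact h2 x hx
      · exact h3 x hx
    · intro h
      exact ⟨fun x hx => h x (Or.inl (Or.inl hx)), fun x hx => h x (Or.inl (Or.inr hx)),
        fun x hx => h x (Or.inr hx)⟩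
  · intro σ τ
    simp only [cfgSplit3, Equiv.coe_fn_mk, br_crOff_eq_iff]

theorem ent_split3_12 :
    vnEnt (ptr12 (ptrE (cfgSplit3 A B C hAB hAC hBC) ρ)) = ent ρ (A ∪ B) := by
  rw [ptr12_ptrE]
  refine (ent_eq_ptrE _ _ ?_ ?_ ρ).symm
  · intro σ τ
    simp only [cfgSplit3, Equiv.trans_apply, Equiv.coe_fn_mk, shuf12, Prod.mk.injEq,
      br_crOn_eq_iff, Finset.mem_union]
    constructor
    · rintro ⟨h1, h2⟩ x (hx | hx)
      · exact h1 x hx
      · exact h2 x hx
    · intro h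
      exact ⟨fun x hx => h x (Or.inl hx), fun x hx => h x (Or.inr hx)⟩
  · intro σ τ
    simp only [cfgSplit3, Equiv.trans_apply, Equiv.coe_fn_mk, shuf12, Prod.mk.injEq,
      br_crOn_eq_iff, br_crOff_eq_iff, Finset.mem_union, not_or]
    constructor
    · rintro ⟨h1, h2⟩ x hx
      by_cases hC : x ∈ C
      · exact h1 x hC
      · exact h2 x ⟨hx, hC⟩
    · intro h
      exact ⟨fun x hx => h x ⟨fun hA => Finset.disjoint_left.mp hAC hA hx,
        fun hB => Finset.disjoint_left.mp hBC hB hx⟩, fun x hx => h x hx.1⟩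

theorem ent_split3_23 :
    vnEnt (ptrSnd (ptrE (cfgSplit3 A B C hAB hAC hBC) ρ)) = ent ρ (B ∪ C) := by
  rw [ptrSnd_ptrE]
  refine (ent_eq_ptrE _ _ ?_ ?_ ρ).symm
  · intro σ τ
    simp only [cfgSplit3, Equiv.trans_apply, Equiv.coe_fn_mk, shufSnd, Prod.mk.injEq,
      br_crOn_eq_iff, Finset.mem_union]
    constructor
    · rintro ⟨h1, h2⟩ x (hx | hx)
      · exact h1 x hx
      · exact h2 x hx
    · intro h
      exact ⟨fun x hx => h x (Or.inl hx), fun x hx => h x (Or.inr hx)⟩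
  · intro σ τ
    simp only [cfgSplit3, Equiv.trans_apply, Equiv.coe_fn_mk, shufSnd, Prod.mk.injEq,
      br_crOn_eq_iff, br_crOff_eq_iff, Finset.mem_union, not_or]
    constructor
    · rintro ⟨h1, h2⟩ x hx
      by_cases hA : x ∈ A
      · exact h1 x hA
      · exact h2 x ⟨⟨hA, hx.1⟩, hx.2⟩
    · intro h
      exact ⟨fun x hx => h x ⟨fun hB => Finset.disjoint_left.mp hAB hx hB,
        fun hC => Finset.disjoint_left.mp hAC hx hC⟩, fun x hx => h x ⟨hx.1.2, hx.2⟩⟩

theorem ent_split3_2 :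
    vnEnt (ptrFst (ptrSnd (ptrE (cfgSplit3 A B C hAB hAC hBC) ρ))) = ent ρ B := by
  rw [ptrSnd_ptrE, ptrFst_ptrE]
  refine (ent_eq_ptrE _ _ ?_ ?_ ρ).symm
  · intro σ τ
    simp only [cfgSplit3, Equiv.trans_apply, Equiv.coe_fn_mk, shufSnd, Equiv.prodAssoc_apply,
      br_crOn_eq_iff]
  · intro σ τ
    simp only [cfgSplit3, Equiv.trans_apply, Equiv.coe_fn_mk, shufSnd, Equiv.prodAssoc_apply,
      Prod.mk.injEq, br_crOn_eq_iff, br_crOff_eq_iff, Finset.mem_union, not_or]
    constructor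
    · rintro ⟨h1, h2, h3⟩ x hx
      by_cases hA : x ∈ A
      · exact h2 x hA
      · by_cases hC : x ∈ C
        · exact h1 x hC
        · exact h3 x ⟨⟨hA, hx⟩, hC⟩
    · intro h
      exact ⟨fun x hx => h x (fun hB => Finset.disjoint_left.mp hBC hB hx),
        fun x hx => h x (fun hB => Finset.disjoint_left.mp hAB hx hB), fun x hx => h x hx.1.2⟩

end Split

/-! ### (E0) bounds -/

theorem ent_nonneg {ρ : Matrix (Cfg io) (Cfg io) ℂ} (hρ : IsDensity ρ) (A : Finset s) :
    0 ≤ ent ρ A := vnEnt_nonneg (ptr_isDensity hρ A)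

/-- `log dim` of a region -/
noncomputable def logDim (io : s → Type) [∀ x, Fintype (io x)] (D : Finset s) : ℝ :=
  ∑ x ∈ D, Real.log (Fintype.card (io x))

theorem logDim_nonneg (D : Finset s) : 0 ≤ logDim io D :=
  Finset.sum_nonneg fun x _ => Real.log_natCast_nonneg _

theorem logDim_mono {D D' : Finset s} (h : D ⊆ D') : logDim io D ≤ logDim io D' :=
  Finset.sum_le_sum_of_subset_of_nonneg h fun x _ _ => Real.log_natCast_nonneg _

theorem log_card_cfgOn_le (A : Finset s) :
    Real.log (Fintype.card (CfgOn io A)) ≤ logDim io A := by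
  by_cases h0 : ∀ x : {x // x ∈ A}, Fintype.card (io x) ≠ 0
  · rw [Fintype.card_pi, Nat.cast_prod, Real.log_prod (fun x _ => by exact_mod_cast h0 x)]
    unfold logDim
    rw [← Finset.sum_coe_sort A]
  · simp only [not_forall, not_not] at h0
    obtain ⟨x, hx⟩ := h0
    have : Fintype.card (CfgOn io A) = 0 := by
      rw [Fintype.card_pi]
      exact Finset.prod_eq_zero (Finset.mem_univ x) hx
    rw [this]
    simpa using logDim_nonneg (io := io) A

theorem ent_le_logDim {ρ : Matrix (Cfg io) (Cfg io) ℂ} (hρ : IsDensity ρ) (A : Finset s) :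
    ent ρ A ≤ logDim io A :=
  (vnEnt_le_log_card (ptr_isDensity hρ A)).trans (log_card_cfgOn_le A)

theorem ent_le_sum_log {ρ : Matrix (Cfg io) (Cfg io) ℂ} (hρ : IsDensity ρ) (A : Finset s) :
    ent ρ A ≤ ∑ x ∈ A, Real.log (Fintype.card (io x)) := ent_le_logDim hρ A

theorem ent_empty {ρ : Matrix (Cfg io) (Cfg io) ℂ} (hρ : IsDensity ρ) : ent ρ ∅ = 0 := by
  have h1 := ent_le_sum_log hρ ∅
  have h2 := ent_nonneg hρ ∅
  simp only [Finset.sum_empty] at h1
  linarith

theorem ent_univ (ρ : Matrix (Cfg io) (Cfg io) ℂ) : ent ρ Finset.univ = vnEnt ρ := by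
  let e : Cfg io ≃ Cfg io × Unit := (Equiv.prodPUnit (Cfg io)).symm
  rw [ent_eq_ptrE e Finset.univ ?_ ?_ ρ]
  · congr 1
    ext σ τ
    simp [ptrE_apply, e]
  · intro σ τ
    simp only [e, Equiv.prodPUnit_symm_apply, Finset.mem_univ, forall_true_left]
    exact funext_iff
  · intro σ τ
    simp

/-! ### (E1) strong subadditivity as submodularity -/

theorem ent_submod {ρ : Matrix (Cfg io) (Cfg io) ℂ} (hρ : IsDensity ρ) (X Y : Finset s) :
    ent ρ (X ∪ Y) + ent ρ (X ∩ Y) ≤ ent ρ X + ent ρ Y := by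
  have hAB : Disjoint (X \ Y) (X ∩ Y) := by
    rw [Finset.disjoint_left]; intro x h1 h2
    simp only [Finset.mem_sdiff, Finset.mem_inter] at h1 h2
    exact h1.2 h2.2
  have hAC : Disjoint (X \ Y) (Y \ X) := by
    rw [Finset.disjoint_left]; intro x h1 h2
    simp only [Finset.mem_sdiff] at h1 h2
    exact h1.2 h2.1
  have hBC : Disjoint (X ∩ Y) (Y \ X) := by
    rw [Finset.disjoint_left]; intro x h1 h2
    simp only [Finset.mem_sdiff, Finset.mem_inter] at h1 h2
    exact h2.2 h1.1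
  have h := ent_ssa (ptrE (cfgSplit3 (X \ Y) (X ∩ Y) (Y \ X) hAB hAC hBC) ρ)
    (ptrE_isDensity _ hρ)
  rw [ent_split3_all, ent_split3_2, ent_split3_12, ent_split3_23] at h
  have e1 : X \ Y ∪ X ∩ Y ∪ Y \ X = X ∪ Y := by
    ext x; simp only [Finset.mem_union, Finset.mem_sdiff, Finset.mem_inter]; tauto
  have e2 : X \ Y ∪ X ∩ Y = X := by
    ext x; simp only [Finset.mem_union, Finset.mem_sdiff, Finset.mem_inter]; tauto
  have e3 : X ∩ Y ∪ Y \ X = Y := by
    ext x; simp only [Finset.mem_union, Finset.mem_sdiff, Finset.mem_inter]; tauto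
  rw [e1, e2, e3] at h
  exact h

/-! ### (E2) purity -/

theorem ent_compl_pureOp (Ω : Cfg io → ℂ) (A : Finset s) :
    ent (pureOp Ω) Aᶜ = ent (pureOp Ω) A := by
  have h1 : ent (pureOp Ω) Aᶜ
      = vnEnt (ptrE ((cfgSplit A).trans (Equiv.prodComm _ _)) (pureOp Ω)) := by
    refine ent_eq_ptrE _ _ ?_ ?_ _
    · intro σ τ
      simp only [cfgSplit, Equiv.trans_apply, Equiv.coe_fn_mk, Equiv.prodComm_apply,
        Prod.swap_prod_mk, br_crOff_eq_iff, Finset.mem_compl]
    · intro σ τ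
      simp only [cfgSplit, Equiv.trans_apply, Equiv.coe_fn_mk, Equiv.prodComm_apply,
        Prod.swap_prod_mk, br_crOn_eq_iff, Finset.mem_compl, not_not]
  have h2 : ptrE ((cfgSplit A).trans (Equiv.prodComm _ _)) (pureOp Ω)
      = ptrSnd (pureOp (Ω ∘ (cfgSplit A).symm)) := by
    ext x y
    simp [ptrE_apply, ptrSnd_apply, pureOp_apply]
  have h3 : ptr A (pureOp Ω) = ptrFst (pureOp (Ω ∘ (cfgSplit A).symm)) := by
    rw [ptr_eq_ptrE]
    ext x y
    simp [ptrE_apply, ptrFst_apply, pureOp_apply]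
  rw [h1, h2, ← vnEnt_ptrFst_pureOp_eq_ptrSnd, ← h3]
  rfl

/-! ### Araki-Lieb, conditional entropy -/

theorem ent_araki_lieb {ρ : Matrix (Cfg io) (Cfg io) ℂ} (hρ : IsDensity ρ) (X Y : Finset s)
    (h : Disjoint X Y) : ent ρ X - ent ρ Y ≤ ent ρ (X ∪ Y) := by
  have h1 := vnEnt_araki_lieb' (ptrE (cfgSplit2 X Y h) ρ) (ptrE_isDensity _ hρ)
  rwa [ent_split2_all, ent_split2_1, ent_split2_2] at h1

theorem abs_centr_le {ρ : Matrix (Cfg io) (Cfg io) ℂ} (hρ : IsDensity ρ) (D E : Finset s) :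
    |centr ρ D E| ≤ ∑ x ∈ D, Real.log (Fintype.card (io x)) := by
  have hd : Disjoint (D \ E) E := Finset.sdiff_disjoint
  have h1 := abs_cEnt_le (ptrE (cfgSplit2 (D \ E) E hd) ρ) (ptrE_isDensity _ hρ)
  rw [cEnt_split2] at h1
  have h2 : centr ρ (D \ E) E = centr ρ D E := by
    unfold centr
    rw [Finset.sdiff_union_self_eq_union]
  rw [h2] at h1
  exact h1.trans ((log_card_cfgOn_le _).trans (logDim_mono Finset.sdiff_subset))

/-! ### corollaries of (E1) -/

theorem ent_union_le {ρ : Matrix (Cfg io) (Cfg io) ℂ} (hρ : IsDensity ρ) (X Y : Finset s) :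
    ent ρ (X ∪ Y) ≤ ent ρ X + ent ρ Y := by
  have h1 := ent_submod hρ X Y
  have h2 := ent_nonneg hρ (X ∩ Y)
  linarith

theorem minfo_nonneg {ρ : Matrix (Cfg io) (Cfg io) ℂ} (hρ : IsDensity ρ) (X Y : Finset s) :
    0 ≤ minfo ρ X Y := by
  have := ent_union_le hρ X Y
  unfold minfo; linarith

theorem cminfo_nonneg {ρ : Matrix (Cfg io) (Cfg io) ℂ} (hρ : IsDensity ρ) (A C B : Finset s)
    (h : A ∩ C ⊆ B) : 0 ≤ cminfo ρ A C B := by
  have h1 := ent_submod hρ (A ∪ B) (B ∪ C)
  have e1 : A ∪ B ∪ (B ∪ C) = A ∪ B ∪ C := by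
    ext x; simp only [Finset.mem_union]; tauto
  have e2 : (A ∪ B) ∩ (B ∪ C) = B := by
    ext x
    have := @h x
    simp only [Finset.mem_union, Finset.mem_inter] at this ⊢
    tauto
  rw [e1, e2] at h1
  unfold cminfo; linarith

/-- conditioning on more reduces the conditional entropy -/
theorem centr_anti {ρ : Matrix (Cfg io) (Cfg io) ℂ} (hρ : IsDensity ρ) (D E E' : Finset s)
    (hE : E ⊆ E') (hD : D ∩ E' ⊆ E) : centr ρ D E' ≤ centr ρ D E := by
  have h1 := ent_submod hρ (D ∪ E) E'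
  have e1 : D ∪ E ∪ E' = D ∪ E' := by
    ext x
    have := @hE x
    simp only [Finset.mem_union]; tauto
  have e2 : (D ∪ E) ∩ E' = E := by
    ext x
    have h2 := @hE x
    have h3 := @hD x
    simp only [Finset.mem_union, Finset.mem_inter] at h3 ⊢
    tauto
  rw [e1, e2] at h1
  unfold centr; linarith

/-- discarding systems cannot increase the mutual information -/
theorem minfo_mono_right {ρ : Matrix (Cfg io) (Cfg io) ℂ} (hρ : IsDensity ρ) (X Y Y' : Finset s)
    (hY : Y ⊆ Y') (hX : X ∩ Y' ⊆ Y) : minfo ρ X Y ≤ minfo ρ X Y' := by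
  have h1 := ent_submod hρ (X ∪ Y) Y'
  have e1 : X ∪ Y ∪ Y' = X ∪ Y' := by
    ext x
    have := @hY x
    simp only [Finset.mem_union]; tauto
  have e2 : (X ∪ Y) ∩ Y' = Y := by
    ext x
    have h2 := @hY x
    have h3 := @hX x
    simp only [Finset.mem_union, Finset.mem_inter] at h3 ⊢
    tauto
  rw [e1, e2] at h1
  unfold minfo; linarith

theorem minfo_comm (ρ : Matrix (Cfg io) (Cfg io) ℂ) (X Y : Finset s) :
    minfo ρ X Y = minfo ρ Y X := by
  unfold minfo; rw [Finset.union_comm]; ring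

end Site

/-! ### the top-level interface `EntApiStmt` of `TopDefs.lean` -/

theorem entApiStmt_holds : EntApiStmt := by
  intro Λ _ _ q _ Ω hΩ
  have hn : ∑ i, ‖Ω i‖ ^ 2 = 1 := by
    rw [star_dotProduct_self_eq] at hΩ
    exact_mod_cast hΩ
  have hd : IsDensity (pureOp Ω) := pureOp_isDensity hn
  refine ⟨ent_empty hd, fun X => ent_nonneg hd X, fun X => ?_, fun X => ent_compl_pureOp Ω X,
    fun X Y => ent_submod hd X Y⟩
  have := ent_le_sum_log (io := fun _ : Λ => Fin q) hd X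
  simpa using this

end Claimed.Agent.R296
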