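import Mathlib

/-!
# Row 296, ENT-BASE 5a: the scalar Alicki-Fannes-Winter function (leaf A1)
-/

set_option autoImplicit false
set_option linter.unusedSectionVars false
set_option linter.unusedSimpArgs false

namespace Claimed.Agent.R296

open Matrix
open scoped ComplexOrder Kronecker

/-! ### the scalar function -/

/-- the Alicki-Fannes-Winter bound; `L` is `log dim` of the controlled system -/
noncomputable def afwFun (δ L : ℝ) : ℝ :=
  2 * δ * L + (1 + δ) * Real.binEntropy (δ / (1 + δ))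

theorem afwFun_entropy_eq {δ : ℝ} (h0 : 0 ≤ δ) :
    (1 + δ) * Real.binEntropy (δ / (1 + δ)) = (1 + δ) * Real.log (1 + δ) - δ * Real.log δ := by
  have h1 : (0 : ℝ) < 1 + δ := by linarith
  rcases h0.eq_or_lt with rfl | hpos
  · simp
  · have e1 : 1 - δ / (1 + δ) = (1 + δ)⁻¹ := by field_simp; ring
    unfold Real.binEntropy
    rw [e1, inv_inv, inv_div, Real.log_div h1.ne' hpos.ne']
    field_simp
    ring

theorem afwFun_zero (L : ℝ) : afwFun 0 L = 0 := by
  simp [afwFun]

theorem afwFun_nonneg {δ L : ℝ} (h0 : 0 ≤ δ) (hL : 0 ≤ L) : 0 ≤ afwFun δ L := by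
  have h1 : (0 : ℝ) < 1 + δ := by linarith
  have h2 : 0 ≤ Real.binEntropy (δ / (1 + δ)) :=
    Real.binEntropy_nonneg (by positivity) (by rw [div_le_one h1]; linarith)
  unfold afwFun
  positivity

theorem afw_aux_monotoneOn :
    MonotoneOn (fun x : ℝ => (1 + x) * Real.log (1 + x) - x * Real.log x) (Set.Ici 0) := by
  apply monotoneOn_of_deriv_nonneg (convex_Ici 0)
  · exact ((Real.continuous_mul_log.comp (continuous_const.add continuous_id)).sub
      Real.continuous_mul_log).continuousOn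
  · intro x hx
    rw [interior_Ici, Set.mem_Ioi] at hx
    have d1 : HasDerivAt (fun x : ℝ => (1 + x) * Real.log (1 + x)) (Real.log (1 + x) + 1) x :=
      HasDerivAt.comp_const_add 1 x (Real.hasDerivAt_mul_log (by linarith : (1 + x) ≠ 0))
    exact (d1.sub (Real.hasDerivAt_mul_log hx.ne')).differentiableAt.differentiableWithinAt
  · intro x hx
    rw [interior_Ici, Set.mem_Ioi] at hx
    have d1 : HasDerivAt (fun x : ℝ => (1 + x) * Real.log (1 + x)) (Real.log (1 + x) + 1) x :=
      HasDerivAt.comp_const_add 1 x (Real.hasDerivAt_mul_log (by linarith : (1 + x) ≠ 0))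
    have d2 : HasDerivAt (fun x : ℝ => (1 + x) * Real.log (1 + x) - x * Real.log x)
        (Real.log (1 + x) + 1 - (Real.log x + 1)) x := d1.sub (Real.hasDerivAt_mul_log hx.ne')
    rw [d2.deriv]
    have : Real.log x ≤ Real.log (1 + x) := Real.log_le_log hx (by linarith)
    linarith

theorem afwFun_mono {δ δ' L : ℝ} (h0 : 0 ≤ δ) (h : δ ≤ δ') (hL : 0 ≤ L) :
    afwFun δ L ≤ afwFun δ' L := by
  have h0' : 0 ≤ δ' := h0.trans h
  unfold afwFun
  rw [afwFun_entropy_eq h0, afwFun_entropy_eq h0']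
  have h1 := afw_aux_monotoneOn (Set.mem_Ici.mpr h0) (Set.mem_Ici.mpr h0') h
  simp only at h1
  have h2 : 2 * δ * L ≤ 2 * δ' * L := by
    apply mul_le_mul_of_nonneg_right _ hL
    linarith
  linarith

theorem afwFun_mono_right {δ L L' : ℝ} (h0 : 0 ≤ δ) (h : L ≤ L') :
    afwFun δ L ≤ afwFun δ L' := by
  unfold afwFun
  have : 2 * δ * L ≤ 2 * δ * L' := mul_le_mul_of_nonneg_left h (by positivity)
  linarith

/-- second inequality of `lem:continuity`, with the explicit constant `C = 2`: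
`log (e d) = 1 + L` -/
theorem afwFun_le_sqrt {δ L : ℝ} (h0 : 0 ≤ δ) (h1 : δ ≤ 1) (hL : 0 ≤ L) :
    afwFun δ L ≤ 2 * Real.sqrt δ * (1 + L) := by
  unfold afwFun
  rw [afwFun_entropy_eq h0]
  have hs0 : 0 ≤ Real.sqrt δ := Real.sqrt_nonneg δ
  have hsq : Real.sqrt δ * Real.sqrt δ = δ := Real.mul_self_sqrt h0
  have hs1 : Real.sqrt δ ≤ 1 := by
    rw [Real.sqrt_le_left (by norm_num : (0 : ℝ) ≤ 1)]
    simpa using h1
  have hle : δ ≤ Real.sqrt δ := by nlinarith
  have a1 : (1 + δ) * Real.log (1 + δ) ≤ 2 * δ := by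
    have : Real.log (1 + δ) ≤ δ := by
      have := Real.log_le_sub_one_of_pos (by linarith : (0 : ℝ) < 1 + δ)
      linarith
    nlinarith
  have a2 : -(δ * Real.log δ) ≤ 2 * Real.sqrt δ - 2 * δ := by
    rcases h0.eq_or_lt with rfl | hpos
    · simp
    · have hsp : 0 < Real.sqrt δ := Real.sqrt_pos.mpr hpos
      have e1 : Real.log δ = 2 * Real.log (Real.sqrt δ) := by
        rw [← hsq, Real.log_mul hsp.ne' hsp.ne', hsq]; ring
      have e2 : -Real.log (Real.sqrt δ) ≤ (Real.sqrt δ)⁻¹ - 1 := by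
        rw [← Real.log_inv]
        exact Real.log_le_sub_one_of_pos (by positivity)
      have e3 : δ * (Real.sqrt δ)⁻¹ = Real.sqrt δ := by
        field_simp
        rw [sq]
        exact hsq.symm
      have e4 : δ * (-Real.log (Real.sqrt δ)) ≤ δ * ((Real.sqrt δ)⁻¹ - 1) :=
        mul_le_mul_of_nonneg_left e2 h0
      rw [mul_sub, e3] at e4
      rw [e1]
      linarith
  have a3 : 2 * δ * L ≤ 2 * Real.sqrt δ * L := by
    apply mul_le_mul_of_nonneg_right _ hL
    linarith
  linarith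

end Claimed.Agent.R296
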