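import Mathlib
import Claimed.Agent.R296.Defs
import Claimed.Agent.R296.MatFun
import Claimed.Agent.R296.EntBasic
import Claimed.Agent.R296.EntPtr
import Claimed.Agent.R296.EntPtrE
import Claimed.Agent.R296.EntPure

/-!
# Row 296, ENT-BASE 5b: trace norm of Hermitian matrices, trace distance, Jordan decomposition
(leaf A2)
-/

set_option autoImplicit false
set_option linter.unusedSectionVars false
set_option linter.unusedSimpArgs false

namespace Claimed.Agent.R296

open Matrix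
open scoped ComplexOrder Kronecker

/-! ### trace norm of Hermitian matrices, trace distance -/

section TrDist

variable {n m r : Type} [Fintype n] [DecidableEq n] [Fintype m] [DecidableEq m]
  [Fintype r] [DecidableEq r]

/-- positive part of a Hermitian matrix -/
noncomputable def posPart (Δ : Matrix n n ℂ) : Matrix n n ℂ := mfun (fun x => ((max x 0 : ℝ) : ℂ)) Δ

/-- negative part of a Hermitian matrix -/
noncomputable def negPart (Δ : Matrix n n ℂ) : Matrix n n ℂ :=
  mfun (fun x => ((max (-x) 0 : ℝ) : ℂ)) Δ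

/-- trace norm of a Hermitian matrix (`∑ |λ_i|`; junk `0` on non-Hermitian matrices) -/
noncomputable def trNormH (Δ : Matrix n n ℂ) : ℝ :=
  (Matrix.trace (mfun (fun x => ((|x| : ℝ) : ℂ)) Δ)).re

/-- trace distance `½ ‖ρ - σ‖₁` -/
noncomputable def trDist (ρ σ : Matrix n n ℂ) : ℝ := trNormH (ρ - σ) / 2

theorem trNormH_eq_sum {Δ : Matrix n n ℂ} (h : Δ.IsHermitian) :
    trNormH Δ = ∑ i, |h.eigenvalues i| := by
  unfold trNormH
  rw [trace_mfun h, ← Complex.ofReal_sum, Complex.ofReal_re]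

theorem posPart_posSemidef (Δ : Matrix n n ℂ) : (posPart Δ).PosSemidef := by
  unfold posPart
  by_cases h : Δ.IsHermitian
  · exact mfun_posSemidef h (fun x => max x 0) fun i => le_max_right _ _
  · rw [mfun_of_not_isHermitian h]; exact PosSemidef.zero

theorem negPart_posSemidef (Δ : Matrix n n ℂ) : (negPart Δ).PosSemidef := by
  unfold negPart
  by_cases h : Δ.IsHermitian
  · exact mfun_posSemidef h (fun x => max (-x) 0) fun i => le_max_right _ _
  · rw [mfun_of_not_isHermitian h]; exact PosSemidef.zero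

theorem td_max_sub (x : ℝ) : max x 0 - max (-x) 0 = x := by
  rcases le_total 0 x with h | h
  · rw [max_eq_left h, max_eq_right (by linarith)]; ring
  · rw [max_eq_right h, max_eq_left (by linarith)]; ring

theorem td_max_add (x : ℝ) : max x 0 + max (-x) 0 = |x| := by
  rcases le_total 0 x with h | h
  · rw [max_eq_left h, max_eq_right (by linarith), abs_of_nonneg h]; ring
  · rw [max_eq_right h, max_eq_left (by linarith), abs_of_nonpos h]; ring

theorem posPart_sub_negPart {Δ : Matrix n n ℂ} (h : Δ.IsHermitian) :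
    posPart Δ - negPart Δ = Δ := by
  unfold posPart negPart
  rw [← mfun_sub]
  conv_rhs => rw [← mfun_id h]
  refine mfun_congr h fun i => ?_
  rw [← Complex.ofReal_sub, td_max_sub]

theorem trace_posPart_add_negPart {Δ : Matrix n n ℂ} (h : Δ.IsHermitian) :
    (posPart Δ).trace.re + (negPart Δ).trace.re = trNormH Δ := by
  unfold posPart negPart
  rw [trNormH_eq_sum h, trace_mfun h, trace_mfun h, ← Complex.ofReal_sum, ← Complex.ofReal_sum,
    Complex.ofReal_re, Complex.ofReal_re, ← Finset.sum_add_distrib]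
  exact Finset.sum_congr rfl fun i _ => td_max_add _

theorem trNormH_nonneg (Δ : Matrix n n ℂ) : 0 ≤ trNormH Δ := by
  by_cases h : Δ.IsHermitian
  · rw [trNormH_eq_sum h]; exact Finset.sum_nonneg fun i _ => abs_nonneg _
  · unfold trNormH; rw [mfun_of_not_isHermitian h]; simp

theorem trNormH_neg (Δ : Matrix n n ℂ) : trNormH (-Δ) = trNormH Δ := by
  unfold trNormH
  by_cases h : Δ.IsHermitian
  · have h1 : -Δ = mfun (fun x => ((-x : ℝ) : ℂ)) Δ := by
      have : (fun x : ℝ => ((-x : ℝ) : ℂ)) = fun x : ℝ => -(x : ℂ) := by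
        funext x; push_cast; rfl
      rw [this, mfun_neg, mfun_id h]
    rw [h1, mfun_comp _ _ _ h]
    simp only [abs_neg]
  · have h' : ¬ (-Δ).IsHermitian := by
      intro h2
      apply h
      have := h2.neg
      rwa [neg_neg] at this
    rw [mfun_of_not_isHermitian h, mfun_of_not_isHermitian h']

theorem trNormH_eq_zero_iff {Δ : Matrix n n ℂ} (h : Δ.IsHermitian) : trNormH Δ = 0 ↔ Δ = 0 := by
  rw [trNormH_eq_sum h, Finset.sum_eq_zero_iff_of_nonneg fun i _ => abs_nonneg _,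
    ← h.eigenvalues_eq_zero_iff]
  constructor
  · intro h1
    funext i
    simpa using h1 i (Finset.mem_univ i)
  · intro h1 i _
    simp [h1]

theorem td_re_trace_mul_nonneg {P Q : Matrix n n ℂ} (hP : P.PosSemidef) (hQ : Q.PosSemidef) :
    0 ≤ (P * Q).trace.re := by
  obtain ⟨C, rfl⟩ := exists_eq_conjTranspose_mul_self hP
  obtain ⟨D, rfl⟩ := exists_eq_conjTranspose_mul_self hQ
  have h1 : (Cᴴ * C * (Dᴴ * D)).trace = ((C * Dᴴ)ᴴ * (C * Dᴴ)).trace := by
    rw [conjTranspose_mul, conjTranspose_conjTranspose, ← Matrix.mul_assoc, Matrix.trace_mul_comm,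
      ← Matrix.mul_assoc, ← Matrix.mul_assoc, Matrix.mul_assoc (D * Cᴴ)]
  rw [h1]
  have h2 := (posSemidef_conjTranspose_mul_self (C * Dᴴ)).trace_nonneg
  exact (Complex.le_def.mp h2).1

/-- duality (easy half): `Tr(BΔ) ≤ ‖Δ‖₁` for Hermitian `-1 ≤ B ≤ 1` -/
theorem re_trace_mul_le_trNormH {Δ B : Matrix n n ℂ} (h : Δ.IsHermitian)
    (h1 : (1 - B).PosSemidef) (h2 : (1 + B).PosSemidef) : (B * Δ).trace.re ≤ trNormH Δ := by
  have a1 := td_re_trace_mul_nonneg h1 (posPart_posSemidef Δ)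
  have a2 := td_re_trace_mul_nonneg h2 (negPart_posSemidef Δ)
  rw [Matrix.sub_mul, Matrix.one_mul, Matrix.trace_sub, Complex.sub_re] at a1
  rw [Matrix.add_mul, Matrix.one_mul, Matrix.trace_add, Complex.add_re] at a2
  have a3 : (B * Δ).trace.re = (B * posPart Δ).trace.re - (B * negPart Δ).trace.re := by
    conv_lhs => rw [← posPart_sub_negPart h]
    rw [Matrix.mul_sub, Matrix.trace_sub, Complex.sub_re]
  rw [a3, ← trace_posPart_add_negPart h]
  linarith

/-- the sign of a Hermitian matrix -/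
noncomputable def signMat (Δ : Matrix n n ℂ) : Matrix n n ℂ :=
  mfun (fun x => ((SignType.sign x : ℝ) : ℂ)) Δ

theorem td_sign_le (x : ℝ) : 0 ≤ 1 - ((SignType.sign x : ℝ)) ∧ 0 ≤ 1 + ((SignType.sign x : ℝ)) := by
  rcases lt_trichotomy x 0 with h | h | h
  · rw [sign_neg h]; norm_num
  · rw [h, sign_zero]; norm_num
  · rw [sign_pos h]; norm_num

theorem one_sub_signMat_posSemidef {Δ : Matrix n n ℂ} (h : Δ.IsHermitian) :
    (1 - signMat Δ).PosSemidef := by
  have := mfun_posSemidef h (fun x => 1 - ((SignType.sign x : ℝ))) fun i => (td_sign_le _).1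
  have e : (fun x : ℝ => ((1 - ((SignType.sign x : ℝ)) : ℝ) : ℂ))
      = fun x : ℝ => (1 : ℂ) - ((SignType.sign x : ℝ) : ℂ) := by
    funext x; push_cast; rfl
  rw [e, mfun_sub, mfun_one h] at this
  exact this

theorem one_add_signMat_posSemidef {Δ : Matrix n n ℂ} (h : Δ.IsHermitian) :
    (1 + signMat Δ).PosSemidef := by
  have := mfun_posSemidef h (fun x => 1 + ((SignType.sign x : ℝ))) fun i => (td_sign_le _).2
  have e : (fun x : ℝ => ((1 + ((SignType.sign x : ℝ)) : ℝ) : ℂ))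
      = fun x : ℝ => (1 : ℂ) + ((SignType.sign x : ℝ) : ℂ) := by
    funext x; push_cast; rfl
  rw [e, mfun_add, mfun_one h] at this
  exact this

theorem signMat_isHermitian (Δ : Matrix n n ℂ) : (signMat Δ).IsHermitian :=
  mfun_isHermitian (fun x => (SignType.sign x : ℝ)) Δ

/-- duality (attained): `‖Δ‖₁ = Tr(sign(Δ) Δ)` -/
theorem trNormH_eq_trace_sign {Δ : Matrix n n ℂ} (h : Δ.IsHermitian) :
    trNormH Δ = (mfun (fun x => ((SignType.sign x : ℝ) : ℂ)) Δ * Δ).trace.re := by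
  unfold trNormH
  congr 2
  conv_rhs => rw [← mfun_id h]
  rw [mfun_id h]
  conv_rhs => rw [show mfun (fun x => ((SignType.sign x : ℝ) : ℂ)) Δ * Δ
    = mfun (fun x => ((SignType.sign x : ℝ) : ℂ)) Δ * mfun (fun x => (x : ℂ)) Δ by rw [mfun_id h]]
  rw [← mfun_mul]
  refine mfun_congr h fun i => ?_
  rw [← Complex.ofReal_mul, sign_mul_self]

theorem trNormH_add_le {Δ Δ' : Matrix n n ℂ} (h : Δ.IsHermitian) (h' : Δ'.IsHermitian) :
    trNormH (Δ + Δ') ≤ trNormH Δ + trNormH Δ' := by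
  have hs := h.add h'
  rw [trNormH_eq_trace_sign hs, Matrix.mul_add, Matrix.trace_add, Complex.add_re]
  exact add_le_add
    (re_trace_mul_le_trNormH h (one_sub_signMat_posSemidef hs) (one_add_signMat_posSemidef hs))
    (re_trace_mul_le_trNormH h' (one_sub_signMat_posSemidef hs) (one_add_signMat_posSemidef hs))

theorem trNormH_of_posSemidef {Δ : Matrix n n ℂ} (h : Δ.PosSemidef) :
    trNormH Δ = Δ.trace.re := by
  rw [trNormH_eq_sum h.1, trace_re_eq_sum_eigenvalues h.1]
  exact Finset.sum_congr rfl fun i _ => abs_of_nonneg (h.eigenvalues_nonneg i)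

theorem trNormH_zero : trNormH (0 : Matrix n n ℂ) = 0 :=
  (trNormH_eq_zero_iff isHermitian_zero).mpr rfl

theorem trDist_nonneg (ρ σ : Matrix n n ℂ) : 0 ≤ trDist ρ σ := by
  unfold trDist; have := trNormH_nonneg (ρ - σ); linarith

theorem trDist_comm (ρ σ : Matrix n n ℂ) : trDist ρ σ = trDist σ ρ := by
  unfold trDist; rw [← trNormH_neg, neg_sub]

theorem trDist_self (ρ : Matrix n n ℂ) : trDist ρ ρ = 0 := by
  unfold trDist; rw [sub_self, trNormH_zero]; simp

theorem trDist_triangle {ρ σ τ : Matrix n n ℂ} (hρ : ρ.IsHermitian) (hσ : σ.IsHermitian)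
    (hτ : τ.IsHermitian) : trDist ρ τ ≤ trDist ρ σ + trDist σ τ := by
  unfold trDist
  have := trNormH_add_le (hρ.sub hσ) (hσ.sub hτ)
  rw [sub_add_sub_cancel] at this
  linarith

theorem trDist_le_one {ρ σ : Matrix n n ℂ} (hρ : IsDensity ρ) (hσ : IsDensity σ) :
    trDist ρ σ ≤ 1 := by
  unfold trDist
  have h1 := trNormH_add_le hρ.1.1 hσ.1.1.neg
  rw [trNormH_neg, trNormH_of_posSemidef hρ.1, trNormH_of_posSemidef hσ.1, hρ.2, hσ.2,
    ← sub_eq_add_neg] at h1
  simp only [Complex.one_re] at h1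
  linarith

theorem eq_of_trDist_eq_zero {ρ σ : Matrix n n ℂ} (hρ : ρ.IsHermitian) (hσ : σ.IsHermitian)
    (h : trDist ρ σ = 0) : ρ = σ := by
  unfold trDist at h
  have h1 : trNormH (ρ - σ) = 0 := by linarith
  exact sub_eq_zero.mp ((trNormH_eq_zero_iff (hρ.sub hσ)).mp h1)

/-- the partial trace contracts the trace norm -/
theorem trNormH_ptrE_le (e : n ≃ m × r) {Δ : Matrix n n ℂ} (h : Δ.IsHermitian) :
    trNormH (ptrE e Δ) ≤ trNormH Δ := by
  have hp := ptrE_isHermitian e h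
  rw [trNormH_eq_trace_sign hp, Matrix.trace_mul_comm, ← trace_mul_embE, Matrix.trace_mul_comm]
  refine re_trace_mul_le_trNormH h ?_ ?_
  · have := embE_posSemidef e (one_sub_signMat_posSemidef hp)
    rwa [embE_sub, embE_one] at this
  · have := embE_posSemidef e (one_add_signMat_posSemidef hp)
    rwa [embE_add, embE_one] at this

/-- the partial trace contracts the trace distance -/
theorem trDist_ptrE_le (e : n ≃ m × r) {ρ σ : Matrix n n ℂ} (hρ : ρ.IsHermitian)
    (hσ : σ.IsHermitian) : trDist (ptrE e ρ) (ptrE e σ) ≤ trDist ρ σ := by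
  unfold trDist
  rw [← ptrE_sub]
  have := trNormH_ptrE_le e (hρ.sub hσ)
  linarith

/-- **Jordan decomposition** of the difference of two states (paper 1, proof of Lemma 1.1) -/
theorem exists_jordan {ρ σ : Matrix n n ℂ} (hρ : IsDensity ρ) (hσ : IsDensity σ)
    (hpos : 0 < trDist ρ σ) :
    ∃ τp τm : Matrix n n ℂ, IsDensity τp ∧ IsDensity τm ∧
      ρ + trDist ρ σ • τm = σ + trDist ρ σ • τp := by
  set δ := trDist ρ σ with hδ
  have hH : (ρ - σ).IsHermitian := hρ.1.1.sub hσ.1.1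
  have h1 := trace_posPart_add_negPart hH
  have h2 : (posPart (ρ - σ)).trace - (negPart (ρ - σ)).trace = 0 := by
    rw [← Matrix.trace_sub, posPart_sub_negPart hH, Matrix.trace_sub, hρ.2, hσ.2, sub_self]
  have h3 : (posPart (ρ - σ)).trace = (negPart (ρ - σ)).trace := sub_eq_zero.mp h2
  have him : (posPart (ρ - σ)).trace.im = 0 := by
    have := (posPart_posSemidef (ρ - σ)).trace_nonneg
    exact ((Complex.le_def.mp this).2).symm
  have hre : (posPart (ρ - σ)).trace.re = δ := by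
    rw [hδ]; unfold trDist
    rw [← h1, ← h3]; ring
  have htr : (posPart (ρ - σ)).trace = (δ : ℂ) := Complex.ext (by simpa using hre) (by simpa using him)
  have hδne : (δ : ℂ) ≠ 0 := by exact_mod_cast hpos.ne'
  refine ⟨δ⁻¹ • posPart (ρ - σ), δ⁻¹ • negPart (ρ - σ), ⟨?_, ?_⟩, ⟨?_, ?_⟩, ?_⟩
  · exact (posPart_posSemidef _).smul (by positivity)
  · rw [Matrix.trace_smul, htr, Complex.real_smul]
    push_cast
    exact inv_mul_cancel₀ hδne
  · exact (negPart_posSemidef _).smul (by positivity)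
  · rw [Matrix.trace_smul, ← h3, htr, Complex.real_smul]
    push_cast
    exact inv_mul_cancel₀ hδne
  · rw [smul_smul, smul_smul, mul_inv_cancel₀ hpos.ne', one_smul, one_smul]
    have := posPart_sub_negPart hH
    rw [sub_eq_iff_eq_add] at this
    rw [this]
    abel

/-! ### pure states -/

theorem td_cs (x z : n → ℂ) :
    ‖star x ⬝ᵥ z‖ ≤ Real.sqrt (∑ i, ‖x i‖ ^ 2) * Real.sqrt (∑ i, ‖z i‖ ^ 2) := by
  refine le_trans ?_ (Real.sum_mul_le_sqrt_mul_sqrt Finset.univ (fun i => ‖x i‖) fun i => ‖z i‖)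
  unfold dotProduct
  refine (norm_sum_le _ _).trans (le_of_eq ?_)
  refine Finset.sum_congr rfl fun i _ => ?_
  simp

theorem td_contraction {S : Matrix n n ℂ} (hS : (1 - Sᴴ * S).PosSemidef) (y : n → ℂ) :
    ∑ i, ‖(S *ᵥ y) i‖ ^ 2 ≤ ∑ i, ‖y i‖ ^ 2 := by
  have h1 := hS.dotProduct_mulVec_nonneg y
  rw [Matrix.sub_mulVec, Matrix.one_mulVec, dotProduct_sub, ← Matrix.mulVec_mulVec,
    Matrix.dotProduct_mulVec, Matrix.vecMul_conjTranspose, star_star] at h1
  rw [star_dotProduct_self_eq, star_dotProduct_self_eq, ← Complex.ofReal_sub] at h1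
  have h2 : (0 : ℝ) ≤ ∑ i, ‖y i‖ ^ 2 - ∑ i, ‖(S *ᵥ y) i‖ ^ 2 := by exact_mod_cast h1
  linarith

theorem td_trace_mul_pureOp (S : Matrix n n ℂ) (ξ : n → ℂ) :
    (S * pureOp ξ).trace = star ξ ⬝ᵥ (S *ᵥ ξ) := by
  simp only [Matrix.trace, Matrix.diag_apply, Matrix.mul_apply, pureOp_apply, dotProduct,
    Matrix.mulVec, Pi.star_apply, Finset.mul_sum]
  refine Finset.sum_congr rfl fun i _ => Finset.sum_congr rfl fun j _ => ?_
  ring

/-- the trace distance of two pure states is at most the distance of the unit vectors -/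
theorem trDist_pureOp_le {ξ η : n → ℂ} (hξ : ∑ i, ‖ξ i‖ ^ 2 = 1) (hη : ∑ i, ‖η i‖ ^ 2 = 1) :
    trDist (pureOp ξ) (pureOp η) ≤ Real.sqrt (∑ i, ‖ξ i - η i‖ ^ 2) := by
  have hH : (pureOp ξ - pureOp η).IsHermitian :=
    (pureOp_posSemidef ξ).1.sub (pureOp_posSemidef η).1
  set S := signMat (pureOp ξ - pureOp η) with hSdef
  have hS : (1 - Sᴴ * S).PosSemidef := by
    have h1 := mfun_posSemidef hH
      (fun x => 1 - (SignType.sign x : ℝ) * (SignType.sign x : ℝ)) fun i => by
        have := td_sign_le (hH.eigenvalues i)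
        nlinarith [this.1, this.2]
    have e : (fun x : ℝ => ((1 - (SignType.sign x : ℝ) * (SignType.sign x : ℝ) : ℝ) : ℂ))
        = fun x : ℝ => (1 : ℂ) - ((SignType.sign x : ℝ) : ℂ) * ((SignType.sign x : ℝ) : ℂ) := by
      funext x; push_cast; rfl
    rw [e, mfun_sub, mfun_one hH, mfun_mul] at h1
    rw [(signMat_isHermitian _).eq]
    exact h1
  have e1 : trNormH (pureOp ξ - pureOp η)
      = (star ξ ⬝ᵥ (S *ᵥ ξ) - star η ⬝ᵥ (S *ᵥ η)).re := by
    rw [trNormH_eq_trace_sign hH, Matrix.mul_sub, Matrix.trace_sub, ← td_trace_mul_pureOp,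
      ← td_trace_mul_pureOp]
    rfl
  have e2 : star ξ ⬝ᵥ (S *ᵥ ξ) - star η ⬝ᵥ (S *ᵥ η)
      = star (ξ - η) ⬝ᵥ (S *ᵥ ξ) + star η ⬝ᵥ (S *ᵥ (ξ - η)) := by
    rw [star_sub, sub_dotProduct, Matrix.mulVec_sub, dotProduct_sub]; ring
  set d := Real.sqrt (∑ i, ‖ξ i - η i‖ ^ 2) with hd
  have hd0 : 0 ≤ d := Real.sqrt_nonneg _
  have b1 : ‖star (ξ - η) ⬝ᵥ (S *ᵥ ξ)‖ ≤ d := by
    refine (td_cs _ _).trans ?_
    have : Real.sqrt (∑ i, ‖(S *ᵥ ξ) i‖ ^ 2) ≤ 1 := by
      rw [Real.sqrt_le_left (by norm_num : (0 : ℝ) ≤ 1)]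
      simpa using (td_contraction hS ξ).trans hξ.le
    calc _ ≤ d * 1 := by
          apply mul_le_mul (le_of_eq (by simp [hd])) this (Real.sqrt_nonneg _) hd0
      _ = d := mul_one d
  have b2 : ‖star η ⬝ᵥ (S *ᵥ (ξ - η))‖ ≤ d := by
    refine (td_cs _ _).trans ?_
    rw [hη, Real.sqrt_one, one_mul]
    refine Real.sqrt_le_sqrt ?_
    exact (td_contraction hS (ξ - η)).trans (le_of_eq (by simp))
  unfold trDist
  rw [e1, e2, Complex.add_re]
  have c1 := (Complex.re_le_norm (star (ξ - η) ⬝ᵥ (S *ᵥ ξ))).trans b1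
  have c2 := (Complex.re_le_norm (star η ⬝ᵥ (S *ᵥ (ξ - η)))).trans b2
  linarith

end TrDist

end Claimed.Agent.R296
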