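import Mathlib
import Claimed.Agent.R296.Defs
import Claimed.Agent.R296.EntBasic
import Claimed.Agent.R296.EntPtr
import Claimed.Agent.R296.EntSub
import Claimed.Agent.R296.EntAfwFun
import Claimed.Agent.R296.EntTrDist

/-!
# Row 296, ENT-BASE 5c: Alicki-Fannes-Winter continuity on abstract products

Paper 1, Lemma 1.1 (`lem:continuity`) on `a × b`.
-/

set_option autoImplicit false
set_option linter.unusedSectionVars false
set_option linter.unusedSimpArgs false

namespace Claimed.Agent.R296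

open Matrix
open scoped ComplexOrder Kronecker

/-! ### Alicki-Fannes-Winter -/

section AFW

variable {a b n : Type} [Fintype a] [DecidableEq a] [Fintype b] [DecidableEq b]
  [Fintype n] [DecidableEq n]

theorem afw_weights {δ : ℝ} (hδ : 0 ≤ δ) :
    0 ≤ (1 + δ)⁻¹ ∧ 0 ≤ δ * (1 + δ)⁻¹ ∧ (1 + δ)⁻¹ + δ * (1 + δ)⁻¹ = 1 ∧
      Real.negMulLog (1 + δ)⁻¹ + Real.negMulLog (δ * (1 + δ)⁻¹)
        = Real.binEntropy (δ / (1 + δ)) := by
  have h1 : (0 : ℝ) < 1 + δ := by linarith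
  refine ⟨by positivity, by positivity, by field_simp, ?_⟩
  rw [Real.binEntropy_eq_negMulLog_add_negMulLog_one_sub, div_eq_mul_inv]
  have : 1 - δ * (1 + δ)⁻¹ = (1 + δ)⁻¹ := by field_simp; ring
  rw [this, add_comm]

theorem cEnt_afw_aux {ρ σ τp τm : Matrix (a × b) (a × b) ℂ} (hρ : IsDensity ρ)
    (hσ : IsDensity σ) (hp : IsDensity τp) (hm : IsDensity τm) {δ : ℝ} (hδ : 0 ≤ δ)
    (h : ρ + δ • τm = σ + δ • τp) :
    cEnt ρ - cEnt σ ≤ afwFun δ (Real.log (Fintype.card a)) := by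
  obtain ⟨ht, hu, htu, hH⟩ := afw_weights hδ
  set t := (1 + δ)⁻¹ with ht_def
  set u := δ * (1 + δ)⁻¹ with hu_def
  have h1 : (0 : ℝ) < 1 + δ := by linarith
  have hω : t • ρ + u • τm = t • σ + u • τp := by
    have h2 : t • (ρ + δ • τm) = t • (σ + δ • τp) := by rw [h]
    simpa [smul_add, smul_smul, hu_def, mul_comm] using h2
  have lower := cEnt_mix_lower ![t, u] ![ρ, τm]
    (by intro j; fin_cases j <;> simp [ht, hu]) (by simp [Fin.sum_univ_two, htu])
    (by intro j; fin_cases j <;> simp [hρ, hm])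
  have upper := cEnt_mix_upper ![t, u] ![σ, τp]
    (by intro j; fin_cases j <;> simp [ht, hu]) (by simp [Fin.sum_univ_two, htu])
    (by intro j; fin_cases j <;> simp [hσ, hp])
  simp only [Fin.sum_univ_two, Matrix.cons_val_zero, Matrix.cons_val_one] at lower upper
  rw [hω] at lower
  rw [hH] at upper
  have b1 := cEnt_le_log_card τp hp
  have b2 := neg_log_card_le_cEnt τm hm
  set L := Real.log (Fintype.card a) with hL
  have h3 : t * (cEnt ρ - cEnt σ) ≤ u * (2 * L) + Real.binEntropy (δ / (1 + δ)) := by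
    have : u * (cEnt τp - cEnt τm) ≤ u * (2 * L) := mul_le_mul_of_nonneg_left (by linarith) hu
    nlinarith
  have h4 : (1 + δ) * (t * (cEnt ρ - cEnt σ))
      ≤ (1 + δ) * (u * (2 * L) + Real.binEntropy (δ / (1 + δ))) :=
    mul_le_mul_of_nonneg_left h3 h1.le
  have h5 : (1 + δ) * t = 1 := by rw [ht_def]; field_simp
  have h6 : (1 + δ) * u = δ := by rw [hu_def]; field_simp
  have h7 : (1 + δ) * (t * (cEnt ρ - cEnt σ)) = cEnt ρ - cEnt σ := by
    rw [← mul_assoc, h5, one_mul]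
  have h8 : (1 + δ) * (u * (2 * L) + Real.binEntropy (δ / (1 + δ)))
      = 2 * δ * L + (1 + δ) * Real.binEntropy (δ / (1 + δ)) := by
    rw [mul_add, ← mul_assoc, h6]; ring
  rw [h7, h8] at h4
  exact h4

/-- norm-free form of the AFW argument -/
theorem cEnt_afw_of_decomp {ρ σ τp τm : Matrix (a × b) (a × b) ℂ} (hρ : IsDensity ρ)
    (hσ : IsDensity σ) (hp : IsDensity τp) (hm : IsDensity τm) {δ : ℝ} (hδ : 0 ≤ δ)
    (h : ρ + δ • τm = σ + δ • τp) :
    |cEnt ρ - cEnt σ| ≤ afwFun δ (Real.log (Fintype.card a)) := by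
  rw [abs_le]
  have h1 := cEnt_afw_aux hρ hσ hp hm hδ h
  have h2 := cEnt_afw_aux hσ hρ hm hp hδ h.symm
  constructor <;> linarith

/-- **Lemma 1.1 of paper 1** (`lem:continuity`), first inequality -/
theorem cEnt_afw {ρ σ : Matrix (a × b) (a × b) ℂ} (hρ : IsDensity ρ) (hσ : IsDensity σ) {δ : ℝ}
    (h : trDist ρ σ ≤ δ) : |cEnt ρ - cEnt σ| ≤ afwFun δ (Real.log (Fintype.card a)) := by
  have hL : 0 ≤ Real.log (Fintype.card a) := Real.log_natCast_nonneg _
  rcases (trDist_nonneg ρ σ).eq_or_lt with h0 | hpos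
  · have : ρ = σ := eq_of_trDist_eq_zero hρ.1.1 hσ.1.1 h0.symm
    subst this
    simpa using afwFun_nonneg (h0.le.trans h) hL
  · obtain ⟨τp, τm, hp, hm, hdec⟩ := exists_jordan hρ hσ hpos
    exact (cEnt_afw_of_decomp hρ hσ hp hm hpos.le hdec).trans (afwFun_mono hpos.le h hL)

theorem vnEnt_afw_aux {ρ σ τp τm : Matrix n n ℂ} (hρ : IsDensity ρ)
    (hσ : IsDensity σ) (hp : IsDensity τp) (hm : IsDensity τm) {δ : ℝ} (hδ : 0 ≤ δ)
    (h : ρ + δ • τm = σ + δ • τp) :
    vnEnt ρ - vnEnt σ ≤ afwFun δ (Real.log (Fintype.card n)) := by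
  obtain ⟨ht, hu, htu, hH⟩ := afw_weights hδ
  set t := (1 + δ)⁻¹ with ht_def
  set u := δ * (1 + δ)⁻¹ with hu_def
  have h1 : (0 : ℝ) < 1 + δ := by linarith
  have hω : t • ρ + u • τm = t • σ + u • τp := by
    have h2 : t • (ρ + δ • τm) = t • (σ + δ • τp) := by rw [h]
    simpa [smul_add, smul_smul, hu_def, mul_comm] using h2
  have lower := vnEnt_mix_lower ![t, u] ![ρ, τm]
    (by intro j; fin_cases j <;> simp [ht, hu]) (by simp [Fin.sum_univ_two, htu])
    (by intro j; fin_cases j <;> simp [hρ, hm])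
  have upper := vnEnt_mix_upper ![t, u] ![σ, τp]
    (by intro j; fin_cases j <;> simp [ht, hu]) (by simp [Fin.sum_univ_two, htu])
    (by intro j; fin_cases j <;> simp [hσ, hp])
  simp only [Fin.sum_univ_two, Matrix.cons_val_zero, Matrix.cons_val_one] at lower upper
  rw [hω] at lower
  rw [hH] at upper
  have b1 := vnEnt_le_log_card hp
  have b2 := vnEnt_nonneg hm
  set L := Real.log (Fintype.card n) with hL
  have hL0 : 0 ≤ L := Real.log_natCast_nonneg _
  have h3 : t * (vnEnt ρ - vnEnt σ) ≤ u * (2 * L) + Real.binEntropy (δ / (1 + δ)) := by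
    have : u * (vnEnt τp - vnEnt τm) ≤ u * (2 * L) := mul_le_mul_of_nonneg_left (by linarith) hu
    nlinarith
  have h4 : (1 + δ) * (t * (vnEnt ρ - vnEnt σ))
      ≤ (1 + δ) * (u * (2 * L) + Real.binEntropy (δ / (1 + δ))) :=
    mul_le_mul_of_nonneg_left h3 h1.le
  have h5 : (1 + δ) * t = 1 := by rw [ht_def]; field_simp
  have h6 : (1 + δ) * u = δ := by rw [hu_def]; field_simp
  have h7 : (1 + δ) * (t * (vnEnt ρ - vnEnt σ)) = vnEnt ρ - vnEnt σ := by
    rw [← mul_assoc, h5, one_mul]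
  have h8 : (1 + δ) * (u * (2 * L) + Real.binEntropy (δ / (1 + δ)))
      = 2 * δ * L + (1 + δ) * Real.binEntropy (δ / (1 + δ)) := by
    rw [mul_add, ← mul_assoc, h6]; ring
  rw [h7, h8] at h4
  exact h4

/-- norm-free form for the plain entropy -/
theorem vnEnt_afw_of_decomp {ρ σ τp τm : Matrix n n ℂ} (hρ : IsDensity ρ)
    (hσ : IsDensity σ) (hp : IsDensity τp) (hm : IsDensity τm) {δ : ℝ} (hδ : 0 ≤ δ)
    (h : ρ + δ • τm = σ + δ • τp) :
    |vnEnt ρ - vnEnt σ| ≤ afwFun δ (Real.log (Fintype.card n)) := by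
  rw [abs_le]
  have h1 := vnEnt_afw_aux hρ hσ hp hm hδ h
  have h2 := vnEnt_afw_aux hσ hρ hm hp hδ h.symm
  constructor <;> linarith

/-- the same estimate for `S(D)` (trivial `E`) -/
theorem vnEnt_afw {ρ σ : Matrix n n ℂ} (hρ : IsDensity ρ) (hσ : IsDensity σ) {δ : ℝ}
    (h : trDist ρ σ ≤ δ) : |vnEnt ρ - vnEnt σ| ≤ afwFun δ (Real.log (Fintype.card n)) := by
  have hL : 0 ≤ Real.log (Fintype.card n) := Real.log_natCast_nonneg _
  rcases (trDist_nonneg ρ σ).eq_or_lt with h0 | hpos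
  · have : ρ = σ := eq_of_trDist_eq_zero hρ.1.1 hσ.1.1 h0.symm
    subst this
    simpa using afwFun_nonneg (h0.le.trans h) hL
  · obtain ⟨τp, τm, hp, hm, hdec⟩ := exists_jordan hρ hσ hpos
    exact (vnEnt_afw_of_decomp hρ hσ hp hm hpos.le hdec).trans (afwFun_mono hpos.le h hL)

end AFW

end Claimed.Agent.R296
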