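import Mathlib
import Claimed.Agent.R296.EntSite
import Claimed.Agent.R296.EntAFW

/-!
# Row 296, ENT-BASE 6c: mixtures and Alicki-Fannes-Winter continuity on sites (E3, FAN)
-/

set_option autoImplicit false
set_option linter.unusedSectionVars false
set_option linter.unusedSimpArgs false

namespace Claimed.Agent.R296

open Matrix
open scoped ComplexOrder Kronecker

section Site

variable {s : Type} [DecidableEq s] [Fintype s] {io : s → Type}
  [∀ x, Fintype (io x)] [∀ x, DecidableEq (io x)]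

/-! ### mixtures -/

theorem centr_eq_cEnt (ρ : Matrix (Cfg io) (Cfg io) ℂ) (D E : Finset s) :
    centr ρ D E = cEnt (ptrE (cfgSplit2 (D \ E) E Finset.sdiff_disjoint) ρ) := by
  rw [cEnt_split2]
  unfold centr
  rw [Finset.sdiff_union_self_eq_union]

theorem ptrE_convex_sum {n m r k : Type} [Fintype n] [DecidableEq n] [Fintype m] [DecidableEq m]
    [Fintype r] [DecidableEq r] [Fintype k] (e : n ≃ m × r) (p : k → ℝ)
    (τ : k → Matrix n n ℂ) : ptrE e (∑ j, p j • τ j) = ∑ j, p j • ptrE e (τ j) := by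
  rw [ptrE_sum]
  exact Finset.sum_congr rfl fun j _ => ptrE_rsmul e _ _

theorem ent_mix_lower {k : Type} [Fintype k] [DecidableEq k] (p : k → ℝ)
    (τ : k → Matrix (Cfg io) (Cfg io) ℂ) (hp : ∀ j, 0 ≤ p j) (hsum : ∑ j, p j = 1)
    (hτ : ∀ j, IsDensity (τ j)) (A : Finset s) :
    ∑ j, p j * ent (τ j) A ≤ ent (∑ j, p j • τ j) A := by
  unfold ent
  simp only [ptr_eq_ptrE]
  rw [ptrE_convex_sum]
  exact vnEnt_mix_lower p _ hp hsum fun j => ptrE_isDensity _ (hτ j)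

theorem ent_mix_upper {k : Type} [Fintype k] [DecidableEq k] (p : k → ℝ)
    (τ : k → Matrix (Cfg io) (Cfg io) ℂ) (hp : ∀ j, 0 ≤ p j) (hsum : ∑ j, p j = 1)
    (hτ : ∀ j, IsDensity (τ j)) (A : Finset s) :
    ent (∑ j, p j • τ j) A ≤ ∑ j, p j * ent (τ j) A + ∑ j, Real.negMulLog (p j) := by
  unfold ent
  simp only [ptr_eq_ptrE]
  rw [ptrE_convex_sum]
  exact vnEnt_mix_upper p _ hp hsum fun j => ptrE_isDensity _ (hτ j)

theorem centr_mix_lower {k : Type} [Fintype k] [DecidableEq k] (p : k → ℝ)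
    (τ : k → Matrix (Cfg io) (Cfg io) ℂ) (hp : ∀ j, 0 ≤ p j) (hsum : ∑ j, p j = 1)
    (hτ : ∀ j, IsDensity (τ j)) (D E : Finset s) :
    ∑ j, p j * centr (τ j) D E ≤ centr (∑ j, p j • τ j) D E := by
  simp only [centr_eq_cEnt]
  rw [ptrE_convex_sum]
  exact cEnt_mix_lower p _ hp hsum fun j => ptrE_isDensity _ (hτ j)

theorem centr_mix_upper {k : Type} [Fintype k] [DecidableEq k] (p : k → ℝ)
    (τ : k → Matrix (Cfg io) (Cfg io) ℂ) (hp : ∀ j, 0 ≤ p j) (hsum : ∑ j, p j = 1)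
    (hτ : ∀ j, IsDensity (τ j)) (D E : Finset s) :
    centr (∑ j, p j • τ j) D E ≤ ∑ j, p j * centr (τ j) D E + ∑ j, Real.negMulLog (p j) := by
  simp only [centr_eq_cEnt]
  rw [ptrE_convex_sum]
  exact cEnt_mix_upper p _ hp hsum fun j => ptrE_isDensity _ (hτ j)

/-! ### (E3) Alicki-Fannes-Winter on sites (paper 1, Lemma 1.1) -/

theorem centr_afw {ρ σ : Matrix (Cfg io) (Cfg io) ℂ} (hρ : IsDensity ρ) (hσ : IsDensity σ)
    {δ : ℝ} (h : trDist ρ σ ≤ δ) (D E : Finset s) :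
    |centr ρ D E - centr σ D E| ≤ afwFun δ (logDim io D) := by
  rw [centr_eq_cEnt, centr_eq_cEnt]
  have h1 := cEnt_afw (ptrE_isDensity (cfgSplit2 (D \ E) E Finset.sdiff_disjoint) hρ)
    (ptrE_isDensity _ hσ) ((trDist_ptrE_le _ hρ.1.1 hσ.1.1).trans h)
  refine h1.trans (afwFun_mono_right ((trDist_nonneg ρ σ).trans h) ?_)
  exact (log_card_cfgOn_le _).trans (logDim_mono Finset.sdiff_subset)

theorem ent_afw {ρ σ : Matrix (Cfg io) (Cfg io) ℂ} (hρ : IsDensity ρ) (hσ : IsDensity σ)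
    {δ : ℝ} (h : trDist ρ σ ≤ δ) (D : Finset s) :
    |ent ρ D - ent σ D| ≤ afwFun δ (logDim io D) := by
  unfold ent
  simp only [ptr_eq_ptrE]
  have h1 := vnEnt_afw (ptrE_isDensity (cfgSplit D) hρ)
    (ptrE_isDensity _ hσ) ((trDist_ptrE_le _ hρ.1.1 hσ.1.1).trans h)
  exact h1.trans (afwFun_mono_right ((trDist_nonneg ρ σ).trans h) (log_card_cfgOn_le _))

theorem minfo_afw {ρ σ : Matrix (Cfg io) (Cfg io) ℂ} (hρ : IsDensity ρ) (hσ : IsDensity σ)
    {δ : ℝ} (h : trDist ρ σ ≤ δ) (D E : Finset s) :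
    |minfo ρ D E - minfo σ D E| ≤ 2 * afwFun δ (logDim io D) := by
  have h1 := ent_afw hρ hσ h D
  have h2 := centr_afw hρ hσ h D E
  have e : minfo ρ D E - minfo σ D E
      = (ent ρ D - ent σ D) - (centr ρ D E - centr σ D E) := by
    unfold minfo centr; ring
  rw [e]
  have := abs_sub (ent ρ D - ent σ D) (centr ρ D E - centr σ D E)
  linarith

/-- (FAN) continuity for pure states in terms of the distance of the vectors -/
theorem ent_afw_pureOp {ξ η : Cfg io → ℂ} (hξ : ∑ i, ‖ξ i‖ ^ 2 = 1) (hη : ∑ i, ‖η i‖ ^ 2 = 1)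
    {ε : ℝ} (h : Real.sqrt (∑ i, ‖ξ i - η i‖ ^ 2) ≤ ε) (D : Finset s) :
    |ent (pureOp ξ) D - ent (pureOp η) D| ≤ afwFun ε (logDim io D) :=
  ent_afw (pureOp_isDensity hξ) (pureOp_isDensity hη) ((trDist_pureOp_le hξ hη).trans h) D

end Site

end Claimed.Agent.R296
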