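import Mathlib

/-!
# Row 296, BB_LR (4b): order facts in an abstract unital C⋆-algebra

* `lr_sqrt_holder` : `‖√U - √V‖ ≤ √‖U - V‖`;
* `lr_le_abs` : `M ≤ |M|`;
* `lr_kraus_norm_le` : unital Kraus maps are contractions (Kadison-Schwarz by a sum of squares).
-/

set_option autoImplicit false

namespace Claimed.Agent.R296

section Spec

variable {A : Type*} [CStarAlgebra A] [PartialOrder A] [StarOrderedRing A]

/-! ### order facts -/

/-- a self-adjoint element between `-r` and `r` has norm at most `r` -/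
theorem lr_norm_le_of_mem_Icc {x : A} (hx : IsSelfAdjoint x) {r : ℝ}
    (h1 : algebraMap ℝ A (-r) ≤ x) (h2 : x ≤ algebraMap ℝ A r) (hr : 0 ≤ r) : ‖x‖ ≤ r := by
  rcases subsingleton_or_nontrivial A with hA | hA
  · rw [Subsingleton.elim x 0]; simpa using hr
  · rw [algebraMap_le_iff_le_spectrum hx] at h1
    rw [le_algebraMap_iff_spectrum_le hx] at h2
    rcases CStarAlgebra.norm_or_neg_norm_mem_spectrum hx with h | h
    · exact h2 _ h
    · have := h1 _ h
      linarith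

/-- `√U ≤ √V + √‖U - V‖` -/
theorem lr_sqrt_le_add {U V : A} (hU : 0 ≤ U) (hV : 0 ≤ V) :
    CFC.sqrt U ≤ CFC.sqrt V + algebraMap ℝ A (Real.sqrt ‖U - V‖) := by
  set d : ℝ := ‖U - V‖ with hd
  have hd0 : 0 ≤ d := norm_nonneg _
  have hsa : IsSelfAdjoint (U - V) := (IsSelfAdjoint.of_nonneg hU).sub (IsSelfAdjoint.of_nonneg hV)
  have h1 : U ≤ V + algebraMap ℝ A d := by
    have := hsa.le_algebraMap_norm_self
    rw [← hd] at this
    calc U = V + (U - V) := by abel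
      _ ≤ V + algebraMap ℝ A d := by gcongr
  have hs0 : (0 : A) ≤ algebraMap ℝ A (Real.sqrt d) := by
    exact algebraMap_nonneg A (Real.sqrt_nonneg d)
  have hW : (0 : A) ≤ CFC.sqrt V + algebraMap ℝ A (Real.sqrt d) :=
    add_nonneg (CFC.sqrt_nonneg V) hs0
  have h2 : V + algebraMap ℝ A d
      ≤ (CFC.sqrt V + algebraMap ℝ A (Real.sqrt d)) * (CFC.sqrt V + algebraMap ℝ A (Real.sqrt d)) := by
    have e1 : (CFC.sqrt V + algebraMap ℝ A (Real.sqrt d)) * (CFC.sqrt V + algebraMap ℝ A (Real.sqrt d))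
        = V + algebraMap ℝ A d + (2 * Real.sqrt d) • CFC.sqrt V := by
      have e2 : algebraMap ℝ A (Real.sqrt d) * algebraMap ℝ A (Real.sqrt d) = algebraMap ℝ A d := by
        rw [← map_mul, Real.mul_self_sqrt hd0]
      have e3 : CFC.sqrt V * CFC.sqrt V = V := CFC.sqrt_mul_sqrt_self V hV
      rw [add_mul, mul_add, mul_add, e2, e3, ← Algebra.commutes, ← Algebra.smul_def, two_mul,
        add_smul]
      abel
    rw [e1]
    have : (0 : A) ≤ (2 * Real.sqrt d) • CFC.sqrt V :=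
      smul_nonneg (by positivity) (CFC.sqrt_nonneg V)
    exact le_add_of_nonneg_right this
  calc CFC.sqrt U ≤ CFC.sqrt ((CFC.sqrt V + algebraMap ℝ A (Real.sqrt d))
        * (CFC.sqrt V + algebraMap ℝ A (Real.sqrt d))) := CFC.sqrt_le_sqrt _ _ (h1.trans h2)
    _ = CFC.sqrt V + algebraMap ℝ A (Real.sqrt d) := CFC.sqrt_mul_self _ hW

/-- eq. (quasilocal-square-root) -/
theorem lr_sqrt_holder {U V : A} (hU : 0 ≤ U) (hV : 0 ≤ V) :
    ‖CFC.sqrt U - CFC.sqrt V‖ ≤ Real.sqrt ‖U - V‖ := by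
  have hsa : IsSelfAdjoint (CFC.sqrt U - CFC.sqrt V) :=
    (IsSelfAdjoint.of_nonneg (CFC.sqrt_nonneg U)).sub (IsSelfAdjoint.of_nonneg (CFC.sqrt_nonneg V))
  refine lr_norm_le_of_mem_Icc hsa ?_ ?_ (Real.sqrt_nonneg _)
  · have := lr_sqrt_le_add hV hU
    rw [norm_sub_rev] at this
    rw [map_neg, neg_le_sub_iff_le_add]
    exact this
  · have := lr_sqrt_le_add hU hV
    rw [sub_le_iff_le_add']
    exact this

theorem lr_le_abs {M : A} (hM : IsSelfAdjoint M) : M ≤ CFC.abs M := by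
  rw [← sub_nonneg, CFC.abs_sub_self M hM]
  exact smul_nonneg (by norm_num) (CFC.negPart_nonneg M)

theorem lr_norm_abs (M : A) : ‖CFC.abs M‖ = ‖M‖ := CFC.norm_abs

/-- `|M| P = 0` if `M P = 0` -/
theorem lr_abs_mul_eq_zero {M P : A} (h : M * P = 0) : CFC.abs M * P = 0 := by
  rw [← CStarRing.star_mul_self_eq_zero_iff, star_mul,
    (IsSelfAdjoint.of_nonneg (CFC.abs_nonneg M)).star_eq]
  calc star P * CFC.abs M * (CFC.abs M * P) = star P * (CFC.abs M * CFC.abs M) * P := by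
        simp only [mul_assoc]
    _ = star P * star M * (M * P) := by rw [CFC.abs_mul_abs]; simp only [mul_assoc]
    _ = 0 := by rw [h, mul_zero]

/-- `‖ |M| - |N| ‖ ≤ √((‖M‖ + ‖N‖) ‖M - N‖)` for self-adjoint `M`, `N` -/
theorem lr_abs_sub_abs_le {M N : A} (hM : IsSelfAdjoint M) (hN : IsSelfAdjoint N) :
    ‖CFC.abs M - CFC.abs N‖ ≤ Real.sqrt ((‖M‖ + ‖N‖) * ‖M - N‖) := by
  have h1 : ‖CFC.abs M - CFC.abs N‖ ≤ Real.sqrt ‖star M * M - star N * N‖ :=
    lr_sqrt_holder (star_mul_self_nonneg M) (star_mul_self_nonneg N)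
  refine h1.trans (Real.sqrt_le_sqrt ?_)
  rw [hM.star_eq, hN.star_eq]
  have e : M * M - N * N = M * (M - N) + (M - N) * N := by
    rw [mul_sub, sub_mul]; abel
  rw [e]
  calc ‖M * (M - N) + (M - N) * N‖ ≤ ‖M * (M - N)‖ + ‖(M - N) * N‖ := norm_add_le _ _
    _ ≤ ‖M‖ * ‖M - N‖ + ‖M - N‖ * ‖N‖ := add_le_add (norm_mul_le _ _) (norm_mul_le _ _)
    _ = (‖M‖ + ‖N‖) * ‖M - N‖ := by ring

/-- `√k P = 0` if `k P = 0`, `k ≥ 0` -/
theorem lr_sqrt_mul_eq_zero {k P : A} (hk : 0 ≤ k) (h : k * P = 0) : CFC.sqrt k * P = 0 := by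
  rw [← CStarRing.star_mul_self_eq_zero_iff, star_mul,
    (IsSelfAdjoint.of_nonneg (CFC.sqrt_nonneg k)).star_eq]
  calc star P * CFC.sqrt k * (CFC.sqrt k * P) = star P * (CFC.sqrt k * CFC.sqrt k) * P := by
        simp only [mul_assoc]
    _ = star P * (k * P) := by rw [CFC.sqrt_mul_sqrt_self k hk]; simp only [mul_assoc]
    _ = 0 := by rw [h, mul_zero]

/-- `√(1-k) P = P` if `k P = 0`, `0 ≤ k ≤ 1` -/
theorem lr_sqrt_one_sub_mul {k P : A} (hk : 0 ≤ k) (hk1 : k ≤ 1) (h : k * P = 0) :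
    CFC.sqrt (1 - k) * P = P := by
  set s : A := CFC.sqrt (1 - k) with hs
  have hs0 : 0 ≤ s := CFC.sqrt_nonneg _
  have hss : s * s = 1 - k := CFC.sqrt_mul_sqrt_self _ (sub_nonneg.mpr hk1)
  have hu : IsUnit (1 + s) :=
    CStarAlgebra.isUnit_of_le (1 : A) (le_add_of_nonneg_right hs0)
  have h1 : (1 + s) * (P - s * P) = 0 := by
    calc (1 + s) * (P - s * P) = P - (s * s) * P := by
          rw [add_mul, mul_sub, mul_sub, one_mul, one_mul, mul_assoc]; abel
      _ = k * P := by rw [hss, sub_mul, one_mul]; abel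
      _ = 0 := h
  have h2 : P - s * P = 0 := (hu.mul_right_eq_zero).mp h1
  exact (sub_eq_zero.mp h2).symm

/-- Kadison-Schwarz for Kraus maps:
`Φ(B)⋆ Φ(B) ≤ Φ(B⋆ B)`; proof: `∑ (B K_i - K_i Y)⋆ (B K_i - K_i Y) = Φ(B⋆B) - Y⋆Y`, `Y = Φ(B)`. -/
theorem lr_kraus_kadison_schwarz {ι : Type*} [Fintype ι] (K : ι → A)
    (hK : ∑ i, star (K i) * K i = 1) (B : A) :
    star (∑ i, star (K i) * B * K i) * (∑ i, star (K i) * B * K i)
      ≤ ∑ i, star (K i) * (star B * B) * K i := by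
  set Y : A := ∑ i, star (K i) * B * K i with hY
  have hYs : star Y = ∑ i, star (K i) * star B * K i := by
    rw [hY, star_sum]
    refine Finset.sum_congr rfl fun i _ => ?_
    simp only [star_mul, star_star, mul_assoc]
  have key : ∑ i, star (B * K i - K i * Y) * (B * K i - K i * Y)
      = ∑ i, star (K i) * (star B * B) * K i - star Y * Y := by
    have e : ∀ i, star (B * K i - K i * Y) * (B * K i - K i * Y)
        = star (K i) * (star B * B) * K i - (star (K i) * star B * K i) * Y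
          - star Y * (star (K i) * B * K i) + star Y * (star (K i) * K i) * Y := by
      intro i
      simp only [star_sub, star_mul, sub_mul, mul_sub, mul_assoc]
      abel
    simp_rw [e]
    rw [Finset.sum_add_distrib, Finset.sum_sub_distrib, Finset.sum_sub_distrib,
      ← Finset.sum_mul, ← Finset.mul_sum, ← Finset.sum_mul, ← Finset.mul_sum, hK, ← hYs, ← hY,
      mul_one]
    abel
  rw [← sub_nonneg, ← key]
  exact Finset.sum_nonneg fun i _ => star_mul_self_nonneg _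

theorem lr_kraus_nonneg {ι : Type*} [Fintype ι] (K : ι → A) {B : A} (hB : 0 ≤ B) :
    0 ≤ ∑ i, star (K i) * B * K i :=
  Finset.sum_nonneg fun i _ => star_left_conjugate_nonneg hB (K i)

/-- unital Kraus maps are contractions -/
theorem lr_kraus_norm_le {ι : Type*} [Fintype ι] (K : ι → A)
    (hK : ∑ i, star (K i) * K i = 1) (B : A) : ‖∑ i, star (K i) * B * K i‖ ≤ ‖B‖ := by
  set Y : A := ∑ i, star (K i) * B * K i with hY
  have h1 : star Y * Y ≤ ∑ i, star (K i) * (star B * B) * K i :=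
    lr_kraus_kadison_schwarz K hK B
  have h2 : ∑ i, star (K i) * (star B * B) * K i ≤ algebraMap ℝ A (‖B‖ ^ 2) := by
    have h3 : star B * B ≤ algebraMap ℝ A (‖B‖ ^ 2) := CStarAlgebra.star_mul_le_algebraMap_norm_sq
    have h4 : ∑ i, star (K i) * (algebraMap ℝ A (‖B‖ ^ 2)) * K i = algebraMap ℝ A (‖B‖ ^ 2) := by
      have : ∀ i, star (K i) * (algebraMap ℝ A (‖B‖ ^ 2)) * K i
          = algebraMap ℝ A (‖B‖ ^ 2) * (star (K i) * K i) := by
        intro i
        rw [← Algebra.commutes, mul_assoc]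
      simp_rw [this]
      rw [← Finset.mul_sum, hK, mul_one]
    rw [← h4]
    exact Finset.sum_le_sum fun i _ => star_left_conjugate_le_conjugate h3 (K i)
  have h5 : ‖star Y * Y‖ ≤ ‖B‖ ^ 2 :=
    (CStarAlgebra.norm_le_iff_le_algebraMap _ (by positivity) (star_mul_self_nonneg Y)).mpr
      (h1.trans h2)
  rw [CStarRing.norm_star_mul_self, ← sq] at h5
  exact (pow_le_pow_iff_left₀ (norm_nonneg _) (norm_nonneg _) (by norm_num)).mp h5

/-- `‖G B G - G' B G'‖ ≤ (‖G‖ + ‖G'‖) ‖G - G'‖ ‖B‖` -/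
theorem lr_sandwich_sub_le (G G' B : A) :
    ‖G * B * G - G' * B * G'‖ ≤ (‖G‖ + ‖G'‖) * ‖G - G'‖ * ‖B‖ := by
  have e : G * B * G - G' * B * G' = (G - G') * B * G + G' * B * (G - G') := by
    simp only [sub_mul, mul_sub]; abel
  rw [e]
  calc ‖(G - G') * B * G + G' * B * (G - G')‖
      ≤ ‖(G - G') * B * G‖ + ‖G' * B * (G - G')‖ := norm_add_le _ _
    _ ≤ ‖G - G'‖ * ‖B‖ * ‖G‖ + ‖G'‖ * ‖B‖ * ‖G - G'‖ := by
        refine add_le_add ?_ ?_
        · exact (norm_mul_le _ _).trans (by gcongr; exact norm_mul_le _ _)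
        · exact (norm_mul_le _ _).trans (by gcongr; exact norm_mul_le _ _)
    _ = (‖G‖ + ‖G'‖) * ‖G - G'‖ * ‖B‖ := by ring

end Spec

end Claimed.Agent.R296
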