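import Claimed.Agent.R296.LocCexp
import Claimed.Agent.R296.LRSpecB

/-!
# Row 296: locality calculus, part C (matrix units at a site, one-site twirl, oscillation,
contractivity and positivity of `cexp`, localisation by oscillations)

* `sUnit y a b` : matrix unit `|a⟩⟨b|` at the site `y`; `osc y M = ∑_{a b} ‖[E_ab, M]‖`;
* `‖M - cexp A M‖ ≤ ∑_{y ∉ A} osc y M`.
Contractivity: Kraus form `cexp_erase_eq` + `lr_kraus_norm_le` (LRSpecB) + tower property
`cexp A = cexp (insert y A) ∘ cexp (univ.erase y)` for `y ∉ A`, induction on `Aᶜ`.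
-/

set_option autoImplicit false
set_option linter.unusedSectionVars false

namespace Claimed.Agent.R296

open Matrix
open scoped MatrixOrder Matrix.Norms.L2Operator ComplexOrder

variable {s : Type} [DecidableEq s] [Fintype s] {io : s → Type}
  [∀ x, Fintype (io x)] [∀ x, DecidableEq (io x)]

/-! ### matrix units at a site, one-site twirl, oscillation -/

/-- the matrix unit `|a⟩⟨b|` at the site `y` -/
def sUnit (y : s) (a b : io y) : Matrix (Cfg io) (Cfg io) ℂ :=
  Matrix.of fun σ τ => if τ y = b ∧ σ = Function.update τ y a then 1 else 0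

theorem sUnit_apply (y : s) (a b : io y) (σ τ : Cfg io) :
    sUnit y a b σ τ = if τ y = b ∧ σ = Function.update τ y a then 1 else 0 := rfl

/-- the two descriptions of the nonzero entries of a matrix unit -/
theorem sUnit_cond_iff (y : s) (a b : io y) (σ τ : Cfg io) :
    (τ y = b ∧ σ = Function.update τ y a) ↔ (σ y = a ∧ τ = Function.update σ y b) := by
  constructor
  · rintro ⟨rfl, rfl⟩
    simp
  · rintro ⟨rfl, rfl⟩
    simp

/-- entries of `E_ab M` -/
theorem sUnit_mul_apply (y : s) (a b : io y) (M : Matrix (Cfg io) (Cfg io) ℂ) (σ τ : Cfg io) :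
    (sUnit y a b * M) σ τ = if σ y = a then M (Function.update σ y b) τ else 0 := by
  rw [Matrix.mul_apply]
  by_cases h : σ y = a
  · rw [if_pos h, Finset.sum_eq_single (Function.update σ y b)]
    · rw [sUnit_apply, if_pos ((sUnit_cond_iff y a b σ _).2 ⟨h, rfl⟩), one_mul]
    · intro ρ _ hρ
      rw [sUnit_apply, if_neg, zero_mul]
      intro h'
      exact hρ ((sUnit_cond_iff y a b σ ρ).1 h').2
    · intro h'
      exact absurd (Finset.mem_univ _) h'
  · rw [if_neg h]
    apply Finset.sum_eq_zero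
    intro ρ _
    rw [sUnit_apply, if_neg, zero_mul]
    intro h'
    exact h ((sUnit_cond_iff y a b σ ρ).1 h').1

/-- entries of `M E_cd` -/
theorem mul_sUnit_apply (y : s) (c d : io y) (M : Matrix (Cfg io) (Cfg io) ℂ) (σ τ : Cfg io) :
    (M * sUnit y c d) σ τ = if τ y = d then M σ (Function.update τ y c) else 0 := by
  rw [Matrix.mul_apply]
  simp only [sUnit_apply]
  by_cases h : τ y = d
  · simp only [h, true_and, mul_ite, mul_one, mul_zero, if_true]
    rw [Finset.sum_ite_eq' Finset.univ (Function.update τ y c)]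
    simp
  · simp [h]

theorem sUnit_mul_sUnit (y : s) (a b c d : io y) :
    sUnit y a b * sUnit y c d = if b = c then sUnit y a d else 0 := by
  ext σ τ
  rw [mul_sUnit_apply]
  by_cases hbc : b = c
  · subst hbc
    simp only [if_true, sUnit_apply, Function.update_self, Function.update_idem, true_and]
    by_cases h : τ y = d <;> simp [h]
  · simp only [if_neg hbc, sUnit_apply, Function.update_self, Matrix.zero_apply]
    have : ¬ c = b := fun h => hbc h.symm
    simp [this]

theorem sUnit_conjTranspose (y : s) (a b : io y) : (sUnit y a b)ᴴ = sUnit y b a := by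
  ext σ τ
  rw [conjTranspose_apply, sUnit_apply, sUnit_apply]
  by_cases h : σ y = b ∧ τ = Function.update σ y a
  · rw [if_pos h, if_pos ((sUnit_cond_iff y b a σ τ).2 h), star_one]
  · rw [if_neg h, if_neg (fun h' => h ((sUnit_cond_iff y b a σ τ).1 h')), star_zero]

theorem sum_sUnit_self (y : s) : ∑ a : io y, sUnit y a a = (1 : Matrix (Cfg io) (Cfg io) ℂ) := by
  ext σ τ
  rw [Matrix.sum_apply]
  simp only [sUnit_apply]
  rw [Finset.sum_eq_single (τ y)]
  · simp [Matrix.one_apply]
  · intro a _ ha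
    rw [if_neg]
    rintro ⟨h, _⟩
    exact ha h.symm
  · intro h
    exact absurd (Finset.mem_univ _) h

theorem suppIn_sUnit (y : s) (a b : io y) : SuppIn {y} (sUnit y a b) := by
  rw [suppIn_iff]
  refine ⟨fun σ τ ⟨x, hx, hne⟩ => ?_, fun σ τ ρ h => ?_⟩
  · rw [sUnit_apply, if_neg]
    rintro ⟨_, h⟩
    apply hne
    rw [h, Function.update_of_ne]
    simpa using hx
  · rw [sUnit_apply, sUnit_apply]
    have h1 : cmix {y} τ ρ y = τ y := by simp [cmix]
    have h2 : (cmix {y} σ ρ = Function.update (cmix {y} τ ρ) y a) ↔ σ = Function.update τ y a := by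
      constructor
      · intro h'
        funext x
        by_cases hx : x = y
        · subst hx
          have := congrFun h' x
          simpa [cmix] using this
        · rw [Function.update_of_ne hx]
          exact h x (by simpa using hx)
      · intro h'
        funext x
        by_cases hx : x = y
        · subst hx
          have := congrFun h' x
          simpa [cmix] using this
        · rw [Function.update_of_ne hx]
          simp [cmix, hx]
    simp only [h1, h2]

theorem norm_sUnit_le (y : s) (a b : io y) : ‖sUnit y a b‖ ≤ 1 := by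
  have hP : IsStarProjection (sUnit y b b : Matrix (Cfg io) (Cfg io) ℂ) := by
    refine ⟨?_, ?_⟩
    · unfold IsIdempotentElem
      rw [sUnit_mul_sUnit, if_pos rfl]
    · unfold IsSelfAdjoint
      rw [star_eq_conjTranspose, sUnit_conjTranspose]
  have h1 : ‖sUnit y a b‖ * ‖sUnit y a b‖ ≤ 1 := by
    rw [← CStarRing.norm_star_mul_self, star_eq_conjTranspose, sUnit_conjTranspose,
      sUnit_mul_sUnit, if_pos rfl]
    exact hP.norm_le
  nlinarith [norm_nonneg (sUnit y a b : Matrix (Cfg io) (Cfg io) ℂ)]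

/-- entries of `E_ab M E_cd` -/
theorem sUnit_mul_mul_sUnit_apply (y : s) (a b c d : io y) (M : Matrix (Cfg io) (Cfg io) ℂ)
    (σ τ : Cfg io) :
    (sUnit y a b * M * sUnit y c d) σ τ =
      if σ y = a ∧ τ y = d then M (Function.update σ y b) (Function.update τ y c) else 0 := by
  rw [mul_sUnit_apply, sUnit_mul_apply]
  by_cases h1 : σ y = a <;> by_cases h2 : τ y = d <;> simp [h1, h2]

/-- averaging a function of one coordinate over all configurations -/
theorem avg_cfg_eval [∀ x, Nonempty (io x)] (y : s) (f : io y → ℂ) :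
    (Fintype.card (Cfg io) : ℂ)⁻¹ * ∑ ρ : Cfg io, f (ρ y)
      = (Fintype.card (io y) : ℂ)⁻¹ * ∑ b : io y, f b := by
  have h1 : ∑ ρ : Cfg io, f (ρ y)
      = (Fintype.card (∀ j : {j // j ≠ y}, io j) : ℂ) * ∑ b : io y, f b := by
    rw [← (Equiv.piSplitAt y io).symm.sum_comp, Fintype.sum_prod_type, Finset.sum_comm]
    have : ∀ (r : ∀ j : {j // j ≠ y}, io j) (b : io y),
        f ((Equiv.piSplitAt y io).symm (b, r) y) = f b := by
      intro r b
      simp [Equiv.piSplitAt]
    simp only [this]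
    rw [Finset.sum_const, Finset.card_univ, nsmul_eq_mul]
  have h2 : (Fintype.card (Cfg io) : ℂ)
      = (Fintype.card (io y) : ℂ) * (Fintype.card (∀ j : {j // j ≠ y}, io j) : ℂ) := by
    rw [Fintype.card_congr (Equiv.piSplitAt y io), Fintype.card_prod]
    push_cast
    rfl
  have h3 : (Fintype.card (∀ j : {j // j ≠ y}, io j) : ℂ) ≠ 0 := by
    exact_mod_cast Fintype.card_ne_zero
  have h4 : (Fintype.card (io y) : ℂ) ≠ 0 := by
    exact_mod_cast Fintype.card_ne_zero
  rw [h1, h2]
  field_simp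

/-- Kraus form of the one-site twirl -/
theorem cexp_erase_eq [∀ x, Nonempty (io x)] (y : s) (M : Matrix (Cfg io) (Cfg io) ℂ) :
    cexp (Finset.univ.erase y) M =
      (Fintype.card (io y) : ℂ)⁻¹ • ∑ a : io y, ∑ b : io y, sUnit y a b * M * sUnit y b a := by
  ext σ τ
  rw [Matrix.smul_apply, Matrix.sum_apply]
  simp only [Matrix.sum_apply, sUnit_mul_mul_sUnit_apply, cexp, Matrix.of_apply, smul_eq_mul]
  have hmix : ∀ υ ρ : Cfg io, cmix (Finset.univ.erase y) υ ρ = Function.update υ y (ρ y) := by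
    intro υ ρ
    funext x
    by_cases hx : x = y
    · subst hx
      simp [cmix]
    · simp [cmix, hx]
  have hcond : (∀ x, x ∉ Finset.univ.erase y → σ x = τ x) ↔ σ y = τ y := by
    constructor
    · intro h
      exact h y (by simp)
    · intro h x hx
      have : x = y := by simpa using hx
      rw [this]
      exact h
  simp only [hmix, hcond]
  rw [avg_cfg_eval y (fun b => M (Function.update σ y b) (Function.update τ y b))]
  by_cases h : σ y = τ y
  · rw [if_pos h]
    congr 1
    symm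
    rw [Finset.sum_eq_single (σ y)]
    · simp [h]
    · intro a _ ha
      apply Finset.sum_eq_zero
      intro b _
      rw [if_neg]
      rintro ⟨h', _⟩
      exact ha h'.symm
    · intro h'
      exact absurd (Finset.mem_univ _) h'
  · rw [if_neg h]
    symm
    rw [mul_eq_zero]
    right
    apply Finset.sum_eq_zero
    intro a _
    apply Finset.sum_eq_zero
    intro b _
    rw [if_neg]
    rintro ⟨h1, h2⟩
    exact h (h1.trans h2.symm)

/-- oscillation of `M` at the site `y` -/
noncomputable def osc (y : s) (M : Matrix (Cfg io) (Cfg io) ℂ) : ℝ :=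
  ∑ a : io y, ∑ b : io y, ‖sUnit y a b * M - M * sUnit y a b‖

theorem osc_nonneg (y : s) (M : Matrix (Cfg io) (Cfg io) ℂ) : 0 ≤ osc y M :=
  Finset.sum_nonneg fun _ _ => Finset.sum_nonneg fun _ _ => norm_nonneg _

theorem osc_add_le (y : s) (M N : Matrix (Cfg io) (Cfg io) ℂ) :
    osc y (M + N) ≤ osc y M + osc y N := by
  unfold osc
  rw [← Finset.sum_add_distrib]
  refine Finset.sum_le_sum fun a _ => ?_
  rw [← Finset.sum_add_distrib]
  refine Finset.sum_le_sum fun b _ => ?_
  have : sUnit y a b * (M + N) - (M + N) * sUnit y a b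
      = (sUnit y a b * M - M * sUnit y a b) + (sUnit y a b * N - N * sUnit y a b) := by
    rw [mul_add, add_mul]; abel
  rw [this]
  exact norm_add_le _ _

theorem osc_le_norm (y : s) (M : Matrix (Cfg io) (Cfg io) ℂ) :
    osc y M ≤ 2 * (Fintype.card (io y) : ℝ) ^ 2 * ‖M‖ := by
  unfold osc
  have h : ∀ a b : io y, ‖sUnit y a b * M - M * sUnit y a b‖ ≤ 2 * ‖M‖ := by
    intro a b
    have h1 : ‖sUnit y a b * M‖ ≤ ‖M‖ := by
      calc ‖sUnit y a b * M‖ ≤ ‖sUnit y a b‖ * ‖M‖ := norm_mul_le _ _
        _ ≤ 1 * ‖M‖ := by gcongr; exact norm_sUnit_le y a b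
        _ = ‖M‖ := one_mul _
    have h2 : ‖M * sUnit y a b‖ ≤ ‖M‖ := by
      calc ‖M * sUnit y a b‖ ≤ ‖M‖ * ‖sUnit y a b‖ := norm_mul_le _ _
        _ ≤ ‖M‖ * 1 := by gcongr; exact norm_sUnit_le y a b
        _ = ‖M‖ := mul_one _
    calc ‖sUnit y a b * M - M * sUnit y a b‖ ≤ ‖sUnit y a b * M‖ + ‖M * sUnit y a b‖ :=
          norm_sub_le _ _
      _ ≤ 2 * ‖M‖ := by linarith
  calc ∑ a : io y, ∑ b : io y, ‖sUnit y a b * M - M * sUnit y a b‖
      ≤ ∑ _a : io y, ∑ _b : io y, 2 * ‖M‖ :=
        Finset.sum_le_sum fun a _ => Finset.sum_le_sum fun b _ => h a b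
    _ = 2 * (Fintype.card (io y) : ℝ) ^ 2 * ‖M‖ := by
        simp only [Finset.sum_const, Finset.card_univ, nsmul_eq_mul]
        ring

theorem osc_eq_zero_of_suppIn {A : Finset s} {y : s} (hy : y ∉ A)
    {M : Matrix (Cfg io) (Cfg io) ℂ} (hM : SuppIn A M) : osc y M = 0 := by
  unfold osc
  refine Finset.sum_eq_zero fun a _ => Finset.sum_eq_zero fun b _ => ?_
  have h : Commute (sUnit y a b) M :=
    SuppIn.commute (Finset.disjoint_singleton_left.2 hy) (suppIn_sUnit y a b) hM
  rw [h.eq, sub_self, norm_zero]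

/-- `M - T_y M = d⁻¹ ∑_{ab} E_ab [E_ba, M]` -/
theorem norm_sub_cexp_erase_le [∀ x, Nonempty (io x)] (y : s) (M : Matrix (Cfg io) (Cfg io) ℂ) :
    ‖M - cexp (Finset.univ.erase y) M‖ ≤ osc y M := by
  have hd : (Fintype.card (io y) : ℂ) ≠ 0 := by
    exact_mod_cast Fintype.card_ne_zero
  have hd1 : (1 : ℝ) ≤ (Fintype.card (io y) : ℝ) := by
    exact_mod_cast Fintype.card_pos
  have key : M - cexp (Finset.univ.erase y) M = (Fintype.card (io y) : ℂ)⁻¹ •
      ∑ a : io y, ∑ b : io y, sUnit y a b * (sUnit y b a * M - M * sUnit y b a) := by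
    have e : ∀ a b : io y, sUnit y a b * (sUnit y b a * M - M * sUnit y b a)
        = sUnit y a a * M - sUnit y a b * M * sUnit y b a := by
      intro a b
      rw [mul_sub, ← mul_assoc, ← mul_assoc, sUnit_mul_sUnit, if_pos rfl]
    simp only [e, Finset.sum_sub_distrib, Finset.sum_const, Finset.card_univ]
    rw [smul_sub, ← cexp_erase_eq, ← Finset.smul_sum, ← Finset.sum_mul, sum_sUnit_self, one_mul]
    congr 1
    rw [← Nat.cast_smul_eq_nsmul ℂ, smul_smul, inv_mul_cancel₀ hd, one_smul]
  rw [key, norm_smul, norm_inv, Complex.norm_natCast]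
  have h1 : ‖∑ a : io y, ∑ b : io y, sUnit y a b * (sUnit y b a * M - M * sUnit y b a)‖
      ≤ osc y M := by
    unfold osc
    rw [Finset.sum_comm]
    refine (norm_sum_le _ _).trans (Finset.sum_le_sum fun b _ => ?_)
    refine (norm_sum_le _ _).trans (Finset.sum_le_sum fun a _ => ?_)
    calc ‖sUnit y a b * (sUnit y b a * M - M * sUnit y b a)‖
        ≤ ‖sUnit y a b‖ * ‖sUnit y b a * M - M * sUnit y b a‖ := norm_mul_le _ _
      _ ≤ 1 * ‖sUnit y b a * M - M * sUnit y b a‖ := by gcongr; exact norm_sUnit_le y a b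
      _ = ‖sUnit y b a * M - M * sUnit y b a‖ := one_mul _
  calc (Fintype.card (io y) : ℝ)⁻¹
        * ‖∑ a : io y, ∑ b : io y, sUnit y a b * (sUnit y b a * M - M * sUnit y b a)‖
      ≤ 1 * osc y M := by
        gcongr
        exact inv_le_one_of_one_le₀ hd1
    _ = osc y M := one_mul _

/-- the Kraus operators of the one-site twirl -/
noncomputable def twirlK (y : s) (p : io y × io y) : Matrix (Cfg io) (Cfg io) ℂ :=
  ((Real.sqrt (Fintype.card (io y) : ℝ))⁻¹ : ℂ) • sUnit y p.2 p.1

theorem twirlK_conj [∀ x, Nonempty (io x)] (y : s) (p : io y × io y)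
    (M : Matrix (Cfg io) (Cfg io) ℂ) :
    star (twirlK y p) * M * twirlK y p
      = (Fintype.card (io y) : ℂ)⁻¹ • (sUnit y p.1 p.2 * M * sUnit y p.2 p.1) := by
  unfold twirlK
  rw [star_smul, star_eq_conjTranspose, sUnit_conjTranspose, smul_mul_assoc, smul_mul_assoc,
    mul_smul_comm, smul_smul]
  congr 1
  have h0 : (0 : ℝ) ≤ (Fintype.card (io y) : ℝ) := Nat.cast_nonneg _
  have h1 : star ((Real.sqrt (Fintype.card (io y) : ℝ) : ℂ)⁻¹)
      = (Real.sqrt (Fintype.card (io y) : ℝ) : ℂ)⁻¹ := by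
    rw [star_inv₀]
    congr 1
    exact Complex.conj_ofReal _
  rw [h1, ← mul_inv, ← Complex.ofReal_mul, Real.mul_self_sqrt h0]
  simp

theorem sum_twirlK [∀ x, Nonempty (io x)] (y : s) (M : Matrix (Cfg io) (Cfg io) ℂ) :
    ∑ p : io y × io y, star (twirlK y p) * M * twirlK y p = cexp (Finset.univ.erase y) M := by
  simp only [twirlK_conj]
  rw [cexp_erase_eq, ← Finset.smul_sum, Fintype.sum_prod_type]

theorem sum_twirlK_one [∀ x, Nonempty (io x)] (y : s) :
    ∑ p : io y × io y, star (twirlK y p) * twirlK y p = (1 : Matrix (Cfg io) (Cfg io) ℂ) := by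
  have := sum_twirlK y (1 : Matrix (Cfg io) (Cfg io) ℂ)
  rw [cexp_one] at this
  simpa only [mul_one] using this

theorem norm_cexp_erase_le [∀ x, Nonempty (io x)] (y : s) (M : Matrix (Cfg io) (Cfg io) ℂ) :
    ‖cexp (Finset.univ.erase y) M‖ ≤ ‖M‖ := by
  rw [← sum_twirlK]
  exact lr_kraus_norm_le (twirlK y) (sum_twirlK_one y) M

theorem cexp_erase_nonneg [∀ x, Nonempty (io x)] (y : s) {M : Matrix (Cfg io) (Cfg io) ℂ}
    (hM : 0 ≤ M) : 0 ≤ cexp (Finset.univ.erase y) M := by
  rw [← sum_twirlK]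
  exact lr_kraus_nonneg (twirlK y) hM

theorem compl_insert_eq_inter (y : s) (B : Finset s) :
    (insert y B)ᶜ = Bᶜ ∩ Finset.univ.erase y := by
  ext x
  simp only [Finset.mem_compl, Finset.mem_insert, Finset.mem_inter, Finset.mem_erase,
    Finset.mem_univ, and_true, not_or]
  tauto

/-- contractivity (Kraus form of the one-site twirl + tower property) -/
theorem norm_cexp_le [∀ x, Nonempty (io x)] (A : Finset s) (M : Matrix (Cfg io) (Cfg io) ℂ) :
    ‖cexp A M‖ ≤ ‖M‖ := by
  have h : ∀ (B : Finset s) (M : Matrix (Cfg io) (Cfg io) ℂ), ‖cexp Bᶜ M‖ ≤ ‖M‖ := by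
    intro B
    induction B using Finset.induction_on with
    | empty =>
      intro M
      rw [Finset.compl_empty, cexp_univ]
    | insert y B _ ih =>
      intro M
      rw [compl_insert_eq_inter, ← cexp_cexp]
      exact (ih _).trans (norm_cexp_erase_le y M)
  simpa using h Aᶜ M

/-- positivity -/
theorem cexp_nonneg [∀ x, Nonempty (io x)] (A : Finset s) {M : Matrix (Cfg io) (Cfg io) ℂ}
    (hM : 0 ≤ M) : 0 ≤ cexp A M := by
  have h : ∀ (B : Finset s) (M : Matrix (Cfg io) (Cfg io) ℂ), 0 ≤ M → 0 ≤ cexp Bᶜ M := by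
    intro B
    induction B using Finset.induction_on with
    | empty =>
      intro M hM
      rw [Finset.compl_empty, cexp_univ]
      exact hM
    | insert y B _ ih =>
      intro M hM
      rw [compl_insert_eq_inter, ← cexp_cexp]
      exact ih _ (cexp_erase_nonneg y hM)
  simpa using h Aᶜ M hM

theorem cexp_mono [∀ x, Nonempty (io x)] (A : Finset s) {M N : Matrix (Cfg io) (Cfg io) ℂ}
    (h : M ≤ N) : cexp A M ≤ cexp A N := by
  have := cexp_nonneg A (sub_nonneg.2 h)
  rw [cexp_sub] at this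
  exact sub_nonneg.1 this

/-- **localisation by oscillations** -/
theorem norm_sub_cexp_le [∀ x, Nonempty (io x)] (A : Finset s)
    (M : Matrix (Cfg io) (Cfg io) ℂ) : ‖M - cexp A M‖ ≤ ∑ y ∈ Aᶜ, osc y M := by
  have h : ∀ (B : Finset s), ‖M - cexp Bᶜ M‖ ≤ ∑ y ∈ B, osc y M := by
    intro B
    induction B using Finset.induction_on with
    | empty =>
      rw [Finset.compl_empty, cexp_univ]
      simp
    | insert y B hy ih =>
      rw [compl_insert_eq_inter, ← cexp_cexp, Finset.sum_insert hy]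
      have e : M - cexp Bᶜ (cexp (Finset.univ.erase y) M)
          = cexp Bᶜ (M - cexp (Finset.univ.erase y) M) + (M - cexp Bᶜ M) := by
        rw [cexp_sub]; abel
      rw [e]
      refine (norm_add_le _ _).trans (add_le_add ?_ ih)
      exact (norm_cexp_le _ _).trans (norm_sub_cexp_erase_le y M)
  simpa using h Aᶜ

end Claimed.Agent.R296
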