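import Claimed.Agent.R296.AmpDec2
import Claimed.Agent.R296.EntSite
import Claimed.Agent.R296.EntSiteAFW
import Claimed.Agent.R296.LocOsc

/-!
# Row 296, paper 1, Section 9 (amplification), file 12: decoupling on a site system

Transfers `amp_decouple` + `amp_minfo_prod_le` (product space) to a site system `(s, io)` with regions
`X ⊆ S₀ ⊆ W`, along `e = cfgSplit3 X (S₀ \ X) (W \ S₀)`.
A splitting `e : Cfg io ≃ m × r` is ADAPTED to `A` (`AmpAdapted e A`) if the first coordinate sees exactly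
the sites of `A` and the second exactly the others (the hypotheses of `ent_eq_ptrE`).
Architect: helper286.
-/

set_option autoImplicit false
set_option linter.unusedSectionVars false
set_option linter.unusedDecidableInType false

namespace Claimed.Agent.R296

open Matrix Kronecker Claimed.Agent.R298
open scoped MatrixOrder Matrix.Norms.L2Operator ComplexOrder

section Transfer

variable {n m r m' r' : Type} [Fintype n] [DecidableEq n] [Fintype m] [DecidableEq m]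
  [Fintype r] [DecidableEq r] [Fintype m'] [DecidableEq m'] [Fintype r'] [DecidableEq r']

/-- reindexing does not change the tail mass (`charpoly_submatrix_equiv`/`charpoly_reindex`,
`vnEnt_submatrix_equiv`) -/
theorem tlTailMass_submatrix_equiv (Φ : m ≃ m') (M : Matrix m' m' ℂ) (w : ℝ) :
    tlTailMass (M.submatrix Φ Φ) w = tlTailMass M w := by
  have h : (M.submatrix Φ Φ).charpoly = M.charpoly := by
    have := Matrix.charpoly_reindex Φ.symm M
    simpa [Matrix.reindex_apply] using this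
  unfold tlTailMass
  rw [h, vnEnt_submatrix_equiv]

/-- the zero matrix has no tail mass -/
theorem tlTailMass_zero (w : ℝ) : tlTailMass (0 : Matrix m m ℂ) w = 0 := by
  unfold tlTailMass
  rw [Matrix.charpoly_zero, Polynomial.roots_pow, Polynomial.roots_X, Multiset.map_nsmul,
    Multiset.sum_nsmul]
  simp

/-- two splittings with equivalent coordinates give marginals which are reindexings of each other -/
theorem ptrE_congr_submatrix [Nonempty n] (e : n ≃ m × r) (e' : n ≃ m' × r')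
    (h1 : ∀ u v, (e u).1 = (e v).1 ↔ (e' u).1 = (e' v).1)
    (h2 : ∀ u v, (e u).2 = (e v).2 ↔ (e' u).2 = (e' v).2) (M : Matrix n n ℂ) :
    ∃ Φ : m ≃ m', ptrE e M = (ptrE e' M).submatrix Φ Φ := by
  obtain ⟨u₀⟩ := ‹Nonempty n›
  set φ : m → m' := fun x => (e' (e.symm (x, (e u₀).2))).1 with hφ
  set ψ : r → r' := fun k => (e' (e.symm ((e u₀).1, k))).2 with hψ
  have key : ∀ x k, e' (e.symm (x, k)) = (φ x, ψ k) := by
    intro x k
    refine Prod.ext ?_ ?_
    · exact (h1 _ _).mp (by simp)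
    · exact (h2 _ _).mp (by simp)
  have key' : ∀ x k, e'.symm (φ x, ψ k) = e.symm (x, k) := by
    intro x k
    rw [← key, Equiv.symm_apply_apply]
  have hφi : Function.Injective φ := by
    intro x y hxy
    have := (h1 (e.symm (x, (e u₀).2)) (e.symm (y, (e u₀).2))).mpr hxy
    simpa using this
  have hψi : Function.Injective ψ := by
    intro x y hxy
    have := (h2 (e.symm ((e u₀).1, x)) (e.symm ((e u₀).1, y))).mpr hxy
    simpa using this
  have hφs : Function.Surjective φ := by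
    intro x'
    refine ⟨(e (e'.symm (x', (e' u₀).2))).1, ?_⟩
    have := key (e (e'.symm (x', (e' u₀).2))).1 (e (e'.symm (x', (e' u₀).2))).2
    rw [Prod.mk.eta, Equiv.symm_apply_apply, Equiv.apply_symm_apply] at this
    exact (congrArg Prod.fst this).symm
  have hψs : Function.Surjective ψ := by
    intro k'
    refine ⟨(e (e'.symm ((e' u₀).1, k'))).2, ?_⟩
    have := key (e (e'.symm ((e' u₀).1, k'))).1 (e (e'.symm ((e' u₀).1, k'))).2
    rw [Prod.mk.eta, Equiv.symm_apply_apply, Equiv.apply_symm_apply] at this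
    exact (congrArg Prod.snd this).symm
  let Φ : m ≃ m' := Equiv.ofBijective φ ⟨hφi, hφs⟩
  let Ψ : r ≃ r' := Equiv.ofBijective ψ ⟨hψi, hψs⟩
  refine ⟨Φ, ?_⟩
  ext x y
  rw [Matrix.submatrix_apply, ptrE_apply, ptrE_apply]
  rw [← Ψ.sum_comp]
  refine Finset.sum_congr rfl fun k _ => ?_
  change _ = M (e'.symm (φ x, ψ k)) (e'.symm (φ y, ψ k))
  rw [key', key']

/-- same proof as `vnEnt_ptrE_congr` -/
theorem tlTailMass_ptrE_congr (e : n ≃ m × r) (e' : n ≃ m' × r')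
    (h1 : ∀ u v, (e u).1 = (e v).1 ↔ (e' u).1 = (e' v).1)
    (h2 : ∀ u v, (e u).2 = (e v).2 ↔ (e' u).2 = (e' v).2) (M : Matrix n n ℂ) (w : ℝ) :
    tlTailMass (ptrE e M) w = tlTailMass (ptrE e' M) w := by
  rcases isEmpty_or_nonempty n with hn | hn
  · have z1 : ptrE e M = 0 := by
      ext x x'
      rw [ptrE_apply]
      exact Finset.sum_eq_zero fun k _ => (hn.false (e.symm (x, k))).elim
    have z2 : ptrE e' M = 0 := by
      ext x x'
      rw [ptrE_apply]
      exact Finset.sum_eq_zero fun k _ => (hn.false (e'.symm (x, k))).elim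
    rw [z1, z2, tlTailMass_zero, tlTailMass_zero]
  · obtain ⟨Φ, hΦ⟩ := ptrE_congr_submatrix e e' h1 h2 M
    rw [hΦ, tlTailMass_submatrix_equiv]

end Transfer

section Site

variable {s : Type} [DecidableEq s] [Fintype s] {io : s → Type}
  [∀ x, Fintype (io x)] [∀ x, DecidableEq (io x)]

/-- a splitting adapted to the region `A` -/
def AmpAdapted {m r : Type} (e : Cfg io ≃ m × r) (A : Finset s) : Prop :=
  (∀ σ τ, (e σ).1 = (e τ).1 ↔ ∀ x, x ∈ A → σ x = τ x) ∧
  (∀ σ τ, (e σ).2 = (e τ).2 ↔ ∀ x, x ∉ A → σ x = τ x)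

variable {m r : Type} [Fintype m] [DecidableEq m] [Fintype r] [DecidableEq r]

theorem AmpAdapted.ent_eq {e : Cfg io ≃ m × r} {A : Finset s} (h : AmpAdapted e A)
    (ρ : Matrix (Cfg io) (Cfg io) ℂ) : vnEnt (ptrE e ρ) = ent ρ A :=
  (ent_eq_ptrE e A h.1 h.2 ρ).symm

theorem AmpAdapted.tail_eq {e : Cfg io ≃ m × r} {A : Finset s} (h : AmpAdapted e A)
    (ρ : Matrix (Cfg io) (Cfg io) ℂ) (w : ℝ) :
    tlTailMass (ptrE e ρ) w = tlTailMass (ptr A ρ) w := by
  rw [ptr_eq_ptrE]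
  refine tlTailMass_ptrE_congr e (cfgSplit A) ?_ ?_ ρ w
  · intro σ τ
    rw [h.1]
    exact (br_crOn_eq_iff A σ τ).symm
  · intro σ τ
    rw [h.2]
    exact (br_crOff_eq_iff A σ τ).symm

/-- (`suppIn_iff`) -/
theorem AmpAdapted.suppIn_embE {e : Cfg io ≃ m × r} {A : Finset s} (h : AmpAdapted e A)
    (K : Matrix m m ℂ) : SuppIn A (embE e K) := by
  rw [suppIn_iff]
  refine ⟨fun σ τ hx => ?_, fun σ τ ρ hσ => ?_⟩
  · obtain ⟨x, hx, hne⟩ := hx
    rw [embE_apply, if_neg]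
    intro h2
    exact hne ((h.2 σ τ).mp h2 x hx)
  · have a1 : ∀ υ : Cfg io, (e (cmix A υ ρ)).1 = (e υ).1 := fun υ =>
      (h.1 _ _).mpr fun x hx => by simp [cmix, hx]
    have a2 : (e (cmix A σ ρ)).2 = (e (cmix A τ ρ)).2 :=
      (h.2 _ _).mpr fun x hx => by simp [cmix, hx]
    have a3 : (e σ).2 = (e τ).2 := (h.2 _ _).mpr hσ
    rw [embE_apply, embE_apply, if_pos a2, if_pos a3, a1, a1]

theorem AmpAdapted.congr_set {e : Cfg io ≃ m × r} {A B : Finset s} (h : AmpAdapted e A)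
    (hAB : A = B) : AmpAdapted e B := hAB ▸ h

theorem AmpAdapted.swap {e : Cfg io ≃ m × r} {A : Finset s} (h : AmpAdapted e A) :
    AmpAdapted (e.trans (Equiv.prodComm _ _)) Aᶜ := by
  refine ⟨fun σ τ => ?_, fun σ τ => ?_⟩
  · simp only [Equiv.trans_apply, Equiv.prodComm_apply, Prod.fst_swap, Finset.mem_compl]
    exact h.2 σ τ
  · simp only [Equiv.trans_apply, Equiv.prodComm_apply, Prod.snd_swap, Finset.mem_compl, not_not]
    exact h.1 σ τ

variable (X Y Z : Finset s) (hXY : Disjoint X Y) (hXZ : Disjoint X Z) (hYZ : Disjoint Y Z)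

theorem ampAdapted_S : AmpAdapted (ampES (cfgSplit3 (io := io) X Y Z hXY hXZ hYZ)) (X ∪ Y) := by
  refine ⟨fun σ τ => ?_, fun σ τ => ?_⟩
  · simp only [ampES, cfgSplit3, Equiv.trans_apply, Equiv.coe_fn_mk, shuf12, Prod.mk.injEq,
      br_crOn_eq_iff, Finset.mem_union]
    constructor
    · rintro ⟨h1, h2⟩ x (hx | hx)
      · exact h1 x hx
      · exact h2 x hx
    · intro h
      exact ⟨fun x hx => h x (Or.inl hx), fun x hx => h x (Or.inr hx)⟩
  · simp only [ampES, cfgSplit3, Equiv.trans_apply, Equiv.coe_fn_mk, shuf12, Prod.mk.injEq,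
      br_crOn_eq_iff, br_crOff_eq_iff, Finset.mem_union, not_or]
    constructor
    · rintro ⟨h1, h2⟩ x hx
      by_cases hC : x ∈ Z
      · exact h1 x hC
      · exact h2 x ⟨hx, hC⟩
    · intro h
      exact ⟨fun x hx => h x ⟨fun hA => Finset.disjoint_left.mp hXZ hA hx,
        fun hB => Finset.disjoint_left.mp hYZ hB hx⟩, fun x hx => h x hx.1⟩

theorem ampAdapted_S_fst : AmpAdapted ((ampES (cfgSplit3 (io := io) X Y Z hXY hXZ hYZ)).trans
    (Equiv.prodAssoc _ _ _)) X := by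
  refine ⟨fun σ τ => ?_, fun σ τ => ?_⟩
  · simp only [ampES, cfgSplit3, Equiv.trans_apply, Equiv.coe_fn_mk, shuf12,
      Equiv.prodAssoc_apply, br_crOn_eq_iff]
  · simp only [ampES, cfgSplit3, Equiv.trans_apply, Equiv.coe_fn_mk, shuf12,
      Equiv.prodAssoc_apply, Prod.mk.injEq, br_crOn_eq_iff, br_crOff_eq_iff, Finset.mem_union,
      not_or]
    constructor
    · rintro ⟨h1, h2, h3⟩ x hx
      by_cases hB : x ∈ Y
      · exact h1 x hB
      · by_cases hC : x ∈ Z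
        · exact h2 x hC
        · exact h3 x ⟨⟨hx, hB⟩, hC⟩
    · intro h
      exact ⟨fun x hx => h x (fun hA => Finset.disjoint_left.mp hXY hA hx),
        fun x hx => h x (fun hA => Finset.disjoint_left.mp hXZ hA hx), fun x hx => h x hx.1.1⟩

theorem ampAdapted_S_snd : AmpAdapted ((ampES (cfgSplit3 (io := io) X Y Z hXY hXZ hYZ)).trans
    (shufSnd _ _ _)) Y := by
  refine ⟨fun σ τ => ?_, fun σ τ => ?_⟩
  · simp only [ampES, cfgSplit3, Equiv.trans_apply, Equiv.coe_fn_mk, shuf12, shufSnd,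
      br_crOn_eq_iff]
  · simp only [ampES, cfgSplit3, Equiv.trans_apply, Equiv.coe_fn_mk, shuf12, shufSnd,
      Prod.mk.injEq, br_crOn_eq_iff, br_crOff_eq_iff, Finset.mem_union, not_or]
    constructor
    · rintro ⟨h1, h2, h3⟩ x hx
      by_cases hA : x ∈ X
      · exact h1 x hA
      · by_cases hC : x ∈ Z
        · exact h2 x hC
        · exact h3 x ⟨⟨hA, hx⟩, hC⟩
    · intro h
      exact ⟨fun x hx => h x (fun hB => Finset.disjoint_left.mp hXY hx hB),
        fun x hx => h x (fun hB => Finset.disjoint_left.mp hYZ hB hx), fun x hx => h x hx.1.2⟩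

theorem ampAdapted_J : AmpAdapted (ampEJ (cfgSplit3 (io := io) X Y Z hXY hXZ hYZ)) (X ∪ Y ∪ Z)ᶜ := by
  refine AmpAdapted.swap (e := cfgSplit3 (io := io) X Y Z hXY hXZ hYZ) ⟨fun σ τ => ?_, fun σ τ => ?_⟩
  · simp only [cfgSplit3, Equiv.coe_fn_mk, Prod.mk.injEq, br_crOn_eq_iff, Finset.mem_union]
    constructor
    · rintro ⟨h1, h2, h3⟩ x ((hx | hx) | hx)
      · exact h1 x hx
      · exact h2 x hx
      · exact h3 x hx
    · intro h
      exact ⟨fun x hx => h x (Or.inl (Or.inl hx)), fun x hx => h x (Or.inl (Or.inr hx)),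
        fun x hx => h x (Or.inr hx)⟩
  · simp only [cfgSplit3, Equiv.coe_fn_mk, br_crOff_eq_iff]

theorem ampAdapted_XJ :
    AmpAdapted (ampEXJ (cfgSplit3 (io := io) X Y Z hXY hXZ hYZ)) (X ∪ (X ∪ Y ∪ Z)ᶜ) := by
  refine ⟨fun σ τ => ?_, fun σ τ => ?_⟩
  · simp only [ampEXJ, ampShXJ, cfgSplit3, Equiv.trans_apply, Equiv.coe_fn_mk, Prod.mk.injEq,
      br_crOn_eq_iff, br_crOff_eq_iff, Finset.mem_union, Finset.mem_compl]
    constructor
    · rintro ⟨h1, h2⟩ x (hx | hx)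
      · exact h1 x hx
      · exact h2 x hx
    · intro h
      exact ⟨fun x hx => h x (Or.inl hx), fun x hx => h x (Or.inr hx)⟩
  · simp only [ampEXJ, ampShXJ, cfgSplit3, Equiv.trans_apply, Equiv.coe_fn_mk, Prod.mk.injEq,
      br_crOn_eq_iff, Finset.mem_union, Finset.mem_compl, not_or]
    constructor
    · rintro ⟨h1, h2⟩ x ⟨hx, hx2⟩
      by_cases hB : x ∈ Y
      · exact h1 x hB
      · by_cases hC : x ∈ Z
        · exact h2 x hC
        · exact absurd ⟨⟨hx, hB⟩, hC⟩ hx2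
    · intro h
      exact ⟨fun x hx => h x ⟨fun hA => Finset.disjoint_left.mp hXY hA hx, fun hh => hh.1.2 hx⟩,
        fun x hx => h x ⟨fun hA => Finset.disjoint_left.mp hXZ hA hx, fun hh => hh.2 hx⟩⟩

/-- purity: `I(X : S₀ᶜ) = S(X) + S(S₀) - S(S₀ \ X)` -/
theorem amp_minfo_pure (Ω : Cfg io → ℂ) {X S0 : Finset s} (h : X ⊆ S0) :
    minfo (pureOp Ω) X S0ᶜ =
      ent (pureOp Ω) X + ent (pureOp Ω) S0 - ent (pureOp Ω) (S0 \ X) := by
  have e1 : X ∪ S0ᶜ = (S0 \ X)ᶜ := by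
    ext x
    have := @h x
    simp only [Finset.mem_union, Finset.mem_compl, Finset.mem_sdiff]
    tauto
  unfold minfo
  rw [e1, ent_compl_pureOp, ent_compl_pureOp]

/-- `ampDelta` is nonnegative for nonnegative errors -/
theorem ampDelta_nonneg {κe I0 w δ : ℝ} (hκ : 0 ≤ κe) : 0 ≤ ampDelta κe I0 w δ := by
  unfold ampDelta
  have h1 := Real.sqrt_nonneg δ
  have h2 := Real.sqrt_nonneg (2 * (κe * Real.exp ((I0 + 3 * w) / 2)) +
    (κe * Real.exp ((I0 + 3 * w) / 2)) ^ 2 + 2 * (3 * Real.sqrt δ + κe))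
  linarith

/-- **Decoupling on a site system.** -/
theorem amp_site_decouple {Ω : Cfg io → ℂ} (hΩ : star Ω ⬝ᵥ Ω = 1) {X S0 W : Finset s}
    (hXS : X ⊆ S0) (hSW : S0 ⊆ W) (w : ℝ) {δ κe : ℝ} (hκ : 0 ≤ κe)
    (hX : tlTailMass (ptr X (pureOp Ω)) w ≤ δ)
    (hY : tlTailMass (ptr (S0 \ X) (pureOp Ω)) w ≤ δ)
    (hS : tlTailMass (ptr S0 (pureOp Ω)) w ≤ δ)
    {L' : Matrix (Cfg io) (Cfg io) ℂ} (hLs : SuppIn W L') (hLh : L'ᴴ = L')
    (hfix : Real.sqrt (opnSq (L' *ᵥ Ω - Ω)) ≤ κe)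
    (hfil : ∀ (κ : Type) [Fintype κ] [DecidableEq κ] (Bk : κ → Matrix (Cfg io) (Cfg io) ℂ),
      (∀ j, SuppIn S0 (Bk j)) →
      Real.sqrt (∑ j, opnSq (L' *ᵥ (Bk j *ᵥ Ω))) ≤
        Real.sqrt (∑ j, ‖star Ω ⬝ᵥ (Bk j *ᵥ Ω)‖ ^ 2) + ‖ampCol Bk‖ * κe) :
    minfo (pureOp Ω) X Wᶜ ≤
      afwFun (ampDelta κe (minfo (pureOp Ω) X S0ᶜ) w δ) (logDim io X) := by
  have hXY : Disjoint X (S0 \ X) := Finset.disjoint_sdiff
  have hXZ : Disjoint X (W \ S0) :=
    Finset.disjoint_left.mpr fun x h1 h2 => (Finset.mem_sdiff.mp h2).2 (hXS h1)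
  have hYZ : Disjoint (S0 \ X) (W \ S0) :=
    Finset.disjoint_left.mpr fun x h1 h2 => (Finset.mem_sdiff.mp h2).2 (Finset.mem_sdiff.mp h1).1
  have e1 : X ∪ S0 \ X = S0 := Finset.union_sdiff_of_subset hXS
  have e2 : X ∪ S0 \ X ∪ W \ S0 = W := by rw [e1, Finset.union_sdiff_of_subset hSW]
  have aS := (ampAdapted_S (io := io) X (S0 \ X) (W \ S0) hXY hXZ hYZ).congr_set e1
  have aS1 := ampAdapted_S_fst (io := io) X (S0 \ X) (W \ S0) hXY hXZ hYZ
  have aS2 := ampAdapted_S_snd (io := io) X (S0 \ X) (W \ S0) hXY hXZ hYZ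
  have aJ := (ampAdapted_J (io := io) X (S0 \ X) (W \ S0) hXY hXZ hYZ).congr_set
    (congrArg (fun T => Tᶜ) e2)
  have aXJ := (ampAdapted_XJ (io := io) X (S0 \ X) (W \ S0) hXY hXZ hYZ).congr_set
    (congrArg (fun T => X ∪ Tᶜ) e2)
  set e := cfgSplit3 (io := io) X (S0 \ X) (W \ S0) hXY hXZ hYZ with he
  have hn : ∑ i, ‖Ω i‖ ^ 2 = 1 := by
    rw [star_dotProduct_self_eq] at hΩ
    exact_mod_cast hΩ
  have hd : IsDensity (pureOp Ω) := pureOp_isDensity hn
  have hdec := amp_decouple (δ := δ) e hΩ w hκ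
    (by rw [ptrFst_ptrE, aS1.tail_eq]; exact hX)
    (by rw [ptrSnd_ptrE, aS2.tail_eq]; exact hY)
    (by rw [aS.tail_eq]; exact hS) hLh
    (fun K => SuppIn.commute disjoint_compl_right hLs (aJ.suppIn_embE K)) hfix
    (fun Bk => hfil _ (fun p => embE (ampES e) (Bk p)) fun p => aS.suppIn_embE (Bk p))
  rw [ptrFst_ptrE (ampES e), ptrSnd_ptrE (ampES e), aS1.ent_eq, aS2.ent_eq, aS.ent_eq,
    ← amp_minfo_pure Ω hXS] at hdec
  have hmi := amp_minfo_prod_le (ptrE_isDensity (ampEXJ e) hd) hdec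
  rw [amp_ptrFst_XJ, amp_ptrSnd_XJ, ptrFst_ptrE (ampES e), aS1.ent_eq, aJ.ent_eq, aXJ.ent_eq] at hmi
  exact hmi.trans (afwFun_mono_right (ampDelta_nonneg hκ) (log_card_cfgOn_le X))

end Site

end Claimed.Agent.R296
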