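import Claimed.Agent.R296.AmpTwirl
import Claimed.Agent.R296.LRSpecB

/-!
# Row 296, paper 1, Section 9 (amplification), file 4: the channels `E(B) = G B G + K B K`

`G = (1-k)^{1/2}`, `K = k^{1/2}` for a positive contraction `k`; the channel acts on column operators
`B : Matrix (n × κ) n ℂ` by `(G ⊗ 1) B G + (K ⊗ 1) B K`.  A quasi-local family of positive contractions
(`AmpSys`) gives an `AmpChan` (file `AmpAbs`).  Architect: helper286.
-/

set_option autoImplicit false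
set_option linter.unusedSectionVars false
set_option linter.unusedDecidableInType false

namespace Claimed.Agent.R296

open Matrix Claimed.Agent.R298
open scoped MatrixOrder Matrix.Norms.L2Operator ComplexOrder

section ChanMap

variable {n : Type*} [Fintype n] [DecidableEq n] {κ : Type*} [Fintype κ] [DecidableEq κ]

/-- the channel with Kraus operators `G`, `K` on column operators -/
def ampChanMap (κ : Type*) [Fintype κ] [DecidableEq κ] (G K : Matrix n n ℂ) :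
    Matrix (n × κ) n ℂ →ₗ[ℂ] Matrix (n × κ) n ℂ where
  toFun B := ampLft κ G * B * G + ampLft κ K * B * K
  map_add' B C := by
    simp only [Matrix.mul_add, Matrix.add_mul]
    abel
  map_smul' c B := by
    simp only [Matrix.mul_smul, Matrix.smul_mul, smul_add, RingHom.id_apply]

theorem ampChanMap_apply (G K : Matrix n n ℂ) (B : Matrix (n × κ) n ℂ) :
    ampChanMap κ G K B = ampLft κ G * B * G + ampLft κ K * B * K := rfl

/-- contraction (apply `amp_kraus_norm_le` with index type `Fin 2`) -/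
theorem ampChanMap_norm_le {G K : Matrix n n ℂ} (hG : Gᴴ = G) (hK : Kᴴ = K)
    (h : G * G + K * K = 1) (B : Matrix (n × κ) n ℂ) : ‖ampChanMap κ G K B‖ ≤ ‖B‖ := by
  have h1 := amp_kraus_norm_le (ι := Fin 2) ![ampLft κ G, ampLft κ K] ![G, K]
    (by
      simp only [Fin.sum_univ_two, Matrix.cons_val_zero, Matrix.cons_val_one,
        ← ampLft_conjTranspose, hG, hK, ← ampLft_mul, ← ampLft_add, h, ampLft_one])
    (by
      simp only [Fin.sum_univ_two, Matrix.cons_val_zero, Matrix.cons_val_one, hG, hK, h]) B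
  simpa only [Fin.sum_univ_two, Matrix.cons_val_zero, Matrix.cons_val_one,
    ampChanMap_apply] using h1

theorem ampChanMap_fix {G K : Matrix n n ℂ} (h : G * G + K * K = 1) {C : Matrix (n × κ) n ℂ}
    (hG : ampLft κ G * C = C * G) (hK : ampLft κ K * C = C * K) : ampChanMap κ G K C = C := by
  rw [ampChanMap_apply, hG, hK, Matrix.mul_assoc, Matrix.mul_assoc, ← Matrix.mul_add, h,
    Matrix.mul_one]

theorem ampChanMap_sub_le {G K G' K' : Matrix n n ℂ} (hG : ‖G‖ ≤ 1) (hK : ‖K‖ ≤ 1)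
    (hG' : ‖G'‖ ≤ 1) (hK' : ‖K'‖ ≤ 1) (B : Matrix (n × κ) n ℂ) :
    ‖ampChanMap κ G K B - ampChanMap κ G' K' B‖ ≤ 2 * (‖G - G'‖ + ‖K - K'‖) * ‖B‖ := by
  have key : ∀ X X' : Matrix n n ℂ, ‖X‖ ≤ 1 → ‖X'‖ ≤ 1 →
      ‖ampLft κ X * B * X - ampLft κ X' * B * X'‖ ≤ 2 * ‖X - X'‖ * ‖B‖ := by
    intro X X' hX hX'
    have e : ampLft κ X * B * X - ampLft κ X' * B * X'
        = ampLft κ (X - X') * B * X + ampLft κ X' * B * (X - X') := by
      rw [ampLft_sub]
      simp only [Matrix.sub_mul, Matrix.mul_sub]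
      abel
    rw [e]
    have hB := norm_nonneg B
    have hd := norm_nonneg (X - X')
    calc ‖ampLft κ (X - X') * B * X + ampLft κ X' * B * (X - X')‖
        ≤ ‖ampLft κ (X - X') * B * X‖ + ‖ampLft κ X' * B * (X - X')‖ := norm_add_le _ _
      _ ≤ ‖X - X'‖ * ‖B‖ * 1 + 1 * ‖B‖ * ‖X - X'‖ := by
          refine add_le_add ?_ ?_
          · refine (l2_opNorm_mul _ _).trans (mul_le_mul ?_ hX (norm_nonneg _) (by positivity))
            exact (l2_opNorm_mul _ _).trans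
              (mul_le_mul_of_nonneg_right (norm_ampLft_le _) hB)
          · refine (l2_opNorm_mul _ _).trans (mul_le_mul_of_nonneg_right ?_ hd)
            exact (l2_opNorm_mul _ _).trans
              (mul_le_mul_of_nonneg_right ((norm_ampLft_le _).trans hX') hB)
      _ = 2 * ‖X - X'‖ * ‖B‖ := by ring
  have e : ampChanMap κ G K B - ampChanMap κ G' K' B
      = (ampLft κ G * B * G - ampLft κ G' * B * G') + (ampLft κ K * B * K - ampLft κ K' * B * K') := by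
    simp only [ampChanMap_apply]
    abel
  rw [e]
  calc _ ≤ ‖ampLft κ G * B * G - ampLft κ G' * B * G'‖
        + ‖ampLft κ K * B * K - ampLft κ K' * B * K'‖ := norm_add_le _ _
    _ ≤ 2 * ‖G - G'‖ * ‖B‖ + 2 * ‖K - K'‖ * ‖B‖ := add_le_add (key G G' hG hG') (key K K' hK hK')
    _ = 2 * (‖G - G'‖ + ‖K - K'‖) * ‖B‖ := by ring

/-- eq. (9.4): on the ground vector the channel acts as `G` -/
theorem ampChanMap_mulVec {G K : Matrix n n ℂ} {Ω : n → ℂ} (hG : G *ᵥ Ω = Ω) (hK : K *ᵥ Ω = 0)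
    (C : Matrix (n × κ) n ℂ) : ampChanMap κ G K C *ᵥ Ω = ampLft κ G *ᵥ (C *ᵥ Ω) := by
  rw [ampChanMap_apply, Matrix.add_mulVec, ← Matrix.mulVec_mulVec Ω (ampLft κ G * C) G,
    ← Matrix.mulVec_mulVec Ω (ampLft κ K * C) K, hG, hK, Matrix.mulVec_zero, add_zero,
    Matrix.mulVec_mulVec]

variable {Λ : Type*} {io : Λ → Type*} [∀ y, Fintype (io y)] [∀ y, DecidableEq (io y)]
  [∀ y, Nonempty (io y)] (U : AmpUnits n Λ io)

theorem ampChanMap_comm_T {G K : Matrix n n ℂ} (y : Λ)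
    (hG : ∀ a b, G * U.F y a b = U.F y a b * G) (hK : ∀ a b, K * U.F y a b = U.F y a b * K)
    (B : Matrix (n × κ) n ℂ) : ampChanMap κ G K (U.T y B) = U.T y (ampChanMap κ G K B) := by
  have key : ∀ X : Matrix n n ℂ, (∀ a b, X * U.F y a b = U.F y a b * X) →
      ampLft κ X * U.tw y B * X = U.tw y (ampLft κ X * B * X) := by
    intro X hX
    unfold AmpUnits.tw
    rw [Matrix.mul_sum, Matrix.sum_mul]
    refine Finset.sum_congr rfl fun p _ => ?_
    have h1 : ampLft κ X * ampLft κ (U.F y p.1 p.2) = ampLft κ (U.F y p.1 p.2) * ampLft κ X := by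
      rw [← ampLft_mul, ← ampLft_mul, hX]
    calc ampLft κ X * (ampLft κ (U.F y p.1 p.2) * B * U.F y p.2 p.1) * X
        = (ampLft κ X * ampLft κ (U.F y p.1 p.2)) * B * (U.F y p.2 p.1 * X) := by
          simp only [Matrix.mul_assoc]
      _ = (ampLft κ (U.F y p.1 p.2) * ampLft κ X) * B * (X * U.F y p.2 p.1) := by
          rw [h1, hX]
      _ = _ := by simp only [Matrix.mul_assoc]
  rw [U.T_apply, U.T_apply, map_smul, ampChanMap_apply, ampChanMap_apply, U.tw_add, key G hG,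
    key K hK]

end ChanMap

/-! ### the two square roots -/

section Roots

variable {n : Type*} [Fintype n] [DecidableEq n]

/-- `G = (1-k)^{1/2}` -/
noncomputable def ampG (k : Matrix n n ℂ) : Matrix n n ℂ := CFC.sqrt (1 - k)

/-- `K = k^{1/2}` -/
noncomputable def ampK (k : Matrix n n ℂ) : Matrix n n ℂ := CFC.sqrt k

theorem ampG_conjTranspose (k : Matrix n n ℂ) : (ampG k)ᴴ = ampG k :=
  (IsSelfAdjoint.of_nonneg (CFC.sqrt_nonneg (1 - k))).star_eq

theorem ampK_conjTranspose (k : Matrix n n ℂ) : (ampK k)ᴴ = ampK k :=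
  (IsSelfAdjoint.of_nonneg (CFC.sqrt_nonneg k)).star_eq

theorem ampG_mul_self {k : Matrix n n ℂ} (h1 : k ≤ 1) : ampG k * ampG k = 1 - k :=
  CFC.sqrt_mul_sqrt_self _ (sub_nonneg.mpr h1)

theorem ampK_mul_self {k : Matrix n n ℂ} (h0 : 0 ≤ k) : ampK k * ampK k = k :=
  CFC.sqrt_mul_sqrt_self _ h0

theorem ampG_sq_add {k : Matrix n n ℂ} (h0 : 0 ≤ k) (h1 : k ≤ 1) :
    ampG k * ampG k + ampK k * ampK k = 1 := by
  rw [ampG_mul_self h1, ampK_mul_self h0]; abel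

theorem amp_norm_sqrt_le_one {x : Matrix n n ℂ} (h1 : x ≤ 1) : ‖CFC.sqrt x‖ ≤ 1 := by
  rw [CStarAlgebra.norm_le_one_iff_of_nonneg _ (CFC.sqrt_nonneg x)]
  calc CFC.sqrt x ≤ CFC.sqrt 1 := CFC.sqrt_le_sqrt _ _ h1
    _ = 1 := CFC.sqrt_one

theorem norm_ampG_le_one {k : Matrix n n ℂ} (h0 : 0 ≤ k) (h1 : k ≤ 1) : ‖ampG k‖ ≤ 1 :=
  amp_norm_sqrt_le_one (sub_le_self 1 h0)

theorem norm_ampK_le_one {k : Matrix n n ℂ} (h0 : 0 ≤ k) (h1 : k ≤ 1) : ‖ampK k‖ ≤ 1 :=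
  amp_norm_sqrt_le_one h1

/-- from `lr_sqrt_holder` -/
theorem ampG_sub_le {k k' : Matrix n n ℂ} (h1 : k ≤ 1) (h1' : k' ≤ 1) :
    ‖ampG k - ampG k'‖ ≤ Real.sqrt ‖k - k'‖ := by
  have h := lr_sqrt_holder (sub_nonneg.mpr h1) (sub_nonneg.mpr h1')
  have e : (1 - k) - (1 - k') = -(k - k') := by abel
  rwa [e, norm_neg] at h

theorem ampK_sub_le {k k' : Matrix n n ℂ} (h0 : 0 ≤ k) (h0' : 0 ≤ k') :
    ‖ampK k - ampK k'‖ ≤ Real.sqrt ‖k - k'‖ :=
  lr_sqrt_holder h0 h0'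

/-- from `lr_sqrt_one_sub_mul` with `P = vecMulVec Ω (star Ω)` (or any column matrix) -/
theorem ampG_mulVec {k : Matrix n n ℂ} (h0 : 0 ≤ k) (h1 : k ≤ 1) {Ω : n → ℂ} (h : k *ᵥ Ω = 0) :
    ampG k *ᵥ Ω = Ω := by
  funext i
  have h2 : k * vecMulVec Ω (Pi.single i 1) = 0 := by
    rw [Matrix.mul_vecMulVec, h]
    ext a b
    simp [vecMulVec_apply]
  have h3 := lr_sqrt_one_sub_mul h0 h1 h2
  have h4 := congrFun (congrFun h3 i) i
  rw [Matrix.mul_vecMulVec] at h4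
  simpa [vecMulVec_apply, ampG] using h4

theorem ampK_mulVec {k : Matrix n n ℂ} (h0 : 0 ≤ k) {Ω : n → ℂ} (h : k *ᵥ Ω = 0) :
    ampK k *ᵥ Ω = 0 := by
  funext i
  have h2 : k * vecMulVec Ω (Pi.single i 1) = 0 := by
    rw [Matrix.mul_vecMulVec, h]
    ext a b
    simp [vecMulVec_apply]
  have h3 := lr_sqrt_mul_eq_zero h0 h2
  have h4 := congrFun (congrFun h3 i) i
  rw [Matrix.mul_vecMulVec] at h4
  simpa [vecMulVec_apply, ampK] using h4

/-- `‖G ψ‖² = ‖ψ‖² - ⟨ψ, k ψ⟩` -/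
theorem opnSq_ampG_mulVec {k : Matrix n n ℂ} (h1 : k ≤ 1) (ψ : n → ℂ) :
    opnSq (ampG k *ᵥ ψ) = opnSq ψ - (star ψ ⬝ᵥ (k *ᵥ ψ)).re := by
  have hsq : ∀ v : n → ℂ, opnSq v = (star v ⬝ᵥ v).re := by
    intro v
    simp only [opnSq, dotProduct, Pi.star_apply, Complex.re_sum]
    refine Finset.sum_congr rfl fun i _ => ?_
    rw [RCLike.star_def, Complex.conj_mul', ← Complex.ofReal_pow, Complex.ofReal_re]
  have h2 : star (ampG k *ᵥ ψ) ⬝ᵥ (ampG k *ᵥ ψ) = star ψ ⬝ᵥ ((1 - k) *ᵥ ψ) := by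
    rw [Matrix.star_mulVec, ampG_conjTranspose, ← Matrix.dotProduct_mulVec, Matrix.mulVec_mulVec,
      ampG_mul_self h1]
  rw [hsq, hsq, h2, Matrix.sub_mulVec, Matrix.one_mulVec, dotProduct_sub, Complex.sub_re]

/-- `CFC.sqrt` of a positive matrix is a polynomial in the matrix (`mfun_eq_cfc`,
`exists_poly_mfun`), hence stays in every subalgebra -/
theorem amp_sqrt_mem {k : Matrix n n ℂ} (h0 : 0 ≤ k) (A : Subalgebra ℂ (Matrix n n ℂ))
    (hk : k ∈ A) : CFC.sqrt k ∈ A := by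
  have hH : k.IsHermitian := (IsSelfAdjoint.of_nonneg h0).star_eq
  rw [CFC.sqrt_eq_real_sqrt k h0,
    cfcₙ_eq_cfc (Real.continuous_sqrt.continuousOn) Real.sqrt_zero, ← mfun_eq_cfc hH]
  obtain ⟨p, hp⟩ := exists_poly_mfun k (fun x => ((Real.sqrt x : ℝ) : ℂ))
  rw [hp]
  exact (Algebra.adjoin_le (by simpa using hk) : Algebra.adjoin ℂ {k} ≤ A)
    (Polynomial.aeval_mem_adjoin_singleton ℂ k)

end Roots

/-! ### quasi-local systems of positive contractions -/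

/-- a family of positive contractions `k i` with strictly local approximants `kl i l`
(supported in `Nb i l`) and uniform tails `eta l → 0` -/
structure AmpSys {n : Type*} [Fintype n] [DecidableEq n] {Λ : Type*} {io : Λ → Type*}
    [∀ y, Fintype (io y)] [∀ y, DecidableEq (io y)] (U : AmpUnits n Λ io) (I : Type*) where
  Nb : I → ℕ → Finset Λ
  Nb_mono : ∀ i l, Nb i l ⊆ Nb i (l + 1)
  k : I → Matrix n n ℂ
  kl : I → ℕ → Matrix n n ℂ
  k_nonneg : ∀ i, 0 ≤ k i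
  k_le_one : ∀ i, k i ≤ 1
  kl_nonneg : ∀ i l, 0 ≤ kl i l
  kl_le_one : ∀ i l, kl i l ≤ 1
  kl_mem : ∀ i l, kl i l ∈ U.alg (Nb i l)
  eta : ℕ → ℝ
  eta_nonneg : ∀ l, 0 ≤ eta l
  eta_tendsto : Filter.Tendsto eta Filter.atTop (nhds 0)
  tail : ∀ i l, ‖k i - kl i l‖ ≤ eta l

section Sys

variable {n : Type*} [Fintype n] [DecidableEq n] {Λ : Type*} [DecidableEq Λ] {io : Λ → Type*}
  [∀ y, Fintype (io y)] [∀ y, DecidableEq (io y)] [∀ y, Nonempty (io y)] {U : AmpUnits n Λ io}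
  {I : Type*} (Sy : AmpSys U I)

/-- bound for `‖E i - sh i l‖` : `2` for `l = 0`, `4 √(eta (l-1))` otherwise -/
noncomputable def AmpSys.del : ℕ → ℝ
  | 0 => 2
  | (l + 1) => 4 * Real.sqrt (Sy.eta l)

/-- bound for the shells -/
noncomputable def AmpSys.eps (l : ℕ) : ℝ := Sy.del l + Sy.del (l + 1)

/-- the local approximants of the channels, shifted by one (`0 ↦ id`) -/
noncomputable def AmpSys.sh (κ : Type*) [Fintype κ] [DecidableEq κ] (i : I) :
    ℕ → (Matrix (n × κ) n ℂ →ₗ[ℂ] Matrix (n × κ) n ℂ)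
  | 0 => LinearMap.id
  | (l + 1) => ampChanMap κ (ampG (Sy.kl i l)) (ampK (Sy.kl i l))

theorem AmpSys.del_nonneg' (l : ℕ) : 0 ≤ Sy.del l := by
  cases l with
  | zero => simp [AmpSys.del]
  | succ l => simp only [AmpSys.del]; positivity

theorem AmpSys.E_norm' (κ : Type*) [Fintype κ] [DecidableEq κ] (i : I) (B : Matrix (n × κ) n ℂ) :
    ‖ampChanMap κ (ampG (Sy.k i)) (ampK (Sy.k i)) B‖ ≤ ‖B‖ :=
  ampChanMap_norm_le (ampG_conjTranspose _) (ampK_conjTranspose _)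
    (ampG_sq_add (Sy.k_nonneg i) (Sy.k_le_one i)) B

theorem AmpSys.sh_norm' (κ : Type*) [Fintype κ] [DecidableEq κ] (i : I) (l : ℕ)
    (B : Matrix (n × κ) n ℂ) : ‖Sy.sh κ i l B‖ ≤ ‖B‖ := by
  cases l with
  | zero => exact le_rfl
  | succ l =>
    exact ampChanMap_norm_le (ampG_conjTranspose _) (ampK_conjTranspose _)
      (ampG_sq_add (Sy.kl_nonneg i l) (Sy.kl_le_one i l)) B

theorem AmpSys.sh_lim' (κ : Type*) [Fintype κ] [DecidableEq κ] (i : I) (l : ℕ)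
    (B : Matrix (n × κ) n ℂ) :
    ‖ampChanMap κ (ampG (Sy.k i)) (ampK (Sy.k i)) B - Sy.sh κ i l B‖ ≤ Sy.del l * ‖B‖ := by
  cases l with
  | zero =>
    calc ‖ampChanMap κ (ampG (Sy.k i)) (ampK (Sy.k i)) B - Sy.sh κ i 0 B‖
        ≤ ‖ampChanMap κ (ampG (Sy.k i)) (ampK (Sy.k i)) B‖ + ‖Sy.sh κ i 0 B‖ := norm_sub_le _ _
      _ ≤ ‖B‖ + ‖B‖ := add_le_add (Sy.E_norm' κ i B) (Sy.sh_norm' κ i 0 B)
      _ = Sy.del 0 * ‖B‖ := by simp only [AmpSys.del]; ring
  | succ l =>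
    have h1 := ampChanMap_sub_le (κ := κ) (norm_ampG_le_one (Sy.k_nonneg i) (Sy.k_le_one i))
      (norm_ampK_le_one (Sy.k_nonneg i) (Sy.k_le_one i))
      (norm_ampG_le_one (Sy.kl_nonneg i l) (Sy.kl_le_one i l))
      (norm_ampK_le_one (Sy.kl_nonneg i l) (Sy.kl_le_one i l)) B
    have h2 : ‖ampG (Sy.k i) - ampG (Sy.kl i l)‖ ≤ Real.sqrt (Sy.eta l) :=
      (ampG_sub_le (Sy.k_le_one i) (Sy.kl_le_one i l)).trans (Real.sqrt_le_sqrt (Sy.tail i l))
    have h3 : ‖ampK (Sy.k i) - ampK (Sy.kl i l)‖ ≤ Real.sqrt (Sy.eta l) :=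
      (ampK_sub_le (Sy.k_nonneg i) (Sy.kl_nonneg i l)).trans (Real.sqrt_le_sqrt (Sy.tail i l))
    refine h1.trans ?_
    simp only [AmpSys.del]
    have hB := norm_nonneg B
    nlinarith

theorem AmpSys.ampG_mem (i : I) (l : ℕ) : ampG (Sy.kl i l) ∈ U.alg (Sy.Nb i l) :=
  amp_sqrt_mem (sub_nonneg.mpr (Sy.kl_le_one i l)) _
    (Subalgebra.sub_mem _ (Subalgebra.one_mem _) (Sy.kl_mem i l))

theorem AmpSys.ampK_mem (i : I) (l : ℕ) : ampK (Sy.kl i l) ∈ U.alg (Sy.Nb i l) :=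
  amp_sqrt_mem (Sy.kl_nonneg i l) _ (Sy.kl_mem i l)

/-- **the quasi-local channel family of a quasi-local system of positive contractions**
(`lem:quasilocal-roots`) -/
noncomputable def AmpSys.chan (κ : Type*) [Fintype κ] [DecidableEq κ] : AmpChan (U.loc κ) I where
  Nb := Sy.Nb
  Nb_mono := Sy.Nb_mono
  E i := ampChanMap κ (ampG (Sy.k i)) (ampK (Sy.k i))
  sh := Sy.sh κ
  sh_zero i B := rfl
  E_norm i B := Sy.E_norm' κ i B
  sh_norm i l B := Sy.sh_norm' κ i l B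
  sh_comm i l y hy B :=
    ampChanMap_comm_T U y (fun a b => U.alg_comm_F (Sy.ampG_mem i l) hy a b)
      (fun a b => U.alg_comm_F (Sy.ampK_mem i l) hy a b) B
  sh_fix i l C hC :=
    ampChanMap_fix (ampG_sq_add (Sy.kl_nonneg i l) (Sy.kl_le_one i l))
      (U.alg_itw (Sy.ampG_mem i l) fun z hz => (U.itw_iff z C).2 (hC z hz))
      (U.alg_itw (Sy.ampK_mem i l) fun z hz => (U.itw_iff z C).2 (hC z hz))
  eps := Sy.eps
  eps_nonneg l := add_nonneg (Sy.del_nonneg' l) (Sy.del_nonneg' (l + 1))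
  sh_diff i l B := by
    have h1 := Sy.sh_lim' κ i l B
    have h2 := Sy.sh_lim' κ i (l + 1) B
    have e : Sy.sh κ i (l + 1) B - Sy.sh κ i l B
        = (ampChanMap κ (ampG (Sy.k i)) (ampK (Sy.k i)) B - Sy.sh κ i l B)
          - (ampChanMap κ (ampG (Sy.k i)) (ampK (Sy.k i)) B - Sy.sh κ i (l + 1) B) := by abel
    rw [e]
    refine (norm_sub_le _ _).trans ?_
    simp only [AmpSys.eps]
    linarith
  del := Sy.del
  del_nonneg l := Sy.del_nonneg' l
  del_tendsto := by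
    rw [← Filter.tendsto_add_atTop_iff_nat 1]
    have h := (Sy.eta_tendsto.sqrt).const_mul 4
    simpa [AmpSys.del] using h
  sh_lim i l B := Sy.sh_lim' κ i l B

end Sys

end Claimed.Agent.R296
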