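/-
Row 296, black-box chain INTERP, file 9: functions of the marginals of a PURE state acting on the state
(Notes/P1S04 (4.0): EXPECTATION, NORM, INNERMOST and MIRROR rules), first along an abstract splitting
`e : n ≃ m × r` (helper19's `ptrE`, `embE`), then for sites (`ptr A`, `emb A` of Defs.lean).
Used in P1 Sec. 2 (lem:tail, lem:initial-buffer), Sec. 4 (all three lemmas), Sec. 5, P2 Sec. 2-3.
Statements fixed by helper57 (architect).  The owner of this file replaces the `sorry`s; do not change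
the statements without telling helper57 (adding lemmas is welcome).
Proofs: helper98 (auxiliary lemmas carry the prefix `pp_`).
METHOD: `Θ x k := θ (e.symm (x, k))`; `ptrE e (pureOp θ) = Θ Θᴴ`, `ptrE e' (pureOp θ) = (Θᴴ Θ)ᵀ`,
`(embE e T *ᵥ θ) (e.symm (x,k)) = (T Θ) x k`, `(embE e' S *ᵥ θ) (e.symm (x,k)) = (Θ Sᵀ) x k`,
then `mfun_mul_self_conjTranspose_mul` and `mfun_transpose` of MatFun2.
-/
import Claimed.Agent.R296.EntPtrE
import Claimed.Agent.R296.EntPure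
import Claimed.Agent.R296.HS
import Claimed.Agent.R296.MatFun2

set_option autoImplicit false
set_option linter.unusedSectionVars false
set_option linter.unusedDecidableInType false

namespace Claimed.Agent.R296

open Matrix
open scoped Matrix.Norms.L2Operator ComplexOrder

section Abstract

variable {n m r : Type} [Fintype n] [DecidableEq n] [Fintype m] [DecidableEq m]
  [Fintype r] [DecidableEq r]

/-- the coefficient matrix of a vector with respect to a splitting -/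
def ppCoef (e : n ≃ m × r) (θ : n → ℂ) : Matrix m r ℂ := Matrix.of fun x k => θ (e.symm (x, k))

/-- the complementary splitting -/
def swapE (e : n ≃ m × r) : n ≃ r × m := e.trans (Equiv.prodComm m r)

theorem ptrE_pureOp (e : n ≃ m × r) (θ : n → ℂ) :
    ptrE e (pureOp θ) = ppCoef e θ * (ppCoef e θ)ᴴ := by
  ext x x'
  simp [ptrE_apply, pureOp_apply, ppCoef, Matrix.mul_apply, conjTranspose_apply]

theorem ptrE_swapE_pureOp (e : n ≃ m × r) (θ : n → ℂ) :
    ptrE (swapE e) (pureOp θ) = ((ppCoef e θ)ᴴ * ppCoef e θ)ᵀ := by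
  ext k k'
  simp [ptrE_apply, pureOp_apply, ppCoef, swapE, Matrix.mul_apply, conjTranspose_apply, mul_comm]

theorem ppCoef_embE_mulVec (e : n ≃ m × r) (T : Matrix m m ℂ) (θ : n → ℂ) :
    ppCoef e (embE e T *ᵥ θ) = T * ppCoef e θ := by
  ext x k
  simp only [ppCoef, of_apply, mulVec, dotProduct, Matrix.mul_apply, embE_apply]
  rw [← e.symm.sum_comp, Fintype.sum_prod_type]
  refine Finset.sum_congr rfl fun x' _ => ?_
  simp only [Equiv.apply_symm_apply]
  rw [Finset.sum_eq_single k]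
  · simp
  · intro k' _ hk'
    simp [Ne.symm hk']
  · simp

theorem ppCoef_embE_swapE_mulVec (e : n ≃ m × r) (S : Matrix r r ℂ) (θ : n → ℂ) :
    ppCoef e (embE (swapE e) S *ᵥ θ) = ppCoef e θ * Sᵀ := by
  ext x k
  simp only [ppCoef, of_apply, mulVec, dotProduct, Matrix.mul_apply, embE_apply, transpose_apply]
  rw [← e.symm.sum_comp, Fintype.sum_prod_type_right]
  refine Finset.sum_congr rfl fun k' _ => ?_
  simp only [swapE, Equiv.trans_apply, Equiv.apply_symm_apply, Equiv.prodComm_apply, Prod.swap_prod_mk]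
  rw [Finset.sum_eq_single x]
  · simp [mul_comm]
  · intro x' _ hx'
    simp [Ne.symm hx']
  · simp

theorem ppCoef_injective (e : n ≃ m × r) : Function.Injective (ppCoef e) := by
  intro θ θ' h
  funext u
  have := congrFun (congrFun h (e u).1) (e u).2
  simpa [ppCoef] using this

theorem l2n_eq_hsn_ppCoef (e : n ≃ m × r) (θ : n → ℂ) : l2n θ = hsn (ppCoef e θ) := by
  have h : l2n θ ^ 2 = hsn (ppCoef e θ) ^ 2 := by
    rw [l2n_sq, hsn_sq, hsSq, ← e.symm.sum_comp, Fintype.sum_prod_type]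
    rfl
  exact (pow_left_inj₀ (l2n_nonneg _) (hsn_nonneg _) two_ne_zero).1 h

theorem pp_trace_pureOp (θ : n → ℂ) : (pureOp θ).trace = star θ ⬝ᵥ θ := by
  rw [pureOp, trace_vecMulVec, dotProduct_comm]

/-- `⟨θ, M θ⟩ = Tr (M |θ⟩⟨θ|)` -/
theorem pp_quad_eq_trace (M : Matrix n n ℂ) (θ : n → ℂ) :
    star θ ⬝ᵥ (M *ᵥ θ) = (M * pureOp θ).trace := by
  rw [pureOp, mul_vecMulVec, trace_vecMulVec, dotProduct_comm]

/-- EXPECTATION RULE -/
theorem quad_embE (e : n ≃ m × r) (θ : n → ℂ) (T : Matrix m m ℂ) :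
    star θ ⬝ᵥ (embE e T *ᵥ θ) = (T * ptrE e (pureOp θ)).trace := by
  rw [pp_quad_eq_trace, trace_embE_mul]

/-- NORM RULE -/
theorem l2n_sq_embE_mulVec (e : n ≃ m × r) (θ : n → ℂ) (T : Matrix m m ℂ) :
    ((l2n (embE e T *ᵥ θ) ^ 2 : ℝ) : ℂ) = (T * ptrE e (pureOp θ) * Tᴴ).trace := by
  rw [l2n_sq_eq_dotProduct, star_mulVec, ← dotProduct_mulVec, mulVec_mulVec, ← embE_conjTranspose,
    ← embE_mul, quad_embE, trace_mul_comm, ← Matrix.mul_assoc, trace_mul_comm, ← Matrix.mul_assoc]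

/-- NORM RULE, Hilbert-Schmidt form `‖T θ‖ = ‖T √ρ‖_2` -/
theorem l2n_embE_mulVec_eq_hsn (e : n ≃ m × r) (θ : n → ℂ) (T : Matrix m m ℂ) :
    l2n (embE e T *ᵥ θ) = hsn (T * spow (ptrE e (pureOp θ)) (1 / 2)) := by
  have hρ : (ptrE e (pureOp θ)).PosSemidef := ptrE_posSemidef e (pureOp_posSemidef θ)
  have hh : (spow (ptrE e (pureOp θ)) (1 / 2))ᴴ = spow (ptrE e (pureOp θ)) (1 / 2) := by
    rw [spow_conjTranspose]
    congr 1
    apply Complex.ext <;> simp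
  have h : ((l2n (embE e T *ᵥ θ) ^ 2 : ℝ) : ℂ)
      = ((hsn (T * spow (ptrE e (pureOp θ)) (1 / 2)) ^ 2 : ℝ) : ℂ) := by
    rw [l2n_sq_embE_mulVec, hsn_sq, hsSq_eq_trace', conjTranspose_mul, hh]
    congr 1
    calc T * ptrE e (pureOp θ) * Tᴴ
        = T * (spow (ptrE e (pureOp θ)) (1 / 2) * spow (ptrE e (pureOp θ)) (1 / 2)) * Tᴴ := by
          rw [spow_half_mul_self hρ]
      _ = _ := by simp only [Matrix.mul_assoc]
  have h' : l2n (embE e T *ᵥ θ) ^ 2 = hsn (T * spow (ptrE e (pureOp θ)) (1 / 2)) ^ 2 := by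
    exact_mod_cast h
  exact (pow_left_inj₀ (l2n_nonneg _) (hsn_nonneg _) two_ne_zero).1 h'

/-- INNERMOST RULE: `θ` lies in the support of each of its marginals -/
theorem embE_supp_mulVec (e : n ≃ m × r) (θ : n → ℂ) :
    embE e (supp (ptrE e (pureOp θ))) *ᵥ θ = θ := by
  have hρ : (ptrE e (pureOp θ)).PosSemidef := ptrE_posSemidef e (pureOp_posSemidef θ)
  apply ppCoef_injective e
  rw [ppCoef_embE_mulVec]
  set Θ := ppCoef e θ with hΘ
  have hρΘ : ptrE e (pureOp θ) = Θ * Θᴴ := ptrE_pureOp e θ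
  set P := supp (ptrE e (pureOp θ)) with hP
  have h1 : P * (Θ * Θᴴ) = Θ * Θᴴ := by rw [← hρΘ]; exact supp_mul_self hρ
  have h2 : (Θ - P * Θ) * (Θ - P * Θ)ᴴ = 0 := by
    have hPh : Pᴴ = P := (supp_isHermitian _).eq
    have h3 : (Θ * Θᴴ) * P = Θ * Θᴴ := by rw [← hρΘ]; exact self_mul_supp hρ
    rw [conjTranspose_sub, conjTranspose_mul, hPh, Matrix.sub_mul, Matrix.mul_sub, Matrix.mul_sub]
    have e1 : Θ * (Θᴴ * P) = Θ * Θᴴ := by rw [← Matrix.mul_assoc, h3]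
    have e2 : P * Θ * Θᴴ = Θ * Θᴴ := by rw [Matrix.mul_assoc, h1]
    have e3 : P * Θ * (Θᴴ * P) = Θ * Θᴴ := by
      rw [Matrix.mul_assoc, e1, h1]
    rw [e1, e2, e3]; simp
  have h4 := self_mul_conjTranspose_eq_zero.1 h2
  exact (sub_eq_zero.1 h4).symm

theorem embE_spow_mulVec_eq_hpow (e : n ≃ m × r) (θ : n → ℂ) (z : ℂ) :
    embE e (spow (ptrE e (pureOp θ)) z) *ᵥ θ = embE e (hpow (ptrE e (pureOp θ)) z) *ᵥ θ := by
  rw [spow_eq_hpow_mul_supp, embE_mul, ← mulVec_mulVec, embE_supp_mulVec]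

/-- MIRROR RULE -/
theorem embE_mfun_mirror (f : ℝ → ℂ) (e : n ≃ m × r) (θ : n → ℂ) :
    embE e (mfun f (ptrE e (pureOp θ))) *ᵥ θ =
      embE (swapE e) (mfun f (ptrE (swapE e) (pureOp θ))) *ᵥ θ := by
  apply ppCoef_injective e
  rw [ppCoef_embE_mulVec, ppCoef_embE_swapE_mulVec, ptrE_pureOp, ptrE_swapE_pureOp, mfun_transpose,
    transpose_transpose, mfun_mul_self_conjTranspose_mul]

/-- operators on the two factors commute -/
theorem embE_commute_swapE (e : n ≃ m × r) (T : Matrix m m ℂ) (S : Matrix r r ℂ) :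
    Commute (embE e T) (embE (swapE e) S) := by
  rw [Commute, SemiconjBy, ext_iff_mulVec]
  intro θ
  apply ppCoef_injective e
  rw [← mulVec_mulVec, ← mulVec_mulVec, ppCoef_embE_mulVec, ppCoef_embE_swapE_mulVec,
    ppCoef_embE_swapE_mulVec, ppCoef_embE_mulVec, Matrix.mul_assoc]

/-- `‖Y ⊗ 1‖ = ‖Y‖` (only `≤` is needed) -/
theorem norm_embE_le (e : n ≃ m × r) (T : Matrix m m ℂ) : ‖embE e T‖ ≤ ‖T‖ := by
  refine opNorm_le_of_l2n (norm_nonneg T) fun v => ?_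
  rw [l2n_eq_hsn_ppCoef e, l2n_eq_hsn_ppCoef e v, ppCoef_embE_mulVec]
  exact hsn_mul_le_left T _

/-! ### change of the splitting -/

section Change

variable {m' r' : Type} [Fintype m'] [DecidableEq m'] [Fintype r'] [DecidableEq r']

theorem pp_embE_change (e : n ≃ m × r) (e' : n ≃ m' × r') (φ : m ≃ m') (ψ : r ≃ r')
    (h : ∀ u, e' u = (φ (e u).1, ψ (e u).2)) (Y : Matrix m' m' ℂ) :
    embE e' Y = embE e (Y.submatrix φ φ) := by
  ext u u'
  simp only [embE_apply, h, submatrix_apply, ψ.injective.eq_iff]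

theorem pp_symm_change (e : n ≃ m × r) (e' : n ≃ m' × r') (φ : m ≃ m') (ψ : r ≃ r')
    (h : ∀ u, e' u = (φ (e u).1, ψ (e u).2)) (x : m) (k : r) :
    e'.symm (φ x, ψ k) = e.symm (x, k) := by
  rw [Equiv.symm_apply_eq, h]; simp

theorem pp_ptrE_change (e : n ≃ m × r) (e' : n ≃ m' × r') (φ : m ≃ m') (ψ : r ≃ r')
    (h : ∀ u, e' u = (φ (e u).1, ψ (e u).2)) (M : Matrix n n ℂ) :
    (ptrE e' M).submatrix φ φ = ptrE e M := by
  ext x x'
  simp only [ptrE_apply, submatrix_apply]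
  rw [← ψ.sum_comp]
  simp only [pp_symm_change e e' φ ψ h]

theorem pp_embE_mfun_change (f : ℝ → ℂ) (e : n ≃ m × r) (e' : n ≃ m' × r') (φ : m ≃ m') (ψ : r ≃ r')
    (h : ∀ u, e' u = (φ (e u).1, ψ (e u).2)) (M : Matrix n n ℂ) :
    embE e' (mfun f (ptrE e' M)) = embE e (mfun f (ptrE e M)) := by
  rw [pp_embE_change e e' φ ψ h, ← mfun_submatrix_equiv, pp_ptrE_change e e' φ ψ h]

end Change

end Abstract

section Sites

variable {s : Type} [DecidableEq s] [Fintype s] {io : s → Type}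
  [∀ x, Fintype (io x)] [∀ x, DecidableEq (io x)]

/-- `CfgOff io A ≃ CfgOn io Aᶜ` -/
def pp_offEquiv (A : Finset s) : CfgOff io A ≃ CfgOn io Aᶜ where
  toFun b := fun x => b ⟨x.1, Finset.mem_compl.1 x.2⟩
  invFun c := fun x => c ⟨x.1, Finset.mem_compl.2 x.2⟩
  left_inv _ := rfl
  right_inv _ := rfl

/-- `CfgOn io A ≃ CfgOff io Aᶜ` -/
def pp_onEquiv (A : Finset s) : CfgOn io A ≃ CfgOff io Aᶜ where
  toFun a := fun x => a ⟨x.1, by simpa using x.2⟩
  invFun c := fun x => c ⟨x.1, by simp⟩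
  left_inv _ := rfl
  right_inv _ := rfl

theorem quad_emb (A : Finset s) (θ : Cfg io → ℂ) (T : Matrix (CfgOn io A) (CfgOn io A) ℂ) :
    star θ ⬝ᵥ (emb A T *ᵥ θ) = (T * ptr A (pureOp θ)).trace :=
  quad_embE (cfgSplit A) θ T

theorem l2n_sq_emb_mulVec (A : Finset s) (θ : Cfg io → ℂ) (T : Matrix (CfgOn io A) (CfgOn io A) ℂ) :
    ((l2n (emb A T *ᵥ θ) ^ 2 : ℝ) : ℂ) = (T * ptr A (pureOp θ) * Tᴴ).trace :=
  l2n_sq_embE_mulVec (cfgSplit A) θ T

theorem l2n_emb_mulVec_eq_hsn (A : Finset s) (θ : Cfg io → ℂ)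
    (T : Matrix (CfgOn io A) (CfgOn io A) ℂ) :
    l2n (emb A T *ᵥ θ) = hsn (T * spow (ptr A (pureOp θ)) (1 / 2)) :=
  l2n_embE_mulVec_eq_hsn (cfgSplit A) θ T

theorem emb_supp_mulVec (A : Finset s) (θ : Cfg io → ℂ) :
    emb A (supp (ptr A (pureOp θ))) *ᵥ θ = θ :=
  embE_supp_mulVec (cfgSplit A) θ

theorem emb_spow_mulVec_eq_hpow (A : Finset s) (θ : Cfg io → ℂ) (z : ℂ) :
    emb A (spow (ptr A (pureOp θ)) z) *ᵥ θ = emb A (hpow (ptr A (pureOp θ)) z) *ᵥ θ :=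
  embE_spow_mulVec_eq_hpow (cfgSplit A) θ z

/-- MIRROR RULE for sites: `B` is the complement of `A`.  (Transport `embE_mfun_mirror` along the
equivalence `CfgOff io A ≃ CfgOn io B`, `mfun_submatrix_equiv`.) -/
theorem emb_mfun_mirror (f : ℝ → ℂ) {A B : Finset s} (hAB : B = Aᶜ) (θ : Cfg io → ℂ) :
    emb A (mfun f (ptr A (pureOp θ))) *ᵥ θ = emb B (mfun f (ptr B (pureOp θ))) *ᵥ θ := by
  subst hAB
  have h1 := embE_mfun_mirror f (cfgSplit A) θ
  have h2 := pp_embE_mfun_change f (swapE (cfgSplit A)) (cfgSplit (io := io) Aᶜ) (pp_offEquiv A)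
    (pp_onEquiv A) (fun _ => rfl) (pureOp θ)
  rw [← h2] at h1
  exact h1

theorem emb_spow_mirror {A B : Finset s} (hAB : B = Aᶜ) (θ : Cfg io → ℂ) (z : ℂ) :
    emb A (spow (ptr A (pureOp θ)) z) *ᵥ θ = emb B (spow (ptr B (pureOp θ)) z) *ᵥ θ :=
  emb_mfun_mirror _ hAB θ

theorem emb_hpow_mirror {A B : Finset s} (hAB : B = Aᶜ) (θ : Cfg io → ℂ) (z : ℂ) :
    emb A (hpow (ptr A (pureOp θ)) z) *ᵥ θ = emb B (hpow (ptr B (pureOp θ)) z) *ᵥ θ :=
  emb_mfun_mirror _ hAB θ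

theorem mfun_emb (f : ℝ → ℂ) (A : Finset s) {T : Matrix (CfgOn io A) (CfgOn io A) ℂ}
    (hT : T.IsHermitian) : mfun f (emb A T) = emb A (mfun f T) :=
  mfun_embE f (cfgSplit A) hT

/-- `z ↦ emb A (M z)` is `StripNice` -/
theorem StripNice.emb (A : Finset s) {M : ℂ → Matrix (CfgOn io A) (CfgOn io A) ℂ}
    (hM : StripNice M) : StripNice (fun z => Claimed.Agent.R296.emb A (M z)) :=
  hM.lin (embEHom (cfgSplit A)).toLinearMap

end Sites

end Claimed.Agent.R296
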