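import Claimed.Agent.R296.AmpBip
import Claimed.Agent.R296.EntAFW
import Claimed.Agent.R296.EntTrDist
import Claimed.Agent.R296.EntBasic
import Claimed.Agent.R296.PurePow

/-!
# Row 296, paper 1, Section 9 (amplification), file 10: decoupling on a product space

Master splitting `e : n ≃ (a × b × c) × d` (`a = X`, `b = S₀ \ X`, `c` = collar `W \ S₀`, `d` = the rest).
`Ω` unit vector, `ρS = ρ_{ab}`, `L'` a Hermitian filter acting on `a × b × c`.

**No polar decomposition.**  Extended space `n × (a × a)`, `A = ampRoot ρ_a`, blocks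
`B_p = embE eS (ampBlk ρS w p)`:
`η (u,(p₁,p₂)) = A p₂ p₁ * Ω u`,   `ξ (·,p) = L' B_p Ω`,   `K̂ = embE (ampEHat e) K` for `K` on `a × d`
(`K̂` acts on the SECOND spectator index and on `d`).
* (D1) `⟨η, K̂ η⟩ = Tr ((ρ_a ⊗ ρ_d) K)`;
* (D2) `⟨η, K̂ ξ⟩ = ⟨ψ, K̃ Ω⟩`, `ψ = embE eS ((P_a ⊗ T₀) Q) L' Ω`, `K̃ = embE eXJ K`
  (`K̂` commutes with `L'` and with everything on `a × b`; `∑_{p₁} A p₁ t • Γ E_{p₁ p₂} = Γ A E_{t p₂}
  = P_a E_{t p₂}`; `K̃ = ∑ E_{t p₂} ⊗ K_{t p₂}`);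
* (D3) `⟨Ω, K̃ Ω⟩ = Tr (ρ_{ad} K)`;
* (D4) `‖ψ - Ω‖ ≤ 3 √δ + κe =: ε₁` (`ampTyp_vec` three times);
* (D5) `‖ξ‖ ≤ 1 + x`, `x = κe e^{(S_a + S_ab - S_b + 3w)/2}` (filter bound, (N), (G)), `‖η‖ = 1`,
  `Re ⟨η, ξ⟩ = Re ⟨ψ, Ω⟩ ≥ 1 - ε₁` ((D2) with `K = 1`), so `‖ξ - η‖² ≤ 2x + x² + 2ε₁`;
* with `K = signMat (ρ_ad - ρ_a ⊗ ρ_d)`, `‖K‖ ≤ 1`:
  `‖ρ_ad - ρ_a ⊗ ρ_d‖₁ = ⟨Ω,K̃Ω⟩ - ⟨η,K̂η⟩ ≤ ‖Ω - ψ‖ + ‖ξ - η‖`.
This file: definitions and the algebraic identities (D1)-(D3).  `AmpDec2.lean`: (D4), (D5), conclusion.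
All statements are used by `AmpDec2.lean`: frozen.  Architect: helper286.
-/

set_option autoImplicit false
set_option linter.unusedSectionVars false
set_option linter.unusedDecidableInType false

namespace Claimed.Agent.R296

open Matrix Kronecker Claimed.Agent.R298
open scoped MatrixOrder Matrix.Norms.L2Operator ComplexOrder

/-- the trace distance produced by the decoupling argument: filter error `κe`, exponent `I0 + 3 w`,
tail mass `δ` -/
noncomputable def ampDelta (κe I0 w δ : ℝ) : ℝ :=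
  (Real.sqrt (2 * (κe * Real.exp ((I0 + 3 * w) / 2)) + (κe * Real.exp ((I0 + 3 * w) / 2)) ^ 2 +
    2 * (3 * Real.sqrt δ + κe)) + (3 * Real.sqrt δ + κe)) / 2

/-- `(a × b × c) × d ≃ (a × d) × (b × c)` -/
def ampShXJ (a b c d : Type) : (a × b × c) × d ≃ (a × d) × (b × c) where
  toFun p := ((p.1.1, p.2), (p.1.2.1, p.1.2.2))
  invFun p := ((p.1.1, p.2.1, p.2.2), p.1.2)
  left_inv _ := rfl
  right_inv _ := rfl

section Dec

variable {n a b c d : Type} [Fintype n] [DecidableEq n] [Fintype a] [DecidableEq a]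
  [Fintype b] [DecidableEq b] [Fintype c] [DecidableEq c] [Fintype d] [DecidableEq d]

/-- the source `a × b` -/
def ampES (e : n ≃ (a × b × c) × d) : n ≃ (a × b) × (c × d) := e.trans (shuf12 a b c d)

/-- the distant part `d` -/
def ampEJ (e : n ≃ (a × b × c) × d) : n ≃ d × (a × b × c) := e.trans (Equiv.prodComm _ _)

/-- `a` together with the distant part -/
def ampEXJ (e : n ≃ (a × b × c) × d) : n ≃ (a × d) × (b × c) := e.trans (ampShXJ a b c d)

/-- extended space: second spectator index together with `d` -/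
def ampEHat (e : n ≃ (a × b × c) × d) : n × (a × a) ≃ (a × d) × ((a × b × c) × a) where
  toFun p := ((p.2.2, (e p.1).2), ((e p.1).1, p.2.1))
  invFun p := (e.symm (p.2.1, p.1.2), (p.2.2, p.1.1))
  left_inv p := by simp
  right_inv p := by simp

/-- the reference vector `η` -/
noncomputable def ampEta (e : n ≃ (a × b × c) × d) (Ω : n → ℂ) : n × (a × a) → ℂ :=
  fun p => ampRoot (ptrFst (ptrE (ampES e) (pureOp Ω))) p.2.2 p.2.1 * Ω p.1

/-- the filtered vector `ξ` -/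
noncomputable def ampXi (e : n ≃ (a × b × c) × d) (Ω : n → ℂ) (w : ℝ) (L' : Matrix n n ℂ) :
    n × (a × a) → ℂ :=
  ampCol (fun p : a × a => L' * embE (ampES e) (ampBlk (ptrE (ampES e) (pureOp Ω)) w p)) *ᵥ Ω

/-- the vector `ψ` -/
noncomputable def ampPsi (e : n ≃ (a × b × c) × d) (Ω : n → ℂ) (w : ℝ) (L' : Matrix n n ℂ) :
    n → ℂ :=
  embE (ampES e) ((ampTypP (ptrFst (ptrE (ampES e) (pureOp Ω))) w ⊗ₖ
    ampTypP (ptrSnd (ptrE (ampES e) (pureOp Ω))) w) * ampTypP (ptrE (ampES e) (pureOp Ω)) w) *ᵥ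
      (L' *ᵥ Ω)

/-- the marginals of `ρ_{ad}` -/
theorem amp_ptrFst_XJ (e : n ≃ (a × b × c) × d) (M : Matrix n n ℂ) :
    ptrFst (ptrE (ampEXJ e) M) = ptrFst (ptrE (ampES e) M) := by
  ext x y
  simp only [ptrFst_apply, ptrE_apply, ampEXJ, ampES, ampShXJ, shuf12, Fintype.sum_prod_type,
    Equiv.symm_trans_apply, Equiv.coe_fn_symm_mk]
  rw [Finset.sum_comm]
  refine Finset.sum_congr rfl fun j _ => ?_
  rw [Finset.sum_comm]

theorem amp_ptrSnd_XJ (e : n ≃ (a × b × c) × d) (M : Matrix n n ℂ) :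
    ptrSnd (ptrE (ampEXJ e) M) = ptrE (ampEJ e) M := by
  ext x y
  simp only [ptrSnd_apply, ptrE_apply, ampEXJ, ampEJ, ampShXJ, Fintype.sum_prod_type,
    Equiv.symm_trans_apply, Equiv.coe_fn_symm_mk, Equiv.prodComm_symm, Equiv.prodComm_apply,
    Prod.swap_prod_mk]

/-- entries of a product (source) * (distant) -/
theorem amp_S_mul_J (e : n ≃ (a × b × c) × d) (M : Matrix (a × b) (a × b) ℂ)
    (K : Matrix d d ℂ) (u v : n) :
    (embE (ampES e) M * embE (ampEJ e) K) u v =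
      if (e u).1.2.2 = (e v).1.2.2 then
        M ((e u).1.1, (e u).1.2.1) ((e v).1.1, (e v).1.2.1) * K (e u).2 (e v).2 else 0 := by
  rw [Matrix.mul_apply, Finset.sum_eq_single (e.symm ((e v).1, (e u).2))]
  · simp only [embE_apply, ampES, ampEJ, shuf12, Equiv.trans_apply, Equiv.coe_fn_mk,
      Equiv.apply_symm_apply, Equiv.prodComm_apply, Prod.swap_prod_mk, Prod.mk.injEq, and_true,
      if_true, Prod.fst_swap, Prod.snd_swap]
    split_ifs <;> simp
  · intro u' _ hu'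
    simp only [embE_apply, ampES, ampEJ, shuf12, Equiv.trans_apply, Equiv.coe_fn_mk,
      Equiv.prodComm_apply, Prod.mk.injEq, Prod.fst_swap, Prod.snd_swap]
    by_cases h1 : (e u').1 = (e v).1
    · by_cases h2 : (e u).2 = (e u').2
      · exfalso
        apply hu'
        rw [Equiv.eq_symm_apply]
        exact Prod.ext h1 h2.symm
      · simp [h2]
    · simp [h1]
  · intro h; exact absurd (Finset.mem_univ _) h

/-- entries of a product (distant) * (source) -/
theorem amp_J_mul_S (e : n ≃ (a × b × c) × d) (M : Matrix (a × b) (a × b) ℂ)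
    (K : Matrix d d ℂ) (u v : n) :
    (embE (ampEJ e) K * embE (ampES e) M) u v =
      if (e u).1.2.2 = (e v).1.2.2 then
        M ((e u).1.1, (e u).1.2.1) ((e v).1.1, (e v).1.2.1) * K (e u).2 (e v).2 else 0 := by
  rw [Matrix.mul_apply, Finset.sum_eq_single (e.symm ((e u).1, (e v).2))]
  · simp only [embE_apply, ampES, ampEJ, shuf12, Equiv.trans_apply, Equiv.coe_fn_mk,
      Equiv.apply_symm_apply, Equiv.prodComm_apply, Prod.swap_prod_mk, Prod.mk.injEq, and_true,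
      if_true, Prod.fst_swap, Prod.snd_swap]
    split_ifs <;> simp [mul_comm]
  · intro u' _ hu'
    simp only [embE_apply, ampES, ampEJ, shuf12, Equiv.trans_apply, Equiv.coe_fn_mk,
      Equiv.prodComm_apply, Prod.mk.injEq, Prod.fst_swap, Prod.snd_swap]
    by_cases h1 : (e u).1 = (e u').1
    · by_cases h2 : (e u').2 = (e v).2
      · exfalso
        apply hu'
        rw [Equiv.eq_symm_apply]
        exact Prod.ext h1.symm h2
      · simp [h2]
    · simp [h1]
  · intro h; exact absurd (Finset.mem_univ _) h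

/-- operators on `a × b` commute with operators on `d` -/
theorem amp_commute_S_J (e : n ≃ (a × b × c) × d) (M : Matrix (a × b) (a × b) ℂ)
    (K : Matrix d d ℂ) : Commute (embE (ampES e) M) (embE (ampEJ e) K) := by
  ext u v
  rw [amp_S_mul_J, amp_J_mul_S]

/-- block decomposition of an operator on `a × d` -/
theorem amp_embE_XJ (e : n ≃ (a × b × c) × d) (K : Matrix (a × d) (a × d) ℂ) :
    embE (ampEXJ e) K = ∑ t : a, ∑ t' : a,
      embE (ampES e) (Matrix.single t t' 1 ⊗ₖ (1 : Matrix b b ℂ)) *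
        embE (ampEJ e) (Matrix.of fun j j' => K (t, j) (t', j')) := by
  ext u v
  simp only [Matrix.sum_apply, amp_S_mul_J]
  rw [Finset.sum_eq_single (e u).1.1]
  · rw [Finset.sum_eq_single (e v).1.1]
    · simp only [embE_apply, ampEXJ, ampShXJ, Equiv.trans_apply, Equiv.coe_fn_mk, Prod.mk.injEq,
        kroneckerMap_apply, Matrix.single_apply_same, Matrix.one_apply, Matrix.of_apply, one_mul]
      by_cases h1 : (e u).1.2.1 = (e v).1.2.1 <;> by_cases h2 : (e u).1.2.2 = (e v).1.2.2 <;>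
        simp [h1, h2]
    · intro t' _ ht'
      simp [kroneckerMap_apply, ht']
    · intro h; exact absurd (Finset.mem_univ _) h
  · intro t _ ht
    refine Finset.sum_eq_zero fun t' _ => ?_
    simp [kroneckerMap_apply, ht]
  · intro h; exact absurd (Finset.mem_univ _) h

/-- action of `K̂` on a vector of the extended space -/
theorem amp_embE_hat_mulVec (e : n ≃ (a × b × c) × d) (K : Matrix (a × d) (a × d) ℂ)
    (φ : n × (a × a) → ℂ) (u : n) (p₁ t : a) :
    (embE (ampEHat e) K *ᵥ φ) (u, (p₁, t)) = ∑ t' : a,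
      (embE (ampEJ e) (Matrix.of fun j j' => K (t, j) (t', j')) *ᵥ fun u' => φ (u', (p₁, t'))) u := by
  simp only [Matrix.mulVec, dotProduct, Fintype.sum_prod_type, embE_apply, ampEHat, ampEJ,
    Equiv.coe_fn_mk, Equiv.trans_apply, Equiv.prodComm_apply, Prod.mk.injEq, Matrix.of_apply,
    Prod.fst_swap, Prod.snd_swap]
  rw [Finset.sum_comm (γ := a)]
  refine Finset.sum_congr rfl fun u' _ => ?_
  rw [Finset.sum_eq_single p₁]
  · by_cases h : (e u).1 = (e u').1 <;> simp [h]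
  · intro q _ hq
    refine Finset.sum_eq_zero fun t' _ => ?_
    simp [Ne.symm hq]
  · intro h; exact absurd (Finset.mem_univ _) h

theorem amp_quad_eq_trace {m : Type} [Fintype m] (φ : m → ℂ) (M : Matrix m m ℂ) :
    star φ ⬝ᵥ (M *ᵥ φ) = (pureOp φ * M).trace := by
  unfold pureOp
  rw [vecMulVec_mul, trace_vecMulVec, dotProduct_mulVec, dotProduct_comm]

theorem amp_sum4 {α β γ δ : Type} [Fintype α] [Fintype β] [Fintype γ] [Fintype δ]
    (F : α → β → γ → δ → ℂ) :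
    ∑ u, ∑ p, ∑ t, ∑ t', F u p t t' = ∑ t, ∑ t', ∑ p, ∑ u, F u p t t' := by
  calc ∑ u, ∑ p, ∑ t, ∑ t', F u p t t' = ∑ u, ∑ t, ∑ p, ∑ t', F u p t t' :=
        Finset.sum_congr rfl fun u _ => Finset.sum_comm
    _ = ∑ t, ∑ u, ∑ p, ∑ t', F u p t t' := Finset.sum_comm
    _ = ∑ t, ∑ t', ∑ p, ∑ u, F u p t t' := Finset.sum_congr rfl fun t _ => by
        calc ∑ u, ∑ p, ∑ t', F u p t t' = ∑ u, ∑ t', ∑ p, F u p t t' :=
              Finset.sum_congr rfl fun u _ => Finset.sum_comm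
          _ = ∑ t', ∑ u, ∑ p, F u p t t' := Finset.sum_comm
          _ = ∑ t', ∑ p, ∑ u, F u p t t' := Finset.sum_congr rfl fun t' _ => Finset.sum_comm

/-- the pairing of `η` with `K̂ φ` -/
theorem amp_hat_inner (e : n ≃ (a × b × c) × d) (Ω : n → ℂ) (K : Matrix (a × d) (a × d) ℂ)
    (φ : n × (a × a) → ℂ) :
    star (ampEta e Ω) ⬝ᵥ (embE (ampEHat e) K *ᵥ φ) = ∑ t : a, ∑ t' : a, ∑ p₁ : a,
      ampRoot (ptrFst (ptrE (ampES e) (pureOp Ω))) p₁ t *
        (star Ω ⬝ᵥ (embE (ampEJ e) (Matrix.of fun j j' => K (t, j) (t', j')) *ᵥ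
          fun u' => φ (u', (p₁, t')))) := by
  set A := ampRoot (ptrFst (ptrE (ampES e) (pureOp Ω))) with hA
  have hAH : ∀ x y, star (A x y) = A y x := fun x y => (ampRoot_isHermitian _).apply y x
  simp only [dotProduct, Fintype.sum_prod_type, amp_embE_hat_mulVec, Pi.star_apply, ampEta,
    star_mul', ← hA, hAH, Finset.mul_sum]
  rw [amp_sum4]
  simp only [mul_assoc]

/-- (D1) -/
theorem amp_D1 (e : n ≃ (a × b × c) × d) (Ω : n → ℂ) (K : Matrix (a × d) (a × d) ℂ) :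
    star (ampEta e Ω) ⬝ᵥ (embE (ampEHat e) K *ᵥ ampEta e Ω) =
      ((ptrFst (ptrE (ampEXJ e) (pureOp Ω)) ⊗ₖ ptrSnd (ptrE (ampEXJ e) (pureOp Ω))) * K).trace := by
  rw [amp_hat_inner, amp_ptrFst_XJ, amp_ptrSnd_XJ]
  set ρa := ptrFst (ptrE (ampES e) (pureOp Ω)) with hρa
  have hρaP : ρa.PosSemidef := ptrFst_posSemidef (ptrE_posSemidef _ (pureOp_posSemidef Ω))
  set A := ampRoot ρa with hA
  set ρd := ptrE (ampEJ e) (pureOp Ω) with hρd
  have h1 : ∀ t t' p₁ : a, (star Ω ⬝ᵥ (embE (ampEJ e) (Matrix.of fun j j' => K (t, j) (t', j')) *ᵥ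
      fun u' => ampEta e Ω (u', (p₁, t')))) =
      A t' p₁ * (ρd * (Matrix.of fun j j' => K (t, j) (t', j'))).trace := by
    intro t t' p₁
    have h2 : (fun u' => ampEta e Ω (u', (p₁, t'))) = A t' p₁ • Ω := by
      funext u'
      simp [ampEta, hA, hρa]
    rw [h2, mulVec_smul, dotProduct_smul, amp_quad_eq_trace, trace_mul_embE, smul_eq_mul]
  simp only [h1]
  have h3 : ∀ t t' : a, ∑ p₁ : a, A p₁ t *
      (A t' p₁ * (ρd * (Matrix.of fun j j' => K (t, j) (t', j'))).trace) =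
      ρa t' t * (ρd * (Matrix.of fun j j' => K (t, j) (t', j'))).trace := by
    intro t t'
    rw [← ampRoot_mul_self hρaP, Matrix.mul_apply, Finset.sum_mul]
    refine Finset.sum_congr rfl fun p₁ _ => ?_
    ring
  simp only [h3]
  simp only [Matrix.trace, Matrix.diag_apply, Matrix.mul_apply, Fintype.sum_prod_type,
    kroneckerMap_apply, Matrix.of_apply, Finset.mul_sum]
  rw [Finset.sum_comm]
  refine Finset.sum_congr rfl fun t' _ => ?_
  rw [Finset.sum_comm]
  refine Finset.sum_congr rfl fun j _ => ?_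
  refine Finset.sum_congr rfl fun t _ => ?_
  refine Finset.sum_congr rfl fun j' _ => ?_
  ring

theorem amp_embE_sum {m r ι : Type} [Fintype m] [DecidableEq m] [Fintype r] [DecidableEq r]
    (e : n ≃ m × r) (s : Finset ι) (Y : ι → Matrix m m ℂ) :
    embE e (∑ i ∈ s, Y i) = ∑ i ∈ s, embE e (Y i) :=
  map_sum (embEHom e) Y s

/-- `∑_{p₁} A p₁ t • B_{(p₁,t')} = embE (Q (P_a ⊗ T₀)) * embE (E_{t t'} ⊗ 1)` -/
theorem amp_sum_blk (e : n ≃ (a × b × c) × d) (Ω : n → ℂ) (w : ℝ) (t t' : a) :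
    ∑ p₁ : a, ampRoot (ptrFst (ptrE (ampES e) (pureOp Ω))) p₁ t •
        embE (ampES e) (ampBlk (ptrE (ampES e) (pureOp Ω)) w (p₁, t')) =
      embE (ampES e) (ampTypP (ptrE (ampES e) (pureOp Ω)) w *
        (ampTypP (ptrFst (ptrE (ampES e) (pureOp Ω))) w ⊗ₖ
          ampTypP (ptrSnd (ptrE (ampES e) (pureOp Ω))) w)) *
        embE (ampES e) (Matrix.single t t' 1 ⊗ₖ (1 : Matrix b b ℂ)) := by
  set ρS := ptrE (ampES e) (pureOp Ω) with hρS
  have hρaP : (ptrFst ρS).PosSemidef := ptrFst_posSemidef (ptrE_posSemidef _ (pureOp_posSemidef Ω))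
  set A := ampRoot (ptrFst ρS) with hA
  have h1 : ∑ p₁ : a, A p₁ t • (Matrix.single p₁ t' (1 : ℂ)) = A * Matrix.single t t' 1 := by
    ext x y
    simp only [Matrix.sum_apply, Matrix.smul_apply, Matrix.single_apply, smul_eq_mul,
      Matrix.mul_apply]
    rw [Finset.sum_eq_single x, Finset.sum_eq_single t]
    · simp
    · intro z _ hz; simp [Ne.symm hz]
    · intro h; exact absurd (Finset.mem_univ _) h
    · intro z _ hz; simp [hz]
    · intro h; exact absurd (Finset.mem_univ _) h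
  simp only [← embE_smul]
  rw [← amp_embE_sum, ← embE_mul]
  congr 1
  simp only [ampBlk]
  calc ∑ p₁ : a, A p₁ t • (ampTypP ρS w *
        ((ampTypG (ptrFst ρS) w * Matrix.single p₁ t' 1) ⊗ₖ ampTypP (ptrSnd ρS) w))
      = ampTypP ρS w * ((ampTypG (ptrFst ρS) w * ∑ p₁ : a, A p₁ t • Matrix.single p₁ t' 1) ⊗ₖ
          ampTypP (ptrSnd ρS) w) := by
        rw [Finset.mul_sum]
        have hk : ∀ (s : Finset a) (f : a → Matrix a a ℂ), (∑ i ∈ s, f i) ⊗ₖ ampTypP (ptrSnd ρS) w =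
            ∑ i ∈ s, f i ⊗ₖ ampTypP (ptrSnd ρS) w := by
          intro s f
          induction s using Finset.induction_on with
          | empty => simp
          | insert i s hi ih => rw [Finset.sum_insert hi, Finset.sum_insert hi, add_kronecker, ih]
        rw [hk, Finset.mul_sum]
        refine Finset.sum_congr rfl fun p₁ _ => ?_
        rw [Matrix.mul_smul, smul_kronecker, Matrix.mul_smul]
    _ = ampTypP ρS w * ((ampTypP (ptrFst ρS) w * Matrix.single t t' 1) ⊗ₖ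
          (ampTypP (ptrSnd ρS) w * 1)) := by
        rw [h1, ← Matrix.mul_assoc, ampTypG_mul_root hρaP, Matrix.mul_one]
    _ = _ := by rw [mul_kronecker_mul, Matrix.mul_assoc]

/-- (D2) -/
theorem amp_D2 (e : n ≃ (a × b × c) × d) (Ω : n → ℂ) (w : ℝ) {L' : Matrix n n ℂ} (hLh : L'ᴴ = L')
    (hLc : ∀ K : Matrix d d ℂ, Commute L' (embE (ampEJ e) K)) (K : Matrix (a × d) (a × d) ℂ) :
    star (ampEta e Ω) ⬝ᵥ (embE (ampEHat e) K *ᵥ ampXi e Ω w L') =
      star (ampPsi e Ω w L') ⬝ᵥ (embE (ampEXJ e) K *ᵥ Ω) := by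
  rw [amp_hat_inner]
  set ρS := ptrE (ampES e) (pureOp Ω) with hρS
  set A := ampRoot (ptrFst ρS) with hA
  set X := embE (ampES e) (ampTypP ρS w * (ampTypP (ptrFst ρS) w ⊗ₖ ampTypP (ptrSnd ρS) w)) with hX
  have h1 : ∀ t t' : a, ∑ p₁ : a, A p₁ t *
      (star Ω ⬝ᵥ (embE (ampEJ e) (Matrix.of fun j j' => K (t, j) (t', j')) *ᵥ
          fun u' => ampXi e Ω w L' (u', (p₁, t')))) =
      star Ω ⬝ᵥ ((L' * X) *ᵥ ((embE (ampES e) (Matrix.single t t' 1 ⊗ₖ (1 : Matrix b b ℂ)) *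
        embE (ampEJ e) (Matrix.of fun j j' => K (t, j) (t', j'))) *ᵥ Ω)) := by
    intro t t'
    set J := embE (ampEJ e) (Matrix.of fun j j' => K (t, j) (t', j')) with hJ
    have h2 : ∀ p₁ : a, (fun u' => ampXi e Ω w L' (u', (p₁, t'))) =
        (L' * embE (ampES e) (ampBlk ρS w (p₁, t'))) *ᵥ Ω := by
      intro p₁
      funext u'
      simp only [ampXi, Matrix.mulVec, dotProduct, ampCol_apply]
      rfl
    simp only [h2]
    calc ∑ p₁ : a, A p₁ t * (star Ω ⬝ᵥ (J *ᵥ ((L' * embE (ampES e) (ampBlk ρS w (p₁, t'))) *ᵥ Ω)))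
        = star Ω ⬝ᵥ ((J * (L' * ∑ p₁ : a, A p₁ t • embE (ampES e) (ampBlk ρS w (p₁, t')))) *ᵥ Ω) := by
          rw [Finset.mul_sum, Finset.mul_sum, Matrix.sum_mulVec, dotProduct_sum]
          refine Finset.sum_congr rfl fun p₁ _ => ?_
          rw [Matrix.mul_smul, Matrix.mul_smul, Matrix.smul_mulVec, dotProduct_smul, smul_eq_mul,
            mulVec_mulVec]
      _ = star Ω ⬝ᵥ ((J * (L' * (X *
            embE (ampES e) (Matrix.single t t' 1 ⊗ₖ (1 : Matrix b b ℂ))))) *ᵥ Ω) := by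
          rw [amp_sum_blk]
      _ = _ := by
          rw [mulVec_mulVec]
          congr 2
          have c1 : J * L' = L' * J := (hLc _).eq.symm
          have c2 : J * X = X * J := (amp_commute_S_J e _ _).eq.symm
          have c3 : J * embE (ampES e) (Matrix.single t t' 1 ⊗ₖ (1 : Matrix b b ℂ)) =
              embE (ampES e) (Matrix.single t t' 1 ⊗ₖ (1 : Matrix b b ℂ)) * J :=
            (amp_commute_S_J e _ _).eq.symm
          rw [← Matrix.mul_assoc, c1, Matrix.mul_assoc, ← Matrix.mul_assoc J, c2, Matrix.mul_assoc X,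
            c3]
          simp only [Matrix.mul_assoc]
  simp only [h1]
  rw [amp_embE_XJ]
  simp only [← dotProduct_sum, ← Matrix.mulVec_sum, ← Matrix.sum_mulVec]
  have h3 : ampPsi e Ω w L' = (L' * X)ᴴ *ᵥ Ω := by
    rw [conjTranspose_mul, hLh, hX, ← embE_conjTranspose, conjTranspose_mul,
      conjTranspose_kronecker, (ampTypP_isHermitian _ _).eq, (ampTypP_isHermitian _ _).eq,
      (ampTypP_isHermitian _ _).eq, ← mulVec_mulVec]
    rfl
  rw [h3, star_mulVec, conjTranspose_conjTranspose, ← dotProduct_mulVec]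

/-- (D3) -/
theorem amp_D3 (e : n ≃ (a × b × c) × d) (Ω : n → ℂ) (K : Matrix (a × d) (a × d) ℂ) :
    star Ω ⬝ᵥ (embE (ampEXJ e) K *ᵥ Ω) = (ptrE (ampEXJ e) (pureOp Ω) * K).trace := by
  rw [amp_quad_eq_trace, trace_mul_embE]

end Dec

end Claimed.Agent.R296
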