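import Claimed.Agent.R296.AmpDec

/-!
# Row 296, paper 1, Section 9 (amplification), file 11: decoupling on a product space, estimates

See the header of `AmpDec.lean` for the plan; its statements (D1)-(D3) are black boxes here.
FROZEN: `amp_decouple`, `amp_minfo_prod_le`.  Architect: helper286.  Proofs: helper98 (aux prefix `ad2_`).
-/

set_option autoImplicit false
set_option linter.unusedSectionVars false
set_option linter.unusedDecidableInType false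

namespace Claimed.Agent.R296

open Matrix Kronecker Claimed.Agent.R298
open scoped MatrixOrder Matrix.Norms.L2Operator ComplexOrder

theorem ad2_sqrt_opnSq {m : Type} [Fintype m] [DecidableEq m] (v : m → ℂ) : Real.sqrt (opnSq v) = l2n v := by
  rw [show opnSq v = l2n v ^ 2 from (l2n_sq v).symm, Real.sqrt_sq (l2n_nonneg v)]

theorem ad2_opnSq_eq {m : Type} [Fintype m] [DecidableEq m] (v : m → ℂ) : opnSq v = l2n v ^ 2 := (l2n_sq v).symm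

section Kron

variable {n a b r : Type} [Fintype n] [DecidableEq n] [Fintype a] [DecidableEq a]
  [Fintype b] [DecidableEq b] [Fintype r] [DecidableEq r]

theorem ad2_embE_kron_one (e : n ≃ (a × b) × r) (P : Matrix a a ℂ) :
    embE e (P ⊗ₖ (1 : Matrix b b ℂ)) = embE (e.trans (Equiv.prodAssoc a b r)) P := by
  ext u u'
  simp only [embE_apply, kroneckerMap_apply, Matrix.one_apply, Equiv.trans_apply,
    Equiv.prodAssoc_apply, Prod.mk.injEq, mul_ite, mul_one, mul_zero]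
  by_cases h1 : (e u).2 = (e u').2 <;> by_cases h2 : (e u).1.2 = (e u').1.2 <;> simp [h1, h2]

theorem ad2_embE_one_kron (e : n ≃ (a × b) × r) (T : Matrix b b ℂ) :
    embE e ((1 : Matrix a a ℂ) ⊗ₖ T) = embE (e.trans (shufSnd a b r)) T := by
  ext u u'
  simp only [embE_apply, kroneckerMap_apply, Matrix.one_apply, Equiv.trans_apply,
    shufSnd, Equiv.coe_fn_mk, Prod.mk.injEq, ite_mul, one_mul, zero_mul]
  by_cases h1 : (e u).2 = (e u').2 <;> by_cases h2 : (e u).1.1 = (e u').1.1 <;> simp [h1, h2]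

theorem ad2_kron_split (P : Matrix a a ℂ) (T : Matrix b b ℂ) :
    P ⊗ₖ T = (P ⊗ₖ (1 : Matrix b b ℂ)) * ((1 : Matrix a a ℂ) ⊗ₖ T) := by
  rw [← mul_kronecker_mul, Matrix.mul_one, Matrix.one_mul]

/-- typical projection of the first marginal -/
theorem ad2_typ_fst (e : n ≃ (a × b) × r) (Ω : n → ℂ) (w : ℝ) :
    l2n (embE e (ampTypP (ptrFst (ptrE e (pureOp Ω))) w ⊗ₖ (1 : Matrix b b ℂ)) *ᵥ Ω - Ω) =
      Real.sqrt (tlTailMass (ptrFst (ptrE e (pureOp Ω))) w) := by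
  rw [ad2_embE_kron_one, ptrFst_ptrE, ← ampTyp_vec, ad2_sqrt_opnSq]

theorem ad2_typ_snd (e : n ≃ (a × b) × r) (Ω : n → ℂ) (w : ℝ) :
    l2n (embE e ((1 : Matrix a a ℂ) ⊗ₖ ampTypP (ptrSnd (ptrE e (pureOp Ω))) w) *ᵥ Ω - Ω) =
      Real.sqrt (tlTailMass (ptrSnd (ptrE e (pureOp Ω))) w) := by
  rw [ad2_embE_one_kron, ptrSnd_ptrE, ← ampTyp_vec, ad2_sqrt_opnSq]

theorem ad2_typ_all (e : n ≃ (a × b) × r) (Ω : n → ℂ) (w : ℝ) :
    l2n (embE e (ampTypP (ptrE e (pureOp Ω)) w) *ᵥ Ω - Ω) =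
      Real.sqrt (tlTailMass (ptrE e (pureOp Ω)) w) := by
  rw [← ampTyp_vec, ad2_sqrt_opnSq]

theorem ad2_norm_fst (e : n ≃ (a × b) × r) (ρ : Matrix a a ℂ) (w : ℝ) :
    ‖embE e (ampTypP ρ w ⊗ₖ (1 : Matrix b b ℂ))‖ ≤ 1 := by
  rw [ad2_embE_kron_one]
  exact (norm_embE_le _ _).trans (norm_ampTypP_le _ _)

theorem ad2_norm_snd (e : n ≃ (a × b) × r) (ρ : Matrix b b ℂ) (w : ℝ) :
    ‖embE e ((1 : Matrix a a ℂ) ⊗ₖ ampTypP ρ w)‖ ≤ 1 := by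
  rw [ad2_embE_one_kron]
  exact (norm_embE_le _ _).trans (norm_ampTypP_le _ _)

theorem ad2_norm_all (e : n ≃ (a × b) × r) (ρ : Matrix (a × b) (a × b) ℂ) (w : ℝ) :
    ‖embE e (ampTypP ρ w)‖ ≤ 1 :=
  (norm_embE_le _ _).trans (norm_ampTypP_le _ _)

theorem ad2_contr {M : Matrix n n ℂ} (hM : ‖M‖ ≤ 1) (v : n → ℂ) : l2n (M *ᵥ v) ≤ l2n v :=
  (l2n_mulVec_le M v).trans (mul_le_of_le_one_left (l2n_nonneg v) hM)

/-- telescoping three contractions and a filter -/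
theorem ad2_telescope {A T Q L : Matrix n n ℂ} (hA : ‖A‖ ≤ 1) (hT : ‖T‖ ≤ 1) (hQ : ‖Q‖ ≤ 1)
    (Ω : n → ℂ) :
    l2n ((A * T * Q) *ᵥ (L *ᵥ Ω) - Ω) ≤
      l2n (A *ᵥ Ω - Ω) + l2n (T *ᵥ Ω - Ω) + l2n (Q *ᵥ Ω - Ω) + l2n (L *ᵥ Ω - Ω) := by
  have h : (A * T * Q) *ᵥ (L *ᵥ Ω) - Ω =
      (A *ᵥ Ω - Ω) + (A *ᵥ (T *ᵥ Ω - Ω) + (A *ᵥ (T *ᵥ (Q *ᵥ Ω - Ω)) +
        A *ᵥ (T *ᵥ (Q *ᵥ (L *ᵥ Ω - Ω))))) := by
    simp only [Matrix.mulVec_sub, ← mulVec_mulVec]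
    abel
  rw [h]
  have h1 := l2n_add_le (A *ᵥ Ω - Ω) (A *ᵥ (T *ᵥ Ω - Ω) + (A *ᵥ (T *ᵥ (Q *ᵥ Ω - Ω)) +
        A *ᵥ (T *ᵥ (Q *ᵥ (L *ᵥ Ω - Ω)))))
  have h2 := l2n_add_le (A *ᵥ (T *ᵥ Ω - Ω)) (A *ᵥ (T *ᵥ (Q *ᵥ Ω - Ω)) +
        A *ᵥ (T *ᵥ (Q *ᵥ (L *ᵥ Ω - Ω))))
  have h3 := l2n_add_le (A *ᵥ (T *ᵥ (Q *ᵥ Ω - Ω))) (A *ᵥ (T *ᵥ (Q *ᵥ (L *ᵥ Ω - Ω))))
  have h4 := ad2_contr hA (T *ᵥ Ω - Ω)
  have h5 := (ad2_contr hA (T *ᵥ (Q *ᵥ Ω - Ω))).trans (ad2_contr hT _)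
  have h6 := ((ad2_contr hA (T *ᵥ (Q *ᵥ (L *ᵥ Ω - Ω)))).trans (ad2_contr hT _)).trans
    (ad2_contr hQ _)
  linarith

end Kron

section Dec

variable {n a b c d : Type} [Fintype n] [DecidableEq n] [Fintype a] [DecidableEq a]
  [Fintype b] [DecidableEq b] [Fintype c] [DecidableEq c] [Fintype d] [DecidableEq d]

/-- (D4) -/
theorem amp_D4 (e : n ≃ (a × b × c) × d) (Ω : n → ℂ) (w : ℝ) {δ κe : ℝ}
    (hX : tlTailMass (ptrFst (ptrE (ampES e) (pureOp Ω))) w ≤ δ)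
    (hY : tlTailMass (ptrSnd (ptrE (ampES e) (pureOp Ω))) w ≤ δ)
    (hS : tlTailMass (ptrE (ampES e) (pureOp Ω)) w ≤ δ)
    {L' : Matrix n n ℂ} (hfix : Real.sqrt (opnSq (L' *ᵥ Ω - Ω)) ≤ κe) :
    Real.sqrt (opnSq (ampPsi e Ω w L' - Ω)) ≤ 3 * Real.sqrt δ + κe := by
  rw [ad2_sqrt_opnSq] at hfix ⊢
  unfold ampPsi
  rw [ad2_kron_split, embE_mul, embE_mul]
  have h := ad2_telescope (L := L')
    (ad2_norm_fst (ampES e) (ptrFst (ptrE (ampES e) (pureOp Ω))) w)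
    (ad2_norm_snd (ampES e) (ptrSnd (ptrE (ampES e) (pureOp Ω))) w)
    (ad2_norm_all (ampES e) (ptrE (ampES e) (pureOp Ω)) w) Ω
  rw [ad2_typ_fst, ad2_typ_snd, ad2_typ_all] at h
  have h1 := Real.sqrt_le_sqrt hX
  have h2 := Real.sqrt_le_sqrt hY
  have h3 := Real.sqrt_le_sqrt hS
  linarith


theorem ad2_density {Ω : n → ℂ} (hΩ : star Ω ⬝ᵥ Ω = 1) : IsDensity (pureOp Ω) :=
  ⟨pureOp_posSemidef Ω, by rw [pp_trace_pureOp, hΩ]⟩

theorem ad2_l2n_unit {Ω : n → ℂ} (hΩ : star Ω ⬝ᵥ Ω = 1) : l2n Ω = 1 := (l2n_eq_one_iff Ω).2 hΩ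

/-- `‖η‖ = 1` -/
theorem amp_opnSq_eta (e : n ≃ (a × b × c) × d) {Ω : n → ℂ} (hΩ : star Ω ⬝ᵥ Ω = 1) :
    opnSq (ampEta e Ω) = 1 := by
  have hd : IsDensity (pureOp Ω) := ad2_density hΩ
  set ρa := ptrFst (ptrE (ampES e) (pureOp Ω)) with hρa
  have hρ : IsDensity ρa := ptrFst_isDensity (ptrE_isDensity _ hd)
  have h1 : opnSq (ampEta e Ω) = opnSq Ω * hsSq (ampRoot ρa) := by
    unfold opnSq ampEta hsSq
    rw [Fintype.sum_prod_type, Finset.sum_mul]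
    refine Finset.sum_congr rfl fun u _ => ?_
    rw [Fintype.sum_prod_type, Finset.sum_comm, Finset.mul_sum]
    refine Finset.sum_congr rfl fun i _ => ?_
    rw [Finset.mul_sum]
    refine Finset.sum_congr rfl fun j _ => ?_
    rw [norm_mul, mul_pow, mul_comm]
  have h2 : hsSq (ampRoot ρa) = 1 := by
    have : ((hsSq (ampRoot ρa) : ℝ) : ℂ) = 1 := by
      rw [hsSq_eq_trace, (ampRoot_isHermitian ρa).eq, ampRoot_mul_self hρ.1, hρ.2]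
    exact_mod_cast this
  have h3 : opnSq Ω = 1 := by
    have : ((opnSq Ω : ℝ) : ℂ) = 1 := by rw [opnSq_eq_dotProduct, hΩ]
    exact_mod_cast this
  rw [h1, h2, h3, one_mul]

theorem ad2_opnSq_ampCol {ι : Type} [Fintype ι] [DecidableEq ι] (R : ι → Matrix n n ℂ)
    (v : n → ℂ) : opnSq (ampCol R *ᵥ v) = ∑ p, opnSq (R p *ᵥ v) := by
  unfold opnSq
  rw [Fintype.sum_prod_type_right]
  rfl

theorem ad2_norm_ampCol_le {ι : Type} [Fintype ι] [DecidableEq ι] (R : ι → Matrix n n ℂ) {C : ℝ}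
    (hC : 0 ≤ C) (h : ∑ p, (R p)ᴴ * R p ≤ ((C : ℝ) : ℂ) • 1) : ‖ampCol R‖ ≤ Real.sqrt C := by
  have h1 : ‖(ampCol R)ᴴ * ampCol R‖ = ‖ampCol R‖ * ‖ampCol R‖ :=
    l2_opNorm_conjTranspose_mul_self _
  have h2 : ‖(ampCol R)ᴴ * ampCol R‖ ≤ C := by
    rw [ampCol_gram]
    refine opNorm_le_of_posSemidef hC ?_ (Matrix.le_iff.1 h)
    exact posSemidef_sum _ fun p _ => posSemidef_conjTranspose_mul_self _
  refine Real.le_sqrt_of_sq_le ?_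
  rw [sq, ← h1]
  exact h2

theorem ad2_embE_mono {m r : Type} [Fintype m] [DecidableEq m] [Fintype r] [DecidableEq r]
    (e : n ≃ m × r) {M N : Matrix m m ℂ} (h : M ≤ N) : embE e M ≤ embE e N := by
  rw [Matrix.le_iff, ← embE_sub]
  exact embE_posSemidef e (Matrix.le_iff.1 h)

theorem ad2_embE_sum {m r ι : Type} [Fintype m] [DecidableEq m] [Fintype r] [DecidableEq r]
    [Fintype ι] (e : n ≃ m × r) (M : ι → Matrix m m ℂ) :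
    embE e (∑ p, M p) = ∑ p, embE e (M p) := map_sum (embEHom e) M Finset.univ

/-- (D5), norm of `ξ` -/
theorem amp_norm_xi (e : n ≃ (a × b × c) × d) {Ω : n → ℂ} (hΩ : star Ω ⬝ᵥ Ω = 1) (w : ℝ) {κe : ℝ}
    (hκ : 0 ≤ κe) {L' : Matrix n n ℂ}
    (hfil : ∀ Bk : a × a → Matrix (a × b) (a × b) ℂ,
      Real.sqrt (∑ p, opnSq (L' *ᵥ (embE (ampES e) (Bk p) *ᵥ Ω))) ≤
        Real.sqrt (∑ p, ‖star Ω ⬝ᵥ (embE (ampES e) (Bk p) *ᵥ Ω)‖ ^ 2) +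
        ‖ampCol fun p => embE (ampES e) (Bk p)‖ * κe) :
    Real.sqrt (opnSq (ampXi e Ω w L')) ≤ 1 + κe * Real.exp
      ((vnEnt (ptrFst (ptrE (ampES e) (pureOp Ω))) + vnEnt (ptrE (ampES e) (pureOp Ω))
        - vnEnt (ptrSnd (ptrE (ampES e) (pureOp Ω))) + 3 * w) / 2) := by
  have hd : IsDensity (pureOp Ω) := ad2_density hΩ
  set ρS := ptrE (ampES e) (pureOp Ω) with hρSdef
  have hρS : IsDensity ρS := ptrE_isDensity _ hd
  have h0 := hfil (ampBlk ρS w)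
  have h1 : opnSq (ampXi e Ω w L') =
      ∑ p, opnSq (L' *ᵥ (embE (ampES e) (ampBlk ρS w p) *ᵥ Ω)) := by
    unfold ampXi
    rw [ad2_opnSq_ampCol]
    simp only [mulVec_mulVec]
    rfl
  rw [h1]
  refine h0.trans ?_
  have h2 : Real.sqrt (∑ p, ‖star Ω ⬝ᵥ (embE (ampES e) (ampBlk ρS w p) *ᵥ Ω)‖ ^ 2) ≤ 1 := by
    rw [Real.sqrt_le_left zero_le_one, one_pow]
    have h := ampBlk_expect_le hρS w
    refine le_trans (le_of_eq ?_) h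
    refine Finset.sum_congr rfl fun p _ => ?_
    rw [quad_embE, trace_mul_comm]
  have h3 : ‖ampCol fun p => embE (ampES e) (ampBlk ρS w p)‖ ≤
      Real.exp ((vnEnt (ptrFst ρS) + vnEnt ρS - vnEnt (ptrSnd ρS) + 3 * w) / 2) := by
    rw [Real.exp_half]
    refine ad2_norm_ampCol_le _ (Real.exp_pos _).le ?_
    have h := ad2_embE_mono (ampES e) (ampBlk_gram_le hρS w)
    rw [embE_smul, embE_one, ad2_embE_sum] at h
    refine le_trans (le_of_eq ?_) h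
    refine Finset.sum_congr rfl fun p _ => ?_
    rw [embE_mul, embE_conjTranspose]
  have h4 := mul_le_mul_of_nonneg_right h3 hκ
  linarith

theorem ad2_l2n_sub_comm {m : Type} [Fintype m] [DecidableEq m] (v u : m → ℂ) :
    l2n (v - u) = l2n (u - v) := by
  have : v - u = (-1 : ℂ) • (u - v) := by simp
  rw [this, l2n_smul, norm_neg, norm_one, one_mul]

/-- the parallelogram computation -/
theorem ad2_dist_sq {m : Type} [Fintype m] [DecidableEq m] {ξ η : m → ℂ} {x ε : ℝ}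
    (hη : l2n η = 1) (hξ : l2n ξ ≤ 1 + x) (hre : 1 - ε ≤ (star η ⬝ᵥ ξ).re) :
    l2n (ξ - η) ^ 2 ≤ 2 * x + x ^ 2 + 2 * ε := by
  have h1 : l2n (ξ - η) ^ 2 = l2n ξ ^ 2 + l2n η ^ 2 - 2 * (star η ⬝ᵥ ξ).re := by
    rw [l2n_sq_eq_re, l2n_sq_eq_re, l2n_sq_eq_re, star_sub, sub_dotProduct, dotProduct_sub,
      dotProduct_sub]
    have h2 : (star ξ ⬝ᵥ η).re = (star η ⬝ᵥ ξ).re := by
      rw [Matrix.star_dotProduct]
      simp
    simp only [Complex.sub_re]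
    rw [h2]
    ring
  rw [h1, hη]
  have h3 : l2n ξ ^ 2 ≤ (1 + x) ^ 2 := pow_le_pow_left₀ (l2n_nonneg ξ) hξ 2
  nlinarith

theorem ad2_norm_signMat {m : Type} [Fintype m] [DecidableEq m] {Δ : Matrix m m ℂ}
    (h : Δ.IsHermitian) : ‖signMat Δ‖ ≤ 1 := by
  refine norm_mfun_le h _ zero_le_one fun i => ?_
  rw [Complex.norm_real, Real.norm_eq_abs, abs_le]
  have := td_sign_le (h.eigenvalues i)
  constructor <;> linarith [this.1, this.2]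


/-- abstract form of the last step -/
theorem ad2_final {m : Type} [Fintype m] [DecidableEq m] {Ω ψ : n → ℂ} {ξ η : m → ℂ}
    {Kt : Matrix n n ℂ} {Kh : Matrix m m ℂ} (hKt : ‖Kt‖ ≤ 1) (hKh : ‖Kh‖ ≤ 1)
    (hΩ : l2n Ω = 1) (hη : l2n η = 1)
    (hD2 : star η ⬝ᵥ (Kh *ᵥ ξ) = star ψ ⬝ᵥ (Kt *ᵥ Ω)) :
    (star Ω ⬝ᵥ (Kt *ᵥ Ω) - star η ⬝ᵥ (Kh *ᵥ η)).re ≤ l2n (ψ - Ω) + l2n (ξ - η) := by
  have h1 : star Ω ⬝ᵥ (Kt *ᵥ Ω) - star η ⬝ᵥ (Kh *ᵥ η) =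
      -(star (ψ - Ω) ⬝ᵥ (Kt *ᵥ Ω)) + star η ⬝ᵥ (Kh *ᵥ (ξ - η)) := by
    rw [star_sub, sub_dotProduct, mulVec_sub, dotProduct_sub, hD2]
    ring
  rw [h1]
  refine (Complex.re_le_norm _).trans ((norm_add_le _ _).trans ?_)
  rw [norm_neg]
  have h2 := norm_dotProduct_le (ψ - Ω) (Kt *ᵥ Ω)
  have h3 := norm_dotProduct_le η (Kh *ᵥ (ξ - η))
  have h4 := ad2_contr hKt Ω
  have h5 := ad2_contr hKh (ξ - η)
  rw [hΩ] at h4
  rw [hη, one_mul] at h3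
  have h6 := mul_le_mul_of_nonneg_left h4 (l2n_nonneg (ψ - Ω))
  linarith

theorem ad2_re_ge {Ω ψ : n → ℂ} (hΩ : star Ω ⬝ᵥ Ω = 1) :
    1 - l2n (ψ - Ω) ≤ (star ψ ⬝ᵥ Ω).re := by
  have h1 : star ψ ⬝ᵥ Ω = 1 + star (ψ - Ω) ⬝ᵥ Ω := by
    rw [star_sub, sub_dotProduct, hΩ]; ring
  have h2 := norm_dotProduct_le (ψ - Ω) Ω
  rw [ad2_l2n_unit hΩ, mul_one] at h2
  have h3 := (abs_le.1 (Complex.abs_re_le_norm (star (ψ - Ω) ⬝ᵥ Ω))).1
  rw [h1, Complex.add_re, Complex.one_re]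
  linarith

/-- **Decoupling.** -/
theorem amp_decouple (e : n ≃ (a × b × c) × d) {Ω : n → ℂ} (hΩ : star Ω ⬝ᵥ Ω = 1)
    (w : ℝ) {δ κe : ℝ} (hκ : 0 ≤ κe)
    (hX : tlTailMass (ptrFst (ptrE (ampES e) (pureOp Ω))) w ≤ δ)
    (hY : tlTailMass (ptrSnd (ptrE (ampES e) (pureOp Ω))) w ≤ δ)
    (hS : tlTailMass (ptrE (ampES e) (pureOp Ω)) w ≤ δ)
    {L' : Matrix n n ℂ} (hLh : L'ᴴ = L')
    (hLc : ∀ K : Matrix d d ℂ, Commute L' (embE (ampEJ e) K))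
    (hfix : Real.sqrt (opnSq (L' *ᵥ Ω - Ω)) ≤ κe)
    (hfil : ∀ Bk : a × a → Matrix (a × b) (a × b) ℂ,
      Real.sqrt (∑ p, opnSq (L' *ᵥ (embE (ampES e) (Bk p) *ᵥ Ω))) ≤
        Real.sqrt (∑ p, ‖star Ω ⬝ᵥ (embE (ampES e) (Bk p) *ᵥ Ω)‖ ^ 2) +
        ‖ampCol fun p => embE (ampES e) (Bk p)‖ * κe) :
    trDist (ptrE (ampEXJ e) (pureOp Ω))
        (ptrFst (ptrE (ampEXJ e) (pureOp Ω)) ⊗ₖ ptrSnd (ptrE (ampEXJ e) (pureOp Ω))) ≤
      ampDelta κe (vnEnt (ptrFst (ptrE (ampES e) (pureOp Ω))) + vnEnt (ptrE (ampES e) (pureOp Ω))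
        - vnEnt (ptrSnd (ptrE (ampES e) (pureOp Ω)))) w δ := by
  have hd : IsDensity (pureOp Ω) := ad2_density hΩ
  have hD4 := amp_D4 e Ω w hX hY hS hfix
  have hxi := amp_norm_xi e hΩ w hκ hfil
  have heta := amp_opnSq_eta e hΩ
  rw [ad2_sqrt_opnSq] at hD4 hxi
  have hη : l2n (ampEta e Ω) = 1 := by
    rw [← ad2_sqrt_opnSq, heta, Real.sqrt_one]
  set I0 := vnEnt (ptrFst (ptrE (ampES e) (pureOp Ω))) + vnEnt (ptrE (ampES e) (pureOp Ω))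
        - vnEnt (ptrSnd (ptrE (ampES e) (pureOp Ω))) with hI0
  set ρ := ptrE (ampEXJ e) (pureOp Ω) with hρdef
  have hρ : IsDensity ρ := ptrE_isDensity _ hd
  set σ := ptrFst ρ ⊗ₖ ptrSnd ρ with hσdef
  have hσH : σ.IsHermitian :=
    ((ptrFst_isDensity hρ).1.kronecker (ptrSnd_isDensity hρ).1).isHermitian
  have hH : (ρ - σ).IsHermitian := hρ.1.isHermitian.sub hσH
  set K := signMat (ρ - σ) with hK
  have hKn : ‖K‖ ≤ 1 := ad2_norm_signMat hH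
  -- real part of the overlap
  have hre : 1 - (3 * Real.sqrt δ + κe) ≤ (star (ampEta e Ω) ⬝ᵥ ampXi e Ω w L').re := by
    have h := amp_D2 e Ω w hLh hLc 1
    rw [embE_one, embE_one, one_mulVec, one_mulVec] at h
    rw [h]
    have := ad2_re_ge (ψ := ampPsi e Ω w L') hΩ
    linarith
  have hdist := ad2_dist_sq hη hxi hre
  have hdist' : l2n (ampXi e Ω w L' - ampEta e Ω) ≤
      Real.sqrt (2 * (κe * Real.exp ((I0 + 3 * w) / 2)) + (κe * Real.exp ((I0 + 3 * w) / 2)) ^ 2 +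
        2 * (3 * Real.sqrt δ + κe)) := Real.le_sqrt_of_sq_le hdist
  have hfin := ad2_final (norm_embE_le (ampEXJ e) K |>.trans hKn)
    (norm_embE_le (ampEHat e) K |>.trans hKn) (ad2_l2n_unit hΩ) hη (amp_D2 e Ω w hLh hLc K)
  rw [amp_D3, amp_D1, ← hρdef, ← hσdef, ← trace_sub, ← Matrix.sub_mul, trace_mul_comm] at hfin
  have htr : trNormH (ρ - σ) = (K * (ρ - σ)).trace.re := trNormH_eq_trace_sign hH
  unfold trDist ampDelta
  rw [htr]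
  linarith

end Dec

/-- mutual information from the distance to the product of the marginals
(`cEnt_afw`, `vnEnt_kronecker`; the bound does not see the dimension of `d`) -/
theorem amp_minfo_prod_le {a d : Type} [Fintype a] [DecidableEq a] [Fintype d] [DecidableEq d]
    {ρ : Matrix (a × d) (a × d) ℂ} (hρ : IsDensity ρ) {δ : ℝ}
    (h : trDist ρ (ptrFst ρ ⊗ₖ ptrSnd ρ) ≤ δ) :
    vnEnt (ptrFst ρ) + vnEnt (ptrSnd ρ) - vnEnt ρ ≤ afwFun δ (Real.log (Fintype.card a)) := by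
  have hA := ptrFst_isDensity hρ
  have hB := ptrSnd_isDensity hρ
  have hσ : IsDensity (ptrFst ρ ⊗ₖ ptrSnd ρ) := by
    refine ⟨hA.1.kronecker hB.1, ?_⟩
    rw [trace_kronecker, hA.2, hB.2, one_mul]
  have h1 := (abs_le.1 (cEnt_afw hρ hσ h)).1
  unfold cEnt at h1
  rw [vnEnt_kronecker hA hB, ptrSnd_kronecker, hA.2, one_smul] at h1
  linarith

end Claimed.Agent.R296
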