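import Claimed.Agent.R296.AmpChan
import Claimed.Agent.R296.Defs

/-!
# Row 296, paper 1, Section 9 (amplification), file 5: the local filter `L'`

`lem:amplification-local-products` + eq. (9.14) (excited decay) in deterministic form.
`D = Gbar^N`, `D_ret = Gbar_ret^N`, `L' = Gbar_loc^N` with
`Gbar = m⁻¹ ∑ G_i`, `Gbar_ret = m⁻¹ (∑_{ret} G_i + #omitted)`, `Gbar_loc = m⁻¹ (∑_{ret} G_{i,r} + #omitted)`.
Main result: `AmpSys.filter`.  Architect: helper286.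
-/

set_option autoImplicit false
set_option linter.unusedSectionVars false
set_option linter.unusedDecidableInType false

namespace Claimed.Agent.R296

open Matrix Claimed.Agent.R298
open scoped MatrixOrder Matrix.Norms.L2Operator ComplexOrder

section Vec

variable {m n : Type*} [Fintype m] [Fintype n] [DecidableEq m] [DecidableEq n]

theorem amp_vn_eq (v : m → ℂ) :
    Real.sqrt (opnSq v) = ‖(WithLp.toLp 2 v : EuclideanSpace ℂ m)‖ := by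
  rw [opnSq_eq_norm_sq, Real.sqrt_sq (norm_nonneg _)]

theorem amp_vn_add_le (v w : m → ℂ) :
    Real.sqrt (opnSq (v + w)) ≤ Real.sqrt (opnSq v) + Real.sqrt (opnSq w) := by
  rw [amp_vn_eq, amp_vn_eq, amp_vn_eq, WithLp.toLp_add]
  exact norm_add_le _ _

theorem amp_vn_mulVec_le (M : Matrix m n ℂ) (v : n → ℂ) :
    Real.sqrt (opnSq (M *ᵥ v)) ≤ ‖M‖ * Real.sqrt (opnSq v) := by
  have h := opnSq_mulVec_le M v
  calc Real.sqrt (opnSq (M *ᵥ v)) ≤ Real.sqrt (‖M‖ ^ 2 * opnSq v) := Real.sqrt_le_sqrt h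
    _ = ‖M‖ * Real.sqrt (opnSq v) := by
        rw [Real.sqrt_mul (sq_nonneg _), Real.sqrt_sq (norm_nonneg _)]

end Vec

section Bar

variable {n : Type*} [Fintype n] [DecidableEq n] {I : Type*} [Fintype I]

/-- average of a family of operators -/
noncomputable def ampBar (f : I → Matrix n n ℂ) : Matrix n n ℂ :=
  ((Fintype.card I : ℂ)⁻¹) • ∑ i, f i

theorem norm_ampBar_sub_le [Nonempty I] (f f' : I → Matrix n n ℂ) :
    ‖ampBar f - ampBar f'‖ ≤ (Fintype.card I : ℝ)⁻¹ * ∑ i, ‖f i - f' i‖ := by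
  unfold ampBar
  rw [← smul_sub, ← Finset.sum_sub_distrib]
  calc ‖((Fintype.card I : ℂ)⁻¹) • ∑ i, (f i - f' i)‖
      ≤ ‖((Fintype.card I : ℂ)⁻¹)‖ * ‖∑ i, (f i - f' i)‖ := norm_smul_le _ _
    _ ≤ (Fintype.card I : ℝ)⁻¹ * ∑ i, ‖f i - f' i‖ := by
        rw [norm_inv, Complex.norm_natCast]
        exact mul_le_mul_of_nonneg_left (norm_sum_le _ _) (by positivity)

theorem norm_ampBar_le [Nonempty I] {f : I → Matrix n n ℂ} (h : ∀ i, ‖f i‖ ≤ 1) :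
    ‖ampBar f‖ ≤ 1 := by
  have hm : (0 : ℝ) < Fintype.card I := by exact_mod_cast Fintype.card_pos
  unfold ampBar
  calc ‖((Fintype.card I : ℂ)⁻¹) • ∑ i, f i‖
      ≤ ‖((Fintype.card I : ℂ)⁻¹)‖ * ‖∑ i, f i‖ := norm_smul_le _ _
    _ ≤ (Fintype.card I : ℝ)⁻¹ * ∑ _i : I, (1 : ℝ) := by
        rw [norm_inv, Complex.norm_natCast]
        exact mul_le_mul_of_nonneg_left ((norm_sum_le _ _).trans (Finset.sum_le_sum fun i _ => h i))
          (by positivity)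
    _ = 1 := by
        simp only [Finset.sum_const, Finset.card_univ, nsmul_eq_mul, mul_one]
        exact inv_mul_cancel₀ hm.ne'

theorem ampBar_conjTranspose {f : I → Matrix n n ℂ} (h : ∀ i, (f i)ᴴ = f i) :
    (ampBar f)ᴴ = ampBar f := by
  unfold ampBar
  rw [conjTranspose_smul, conjTranspose_sum]
  simp only [h, star_inv₀, star_natCast]

theorem ampBar_mulVec (f : I → Matrix n n ℂ) (ψ : n → ℂ) :
    ampBar f *ᵥ ψ = ((Fintype.card I : ℂ)⁻¹) • ∑ i, f i *ᵥ ψ := by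
  unfold ampBar
  rw [smul_mulVec, sum_mulVec]

theorem ampBar_mulVec_fix [Nonempty I] {f : I → Matrix n n ℂ} {Ω : n → ℂ}
    (h : ∀ i, f i *ᵥ Ω = Ω) : ampBar f *ᵥ Ω = Ω := by
  have hm : (Fintype.card I : ℂ) ≠ 0 := by exact_mod_cast Fintype.card_ne_zero
  rw [ampBar_mulVec]
  simp only [h, Finset.sum_const, Finset.card_univ]
  rw [← Nat.cast_smul_eq_nsmul ℂ, smul_smul, inv_mul_cancel₀ hm, one_smul]

/-- convexity of the square: `‖m⁻¹ ∑ f_i ψ‖² ≤ m⁻¹ ∑ ‖f_i ψ‖²` -/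
theorem opnSq_ampBar_mulVec_le [Nonempty I] (f : I → Matrix n n ℂ) (ψ : n → ℂ) :
    opnSq (ampBar f *ᵥ ψ) ≤ (Fintype.card I : ℝ)⁻¹ * ∑ i, opnSq (f i *ᵥ ψ) := by
  have hm : (0 : ℝ) < Fintype.card I := by exact_mod_cast Fintype.card_pos
  rw [ampBar_mulVec]
  unfold opnSq
  rw [Finset.sum_comm, Finset.mul_sum]
  refine Finset.sum_le_sum fun j _ => ?_
  rw [Pi.smul_apply, Finset.sum_apply, smul_eq_mul, norm_mul, norm_inv, Complex.norm_natCast, mul_pow]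
  have h1 : ‖∑ i, (f i *ᵥ ψ) j‖ ^ 2 ≤ (Fintype.card I : ℝ) * ∑ i, ‖(f i *ᵥ ψ) j‖ ^ 2 := by
    calc ‖∑ i, (f i *ᵥ ψ) j‖ ^ 2 ≤ (∑ i, ‖(f i *ᵥ ψ) j‖) ^ 2 :=
          pow_le_pow_left₀ (norm_nonneg _) (norm_sum_le _ _) 2
      _ ≤ _ := by
          have := sq_sum_le_card_mul_sum_sq (s := (Finset.univ : Finset I))
            (f := fun i => ‖(f i *ᵥ ψ) j‖)
          simpa using this
  calc ((Fintype.card I : ℝ)⁻¹) ^ 2 * ‖∑ i, (f i *ᵥ ψ) j‖ ^ 2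
      ≤ ((Fintype.card I : ℝ)⁻¹) ^ 2 * ((Fintype.card I : ℝ) * ∑ i, ‖(f i *ᵥ ψ) j‖ ^ 2) :=
        mul_le_mul_of_nonneg_left h1 (by positivity)
    _ = (Fintype.card I : ℝ)⁻¹ * ∑ i, ‖(f i *ᵥ ψ) j‖ ^ 2 := by
        field_simp

theorem amp_norm_pow_le_one {A : Matrix n n ℂ} (hA : ‖A‖ ≤ 1) (N : ℕ) : ‖A ^ N‖ ≤ 1 := by
  induction N with
  | zero => simpa using amp_norm_one_le (n := n)
  | succ N ih =>
    rw [pow_succ]
    calc ‖A ^ N * A‖ ≤ ‖A ^ N‖ * ‖A‖ := norm_mul_le _ _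
      _ ≤ 1 * 1 := mul_le_mul ih hA (norm_nonneg _) zero_le_one
      _ = 1 := one_mul 1

/-- telescoping for powers of contractions -/
theorem amp_norm_pow_sub_pow_le {A B : Matrix n n ℂ} (hA : ‖A‖ ≤ 1) (hB : ‖B‖ ≤ 1) (N : ℕ) :
    ‖A ^ N - B ^ N‖ ≤ N * ‖A - B‖ := by
  induction N with
  | zero => simp
  | succ N ih =>
    have e : A ^ (N + 1) - B ^ (N + 1) = A ^ N * (A - B) + (A ^ N - B ^ N) * B := by
      rw [pow_succ, pow_succ]; noncomm_ring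
    rw [e]
    calc ‖A ^ N * (A - B) + (A ^ N - B ^ N) * B‖
        ≤ ‖A ^ N * (A - B)‖ + ‖(A ^ N - B ^ N) * B‖ := norm_add_le _ _
      _ ≤ ‖A ^ N‖ * ‖A - B‖ + ‖A ^ N - B ^ N‖ * ‖B‖ :=
          add_le_add (norm_mul_le _ _) (norm_mul_le _ _)
      _ ≤ 1 * ‖A - B‖ + (N * ‖A - B‖) * 1 :=
          add_le_add (mul_le_mul_of_nonneg_right (amp_norm_pow_le_one hA N) (norm_nonneg _))
            (mul_le_mul ih hB (norm_nonneg _) (by positivity))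
      _ = ((N + 1 : ℕ) : ℝ) * ‖A - B‖ := by push_cast; ring

end Bar


section Filter

variable {n : Type} [Fintype n] [DecidableEq n] {Λ : Type} [DecidableEq Λ] {io : Λ → Type}
  [∀ y, Fintype (io y)] [∀ y, DecidableEq (io y)] [∀ y, Nonempty (io y)] {U : AmpUnits n Λ io}
  {I : Type} [Fintype I] [DecidableEq I] (Sy : AmpSys U I)

/-- all labels, exact roots -/
noncomputable def AmpSys.gF (i : I) : Matrix n n ℂ := ampG (Sy.k i)

/-- retained labels, exact roots -/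
noncomputable def AmpSys.gR (Ret : Finset I) (i : I) : Matrix n n ℂ :=
  if i ∈ Ret then ampG (Sy.k i) else 1

/-- retained labels, roots of the radius-`r` approximants -/
noncomputable def AmpSys.gL (Ret : Finset I) (r : ℕ) (i : I) : Matrix n n ℂ :=
  if i ∈ Ret then ampG (Sy.kl i r) else 1

/-- the kernel sum of eq. (9.9), radii below `Lc` -/
noncomputable def AmpSys.inc (i : I) (Lc : ℕ) (y : Λ) (f : Λ → ℝ) : ℝ :=
  ∑ l ∈ Finset.range Lc, if y ∈ Sy.Nb i l then 2 * Sy.eps l * ∑ z ∈ Sy.Nb i l, f z else 0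

/-- the total shell weight of a label, radii below `Lc` -/
noncomputable def AmpSys.tot (i : I) (Lc : ℕ) (f : Λ → ℝ) : ℝ :=
  ∑ l ∈ Finset.range Lc, Sy.eps l * ∑ z ∈ Sy.Nb i l, f z

theorem AmpSys.chan_inc (κ : Type) [Fintype κ] [DecidableEq κ] (i : I) (Lc : ℕ) (y : Λ)
    (f : Λ → ℝ) : (Sy.chan κ).inc i Lc y f = Sy.inc i Lc y f := rfl

theorem AmpSys.chan_tot (κ : Type) [Fintype κ] [DecidableEq κ] (i : I) (Lc : ℕ)
    (f : Λ → ℝ) : (Sy.chan κ).tot i Lc f = Sy.tot i Lc f := rfl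

theorem AmpSys.norm_gF_le (i : I) : ‖Sy.gF i‖ ≤ 1 :=
  norm_ampG_le_one (Sy.k_nonneg i) (Sy.k_le_one i)

theorem AmpSys.norm_gR_le (Ret : Finset I) (i : I) : ‖Sy.gR Ret i‖ ≤ 1 := by
  unfold AmpSys.gR
  split_ifs
  · exact norm_ampG_le_one (Sy.k_nonneg i) (Sy.k_le_one i)
  · exact amp_norm_one_le

theorem AmpSys.norm_gL_le (Ret : Finset I) (r : ℕ) (i : I) : ‖Sy.gL Ret r i‖ ≤ 1 := by
  unfold AmpSys.gL
  split_ifs
  · exact norm_ampG_le_one (Sy.kl_nonneg i r) (Sy.kl_le_one i r)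
  · exact amp_norm_one_le

theorem AmpSys.gF_conjTranspose (i : I) : (Sy.gF i)ᴴ = Sy.gF i := ampG_conjTranspose _

theorem AmpSys.gL_conjTranspose (Ret : Finset I) (r : ℕ) (i : I) :
    (Sy.gL Ret r i)ᴴ = Sy.gL Ret r i := by
  unfold AmpSys.gL
  split_ifs
  · exact ampG_conjTranspose _
  · exact conjTranspose_one

theorem AmpSys.gF_fix {Ω : n → ℂ} (hkill : ∀ i, Sy.k i *ᵥ Ω = 0) (i : I) : Sy.gF i *ᵥ Ω = Ω :=
  ampG_mulVec (Sy.k_nonneg i) (Sy.k_le_one i) (hkill i)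

theorem AmpSys.gR_fix {Ω : n → ℂ} (hkill : ∀ i, Sy.k i *ᵥ Ω = 0) (Ret : Finset I) (i : I) :
    Sy.gR Ret i *ᵥ Ω = Ω := by
  unfold AmpSys.gR
  split_ifs
  · exact ampG_mulVec (Sy.k_nonneg i) (Sy.k_le_one i) (hkill i)
  · exact one_mulVec Ω

/-- eq. (9.2): truncation of the retained average -/
theorem AmpSys.norm_gR_sub_gL_le [Nonempty I] (Ret : Finset I) (r : ℕ) :
    ‖ampBar (Sy.gR Ret) - ampBar (Sy.gL Ret r)‖ ≤
      (Fintype.card I : ℝ)⁻¹ * (Ret.card * Real.sqrt (Sy.eta r)) := by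
  refine (norm_ampBar_sub_le _ _).trans (mul_le_mul_of_nonneg_left ?_ (by positivity))
  have h1 : ∀ i, ‖Sy.gR Ret i - Sy.gL Ret r i‖ ≤ if i ∈ Ret then Real.sqrt (Sy.eta r) else 0 := by
    intro i
    unfold AmpSys.gR AmpSys.gL
    split_ifs
    · exact (ampG_sub_le (Sy.k_le_one i) (Sy.kl_le_one i r)).trans
        (Real.sqrt_le_sqrt (Sy.tail i r))
    · simp
  refine (Finset.sum_le_sum fun i _ => h1 i).trans ?_
  rw [Finset.sum_ite_mem, Finset.univ_inter, Finset.sum_const, nsmul_eq_mul]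

/-- the localised average is supported in `W` -/
theorem AmpSys.gL_pow_mem (Ret : Finset I) (r N : ℕ) (W : Finset Λ)
    (hW : ∀ i ∈ Ret, Sy.Nb i r ⊆ W) : ampBar (Sy.gL Ret r) ^ N ∈ U.alg W := by
  refine Subalgebra.pow_mem _ ?_ N
  unfold ampBar
  refine Subalgebra.smul_mem _ (Subalgebra.sum_mem _ fun i _ => ?_) _
  unfold AmpSys.gL
  split_ifs with hi
  · refine U.alg_mono (hW i hi) ?_
    unfold ampG
    exact amp_sqrt_mem (sub_nonneg.2 (Sy.kl_le_one i r)) _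
      (Subalgebra.sub_mem _ (Subalgebra.one_mem _) (Sy.kl_mem i r))
  · exact Subalgebra.one_mem _

theorem amp_pureOp_mulVec (Ω ψ : n → ℂ) : pureOp Ω *ᵥ ψ = (star Ω ⬝ᵥ ψ) • Ω := by
  unfold pureOp
  rw [vecMulVec_mulVec]
  ext i
  simp [mul_comm]

/-- eq. (9.14), one step: the excited component decays, and stays excited -/
theorem AmpSys.decay_step [Nonempty I] {Ω : n → ℂ} (hkill : ∀ i, Sy.k i *ᵥ Ω = 0) {g : ℝ}
    (hgap : (g : ℂ) • (1 - pureOp Ω) ≤ ∑ i, Sy.k i) {ψ : n → ℂ} (hψ : star Ω ⬝ᵥ ψ = 0) :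
    opnSq (ampBar Sy.gF *ᵥ ψ) ≤ Real.exp (-(g / Fintype.card I)) * opnSq ψ ∧
      star Ω ⬝ᵥ (ampBar Sy.gF *ᵥ ψ) = 0 := by
  have hm : (0 : ℝ) < Fintype.card I := by exact_mod_cast Fintype.card_pos
  constructor
  · have h1 := opnSq_ampBar_mulVec_le Sy.gF ψ
    have h2 : ∀ i, opnSq (Sy.gF i *ᵥ ψ) = opnSq ψ - (star ψ ⬝ᵥ (Sy.k i *ᵥ ψ)).re := fun i =>
      opnSq_ampG_mulVec (Sy.k_le_one i) ψ
    have h3 : g * opnSq ψ ≤ ∑ i, (star ψ ⬝ᵥ (Sy.k i *ᵥ ψ)).re := by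
      have h4 := (Matrix.le_iff.1 hgap).dotProduct_mulVec_nonneg ψ
      rw [sub_mulVec, dotProduct_sub, sum_mulVec, dotProduct_sum, smul_mulVec, sub_mulVec,
        one_mulVec, amp_pureOp_mulVec, hψ, zero_smul, sub_zero, dotProduct_smul,
        ← opnSq_eq_dotProduct] at h4
      have h5 := (Complex.le_def.1 h4).1
      simp only [Complex.zero_re, Complex.sub_re, Complex.re_sum, smul_eq_mul, Complex.mul_re,
        Complex.ofReal_re, Complex.ofReal_im, mul_zero, sub_zero] at h5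
      linarith
    simp only [h2, Finset.sum_sub_distrib, Finset.sum_const, Finset.card_univ, nsmul_eq_mul] at h1
    have h6 : (Fintype.card I : ℝ)⁻¹ * ((Fintype.card I : ℝ) * opnSq ψ -
        ∑ i, (star ψ ⬝ᵥ (Sy.k i *ᵥ ψ)).re) ≤ (1 - g / Fintype.card I) * opnSq ψ := by
      have : (Fintype.card I : ℝ)⁻¹ * ((Fintype.card I : ℝ) * opnSq ψ -
          ∑ i, (star ψ ⬝ᵥ (Sy.k i *ᵥ ψ)).re) = opnSq ψ - (Fintype.card I : ℝ)⁻¹ *
          ∑ i, (star ψ ⬝ᵥ (Sy.k i *ᵥ ψ)).re := by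
        field_simp
      rw [this]
      have h7 : (Fintype.card I : ℝ)⁻¹ * (g * opnSq ψ) ≤ (Fintype.card I : ℝ)⁻¹ *
          ∑ i, (star ψ ⬝ᵥ (Sy.k i *ᵥ ψ)).re := mul_le_mul_of_nonneg_left h3 (by positivity)
      have h8 : (Fintype.card I : ℝ)⁻¹ * (g * opnSq ψ) = g / Fintype.card I * opnSq ψ := by
        field_simp
      linarith
    refine h1.trans (h6.trans (mul_le_mul_of_nonneg_right ?_ (opnSq_nonneg ψ)))
    have := Real.add_one_le_exp (-(g / Fintype.card I))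
    linarith
  · have h1 : star Ω ⬝ᵥ (ampBar Sy.gF *ᵥ ψ) = star ((ampBar Sy.gF)ᴴ *ᵥ Ω) ⬝ᵥ ψ := by
      rw [star_mulVec, conjTranspose_conjTranspose, dotProduct_mulVec]
    rw [h1, ampBar_conjTranspose Sy.gF_conjTranspose, ampBar_mulVec_fix (Sy.gF_fix hkill), hψ]

/-- eq. (9.14) -/
theorem AmpSys.decay [Nonempty I] {Ω : n → ℂ} (hkill : ∀ i, Sy.k i *ᵥ Ω = 0) {g : ℝ}
    (hgap : (g : ℂ) • (1 - pureOp Ω) ≤ ∑ i, Sy.k i) {ψ : n → ℂ} (hψ : star Ω ⬝ᵥ ψ = 0) (N : ℕ) :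
    opnSq ((ampBar Sy.gF ^ N) *ᵥ ψ) ≤ Real.exp (-(g * N / Fintype.card I)) * opnSq ψ := by
  have key : ∀ N : ℕ, opnSq ((ampBar Sy.gF ^ N) *ᵥ ψ) ≤
      Real.exp (-(g * N / Fintype.card I)) * opnSq ψ ∧ star Ω ⬝ᵥ ((ampBar Sy.gF ^ N) *ᵥ ψ) = 0 := by
    intro N
    induction N with
    | zero => simp [hψ]
    | succ N ih =>
      have e : (ampBar Sy.gF ^ (N + 1)) *ᵥ ψ = ampBar Sy.gF *ᵥ ((ampBar Sy.gF ^ N) *ᵥ ψ) := by
        rw [pow_succ', mulVec_mulVec]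
      obtain ⟨h1, h2⟩ := Sy.decay_step hkill hgap ih.2
      rw [e]
      refine ⟨h1.trans ?_, h2⟩
      calc Real.exp (-(g / Fintype.card I)) * opnSq ((ampBar Sy.gF ^ N) *ᵥ ψ)
          ≤ Real.exp (-(g / Fintype.card I)) * (Real.exp (-(g * N / Fintype.card I)) * opnSq ψ) :=
            mul_le_mul_of_nonneg_left ih.1 (Real.exp_pos _).le
        _ = Real.exp (-(g * (N + 1 : ℕ) / Fintype.card I)) * opnSq ψ := by
            rw [← mul_assoc, ← Real.exp_add]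
            congr 2
            push_cast
            ring
  exact (key N).1


theorem amp_lft_ampBar (κ : Type) [Fintype κ] [DecidableEq κ] (f : I → Matrix n n ℂ)
    (Z : n × κ → ℂ) :
    ampLft κ (ampBar f) *ᵥ Z = ((Fintype.card I : ℂ)⁻¹) • ∑ i, ampLft κ (f i) *ᵥ Z := by
  unfold ampBar
  rw [ampLft_smul, ampLft_sum, smul_mulVec, sum_mulVec]

/-- iterating eq. (9.4): powers of the averaged channel evaluated on the ground vector -/
theorem AmpSys.avgF_iter_mulVec {Ω : n → ℂ} (hkill : ∀ i, Sy.k i *ᵥ Ω = 0)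
    (κ : Type) [Fintype κ] [DecidableEq κ] (B : Matrix (n × κ) n ℂ) (N : ℕ) :
    ((Sy.chan κ).avgF^[N] B) *ᵥ Ω = ampLft κ (ampBar Sy.gF ^ N) *ᵥ (B *ᵥ Ω) := by
  induction N with
  | zero => simp [ampLft_one]
  | succ N ih =>
    rw [Function.iterate_succ_apply', pow_succ', ampLft_mul, ← mulVec_mulVec, ← ih,
      amp_lft_ampBar]
    unfold AmpChan.avgF
    rw [smul_mulVec, sum_mulVec]
    congr 1
    refine Finset.sum_congr rfl fun i _ => ?_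
    exact ampChanMap_mulVec (ampG_mulVec (Sy.k_nonneg i) (Sy.k_le_one i) (hkill i))
      (ampK_mulVec (Sy.k_nonneg i) (hkill i)) _

theorem AmpSys.avgR_iter_mulVec {Ω : n → ℂ} (hkill : ∀ i, Sy.k i *ᵥ Ω = 0) (Ret : Finset I)
    (κ : Type) [Fintype κ] [DecidableEq κ] (B : Matrix (n × κ) n ℂ) (N : ℕ) :
    (((Sy.chan κ).avgR Ret)^[N] B) *ᵥ Ω = ampLft κ (ampBar (Sy.gR Ret) ^ N) *ᵥ (B *ᵥ Ω) := by
  induction N with
  | zero => simp [ampLft_one]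
  | succ N ih =>
    rw [Function.iterate_succ_apply', pow_succ', ampLft_mul, ← mulVec_mulVec, ← ih,
      amp_lft_ampBar]
    unfold AmpChan.avgR
    rw [smul_mulVec, sum_mulVec]
    congr 1
    refine Finset.sum_congr rfl fun i _ => ?_
    unfold AmpSys.gR
    split_ifs
    · exact ampChanMap_mulVec (ampG_mulVec (Sy.k_nonneg i) (Sy.k_le_one i) (hkill i))
        (ampK_mulVec (Sy.k_nonneg i) (hkill i)) _
    · rw [ampLft_one, one_mulVec]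

/-- eq. (9.3): omission of the distant labels, on vectors `B Ω` with `B` a column of operators
supported in `S` (from `AmpChan.omission`, `AmpUnits.itw_col`, `AmpUnits.T_of_itw`) -/
theorem AmpSys.omission_vec [Nonempty I] {Ω : n → ℂ} (hΩ : opnSq Ω = 1)
    (hkill : ∀ i, Sy.k i *ᵥ Ω = 0) (Ret : Finset I) (N : ℕ) (S : Finset Λ)
    (ω : Λ → ℝ) (hω0 : ∀ y, 0 ≤ ω y) (hωS : ∀ y ∈ S, 1 ≤ ω y) (v Θ : ℝ) (hv : 0 ≤ v)
    (hker : ∀ Lc y, ∑ i ∈ Ret, Sy.inc i Lc y ω ≤ v * ω y)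
    (hΘ : ∀ Lc, ∑ i ∈ Retᶜ, Sy.tot i Lc ω ≤ Θ)
    (κ : Type) [Fintype κ] [DecidableEq κ] (Bk : κ → Matrix n n ℂ) (hB : ∀ k, Bk k ∈ U.alg S) :
    Real.sqrt (opnSq (ampLft κ (ampBar Sy.gF ^ N - ampBar (Sy.gR Ret) ^ N) *ᵥ (ampCol Bk *ᵥ Ω))) ≤
      (N : ℝ) / Fintype.card I * (2 * ‖ampCol Bk‖ * (1 + v / Fintype.card I) ^ N * Θ) := by
  have h0 : ∀ y, (U.loc κ).osc y (ampCol Bk) ≤ 2 * ‖ampCol Bk‖ * ω y := by
    intro y
    by_cases hy : y ∈ S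
    · calc (U.loc κ).osc y (ampCol Bk) ≤ 2 * ‖ampCol Bk‖ := (U.loc κ).osc_le_two y _
        _ ≤ 2 * ‖ampCol Bk‖ * ω y := le_mul_of_one_le_right (by positivity) (hωS y hy)
    · have h1 : (U.loc κ).osc y (ampCol Bk) = 0 := by
        unfold AmpLoc.osc
        have : (U.loc κ).T y (ampCol Bk) = ampCol Bk := U.T_of_itw y (U.itw_col Bk hB hy)
        rw [this, sub_self, norm_zero]
      rw [h1]
      exact mul_nonneg (by positivity) (hω0 y)
  have h1 := (Sy.chan κ).omission Ret (ampCol Bk) ω v (2 * ‖ampCol Bk‖) Θ (by positivity) hv h0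
    hker hΘ N
  have e : ampLft κ (ampBar Sy.gF ^ N - ampBar (Sy.gR Ret) ^ N) *ᵥ (ampCol Bk *ᵥ Ω) =
      ((Sy.chan κ).avgF^[N] (ampCol Bk) - ((Sy.chan κ).avgR Ret)^[N] (ampCol Bk)) *ᵥ Ω := by
    rw [ampLft_sub, sub_mulVec, sub_mulVec, Sy.avgF_iter_mulVec hkill, Sy.avgR_iter_mulVec hkill]
  rw [e]
  refine (amp_vn_mulVec_le _ _).trans ?_
  rw [hΩ, Real.sqrt_one, mul_one]
  exact h1


/-- a family of vectors as one vector on `n × κ` -/
def ampFlat {κ : Type} (φ : κ → n → ℂ) : n × κ → ℂ := fun p => φ p.2 p.1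

theorem opnSq_ampFlat {κ : Type} [Fintype κ] (φ : κ → n → ℂ) :
    opnSq (ampFlat φ) = ∑ k, opnSq (φ k) := by
  unfold opnSq ampFlat
  rw [Fintype.sum_prod_type_right]

theorem ampLft_mulVec_flat {κ : Type} [Fintype κ] [DecidableEq κ] (A : Matrix n n ℂ)
    (φ : κ → n → ℂ) : ampLft κ A *ᵥ ampFlat φ = ampFlat fun k => A *ᵥ φ k := by
  ext ⟨i, a⟩
  rw [ampLft_mulVec]
  rfl

theorem ampCol_mulVec_flat {κ : Type} [Fintype κ] [DecidableEq κ] (Bk : κ → Matrix n n ℂ)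
    (Ω : n → ℂ) : ampCol Bk *ᵥ Ω = ampFlat fun k => Bk k *ᵥ Ω := by
  ext ⟨i, a⟩
  rfl

theorem amp_pow_mulVec_fix {A : Matrix n n ℂ} {Ω : n → ℂ} (h : A *ᵥ Ω = Ω) (N : ℕ) :
    (A ^ N) *ᵥ Ω = Ω := by
  induction N with
  | zero => simp
  | succ N ih => rw [pow_succ, ← mulVec_mulVec, h, ih]

/-- Pythagoras for the component along a unit vector -/
theorem amp_opnSq_sub_proj {Ω : n → ℂ} (hΩ : opnSq Ω = 1) (φ : n → ℂ) :
    opnSq (φ - (star Ω ⬝ᵥ φ) • Ω) = opnSq φ - ‖star Ω ⬝ᵥ φ‖ ^ 2 := by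
  have hΩ' : star Ω ⬝ᵥ Ω = 1 := by rw [← opnSq_eq_dotProduct, hΩ]; simp
  set c := star Ω ⬝ᵥ φ with hc
  have hc' : star φ ⬝ᵥ Ω = star c := by
    rw [hc, ← star_dotProduct_star, star_star, dotProduct_comm]
  have h : ((opnSq (φ - c • Ω) : ℝ) : ℂ) = ((opnSq φ - ‖c‖ ^ 2 : ℝ) : ℂ) := by
    rw [opnSq_eq_dotProduct, star_sub, star_smul, sub_dotProduct, dotProduct_sub, dotProduct_sub,
      smul_dotProduct, smul_dotProduct, dotProduct_smul, dotProduct_smul, ← hc, hΩ', hc',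
      ← opnSq_eq_dotProduct]
    push_cast
    have : (‖c‖ : ℂ) ^ 2 = star c * c := by
      rw [RCLike.star_def, ← Complex.normSq_eq_conj_mul_self, Complex.normSq_eq_norm_sq]
      push_cast; rfl
    rw [this]
    simp only [smul_eq_mul]
    ring
  exact_mod_cast h

/-- **The local filter** (`lem:amplification-local-products` and eq. (9.14), deterministic form).
`t = N / m`.  `L'` does not depend on the spectator index `κ` nor on the column `Bk`. -/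
theorem AmpSys.filter [Nonempty I] {Ω : n → ℂ} (hΩ : opnSq Ω = 1)
    (hkill : ∀ i, Sy.k i *ᵥ Ω = 0) {g : ℝ} (hg : 0 ≤ g)
    (hgap : (g : ℂ) • (1 - pureOp Ω) ≤ ∑ i, Sy.k i)
    (Ret : Finset I) (r N : ℕ) (S W : Finset Λ) (hW : ∀ i ∈ Ret, Sy.Nb i r ⊆ W)
    (ω : Λ → ℝ) (hω0 : ∀ y, 0 ≤ ω y) (hωS : ∀ y ∈ S, 1 ≤ ω y) (v Θ : ℝ) (hv : 0 ≤ v)
    (hker : ∀ Lc y, ∑ i ∈ Ret, Sy.inc i Lc y ω ≤ v * ω y)
    (hΘ : ∀ Lc, ∑ i ∈ Retᶜ, Sy.tot i Lc ω ≤ Θ) :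
    ∃ L' : Matrix n n ℂ, L' ∈ U.alg W ∧ L'ᴴ = L' ∧ ‖L'‖ ≤ 1 ∧
      Real.sqrt (opnSq (L' *ᵥ Ω - Ω)) ≤
        (N : ℝ) / Fintype.card I * (Ret.card * Real.sqrt (Sy.eta r)) ∧
      ∀ (κ : Type) [Fintype κ] [DecidableEq κ] (Bk : κ → Matrix n n ℂ),
        (∀ k, Bk k ∈ U.alg S) →
        Real.sqrt (∑ k, opnSq (L' *ᵥ (Bk k *ᵥ Ω))) ≤
          Real.sqrt (∑ k, ‖star Ω ⬝ᵥ (Bk k *ᵥ Ω)‖ ^ 2) +
          ‖ampCol Bk‖ * (Real.exp (-(g * N / Fintype.card I) / 2) +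
            (N : ℝ) / Fintype.card I * (2 * (1 + v / Fintype.card I) ^ N * Θ) +
            (N : ℝ) / Fintype.card I * (Ret.card * Real.sqrt (Sy.eta r))) := by
  set AF := ampBar Sy.gF with hAF
  set AR := ampBar (Sy.gR Ret) with hAR
  set AL := ampBar (Sy.gL Ret r) with hAL
  set e3 : ℝ := (N : ℝ) / Fintype.card I * (Ret.card * Real.sqrt (Sy.eta r)) with he3
  have nAR : ‖AR‖ ≤ 1 := norm_ampBar_le (Sy.norm_gR_le Ret)
  have nAL : ‖AL‖ ≤ 1 := norm_ampBar_le (Sy.norm_gL_le Ret r)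
  have hdiff : ‖AL ^ N - AR ^ N‖ ≤ e3 := by
    refine (amp_norm_pow_sub_pow_le nAL nAR N).trans ?_
    rw [norm_sub_rev, he3, div_eq_mul_inv, mul_assoc]
    exact mul_le_mul_of_nonneg_left (Sy.norm_gR_sub_gL_le Ret r) (by positivity)
  have fixR : (AR ^ N) *ᵥ Ω = Ω := amp_pow_mulVec_fix (ampBar_mulVec_fix (Sy.gR_fix hkill Ret)) N
  have fixF : (AF ^ N) *ᵥ Ω = Ω := amp_pow_mulVec_fix (ampBar_mulVec_fix (Sy.gF_fix hkill)) N
  refine ⟨AL ^ N, Sy.gL_pow_mem Ret r N W hW, ?_, amp_norm_pow_le_one nAL N, ?_, ?_⟩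
  · rw [conjTranspose_pow, ampBar_conjTranspose (Sy.gL_conjTranspose Ret r)]
  · have e : (AL ^ N) *ᵥ Ω - Ω = (AL ^ N - AR ^ N) *ᵥ Ω := by rw [sub_mulVec, fixR]
    rw [e]
    refine (amp_vn_mulVec_le _ _).trans ?_
    rw [hΩ, Real.sqrt_one, mul_one]
    exact hdiff
  · intro κ _ _ Bk hB
    set Z := ampCol Bk *ᵥ Ω with hZ
    set c : κ → ℂ := fun k => star Ω ⬝ᵥ (Bk k *ᵥ Ω) with hc
    set Z0 : n × κ → ℂ := ampFlat fun k => c k • Ω with hZ0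
    set Z1 : n × κ → ℂ := ampFlat fun k => Bk k *ᵥ Ω - c k • Ω with hZ1
    have hZn : Real.sqrt (opnSq Z) ≤ ‖ampCol Bk‖ := by
      refine (amp_vn_mulVec_le _ _).trans ?_
      rw [hΩ, Real.sqrt_one, mul_one]
    have hZsum : Z = Z0 + Z1 := by
      rw [hZ, ampCol_mulVec_flat]
      ext ⟨i, a⟩
      simp [hZ0, hZ1, ampFlat]
    have hlhs : ∑ k, opnSq ((AL ^ N) *ᵥ (Bk k *ᵥ Ω)) = opnSq (ampLft κ (AL ^ N) *ᵥ Z) := by
      rw [hZ, ampCol_mulVec_flat, ampLft_mulVec_flat, opnSq_ampFlat]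
    have hsplit : ampLft κ (AL ^ N) *ᵥ Z = Z0 + ampLft κ (AF ^ N) *ᵥ Z1 +
        (-(ampLft κ (AF ^ N - AR ^ N) *ᵥ Z)) + ampLft κ (AL ^ N - AR ^ N) *ᵥ Z := by
      have h0 : ampLft κ (AF ^ N) *ᵥ Z0 = Z0 := by
        rw [hZ0, ampLft_mulVec_flat]
        congr 1
        funext k
        rw [mulVec_smul, fixF]
      rw [ampLft_sub, ampLft_sub, sub_mulVec, sub_mulVec]
      nth_rewrite 2 [hZsum]
      rw [mulVec_add, h0]
      abel
    have b0 : Real.sqrt (opnSq Z0) = Real.sqrt (∑ k, ‖c k‖ ^ 2) := by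
      rw [hZ0, opnSq_ampFlat]
      congr 1
      refine Finset.sum_congr rfl fun k _ => ?_
      unfold opnSq at hΩ ⊢
      simp only [Pi.smul_apply, smul_eq_mul, norm_mul, mul_pow]
      rw [← Finset.mul_sum, hΩ, mul_one]
    have b1 : Real.sqrt (opnSq (ampLft κ (AF ^ N) *ᵥ Z1)) ≤
        ‖ampCol Bk‖ * Real.exp (-(g * N / Fintype.card I) / 2) := by
      have h1 : opnSq (ampLft κ (AF ^ N) *ᵥ Z1) ≤
          Real.exp (-(g * N / Fintype.card I)) * opnSq Z := by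
        rw [hZ1, ampLft_mulVec_flat, opnSq_ampFlat, hZ, ampCol_mulVec_flat, opnSq_ampFlat,
          Finset.mul_sum]
        refine Finset.sum_le_sum fun k _ => ?_
        have hperp : star Ω ⬝ᵥ (Bk k *ᵥ Ω - c k • Ω) = 0 := by
          have hΩ' : star Ω ⬝ᵥ Ω = 1 := by rw [← opnSq_eq_dotProduct, hΩ]; simp
          rw [dotProduct_sub, dotProduct_smul, hΩ']
          simp [hc]
        refine (Sy.decay hkill hgap hperp N).trans
          (mul_le_mul_of_nonneg_left ?_ (Real.exp_pos _).le)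
        rw [amp_opnSq_sub_proj hΩ]
        have : 0 ≤ ‖star Ω ⬝ᵥ (Bk k *ᵥ Ω)‖ ^ 2 := by positivity
        linarith
      calc Real.sqrt (opnSq (ampLft κ (AF ^ N) *ᵥ Z1))
          ≤ Real.sqrt (Real.exp (-(g * N / Fintype.card I)) * opnSq Z) := Real.sqrt_le_sqrt h1
        _ = Real.exp (-(g * N / Fintype.card I) / 2) * Real.sqrt (opnSq Z) := by
            rw [Real.sqrt_mul (Real.exp_pos _).le, ← Real.exp_half]
        _ ≤ Real.exp (-(g * N / Fintype.card I) / 2) * ‖ampCol Bk‖ :=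
            mul_le_mul_of_nonneg_left hZn (Real.exp_pos _).le
        _ = _ := mul_comm _ _
    have b2 : Real.sqrt (opnSq (-(ampLft κ (AF ^ N - AR ^ N) *ᵥ Z))) ≤
        ‖ampCol Bk‖ * ((N : ℝ) / Fintype.card I * (2 * (1 + v / Fintype.card I) ^ N * Θ)) := by
      have h1 := Sy.omission_vec hΩ hkill Ret N S ω hω0 hωS v Θ hv hker hΘ κ Bk hB
      have h2 : opnSq (-(ampLft κ (AF ^ N - AR ^ N) *ᵥ Z)) =
          opnSq (ampLft κ (AF ^ N - AR ^ N) *ᵥ Z) := by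
        unfold opnSq
        simp
      rw [h2]
      refine h1.trans (le_of_eq ?_)
      ring
    have b3 : Real.sqrt (opnSq (ampLft κ (AL ^ N - AR ^ N) *ᵥ Z)) ≤ ‖ampCol Bk‖ * e3 := by
      refine (amp_vn_mulVec_le _ _).trans ?_
      rw [mul_comm]
      exact mul_le_mul hZn ((norm_ampLft_le _).trans hdiff) (norm_nonneg _) (norm_nonneg _)
    rw [hlhs, hsplit]
    refine (amp_vn_add_le _ _).trans ?_
    refine (add_le_add ((amp_vn_add_le _ _).trans (add_le_add (amp_vn_add_le _ _) le_rfl))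
      le_rfl).trans ?_
    rw [b0]
    have : ‖ampCol Bk‖ * (Real.exp (-(g * N / Fintype.card I) / 2) +
            (N : ℝ) / Fintype.card I * (2 * (1 + v / Fintype.card I) ^ N * Θ) + e3) =
        ‖ampCol Bk‖ * Real.exp (-(g * N / Fintype.card I) / 2) +
        ‖ampCol Bk‖ * ((N : ℝ) / Fintype.card I * (2 * (1 + v / Fintype.card I) ^ N * Θ)) +
        ‖ampCol Bk‖ * e3 := by ring
    rw [this]
    linarith

end Filter

end Claimed.Agent.R296
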