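import Mathlib

/-!
# Row 296, BB_LR (5): scalar estimates with stretched exponentials

All sums / integrals of the form `∑ (d+1)^p e^{-c d^α}` that occur in Sections 3 and 9 of the
area-law paper are reduced to the lemmas of this file.  The trick is always
`e^{-c x^α} ≤ e^{-(c/2) r^α} e^{-(c/2) x^α}` for `x ≥ r`, together with
`(1+x)^n e^{-c x^α} ≤ K` (from `y^k / k! ≤ e^y`).
-/

set_option autoImplicit false

namespace Claimed.Agent.R296

open MeasureTheory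

/-- polynomials are dominated by stretched exponentials -/
theorem lr_poly_mul_exp_neg_rpow_le {α c : ℝ} (hα : 0 < α) (hc : 0 < c) (n : ℕ) :
    ∃ K : ℝ, 0 < K ∧ ∀ x : ℝ, 0 ≤ x → (1 + x) ^ n * Real.exp (-c * x ^ α) ≤ K := by
  obtain ⟨k, hk⟩ := exists_nat_ge ((n : ℝ) / α)
  have hk' : (n : ℝ) ≤ α * k := by
    rw [div_le_iff₀ hα] at hk
    linarith
  refine ⟨2 ^ n * ((k.factorial : ℝ) / c ^ k + 1), by positivity, fun x hx => ?_⟩
  have hy0 : 0 ≤ c * x ^ α := mul_nonneg hc.le (Real.rpow_nonneg hx α)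
  have hexp1 : Real.exp (-c * x ^ α) ≤ 1 := by
    rw [Real.exp_le_one_iff]
    linarith
  have hfac : (0 : ℝ) ≤ (k.factorial : ℝ) / c ^ k := by positivity
  rcases le_total x 1 with hx1 | hx1
  · calc (1 + x) ^ n * Real.exp (-c * x ^ α) ≤ 2 ^ n * 1 := by
          gcongr
          linarith
      _ ≤ 2 ^ n * ((k.factorial : ℝ) / c ^ k + 1) := by
          gcongr
          linarith
  · have h1 : (1 + x) ^ n ≤ 2 ^ n * x ^ n := by
      rw [← mul_pow]
      gcongr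
      linarith
    have h2 : x ^ n ≤ (x ^ α) ^ k := by
      rw [← Real.rpow_mul_natCast hx, ← Real.rpow_natCast x n]
      exact Real.rpow_le_rpow_of_exponent_le hx1 hk'
    have h3 : (c * x ^ α) ^ k / (k.factorial : ℝ) ≤ Real.exp (c * x ^ α) :=
      Real.pow_div_factorial_le_exp _ hy0 k
    have h4 : (x ^ α) ^ k * Real.exp (-c * x ^ α) ≤ (k.factorial : ℝ) / c ^ k := by
      have h5 : -c * x ^ α = -(c * x ^ α) := by ring
      rw [h5, Real.exp_neg, ← div_eq_mul_inv, div_le_iff₀ (Real.exp_pos _)]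
      rw [div_le_iff₀ (by positivity), mul_pow] at h3
      rw [div_mul_eq_mul_div, le_div_iff₀ (by positivity)]
      linarith
    calc (1 + x) ^ n * Real.exp (-c * x ^ α)
        ≤ (2 ^ n * (x ^ α) ^ k) * Real.exp (-c * x ^ α) := by
          gcongr
          exact h1.trans (by gcongr)
      _ = 2 ^ n * ((x ^ α) ^ k * Real.exp (-c * x ^ α)) := by ring
      _ ≤ 2 ^ n * ((k.factorial : ℝ) / c ^ k + 1) := by
          gcongr
          linarith

theorem lr_summable_poly_exp {α c : ℝ} (hα : 0 < α) (hc : 0 < c) (p : ℕ) :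
    Summable fun d : ℕ => ((d : ℝ) + 1) ^ p * Real.exp (-c * (d : ℝ) ^ α) := by
  obtain ⟨K, hK, h⟩ := lr_poly_mul_exp_neg_rpow_le hα hc (p + 2)
  have hs : Summable fun d : ℕ => K * (1 / ((d + 1 : ℕ) : ℝ) ^ 2) := by
    refine Summable.mul_left K ?_
    exact (summable_nat_add_iff 1).mpr (Real.summable_one_div_nat_pow.mpr (by norm_num))
  refine Summable.of_nonneg_of_le (fun d => by positivity) (fun d => ?_) hs
  have := h d (Nat.cast_nonneg d)
  have hd : (0 : ℝ) < ((d + 1 : ℕ) : ℝ) ^ 2 := by positivity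
  rw [mul_one_div, le_div_iff₀ hd]
  calc ((d : ℝ) + 1) ^ p * Real.exp (-c * (d : ℝ) ^ α) * ((d + 1 : ℕ) : ℝ) ^ 2
      = (1 + (d : ℝ)) ^ (p + 2) * Real.exp (-c * (d : ℝ) ^ α) := by
        push_cast
        ring
    _ ≤ K := this

/-- the splitting trick -/
theorem lr_exp_neg_rpow_split {α c : ℝ} (hα : 0 < α) (hc : 0 < c) {r x : ℝ} (hr : 0 ≤ r)
    (hrx : r ≤ x) :
    Real.exp (-c * x ^ α) ≤ Real.exp (-(c / 2) * r ^ α) * Real.exp (-(c / 2) * x ^ α) := by
  rw [← Real.exp_add, Real.exp_le_exp]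
  have : r ^ α ≤ x ^ α := Real.rpow_le_rpow hr hrx hα.le
  nlinarith

/-- tail sums over arbitrary finite sets of integers `≥ r` -/
theorem lr_tail_sum {α c : ℝ} (hα : 0 < α) (hc : 0 < c) (p : ℕ) :
    ∃ C : ℝ, 0 < C ∧ ∀ (S : Finset ℕ) (r : ℕ), (∀ d ∈ S, r ≤ d) →
      ∑ d ∈ S, ((d : ℝ) + 1) ^ p * Real.exp (-c * (d : ℝ) ^ α)
        ≤ C * Real.exp (-(c / 2) * (r : ℝ) ^ α) := by
  have hs := lr_summable_poly_exp hα (half_pos hc) p
  have h0 : 0 ≤ ∑' d : ℕ, ((d : ℝ) + 1) ^ p * Real.exp (-(c / 2) * (d : ℝ) ^ α) :=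
    tsum_nonneg fun d => by positivity
  refine ⟨(∑' d : ℕ, ((d : ℝ) + 1) ^ p * Real.exp (-(c / 2) * (d : ℝ) ^ α)) + 1, by linarith,
    fun S r hS => ?_⟩
  calc ∑ d ∈ S, ((d : ℝ) + 1) ^ p * Real.exp (-c * (d : ℝ) ^ α)
      ≤ ∑ d ∈ S, Real.exp (-(c / 2) * (r : ℝ) ^ α)
          * (((d : ℝ) + 1) ^ p * Real.exp (-(c / 2) * (d : ℝ) ^ α)) := by
        refine Finset.sum_le_sum fun d hd => ?_
        have := lr_exp_neg_rpow_split hα hc (Nat.cast_nonneg r)
          (show (r : ℝ) ≤ (d : ℝ) by exact_mod_cast hS d hd)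
        calc ((d : ℝ) + 1) ^ p * Real.exp (-c * (d : ℝ) ^ α)
            ≤ ((d : ℝ) + 1) ^ p * (Real.exp (-(c / 2) * (r : ℝ) ^ α)
                * Real.exp (-(c / 2) * (d : ℝ) ^ α)) := by gcongr
          _ = _ := by ring
    _ = Real.exp (-(c / 2) * (r : ℝ) ^ α)
          * ∑ d ∈ S, ((d : ℝ) + 1) ^ p * Real.exp (-(c / 2) * (d : ℝ) ^ α) := by
        rw [Finset.mul_sum]
    _ ≤ Real.exp (-(c / 2) * (r : ℝ) ^ α)
          * ((∑' d : ℕ, ((d : ℝ) + 1) ^ p * Real.exp (-(c / 2) * (d : ℝ) ^ α)) + 1) := by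
        gcongr
        have := hs.sum_le_tsum S (fun d _ => by positivity)
        linarith
    _ = _ := by ring

/-- sums over sites with polynomially growing spheres -/
theorem lr_site_sum {α c : ℝ} (hα : 0 < α) (hc : 0 < c) (p : ℕ) (K : ℝ) (hK : 0 ≤ K) :
    ∃ C : ℝ, 0 < C ∧ ∀ {σ : Type} (S : Finset σ) (dist : σ → ℕ) (r : ℕ),
      (∀ d : ℕ, ((S.filter fun y => dist y = d).card : ℝ) ≤ K * ((d : ℝ) + 1) ^ p) →
      (∀ y ∈ S, r ≤ dist y) →
      ∑ y ∈ S, Real.exp (-c * (dist y : ℝ) ^ α) ≤ C * Real.exp (-(c / 2) * (r : ℝ) ^ α) := by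
  obtain ⟨C', hC', h⟩ := lr_tail_sum hα hc p
  refine ⟨K * C' + 1, by positivity, fun {σ} S dist r hcard hr => ?_⟩
  have hmaps : ∀ y ∈ S, dist y ∈ S.image dist := fun y hy => Finset.mem_image_of_mem dist hy
  rw [← Finset.sum_fiberwise_of_maps_to hmaps]
  have hge : ∀ d ∈ S.image dist, r ≤ d := by
    intro d hd
    obtain ⟨y, hy, rfl⟩ := Finset.mem_image.mp hd
    exact hr y hy
  calc ∑ d ∈ S.image dist, ∑ y ∈ S with dist y = d, Real.exp (-c * (dist y : ℝ) ^ α)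
      ≤ ∑ d ∈ S.image dist, K * (((d : ℝ) + 1) ^ p * Real.exp (-c * (d : ℝ) ^ α)) := by
        refine Finset.sum_le_sum fun d _ => ?_
        have e : ∑ y ∈ S with dist y = d, Real.exp (-c * (dist y : ℝ) ^ α)
            = ((S.filter fun y => dist y = d).card : ℝ) * Real.exp (-c * (d : ℝ) ^ α) := by
          rw [Finset.sum_congr rfl (g := fun _ => Real.exp (-c * (d : ℝ) ^ α))]
          · rw [Finset.sum_const, nsmul_eq_mul]
          · intro y hy
            rw [(Finset.mem_filter.mp hy).2]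
        rw [e, ← mul_assoc]
        gcongr
        exact hcard d
    _ = K * ∑ d ∈ S.image dist, ((d : ℝ) + 1) ^ p * Real.exp (-c * (d : ℝ) ^ α) := by
        rw [Finset.mul_sum]
    _ ≤ K * (C' * Real.exp (-(c / 2) * (r : ℝ) ^ α)) := by
        gcongr
        exact h _ r hge
    _ ≤ (K * C' + 1) * Real.exp (-(c / 2) * (r : ℝ) ^ α) := by
        have := Real.exp_pos (-(c / 2) * (r : ℝ) ^ α)
        nlinarith

theorem lr_continuous_exp_neg_rpow {α c : ℝ} (hα : 0 < α) :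
    Continuous fun t : ℝ => Real.exp (-c * |t| ^ α) := by
  refine Real.continuous_exp.comp (continuous_const.mul ?_)
  exact continuous_abs.rpow_const fun t => Or.inr hα.le

theorem lr_integrable_exp_neg_rpow {α c : ℝ} (hα : 0 < α) (hc : 0 < c) :
    Integrable fun t : ℝ => Real.exp (-c * |t| ^ α) := by
  obtain ⟨K, hK, h⟩ := lr_poly_mul_exp_neg_rpow_le hα hc 2
  refine Integrable.mono' (integrable_inv_one_add_sq.const_mul K)
    (lr_continuous_exp_neg_rpow hα).aestronglyMeasurable (Filter.Eventually.of_forall fun t => ?_)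
  rw [Real.norm_eq_abs, abs_of_pos (Real.exp_pos _)]
  have h1 := h |t| (abs_nonneg t)
  have h2 : 1 + t ^ 2 ≤ (1 + |t|) ^ 2 := by
    have := abs_nonneg t
    have h3 : |t| ^ 2 = t ^ 2 := sq_abs t
    nlinarith
  have h4 : (0 : ℝ) < 1 + t ^ 2 := by positivity
  rw [← div_eq_mul_inv, le_div_iff₀ h4]
  calc Real.exp (-c * |t| ^ α) * (1 + t ^ 2) ≤ Real.exp (-c * |t| ^ α) * (1 + |t|) ^ 2 := by gcongr
    _ = (1 + |t|) ^ 2 * Real.exp (-c * |t| ^ α) := by ring
    _ ≤ K := h1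

/-- tail integrals -/
theorem lr_tail_integral {α c : ℝ} (hα : 0 < α) (hc : 0 < c) :
    ∃ C : ℝ, 0 < C ∧ ∀ T : ℝ, 0 ≤ T →
      ∫ t in {t : ℝ | T < |t|}, Real.exp (-c * |t| ^ α) ≤ C * Real.exp (-(c / 2) * T ^ α) := by
  have hi := lr_integrable_exp_neg_rpow hα (half_pos hc)
  have hi' := lr_integrable_exp_neg_rpow hα hc
  have h0 : 0 ≤ ∫ t : ℝ, Real.exp (-(c / 2) * |t| ^ α) :=
    integral_nonneg fun t => (Real.exp_pos _).le
  refine ⟨(∫ t : ℝ, Real.exp (-(c / 2) * |t| ^ α)) + 1, by linarith, fun T hT => ?_⟩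
  have hmeas : MeasurableSet {t : ℝ | T < |t|} :=
    measurableSet_lt measurable_const continuous_abs.measurable
  calc ∫ t in {t : ℝ | T < |t|}, Real.exp (-c * |t| ^ α)
      ≤ ∫ t in {t : ℝ | T < |t|},
          Real.exp (-(c / 2) * T ^ α) * Real.exp (-(c / 2) * |t| ^ α) := by
        refine setIntegral_mono_on hi'.integrableOn (hi.const_mul _).integrableOn hmeas ?_
        intro t ht
        exact lr_exp_neg_rpow_split hα hc hT (le_of_lt ht)
    _ = Real.exp (-(c / 2) * T ^ α) * ∫ t in {t : ℝ | T < |t|}, Real.exp (-(c / 2) * |t| ^ α) := by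
        rw [integral_const_mul]
    _ ≤ Real.exp (-(c / 2) * T ^ α) * ((∫ t : ℝ, Real.exp (-(c / 2) * |t| ^ α)) + 1) := by
        gcongr
        have := setIntegral_le_integral (s := {t : ℝ | T < |t|}) hi
          (Filter.Eventually.of_forall fun t => (Real.exp_pos _).le)
        linarith
    _ = _ := by ring

/-- `l ≥ l^α` for natural `l` and `α ≤ 1` -/
theorem lr_nat_rpow_le {α : ℝ} (hα0 : 0 < α) (hα1 : α ≤ 1) (l : ℕ) : (l : ℝ) ^ α ≤ (l : ℝ) := by
  rcases Nat.eq_zero_or_pos l with rfl | hl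
  · simp [Real.zero_rpow hα0.ne']
  · have h1 : (1 : ℝ) ≤ (l : ℝ) := by exact_mod_cast hl
    calc (l : ℝ) ^ α ≤ (l : ℝ) ^ (1 : ℝ) := Real.rpow_le_rpow_of_exponent_le h1 hα1
      _ = (l : ℝ) := Real.rpow_one _

/-- subadditivity of `x ↦ x^α` -/
theorem lr_rpow_add_le {α : ℝ} (hα0 : 0 < α) (hα1 : α ≤ 1) {x y : ℝ} (hx : 0 ≤ x) (hy : 0 ≤ y) :
    (x + y) ^ α ≤ x ^ α + y ^ α :=
  Real.rpow_add_le_add_rpow hx hy hα0.le hα1

end Claimed.Agent.R296
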