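import Claimed.Agent.R296.LRLattice
import Claimed.Agent.R296.LRScalar

/-!
# Row 296, paper 1, Section 9 (amplification), file 6: the two kernel inequalities

Geometry enters `lem:amplification-local-products` only through eq. (9.10) (weighted row sum of the
kernel) and through the sum over the omitted labels.  Graph `G` with quadratic ball growth, labels `i`
with anchors `anc i` of bounded multiplicity, balls `lrBall G (anc i) l`, shell bounds
`eps l ≤ C2 exp (-c2 l^α)`.  The spatial weight of a source set `S` is the SUM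
`ω y = ∑_{x ∈ S} exp (-a d(y,x)^α)` (zero at infinite distance), `a = c2 / 4`.
Architect: helper286.
-/

set_option autoImplicit false
set_option linter.unusedSectionVars false
set_option linter.unusedDecidableInType false

namespace Claimed.Agent.R296

open Finset

section Wt

variable {s : Type} [DecidableEq s] [Fintype s]

/-- stretched exponential weight `exp (-a d(y,x)^α)` (zero at infinite distance) -/
noncomputable def ampWt (G : SimpleGraph s) (a α : ℝ) (y x : s) : ℝ :=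
  if G.edist y x = ⊤ then 0 else Real.exp (-a * ((G.edist y x).toNat : ℝ) ^ α)

theorem ampWt_nonneg (G : SimpleGraph s) (a α : ℝ) (y x : s) : 0 ≤ ampWt G a α y x := by
  unfold ampWt
  split_ifs
  · exact le_rfl
  · exact (Real.exp_pos _).le

theorem ampWt_self (G : SimpleGraph s) (a : ℝ) {α : ℝ} (hα : 0 < α) (x : s) :
    ampWt G a α x x = 1 := by
  simp [ampWt, Real.zero_rpow hα.ne']

theorem ampWt_eq_zero {G : SimpleGraph s} {a α : ℝ} {y x : s} (h : G.edist y x = ⊤) :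
    ampWt G a α y x = 0 := by
  simp [ampWt, h]

/-- triangle inequality and `(p+q)^α ≤ p^α + q^α` -/
theorem ampWt_le_mul (G : SimpleGraph s) {a α : ℝ} (ha : 0 ≤ a) (hα0 : 0 < α) (hα1 : α ≤ 1)
    {y z : s} {l : ℕ} (h : G.edist y z ≤ (l : ℕ∞)) (x : s) :
    ampWt G a α z x ≤ Real.exp (a * (l : ℝ) ^ α) * ampWt G a α y x := by
  by_cases h' : G.edist z x = ⊤
  · rw [ampWt_eq_zero h']
    exact mul_nonneg (Real.exp_pos _).le (ampWt_nonneg _ _ _ _ _)
  have htri : G.edist y x ≤ G.edist y z + G.edist z x := SimpleGraph.edist_triangle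
  have hyzfin : G.edist y z ≠ ⊤ := by
    intro h1
    rw [h1] at h
    exact absurd h (by simp)
  have hfin : G.edist y x ≠ ⊤ := by
    intro h1
    rw [h1, top_le_iff, ENat.add_eq_top] at htri
    rcases htri with h2 | h2
    · exact hyzfin h2
    · exact h' h2
  unfold ampWt
  rw [if_neg h', if_neg hfin, ← Real.exp_add, Real.exp_le_exp]
  obtain ⟨n1, hn1⟩ := ENat.ne_top_iff_exists.1 hfin
  obtain ⟨n2, hn2⟩ := ENat.ne_top_iff_exists.1 h'
  obtain ⟨n3, hn3⟩ := ENat.ne_top_iff_exists.1 hyzfin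
  rw [← hn1, ← hn2, ← hn3] at htri
  rw [← hn3] at h
  rw [← hn1, ← hn2]
  simp only [ENat.toNat_natCast]
  have h1 : n1 ≤ n3 + n2 := by exact_mod_cast htri
  have h2 : n3 ≤ l := by exact_mod_cast h
  have h3 : (n1 : ℝ) ≤ (l : ℝ) + n2 := by exact_mod_cast (h1.trans (Nat.add_le_add_right h2 _))
  have h4 : (n1 : ℝ) ^ α ≤ (l : ℝ) ^ α + (n2 : ℝ) ^ α :=
    (Real.rpow_le_rpow (Nat.cast_nonneg _) h3 hα0.le).trans
      (lr_rpow_add_le hα0 hα1 (Nat.cast_nonneg _) (Nat.cast_nonneg _))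
  nlinarith

/-- the weight of a source set -/
noncomputable def ampOm (G : SimpleGraph s) (a α : ℝ) (S : Finset s) (y : s) : ℝ :=
  ∑ x ∈ S, ampWt G a α y x

theorem ampOm_nonneg (G : SimpleGraph s) (a α : ℝ) (S : Finset s) (y : s) :
    0 ≤ ampOm G a α S y :=
  Finset.sum_nonneg fun x _ => ampWt_nonneg G a α y x

theorem one_le_ampOm (G : SimpleGraph s) (a : ℝ) {α : ℝ} (hα : 0 < α) {S : Finset s} {y : s}
    (hy : y ∈ S) : 1 ≤ ampOm G a α S y := by
  unfold ampOm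
  rw [← ampWt_self G a hα y]
  exact Finset.single_le_sum (f := fun x => ampWt G a α y x)
    (fun x _ => ampWt_nonneg G a α y x) hy

/-- the retained labels: anchors within distance `r` of `S` -/
noncomputable def ampRet (G : SimpleGraph s) {I : Type} [Fintype I] (anc : I → s) (S : Finset s)
    (r : ℕ) : Finset I := by
  classical exact Finset.univ.filter fun i => ∃ x ∈ S, G.edist (anc i) x ≤ (r : ℕ∞)

/-- graph neighbourhood of a set -/
noncomputable def ampNbhd (G : SimpleGraph s) (S : Finset s) (r : ℕ) : Finset s := by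
  classical exact Finset.univ.filter fun y => ∃ x ∈ S, G.edist x y ≤ (r : ℕ∞)

theorem ampRet_ball_subset (G : SimpleGraph s) {I : Type} [Fintype I] (anc : I → s) (S : Finset s)
    (r : ℕ) {i : I} (hi : i ∈ ampRet G anc S r) : lrBall G (anc i) r ⊆ ampNbhd G S (2 * r) := by
  classical
  intro z hz
  rw [mem_lrBall] at hz
  simp only [ampRet, Finset.mem_filter, Finset.mem_univ, true_and] at hi
  obtain ⟨x, hx, hd⟩ := hi
  simp only [ampNbhd, Finset.mem_filter, Finset.mem_univ, true_and]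
  refine ⟨x, hx, ?_⟩
  calc G.edist x z ≤ G.edist x (anc i) + G.edist (anc i) z := SimpleGraph.edist_triangle
    _ ≤ (r : ℕ∞) + (r : ℕ∞) := add_le_add (by rw [SimpleGraph.edist_comm]; exact hd) hz
    _ = ((2 * r : ℕ) : ℕ∞) := by push_cast; ring

theorem card_ampRet_le (G : SimpleGraph s) (hgrow : ∀ x r, (lrBall G x r).card ≤ (2 * r + 1) ^ 2)
    {I : Type} [Fintype I] (anc : I → s) (mult : ℕ)
    (hmult : ∀ x, (Finset.univ.filter fun i => anc i = x).card ≤ mult) (S : Finset s) (r : ℕ) :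
    (ampRet G anc S r).card ≤ mult * S.card * (2 * r + 1) ^ 2 := by
  classical
  have hsub : ampRet G anc S r
      ⊆ S.biUnion fun x => (lrBall G x r).biUnion fun y => Finset.univ.filter fun i => anc i = y := by
    intro i hi
    simp only [ampRet, Finset.mem_filter, Finset.mem_univ, true_and] at hi
    obtain ⟨x, hx, hd⟩ := hi
    simp only [Finset.mem_biUnion, Finset.mem_filter, Finset.mem_univ, true_and]
    exact ⟨x, hx, anc i, mem_lrBall.2 (by rw [SimpleGraph.edist_comm]; exact hd), rfl⟩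
  have h1 : ∀ x ∈ S, ((lrBall G x r).biUnion fun y => Finset.univ.filter fun i => anc i = y).card
      ≤ (2 * r + 1) ^ 2 * mult := by
    intro x _
    calc ((lrBall G x r).biUnion fun y => Finset.univ.filter fun i => anc i = y).card
        ≤ (lrBall G x r).card * mult := Finset.card_biUnion_le_card_mul _ _ _ fun y _ => hmult y
      _ ≤ (2 * r + 1) ^ 2 * mult := Nat.mul_le_mul_right _ (hgrow x r)
  calc (ampRet G anc S r).card ≤ _ := Finset.card_le_card hsub
    _ ≤ S.card * ((2 * r + 1) ^ 2 * mult) := Finset.card_biUnion_le_card_mul _ _ _ h1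
    _ = mult * S.card * (2 * r + 1) ^ 2 := by ring

/-- number of labels whose ball of radius `l` contains `y` -/
theorem amp_card_labels (G : SimpleGraph s)
    (hgrow : ∀ x r, (lrBall G x r).card ≤ (2 * r + 1) ^ 2)
    {I : Type} [Fintype I] (anc : I → s) (mult : ℕ)
    (hmult : ∀ x, (Finset.univ.filter fun i => anc i = x).card ≤ mult) (y : s) (l : ℕ) :
    (Finset.univ.filter fun i => y ∈ lrBall G (anc i) l).card ≤ mult * (2 * l + 1) ^ 2 := by
  classical
  have hsub : (Finset.univ.filter fun i => y ∈ lrBall G (anc i) l)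
      ⊆ (lrBall G y l).biUnion fun w => Finset.univ.filter fun i => anc i = w := by
    intro i hi
    simp only [Finset.mem_filter, Finset.mem_univ, true_and, mem_lrBall] at hi
    simp only [Finset.mem_biUnion, Finset.mem_filter, Finset.mem_univ, true_and]
    exact ⟨anc i, mem_lrBall.2 (by rw [SimpleGraph.edist_comm]; exact hi), rfl⟩
  calc (Finset.univ.filter fun i => y ∈ lrBall G (anc i) l).card ≤ _ := Finset.card_le_card hsub
    _ ≤ (lrBall G y l).card * mult := Finset.card_biUnion_le_card_mul _ _ _ fun w _ => hmult w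
    _ ≤ (2 * l + 1) ^ 2 * mult := Nat.mul_le_mul_right _ (hgrow y l)
    _ = mult * (2 * l + 1) ^ 2 := by ring

/-- sum of the weight over a ball, compared with the centre -/
theorem amp_ball_sum_le_center (G : SimpleGraph s)
    (hgrow : ∀ x r, (lrBall G x r).card ≤ (2 * r + 1) ^ 2) {a α : ℝ} (ha : 0 ≤ a) (hα0 : 0 < α)
    (hα1 : α ≤ 1) (c : s) (l : ℕ) (x : s) :
    ∑ z ∈ lrBall G c l, ampWt G a α z x
      ≤ (2 * (l : ℝ) + 1) ^ 2 * (Real.exp (a * (l : ℝ) ^ α) * ampWt G a α c x) := by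
  have h1 : ∀ z ∈ lrBall G c l, ampWt G a α z x ≤ Real.exp (a * (l : ℝ) ^ α) * ampWt G a α c x :=
    fun z hz => ampWt_le_mul G ha hα0 hα1 (mem_lrBall.1 hz) x
  have h2 := Finset.sum_le_card_nsmul _ _ _ h1
  rw [nsmul_eq_mul] at h2
  refine h2.trans ?_
  have h3 : ((lrBall G c l).card : ℝ) ≤ (2 * (l : ℝ) + 1) ^ 2 := by exact_mod_cast hgrow c l
  exact mul_le_mul_of_nonneg_right h3
    (mul_nonneg (Real.exp_pos _).le (ampWt_nonneg _ _ _ _ _))

/-- sum of the weight over a ball, compared with an arbitrary point of the ball -/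
theorem amp_ball_sum_le (G : SimpleGraph s)
    (hgrow : ∀ x r, (lrBall G x r).card ≤ (2 * r + 1) ^ 2) {a α : ℝ} (ha : 0 ≤ a) (hα0 : 0 < α)
    (hα1 : α ≤ 1) {c y : s} {l : ℕ} (hy : y ∈ lrBall G c l) (x : s) :
    ∑ z ∈ lrBall G c l, ampWt G a α z x
      ≤ (2 * (l : ℝ) + 1) ^ 2 * (Real.exp (2 * a * (l : ℝ) ^ α) * ampWt G a α y x) := by
  have h1 : ∀ z ∈ lrBall G c l,
      ampWt G a α z x ≤ Real.exp (2 * a * (l : ℝ) ^ α) * ampWt G a α y x := by
    intro z hz
    have hd : G.edist y z ≤ ((2 * l : ℕ) : ℕ∞) := by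
      calc G.edist y z ≤ G.edist y c + G.edist c z := SimpleGraph.edist_triangle
        _ ≤ (l : ℕ∞) + (l : ℕ∞) :=
            add_le_add (by rw [SimpleGraph.edist_comm]; exact mem_lrBall.1 hy) (mem_lrBall.1 hz)
        _ = ((2 * l : ℕ) : ℕ∞) := by push_cast; ring
    refine (ampWt_le_mul G ha hα0 hα1 hd x).trans ?_
    refine mul_le_mul_of_nonneg_right ?_ (ampWt_nonneg _ _ _ _ _)
    rw [Real.exp_le_exp]
    have h2 : ((2 * l : ℕ) : ℝ) ^ α ≤ (l : ℝ) ^ α + (l : ℝ) ^ α := by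
      have := lr_rpow_add_le hα0 hα1 (Nat.cast_nonneg l) (Nat.cast_nonneg l)
      have e : ((2 * l : ℕ) : ℝ) = (l : ℝ) + (l : ℝ) := by push_cast; ring
      rw [e]
      exact this
    nlinarith
  have h2 := Finset.sum_le_card_nsmul _ _ _ h1
  rw [nsmul_eq_mul] at h2
  refine h2.trans ?_
  have h3 : ((lrBall G c l).card : ℝ) ≤ (2 * (l : ℝ) + 1) ^ 2 := by exact_mod_cast hgrow c l
  exact mul_le_mul_of_nonneg_right h3
    (mul_nonneg (Real.exp_pos _).le (ampWt_nonneg _ _ _ _ _))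

end Wt

/-- shell bounds from the tails: `del 0 = 2`, `del (l+1) = 4 √(C e^{-c l^α})`,
`eps l = del l + del (l+1) ≤ C2 e^{-(c/2) l^α}` -/
theorem amp_eps_le {α C c : ℝ} (hα0 : 0 < α) (hα1 : α ≤ 1) (hC : 0 < C) (hc : 0 < c)
    (del : ℕ → ℝ) (h0 : del 0 = 2)
    (h1 : ∀ l : ℕ, del (l + 1) = 4 * Real.sqrt (C * Real.exp (-c * (l : ℝ) ^ α))) (l : ℕ) :
    del l + del (l + 1) ≤
      (4 * Real.sqrt C * (1 + Real.exp (c / 2)) + 2) * Real.exp (-(c / 2) * (l : ℝ) ^ α) := by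
  have hsq : ∀ m : ℕ, Real.sqrt (C * Real.exp (-c * (m : ℝ) ^ α))
      = Real.sqrt C * Real.exp (-(c / 2) * (m : ℝ) ^ α) := by
    intro m
    rw [Real.sqrt_mul hC.le]
    congr 1
    rw [Real.sqrt_eq_iff_mul_self_eq (Real.exp_pos _).le (Real.exp_pos _).le, ← Real.exp_add]
    congr 1
    ring
  have hsC : 0 ≤ Real.sqrt C := Real.sqrt_nonneg C
  have he : 0 < Real.exp (c / 2) := Real.exp_pos _
  rcases Nat.eq_zero_or_pos l with rfl | hl
  · rw [h0, h1 0, hsq]
    simp only [Nat.cast_zero, Real.zero_rpow hα0.ne', mul_zero, Real.exp_zero, mul_one]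
    nlinarith
  · obtain ⟨m, rfl⟩ : ∃ m, l = m + 1 := ⟨l - 1, by omega⟩
    rw [h1 m, h1 (m + 1), hsq, hsq]
    have h2 : ((m + 1 : ℕ) : ℝ) ^ α ≤ (m : ℝ) ^ α + 1 := by
      have := lr_rpow_add_le hα0 hα1 (Nat.cast_nonneg m) (zero_le_one (α := ℝ))
      rw [Real.one_rpow] at this
      push_cast
      exact this
    have h3 : Real.exp (-(c / 2) * (m : ℝ) ^ α)
        ≤ Real.exp (c / 2) * Real.exp (-(c / 2) * ((m + 1 : ℕ) : ℝ) ^ α) := by
      rw [← Real.exp_add, Real.exp_le_exp]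
      nlinarith
    have h4 := Real.exp_pos (-(c / 2) * ((m + 1 : ℕ) : ℝ) ^ α)
    have h5 : Real.sqrt C * Real.exp (-(c / 2) * (m : ℝ) ^ α)
        ≤ Real.sqrt C * (Real.exp (c / 2) * Real.exp (-(c / 2) * ((m + 1 : ℕ) : ℝ) ^ α)) :=
      mul_le_mul_of_nonneg_left h3 hsC
    nlinarith

/-- **eq. (9.10)**, one source `x`: weighted row sum of the kernel.
At radius `l` at most `mult (2l+1)²` labels have `y` in their ball, each ball has at most `(2l+1)²` sites
`z`, and `d(y,z) ≤ 2l`, `(2l)^α ≤ 2 l^α`; `v = 2 mult C2 ∑_l (2l+1)⁴ e^{-(c2/2) l^α}`. -/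
theorem amp_kernel_row {α C2 c2 : ℝ} (hα0 : 0 < α) (hα1 : α ≤ 1) (hC2 : 0 < C2) (hc2 : 0 < c2)
    (mult : ℕ) :
    ∃ v : ℝ, 0 ≤ v ∧ ∀ {s : Type} [DecidableEq s] [Fintype s] (G : SimpleGraph s),
      (∀ x r, (lrBall G x r).card ≤ (2 * r + 1) ^ 2) →
      ∀ {I : Type} [Fintype I] (anc : I → s),
      (∀ x, (Finset.univ.filter fun i => anc i = x).card ≤ mult) →
      ∀ eps : ℕ → ℝ, (∀ l, 0 ≤ eps l) → (∀ l, eps l ≤ C2 * Real.exp (-c2 * (l : ℝ) ^ α)) →
      ∀ (x y : s) (Lc : ℕ),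
        ∑ i : I, ∑ l ∈ Finset.range Lc, (if y ∈ lrBall G (anc i) l then
            2 * eps l * ∑ z ∈ lrBall G (anc i) l, ampWt G (c2 / 4) α z x else 0)
          ≤ v * ampWt G (c2 / 4) α y x := by
  have hsm := lr_summable_poly_exp hα0 (half_pos hc2) 4
  set Sg0 : ℝ := ∑' d : ℕ, ((d : ℝ) + 1) ^ 4 * Real.exp (-(c2 / 2) * (d : ℝ) ^ α) with hSg0
  have hSg0nn : 0 ≤ Sg0 := tsum_nonneg fun d => by positivity
  refine ⟨2 * mult * C2 * 16 * Sg0, by positivity, ?_⟩
  intro s _ _ G hgrow I _ anc hmult eps heps0 heps x y Lc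
  classical
  have hW : 0 ≤ ampWt G (c2 / 4) α y x := ampWt_nonneg _ _ _ _ _
  rw [Finset.sum_comm]
  have hl : ∀ l ∈ Finset.range Lc,
      ∑ i : I, (if y ∈ lrBall G (anc i) l then
          2 * eps l * ∑ z ∈ lrBall G (anc i) l, ampWt G (c2 / 4) α z x else 0)
        ≤ (2 * mult * C2 * 16 * ampWt G (c2 / 4) α y x)
          * (((l : ℝ) + 1) ^ 4 * Real.exp (-(c2 / 2) * (l : ℝ) ^ α)) := by
    intro l _
    set E : ℝ := Real.exp (2 * (c2 / 4) * (l : ℝ) ^ α) with hE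
    have hE0 : 0 < E := Real.exp_pos _
    have h1 : ∀ i : I, (if y ∈ lrBall G (anc i) l then
          2 * eps l * ∑ z ∈ lrBall G (anc i) l, ampWt G (c2 / 4) α z x else 0)
        ≤ if y ∈ lrBall G (anc i) l then
          2 * eps l * ((2 * (l : ℝ) + 1) ^ 2 * (E * ampWt G (c2 / 4) α y x)) else 0 := by
      intro i
      split_ifs with hy
      · exact mul_le_mul_of_nonneg_left
          (amp_ball_sum_le G hgrow (by positivity) hα0 hα1 hy x)
          (mul_nonneg zero_le_two (heps0 l))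
      · exact le_rfl
    refine (Finset.sum_le_sum fun i _ => h1 i).trans ?_
    rw [← Finset.sum_filter, Finset.sum_const, nsmul_eq_mul]
    have hcard : ((Finset.univ.filter fun i => y ∈ lrBall G (anc i) l).card : ℝ)
        ≤ (mult : ℝ) * (2 * (l : ℝ) + 1) ^ 2 := by
      exact_mod_cast amp_card_labels G hgrow anc mult hmult y l
    have hl0 : (0 : ℝ) ≤ (l : ℝ) := Nat.cast_nonneg l
    have hEE : Real.exp (-c2 * (l : ℝ) ^ α) * E = Real.exp (-(c2 / 2) * (l : ℝ) ^ α) := by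
      rw [hE, ← Real.exp_add]
      congr 1
      ring
    have hpoly : (2 * (l : ℝ) + 1) ^ 2 * (2 * (l : ℝ) + 1) ^ 2 ≤ 16 * ((l : ℝ) + 1) ^ 4 := by
      have h2 : 2 * (l : ℝ) + 1 ≤ 2 * ((l : ℝ) + 1) := by linarith
      calc (2 * (l : ℝ) + 1) ^ 2 * (2 * (l : ℝ) + 1) ^ 2 = (2 * (l : ℝ) + 1) ^ 4 := by ring
        _ ≤ (2 * ((l : ℝ) + 1)) ^ 4 := by gcongr
        _ = 16 * ((l : ℝ) + 1) ^ 4 := by ring
    calc ((Finset.univ.filter fun i => y ∈ lrBall G (anc i) l).card : ℝ)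
          * (2 * eps l * ((2 * (l : ℝ) + 1) ^ 2 * (E * ampWt G (c2 / 4) α y x)))
        ≤ ((mult : ℝ) * (2 * (l : ℝ) + 1) ^ 2)
          * (2 * (C2 * Real.exp (-c2 * (l : ℝ) ^ α))
            * ((2 * (l : ℝ) + 1) ^ 2 * (E * ampWt G (c2 / 4) α y x))) := by
          have := heps l
          have := heps0 l
          gcongr
      _ = (2 * mult * C2 * ampWt G (c2 / 4) α y x)
          * (((2 * (l : ℝ) + 1) ^ 2 * (2 * (l : ℝ) + 1) ^ 2)
            * (Real.exp (-c2 * (l : ℝ) ^ α) * E)) := by ring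
      _ ≤ (2 * mult * C2 * ampWt G (c2 / 4) α y x)
          * ((16 * ((l : ℝ) + 1) ^ 4) * (Real.exp (-c2 * (l : ℝ) ^ α) * E)) := by
          gcongr
      _ = _ := by rw [hEE]; ring
  refine (Finset.sum_le_sum hl).trans ?_
  rw [← Finset.mul_sum]
  have htail : ∑ l ∈ Finset.range Lc, ((l : ℝ) + 1) ^ 4 * Real.exp (-(c2 / 2) * (l : ℝ) ^ α) ≤ Sg0 :=
    hsm.sum_le_tsum _ fun d _ => by positivity
  calc (2 * mult * C2 * 16 * ampWt G (c2 / 4) α y x)
        * ∑ l ∈ Finset.range Lc, ((l : ℝ) + 1) ^ 4 * Real.exp (-(c2 / 2) * (l : ℝ) ^ α)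
      ≤ (2 * mult * C2 * 16 * ampWt G (c2 / 4) α y x) * Sg0 := by gcongr
    _ = _ := by ring

/-- sum over the labels far from one source `x` -/
theorem amp_kernel_far {α C2 c2 : ℝ} (hα0 : 0 < α) (hα1 : α ≤ 1) (hC2 : 0 < C2) (hc2 : 0 < c2)
    (mult : ℕ) :
    ∃ Cθ : ℝ, 0 ≤ Cθ ∧ ∀ {s : Type} [DecidableEq s] [Fintype s] (G : SimpleGraph s),
      (∀ x r, (lrBall G x r).card ≤ (2 * r + 1) ^ 2) →
      ∀ {I : Type} [Fintype I] (anc : I → s),
      (∀ x, (Finset.univ.filter fun i => anc i = x).card ≤ mult) →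
      ∀ eps : ℕ → ℝ, (∀ l, 0 ≤ eps l) → (∀ l, eps l ≤ C2 * Real.exp (-c2 * (l : ℝ) ^ α)) →
      ∀ (x : s) (r Lc : ℕ) (Far : Finset I), (∀ i ∈ Far, ¬ G.edist (anc i) x ≤ (r : ℕ∞)) →
        ∑ i ∈ Far, ∑ l ∈ Finset.range Lc,
            eps l * ∑ z ∈ lrBall G (anc i) l, ampWt G (c2 / 4) α z x
          ≤ Cθ * Real.exp (-(c2 / 8) * (r : ℝ) ^ α) := by
  have hc3 : 0 < 3 * c2 / 4 := by positivity
  have hsm := lr_summable_poly_exp hα0 hc3 2
  set A0 : ℝ := ∑' d : ℕ, ((d : ℝ) + 1) ^ 2 * Real.exp (-(3 * c2 / 4) * (d : ℝ) ^ α) with hA0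
  have hA0nn : 0 ≤ A0 := tsum_nonneg fun d => by positivity
  obtain ⟨C', hC', hsite⟩ := lr_site_sum (α := α) (c := c2 / 4) hα0 (by positivity) 2
    (4 * (mult : ℝ)) (by positivity)
  refine ⟨C2 * 4 * A0 * C', by positivity, ?_⟩
  intro s _ _ G hgrow I _ anc hmult eps heps0 heps x r Lc Far hFar
  classical
  -- step 1: compare with the centre of the ball
  have h1 : ∀ i ∈ Far, ∑ l ∈ Finset.range Lc,
        eps l * ∑ z ∈ lrBall G (anc i) l, ampWt G (c2 / 4) α z x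
      ≤ (C2 * 4 * A0) * ampWt G (c2 / 4) α (anc i) x := by
    intro i _
    have hW : 0 ≤ ampWt G (c2 / 4) α (anc i) x := ampWt_nonneg _ _ _ _ _
    have h2 : ∀ l ∈ Finset.range Lc, eps l * ∑ z ∈ lrBall G (anc i) l, ampWt G (c2 / 4) α z x
        ≤ (C2 * 4 * ampWt G (c2 / 4) α (anc i) x)
          * (((l : ℝ) + 1) ^ 2 * Real.exp (-(3 * c2 / 4) * (l : ℝ) ^ α)) := by
      intro l _
      have hl0 : (0 : ℝ) ≤ (l : ℝ) := Nat.cast_nonneg l
      have hEE : Real.exp (-c2 * (l : ℝ) ^ α) * Real.exp (c2 / 4 * (l : ℝ) ^ α)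
          = Real.exp (-(3 * c2 / 4) * (l : ℝ) ^ α) := by
        rw [← Real.exp_add]
        congr 1
        ring
      have hpoly : (2 * (l : ℝ) + 1) ^ 2 ≤ 4 * ((l : ℝ) + 1) ^ 2 := by nlinarith
      calc eps l * ∑ z ∈ lrBall G (anc i) l, ampWt G (c2 / 4) α z x
          ≤ (C2 * Real.exp (-c2 * (l : ℝ) ^ α)) * ((2 * (l : ℝ) + 1) ^ 2
              * (Real.exp (c2 / 4 * (l : ℝ) ^ α) * ampWt G (c2 / 4) α (anc i) x)) := by
            have h3 := amp_ball_sum_le_center G hgrow (a := c2 / 4) (by positivity) hα0 hα1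
              (anc i) l x
            have h4 := heps l
            have h5 := heps0 l
            have h6 : 0 ≤ ∑ z ∈ lrBall G (anc i) l, ampWt G (c2 / 4) α z x :=
              Finset.sum_nonneg fun z _ => ampWt_nonneg _ _ _ _ _
            exact mul_le_mul h4 h3 h6 (by positivity)
        _ = (C2 * ampWt G (c2 / 4) α (anc i) x) * ((2 * (l : ℝ) + 1) ^ 2
              * (Real.exp (-c2 * (l : ℝ) ^ α) * Real.exp (c2 / 4 * (l : ℝ) ^ α))) := by ring
        _ ≤ (C2 * ampWt G (c2 / 4) α (anc i) x) * ((4 * ((l : ℝ) + 1) ^ 2)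
              * (Real.exp (-c2 * (l : ℝ) ^ α) * Real.exp (c2 / 4 * (l : ℝ) ^ α))) := by
            gcongr
        _ = _ := by rw [hEE]; ring
    refine (Finset.sum_le_sum h2).trans ?_
    rw [← Finset.mul_sum]
    have htail : ∑ l ∈ Finset.range Lc, ((l : ℝ) + 1) ^ 2 * Real.exp (-(3 * c2 / 4) * (l : ℝ) ^ α)
        ≤ A0 := hsm.sum_le_tsum _ fun d _ => by positivity
    calc (C2 * 4 * ampWt G (c2 / 4) α (anc i) x)
          * ∑ l ∈ Finset.range Lc, ((l : ℝ) + 1) ^ 2 * Real.exp (-(3 * c2 / 4) * (l : ℝ) ^ α)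
        ≤ (C2 * 4 * ampWt G (c2 / 4) α (anc i) x) * A0 := by gcongr
      _ = _ := by ring
  refine (Finset.sum_le_sum h1).trans ?_
  rw [← Finset.mul_sum]
  -- step 2: the sum over the far labels
  set S : Finset I := Far.filter fun i => G.edist (anc i) x ≠ ⊤ with hS
  have h3 : ∑ i ∈ Far, ampWt G (c2 / 4) α (anc i) x
      = ∑ i ∈ S, Real.exp (-(c2 / 4) * (((G.edist (anc i) x).toNat : ℕ) : ℝ) ^ α) := by
    rw [hS, Finset.sum_filter]
    refine Finset.sum_congr rfl fun i _ => ?_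
    unfold ampWt
    by_cases hi : G.edist (anc i) x = ⊤
    · simp [hi]
    · simp [hi]
  have h4 := hsite S (fun i => (G.edist (anc i) x).toNat) r ?_ ?_
  · rw [h3]
    have e : -(c2 / 4 / 2) = -(c2 / 8) := by ring
    rw [e] at h4
    calc C2 * 4 * A0 * ∑ i ∈ S, Real.exp (-(c2 / 4) * (((G.edist (anc i) x).toNat : ℕ) : ℝ) ^ α)
        ≤ C2 * 4 * A0 * (C' * Real.exp (-(c2 / 8) * (r : ℝ) ^ α)) := by gcongr
      _ = _ := by ring
  · intro d
    have hsub : (S.filter fun i => (G.edist (anc i) x).toNat = d)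
        ⊆ Finset.univ.filter fun i => x ∈ lrBall G (anc i) d := by
      intro i hi
      rw [Finset.mem_filter, hS, Finset.mem_filter] at hi
      obtain ⟨⟨_, hfin⟩, hd⟩ := hi
      rw [Finset.mem_filter, mem_lrBall]
      refine ⟨Finset.mem_univ _, ?_⟩
      obtain ⟨n, hn⟩ := ENat.ne_top_iff_exists.1 hfin
      rw [← hn] at hd ⊢
      simp only [ENat.toNat_natCast] at hd
      rw [hd]
    have h5 := (Finset.card_le_card hsub).trans (amp_card_labels G hgrow anc mult hmult x d)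
    have h6 : (((S.filter fun i => (G.edist (anc i) x).toNat = d).card : ℕ) : ℝ)
        ≤ ((mult * (2 * d + 1) ^ 2 : ℕ) : ℝ) := by exact_mod_cast h5
    refine h6.trans ?_
    push_cast
    have hd0 : (0 : ℝ) ≤ (d : ℝ) := Nat.cast_nonneg d
    have hm0 : (0 : ℝ) ≤ (mult : ℝ) := Nat.cast_nonneg mult
    have hpoly : (2 * (d : ℝ) + 1) ^ 2 ≤ 4 * ((d : ℝ) + 1) ^ 2 := by nlinarith
    calc (mult : ℝ) * (2 * (d : ℝ) + 1) ^ 2 ≤ (mult : ℝ) * (4 * ((d : ℝ) + 1) ^ 2) := by gcongr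
      _ = 4 * (mult : ℝ) * ((d : ℝ) + 1) ^ 2 := by ring
  · intro i hi
    rw [hS, Finset.mem_filter] at hi
    obtain ⟨hiF, hfin⟩ := hi
    have hnot := hFar i hiF
    obtain ⟨n, hn⟩ := ENat.ne_top_iff_exists.1 hfin
    rw [← hn] at hnot ⊢
    simp only [ENat.toNat_natCast]
    have : ¬ (n ≤ r) := fun h => hnot (by exact_mod_cast h)
    omega

/-- **The two kernel inequalities** for a source set `S` and the retained labels `ampRet G anc S r`. -/
theorem amp_geom {α C2 c2 : ℝ} (hα0 : 0 < α) (hα1 : α ≤ 1) (hC2 : 0 < C2) (hc2 : 0 < c2)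
    (mult : ℕ) :
    ∃ v Cθ : ℝ, 0 ≤ v ∧ 0 ≤ Cθ ∧ ∀ {s : Type} [DecidableEq s] [Fintype s] (G : SimpleGraph s),
      (∀ x r, (lrBall G x r).card ≤ (2 * r + 1) ^ 2) →
      ∀ {I : Type} [Fintype I] [DecidableEq I] (anc : I → s),
      (∀ x, (Finset.univ.filter fun i => anc i = x).card ≤ mult) →
      ∀ eps : ℕ → ℝ, (∀ l, 0 ≤ eps l) → (∀ l, eps l ≤ C2 * Real.exp (-c2 * (l : ℝ) ^ α)) →
      ∀ (S : Finset s) (r : ℕ),
        (∀ (Lc : ℕ) (y : s), ∑ i ∈ ampRet G anc S r, ∑ l ∈ Finset.range Lc,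
            (if y ∈ lrBall G (anc i) l then
              2 * eps l * ∑ z ∈ lrBall G (anc i) l, ampOm G (c2 / 4) α S z else 0)
          ≤ v * ampOm G (c2 / 4) α S y) ∧
        (∀ Lc : ℕ, ∑ i ∈ (ampRet G anc S r)ᶜ, ∑ l ∈ Finset.range Lc,
            eps l * ∑ z ∈ lrBall G (anc i) l, ampOm G (c2 / 4) α S z
          ≤ Cθ * S.card * Real.exp (-(c2 / 8) * (r : ℝ) ^ α)) := by
  obtain ⟨v, hv, hrow⟩ := amp_kernel_row hα0 hα1 hC2 hc2 mult
  obtain ⟨Cθ, hCθ, hfar⟩ := amp_kernel_far hα0 hα1 hC2 hc2 mult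
  refine ⟨v, Cθ, hv, hCθ, ?_⟩
  intro s _ _ G hgrow I _ _ anc hmult eps heps0 heps S r
  constructor
  · intro Lc y
    have key : ∀ (i : I) (l : ℕ), (if y ∈ lrBall G (anc i) l then
          2 * eps l * ∑ z ∈ lrBall G (anc i) l, ampOm G (c2 / 4) α S z else 0)
        = ∑ x ∈ S, (if y ∈ lrBall G (anc i) l then
          2 * eps l * ∑ z ∈ lrBall G (anc i) l, ampWt G (c2 / 4) α z x else 0) := by
      intro i l
      split_ifs
      · unfold ampOm
        rw [Finset.sum_comm, Finset.mul_sum]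
      · simp
    simp_rw [key]
    calc ∑ i ∈ ampRet G anc S r, ∑ l ∈ Finset.range Lc, ∑ x ∈ S,
          (if y ∈ lrBall G (anc i) l then
            2 * eps l * ∑ z ∈ lrBall G (anc i) l, ampWt G (c2 / 4) α z x else 0)
        = ∑ i ∈ ampRet G anc S r, ∑ x ∈ S, ∑ l ∈ Finset.range Lc,
          (if y ∈ lrBall G (anc i) l then
            2 * eps l * ∑ z ∈ lrBall G (anc i) l, ampWt G (c2 / 4) α z x else 0) :=
          Finset.sum_congr rfl fun i _ => Finset.sum_comm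
      _ = ∑ x ∈ S, ∑ i ∈ ampRet G anc S r, ∑ l ∈ Finset.range Lc,
          (if y ∈ lrBall G (anc i) l then
            2 * eps l * ∑ z ∈ lrBall G (anc i) l, ampWt G (c2 / 4) α z x else 0) :=
          Finset.sum_comm
      _ ≤ ∑ x ∈ S, ∑ i : I, ∑ l ∈ Finset.range Lc,
          (if y ∈ lrBall G (anc i) l then
            2 * eps l * ∑ z ∈ lrBall G (anc i) l, ampWt G (c2 / 4) α z x else 0) := by
          refine Finset.sum_le_sum fun x _ => ?_
          refine Finset.sum_le_sum_of_subset_of_nonneg (Finset.subset_univ _) fun i _ _ => ?_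
          refine Finset.sum_nonneg fun l _ => ?_
          split_ifs
          · exact mul_nonneg (mul_nonneg zero_le_two (heps0 l))
              (Finset.sum_nonneg fun z _ => ampWt_nonneg _ _ _ _ _)
          · exact le_rfl
      _ ≤ ∑ x ∈ S, v * ampWt G (c2 / 4) α y x :=
          Finset.sum_le_sum fun x _ => hrow G hgrow anc hmult eps heps0 heps x y Lc
      _ = v * ampOm G (c2 / 4) α S y := by
          unfold ampOm
          rw [Finset.mul_sum]
  · intro Lc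
    have key : ∀ (i : I) (l : ℕ), eps l * ∑ z ∈ lrBall G (anc i) l, ampOm G (c2 / 4) α S z
        = ∑ x ∈ S, eps l * ∑ z ∈ lrBall G (anc i) l, ampWt G (c2 / 4) α z x := by
      intro i l
      unfold ampOm
      rw [Finset.sum_comm, Finset.mul_sum]
    simp_rw [key]
    have hFar : ∀ x ∈ S, ∀ i ∈ (ampRet G anc S r)ᶜ, ¬ G.edist (anc i) x ≤ (r : ℕ∞) := by
      intro x hx i hi hd
      rw [Finset.mem_compl] at hi
      apply hi
      simp only [ampRet, Finset.mem_filter, Finset.mem_univ, true_and]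
      exact ⟨x, hx, hd⟩
    calc ∑ i ∈ (ampRet G anc S r)ᶜ, ∑ l ∈ Finset.range Lc, ∑ x ∈ S,
          eps l * ∑ z ∈ lrBall G (anc i) l, ampWt G (c2 / 4) α z x
        = ∑ i ∈ (ampRet G anc S r)ᶜ, ∑ x ∈ S, ∑ l ∈ Finset.range Lc,
          eps l * ∑ z ∈ lrBall G (anc i) l, ampWt G (c2 / 4) α z x :=
          Finset.sum_congr rfl fun i _ => Finset.sum_comm
      _ = ∑ x ∈ S, ∑ i ∈ (ampRet G anc S r)ᶜ, ∑ l ∈ Finset.range Lc,
          eps l * ∑ z ∈ lrBall G (anc i) l, ampWt G (c2 / 4) α z x := Finset.sum_comm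
      _ ≤ ∑ _x ∈ S, Cθ * Real.exp (-(c2 / 8) * (r : ℝ) ^ α) :=
          Finset.sum_le_sum fun x hx =>
            hfar G hgrow anc hmult eps heps0 heps x r Lc _ (hFar x hx)
      _ = Cθ * S.card * Real.exp (-(c2 / 8) * (r : ℝ) ^ α) := by
          rw [Finset.sum_const, nsmul_eq_mul]
          ring

end Claimed.Agent.R296
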