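import Mathlib
import Claimed.Agent.R298.OpNorm

/-!
# Row 296, paper 1, Section 9 (amplification), file 2: spectators, Kraus maps

* `ampLft κ A` is `A ⊗ 1` on the index type `n × κ` (`κ` = spectator index);
* `amp_kraus_norm_le`: a map `B ↦ ∑ L_a B R_a` with `∑ L_a L_aᴴ = 1`, `∑ R_aᴴ R_a = 1` is a contraction
  for the operator norm of rectangular matrices.
Owner: helper286.
-/

set_option autoImplicit false
set_option linter.unusedSectionVars false
set_option linter.unusedDecidableInType false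

namespace Claimed.Agent.R296

open Matrix Claimed.Agent.R298
open scoped Matrix.Norms.L2Operator

variable {m n κ ι : Type*} [Fintype m] [DecidableEq m] [Fintype n] [DecidableEq n]
  [Fintype κ] [DecidableEq κ] [Fintype ι] [DecidableEq ι]

/-- `A ⊗ 1` on `n × κ` -/
def ampLft (κ : Type*) [DecidableEq κ] (A : Matrix m n ℂ) : Matrix (m × κ) (n × κ) ℂ :=
  blockDiagonal fun _ : κ => A

theorem ampLft_apply (A : Matrix m n ℂ) (p : m × κ) (p' : n × κ) :
    ampLft κ A p p' = if p.2 = p'.2 then A p.1 p'.1 else 0 := by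
  rcases p with ⟨i, a⟩
  rcases p' with ⟨j, b⟩
  simp [ampLft, blockDiagonal_apply]

theorem ampLft_mul {l : Type*} [Fintype l] [DecidableEq l] (A : Matrix m n ℂ) (B : Matrix n l ℂ) :
    ampLft κ (A * B) = ampLft κ A * ampLft κ B := by
  unfold ampLft
  rw [← blockDiagonal_mul]

theorem ampLft_one : ampLft κ (1 : Matrix n n ℂ) = 1 := by
  unfold ampLft
  exact blockDiagonal_one

theorem ampLft_zero : ampLft κ (0 : Matrix m n ℂ) = 0 := by
  unfold ampLft
  exact blockDiagonal_zero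

theorem ampLft_add (A B : Matrix m n ℂ) : ampLft κ (A + B) = ampLft κ A + ampLft κ B := by
  unfold ampLft
  rw [← blockDiagonal_add]; rfl

theorem ampLft_sub (A B : Matrix m n ℂ) : ampLft κ (A - B) = ampLft κ A - ampLft κ B := by
  unfold ampLft
  rw [← blockDiagonal_sub]; rfl

theorem ampLft_smul (c : ℂ) (A : Matrix m n ℂ) : ampLft κ (c • A) = c • ampLft κ A := by
  unfold ampLft
  rw [← blockDiagonal_smul]; rfl

theorem ampLft_sum {α : Type*} (s : Finset α) (A : α → Matrix m n ℂ) :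
    ampLft κ (∑ a ∈ s, A a) = ∑ a ∈ s, ampLft κ (A a) := by
  classical
  induction s using Finset.induction_on with
  | empty => simp [ampLft_zero]
  | insert a s ha ih => simp only [Finset.sum_insert ha, ampLft_add, ih]

theorem ampLft_conjTranspose (A : Matrix m n ℂ) : ampLft κ Aᴴ = (ampLft κ A)ᴴ := by
  unfold ampLft
  rw [blockDiagonal_conjTranspose]

theorem norm_ampLft_le (A : Matrix m n ℂ) : ‖ampLft κ A‖ ≤ ‖A‖ :=
  opn_blockDiagonal_le _ (norm_nonneg _) fun _ => le_rfl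

/-- slices of `(A ⊗ 1) ψ` -/
theorem ampLft_mulVec (A : Matrix m n ℂ) (ψ : n × κ → ℂ) (i : m) (a : κ) :
    (ampLft κ A *ᵥ ψ) (i, a) = (A *ᵥ fun j => ψ (j, a)) i := by
  simp only [mulVec, dotProduct, ampLft_apply, Fintype.sum_prod_type]
  refine Finset.sum_congr rfl fun j _ => ?_
  rw [Finset.sum_eq_single a]
  · simp
  · intro b _ hb
    simp [Ne.symm hb]
  · simp

/-- the column built from a family of square matrices -/
def ampCol (R : ι → Matrix m n ℂ) : Matrix (m × ι) n ℂ := Matrix.of fun p j => R p.2 p.1 j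

theorem ampCol_apply (R : ι → Matrix m n ℂ) (p : m × ι) (j : n) : ampCol R p j = R p.2 p.1 j := rfl

theorem ampCol_gram (R : ι → Matrix m n ℂ) : (ampCol R)ᴴ * ampCol R = ∑ a, (R a)ᴴ * R a := by
  ext i j
  simp only [Matrix.mul_apply, conjTranspose_apply, ampCol_apply, Fintype.sum_prod_type_right,
    Matrix.sum_apply]

theorem ampCol_sandwich (Lk : ι → Matrix m m ℂ) (Rk : ι → Matrix n n ℂ) (B : Matrix m n ℂ) :
    (ampCol fun a => (Lk a)ᴴ)ᴴ * ampLft ι B * ampCol Rk = ∑ a, Lk a * B * Rk a := by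
  ext i j
  simp only [Matrix.mul_apply, conjTranspose_apply, ampCol_apply, Fintype.sum_prod_type_right,
    Matrix.sum_apply, ampLft_apply, star_star]
  refine Finset.sum_congr rfl fun a _ => ?_
  refine Finset.sum_congr rfl fun j' _ => ?_
  congr 1
  rw [Finset.sum_eq_single a]
  · simp
  · intro b _ hb
    simp [hb]
  · simp

/-- **Kraus maps are contractions**, also between different spaces. -/
theorem amp_kraus_norm_le (Lk : ι → Matrix m m ℂ) (Rk : ι → Matrix n n ℂ)
    (hL : ∑ a, Lk a * (Lk a)ᴴ = 1) (hR : ∑ a, (Rk a)ᴴ * Rk a = 1) (B : Matrix m n ℂ) :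
    ‖∑ a, Lk a * B * Rk a‖ ≤ ‖B‖ := by
  rw [← ampCol_sandwich]
  have h1 : ‖ampCol Rk‖ ≤ 1 := opn_isometry_le_one _ (by rw [ampCol_gram, hR])
  have h2 : ‖(ampCol fun a => (Lk a)ᴴ)ᴴ‖ ≤ 1 := by
    rw [l2_opNorm_conjTranspose]
    refine opn_isometry_le_one _ ?_
    rw [ampCol_gram]
    simpa using hL
  calc ‖(ampCol fun a => (Lk a)ᴴ)ᴴ * ampLft ι B * ampCol Rk‖
      ≤ ‖(ampCol fun a => (Lk a)ᴴ)ᴴ * ampLft ι B‖ * ‖ampCol Rk‖ := l2_opNorm_mul _ _
    _ ≤ (‖(ampCol fun a => (Lk a)ᴴ)ᴴ‖ * ‖ampLft ι B‖) * ‖ampCol Rk‖ := by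
        gcongr
        exact l2_opNorm_mul _ _
    _ ≤ (1 * ‖B‖) * 1 := by
        gcongr
        exact norm_ampLft_le B
    _ = ‖B‖ := by ring

end Claimed.Agent.R296
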