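import Claimed.Agent.R296.AmpSite
import Claimed.Agent.R296.AmpDec
import Claimed.Agent.R296.EntAfwFun
import Claimed.Agent.R296.TopDefs

/-!
# Row 296, paper 1, Section 9 (amplification), file 13: the choice of the parameters

Pure real analysis.  `ℓ = expEll = 10⁻⁵`, `β = expBeta = 1 - 2·10⁻⁶`, `α = ampAlpha = 1 - 10⁻⁶`,
`γ = ampGamma = 1 - 5·10⁻⁶` (`γ α > 1 - ℓ`, `γ < β`).  For large `n`:
`w = n^{3/5}`, `r = ⌈n^γ⌉`, `E = (C0 n^{1-ℓ} + 3 w)/2`, `t* = (2/g)(E + 408 log n)`, `N = ⌈m t*⌉`,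
so `t = N/m ∈ [t*, t* + 1]`.  With `ν = n^{-408}`:
* `e^{-g t/2} e^{E} ≤ ν`;
* `t Cκ σ (2r+1)² e^{v t} e^{-c' r^α} e^{E} ≤ ν` since `c' r^α ≥ c' n^{γ α}` beats `v (t*+1) + E + 408 log n +
  log ((t*+1) Cκ C0 n² (2r+1)²) = O(n^{1-ℓ})`;
* `√δ ≤ ν` since `δ = 2 e^{e/2} exp (-n^{3/5} / (32 √((1+θ)(1 + C1 C0 n))))` and `n^{3/5 - 1/2} ≫ log n`;
* hence `x ≤ 2ν`, `κe ≤ 2ν`, `ε₁ ≤ 5ν`, `ampDelta ≤ 5 √ν = 5 n^{-204}`;
* `afwFun δ' L ≤ 2 √δ' (1 + L) ≤ 2 √5 n^{-102} (1 + Lq C0 n²) ≤ C n^{-100}` (`afwFun_le_sqrt`, `afwFun_mono`).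
FROZEN: `ampAlpha`, `ampTailB`, `amp_scalars`; the intermediate statements may be adapted.
Architect: helper286.
-/

set_option autoImplicit false

namespace Claimed.Agent.R296

/-- the stretching exponent used in `prop:positive` -/
noncomputable def ampAlpha : ℝ := 1 - 1 / 1000000

/-- the exponent of the radius -/
noncomputable def ampGamma : ℝ := 1 - 5 / 1000000

/-- the tail bound of `lem:tail` with cut parameter `1 + b` -/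
noncomputable def ampTailB (θ b w : ℝ) : ℝ :=
  2 * Real.exp (Real.exp 1 / 2) * Real.exp (-w / (32 * Real.sqrt ((1 + θ) * (1 + b))))

theorem ampAlpha_pos : 0 < ampAlpha := by unfold ampAlpha; norm_num

theorem ampAlpha_lt_one : ampAlpha < 1 := by unfold ampAlpha; norm_num

theorem ampTailB_nonneg (θ b w : ℝ) : 0 ≤ ampTailB θ b w := by
  unfold ampTailB; positivity

/-- the tail bound is monotone in the cut parameter -/
theorem ampTailB_mono {θ b b' w : ℝ} (hθ : 0 ≤ θ) (hb : 0 ≤ b) (hbb : b ≤ b') (hw : 0 ≤ w) :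
    ampTailB θ b w ≤ ampTailB θ b' w := by
  unfold ampTailB
  have h1 : 0 < Real.sqrt ((1 + θ) * (1 + b)) := Real.sqrt_pos.2 (by positivity)
  have h2 : Real.sqrt ((1 + θ) * (1 + b)) ≤ Real.sqrt ((1 + θ) * (1 + b')) :=
    Real.sqrt_le_sqrt (by gcongr)
  have h3 : w / (32 * Real.sqrt ((1 + θ) * (1 + b'))) ≤ w / (32 * Real.sqrt ((1 + θ) * (1 + b))) :=
    div_le_div_of_nonneg_left hw (by positivity) (by linarith)
  have h4 : -w / (32 * Real.sqrt ((1 + θ) * (1 + b))) ≤ -w / (32 * Real.sqrt ((1 + θ) * (1 + b'))) := by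
    rw [neg_div, neg_div]; linarith
  exact mul_le_mul_of_nonneg_left (Real.exp_le_exp.2 h4) (by positivity)

/-- powers: `A n^p ≤ n^q` eventually, `p < q` -/
theorem amp_ev_pow (A : ℝ) {p q : ℝ} (h : p < q) :
    ∃ n0 : ℕ, ∀ n : ℕ, n0 ≤ n → A * (n : ℝ) ^ p ≤ (n : ℝ) ^ q := by
  have h1 : Filter.Tendsto (fun n : ℕ => (n : ℝ) ^ (q - p)) Filter.atTop Filter.atTop :=
    (tendsto_rpow_atTop (by linarith)).comp tendsto_natCast_atTop_atTop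
  obtain ⟨n0, hn0⟩ := Filter.eventually_atTop.1
    ((h1.eventually_ge_atTop A).and (Filter.eventually_gt_atTop 0))
  refine ⟨n0, fun n hn => ?_⟩
  obtain ⟨h2, h3⟩ := hn0 n hn
  have hx : (0 : ℝ) < n := by exact_mod_cast h3
  have h4 : (n : ℝ) ^ q = (n : ℝ) ^ (q - p) * (n : ℝ) ^ p := by
    rw [← Real.rpow_add hx]; congr 1; ring
  rw [h4]
  exact mul_le_mul_of_nonneg_right h2 (Real.rpow_nonneg hx.le _)

/-- logarithm: `A log n ≤ n^p` eventually, `0 < p` -/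
theorem amp_ev_log (A : ℝ) {p : ℝ} (h : 0 < p) :
    ∃ n0 : ℕ, ∀ n : ℕ, n0 ≤ n → A * Real.log n ≤ (n : ℝ) ^ p := by
  have h1 := (isLittleO_log_rpow_atTop h).bound (c := (|A| + 1)⁻¹) (by positivity)
  obtain ⟨n0, hn0⟩ := Filter.eventually_atTop.1
    ((tendsto_natCast_atTop_atTop.eventually h1).and (Filter.eventually_gt_atTop 0))
  refine ⟨n0, fun n hn => ?_⟩
  obtain ⟨h2, h3⟩ := hn0 n hn
  have hx : (0 : ℝ) < n := by exact_mod_cast h3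
  rw [Real.norm_eq_abs, Real.norm_eq_abs, abs_of_pos (Real.rpow_pos_of_pos hx p), inv_mul_eq_div,
    le_div_iff₀ (by positivity)] at h2
  calc A * Real.log n ≤ |A| * |Real.log n| := by rw [← abs_mul]; exact le_abs_self _
    _ ≤ |Real.log n| * (|A| + 1) := by nlinarith [abs_nonneg (Real.log n)]
    _ ≤ _ := h2

/-- the radius -/
theorem amp_ev_radius :
    ∃ n0 : ℕ, ∀ n : ℕ, n0 ≤ n →
      (n : ℝ) ^ (1 - expEll) + 2 * (⌈(n : ℝ) ^ ampGamma⌉₊ : ℝ) < (n : ℝ) ^ expBeta := by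
  obtain ⟨n1, h1⟩ := amp_ev_pow 4 (p := 1 - expEll) (q := expBeta) (by
    unfold expEll expBeta; norm_num)
  obtain ⟨n2, h2⟩ := amp_ev_pow 8 (p := ampGamma) (q := expBeta) (by
    unfold ampGamma expBeta; norm_num)
  obtain ⟨n3, h3⟩ := amp_ev_pow 8 (p := 0) (q := expBeta) (by unfold expBeta; norm_num)
  refine ⟨max (max n1 n2) (max n3 1), fun n hn => ?_⟩
  have a1 := h1 n (by omega)
  have a2 := h2 n (by omega)
  have a3 := h3 n (by omega)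
  have hx : (0 : ℝ) < n := by
    have : 1 ≤ n := by omega
    exact_mod_cast this
  rw [Real.rpow_zero] at a3
  have a4 := Nat.ceil_lt_add_one (Real.rpow_nonneg hx.le ampGamma)
  have a5 := Real.rpow_pos_of_pos hx expBeta
  linarith

/-- `n^{-k} = exp (-k log n)` -/
theorem amp_inv_pow {x : ℝ} (hx : 0 < x) (k : ℕ) : (x ^ k)⁻¹ = Real.exp (-((k : ℝ) * Real.log x)) := by
  rw [Real.exp_neg, Real.exp_nat_mul, Real.exp_log hx]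

theorem amp_two_exp_le : 2 * Real.exp (Real.exp 1 / 2) ≤ Real.exp 3 := by
  have h1 : (2 : ℝ) ≤ Real.exp 1 := by have := Real.add_one_le_exp (1 : ℝ); linarith
  have h2 : Real.exp (Real.exp 1 / 2) ≤ Real.exp 2 := by
    apply Real.exp_le_exp.2
    have := Real.exp_one_lt_d9
    linarith
  have h3 : Real.exp 3 = Real.exp 1 * Real.exp 2 := by rw [← Real.exp_add]; norm_num
  rw [h3]
  exact mul_le_mul h1 h2 (Real.exp_pos _).le (Real.exp_pos _).le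

theorem amp_one_le_log {x : ℝ} (hx : 3 ≤ x) : 1 ≤ Real.log x := by
  rw [Real.le_log_iff_exp_le (by linarith)]
  have := Real.exp_one_lt_d9
  linarith

/-- the tails -/
theorem amp_ev_tail {θ b : ℝ} (hθ : 0 ≤ θ) (hb : 0 ≤ b) :
    ∃ n0 : ℕ, ∀ n : ℕ, n0 ≤ n →
      Real.sqrt (ampTailB θ (b * n) ((n : ℝ) ^ (3 / 5 : ℝ))) ≤ ((n : ℝ) ^ 408)⁻¹ := by
  obtain ⟨K, hK⟩ : ∃ K : ℝ, K = Real.sqrt ((1 + θ) * (1 + b)) := ⟨_, rfl⟩
  have hK0 : 0 < K := by rw [hK]; exact Real.sqrt_pos.2 (by positivity)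
  obtain ⟨n1, h1⟩ := amp_ev_log (819 * 32 * K) (p := 1 / 10) (by norm_num)
  refine ⟨max n1 3, fun n hn => ?_⟩
  have a1 := h1 n (by omega)
  obtain ⟨x, hxdef⟩ : ∃ x : ℝ, x = (n : ℝ) := ⟨_, rfl⟩
  rw [← hxdef] at a1 ⊢
  have hx3 : 3 ≤ x := by
    have : 3 ≤ n := by omega
    rw [hxdef]; exact_mod_cast this
  have hx : 0 < x := by linarith
  have hlog := amp_one_le_log hx3
  obtain ⟨S, hS⟩ : ∃ S : ℝ, S = Real.sqrt ((1 + θ) * (1 + b * x)) := ⟨_, rfl⟩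
  have hS0 : 0 < S := by rw [hS]; exact Real.sqrt_pos.2 (by positivity)
  have hSK : S ≤ K * Real.sqrt x := by
    rw [hS, hK, ← Real.sqrt_mul (by positivity)]
    apply Real.sqrt_le_sqrt
    have : 1 + b * x ≤ (1 + b) * x := by nlinarith
    calc (1 + θ) * (1 + b * x) ≤ (1 + θ) * ((1 + b) * x) :=
          mul_le_mul_of_nonneg_left this (by linarith)
      _ = (1 + θ) * (1 + b) * x := by ring
  have hW : 819 * Real.log x ≤ x ^ (3 / 5 : ℝ) / (32 * S) := by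
    rw [le_div_iff₀ (by positivity)]
    calc 819 * Real.log x * (32 * S) ≤ 819 * Real.log x * (32 * (K * Real.sqrt x)) := by gcongr
      _ = (819 * 32 * K * Real.log x) * Real.sqrt x := by ring
      _ ≤ x ^ (1 / 10 : ℝ) * Real.sqrt x := by gcongr
      _ = x ^ (3 / 5 : ℝ) := by rw [Real.sqrt_eq_rpow, ← Real.rpow_add hx]; norm_num
  rw [Real.sqrt_le_iff]
  refine ⟨by positivity, ?_⟩
  rw [← inv_pow, ← pow_mul, inv_pow, amp_inv_pow hx]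
  unfold ampTailB
  rw [← hS, neg_div]
  calc 2 * Real.exp (Real.exp 1 / 2) * Real.exp (-(x ^ (3 / 5 : ℝ) / (32 * S))) ≤
        Real.exp 3 * Real.exp (-(x ^ (3 / 5 : ℝ) / (32 * S))) :=
        mul_le_mul_of_nonneg_right amp_two_exp_le (Real.exp_pos _).le
    _ = Real.exp (3 + -(x ^ (3 / 5 : ℝ) / (32 * S))) := by rw [Real.exp_add]
    _ ≤ _ := by
        apply Real.exp_le_exp.2
        push_cast
        linarith

/-- first term of the filter error -/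
theorem amp_err_first {g t E M : ℝ} (hg : 0 < g) (ht : 2 / g * (E + M) ≤ t) :
    Real.exp (-(g * t) / 2) * Real.exp E ≤ Real.exp (-M) := by
  rw [← Real.exp_add]
  apply Real.exp_le_exp.2
  have h1 : g * (2 / g * (E + M)) ≤ g * t := mul_le_mul_of_nonneg_left ht hg.le
  have h2 : g * (2 / g * (E + M)) = 2 * (E + M) := by field_simp
  linarith

/-- second term of the filter error -/
theorem amp_err_second {v Cκ c' t t₁ σ R ρ s q E M : ℝ} (hv : 0 ≤ v) (hCκ : 0 ≤ Cκ)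
    (_ht0 : 0 ≤ t) (ht : t ≤ t₁) (hσ0 : 0 ≤ σ) (hσ : σ ≤ Real.exp s) (hR0 : 0 ≤ R)
    (hR : R ≤ Real.exp q)
    (hmain : (1 + v) * t₁ + Cκ + s + q + E + M ≤ c' * ρ) :
    t * (Cκ * σ * R * Real.exp (v * t) * Real.exp (-c' * ρ)) * Real.exp E ≤ Real.exp (-M) := by
  have h1 : t ≤ Real.exp t₁ := by have := Real.add_one_le_exp t₁; linarith
  have h2 : Cκ ≤ Real.exp Cκ := by have := Real.add_one_le_exp Cκ; linarith
  have h3 : Real.exp (v * t) ≤ Real.exp (v * t₁) :=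
    Real.exp_le_exp.2 (mul_le_mul_of_nonneg_left ht hv)
  have h4 : t * (Cκ * σ * R * Real.exp (v * t) * Real.exp (-c' * ρ)) * Real.exp E ≤
      Real.exp t₁ * (Real.exp Cκ * Real.exp s * Real.exp q * Real.exp (v * t₁) *
        Real.exp (-c' * ρ)) * Real.exp E := by
    gcongr
  refine h4.trans ?_
  rw [← Real.exp_add, ← Real.exp_add, ← Real.exp_add, ← Real.exp_add, ← Real.exp_add,
    ← Real.exp_add]
  apply Real.exp_le_exp.2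
  linarith

/-- the discretised time -/
theorem amp_err_time {ts : ℝ} (hts : 0 ≤ ts) {m : ℕ} (hm : 0 < m) :
    ts ≤ ((⌈(m : ℝ) * ts⌉₊ : ℕ) : ℝ) / m ∧ ((⌈(m : ℝ) * ts⌉₊ : ℕ) : ℝ) / m ≤ ts + 1 := by
  have hm0 : (0 : ℝ) < m := by exact_mod_cast hm
  have hm1 : (1 : ℝ) ≤ m := by exact_mod_cast hm
  constructor
  · rw [le_div_iff₀ hm0]
    have := Nat.le_ceil ((m : ℝ) * ts)
    linarith
  · rw [div_le_iff₀ hm0]
    have := Nat.ceil_lt_add_one (mul_nonneg hm0.le hts)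
    nlinarith

/-- the constant of `amp_ev_err` -/
noncomputable def ampErrK (g v Cκ C0 : ℝ) : ℝ :=
  (1 + v) * (2 / g * ((C0 + 3) / 2 + 408) + 1) + Cκ + C0 + 4 + 412 + (C0 + 3) / 2

theorem amp_err_lin {g v Cκ C0 Z w lg : ℝ} (hg : 0 < g) (hv : 0 ≤ v) (hCκ : 0 ≤ Cκ)
    (hC0 : 0 ≤ C0) (hZ1 : 1 ≤ Z) (hwZ : w ≤ Z) (hlgZ : lg ≤ Z) :
    (1 + v) * (2 / g * ((C0 * Z + 3 * w) / 2 + 408 * lg) + 1) + Cκ + (C0 + 2 * lg) + (4 + 2 * lg) +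
      (C0 * Z + 3 * w) / 2 + 408 * lg ≤ ampErrK g v Cκ C0 * Z := by
  unfold ampErrK
  have hE : (C0 * Z + 3 * w) / 2 ≤ (C0 + 3) / 2 * Z := by nlinarith
  have h2g : 0 < 2 / g := by positivity
  have h1 : 2 / g * ((C0 * Z + 3 * w) / 2 + 408 * lg) + 1 ≤
      (2 / g * ((C0 + 3) / 2 + 408) + 1) * Z := by
    have : 2 / g * ((C0 * Z + 3 * w) / 2 + 408 * lg) ≤ 2 / g * (((C0 + 3) / 2 + 408) * Z) :=
      mul_le_mul_of_nonneg_left (by linarith) h2g.le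
    nlinarith
  have h2 : (1 + v) * (2 / g * ((C0 * Z + 3 * w) / 2 + 408 * lg) + 1) ≤
      (1 + v) * ((2 / g * ((C0 + 3) / 2 + 408) + 1) * Z) :=
    mul_le_mul_of_nonneg_left h1 (by linarith)
  have h3 : Cκ ≤ Cκ * Z := by nlinarith
  have h4 : C0 ≤ C0 * Z := by nlinarith
  nlinarith

theorem amp_five_le_exp : (5 : ℝ) ≤ Real.exp 2 := by
  have h1 : (2.7 : ℝ) ≤ Real.exp 1 := by have := Real.exp_one_gt_d9; linarith
  have h2 : Real.exp 2 = Real.exp 1 * Real.exp 1 := by rw [← Real.exp_add]; norm_num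
  rw [h2]
  nlinarith

/-- the filter error at a fixed `n` (`x = n`, `Z = n^{1-ℓ}`, `w = n^{3/5}`, `P = n^{γ α}`) -/
theorem amp_err_fixed {g v Cκ c' C0 x Z w P : ℝ} {r : ℕ} (hg : 0 < g) (hv : 0 ≤ v)
    (hCκ : 0 ≤ Cκ) (hc' : 0 < c') (hC0 : 0 ≤ C0) (hx1 : 1 ≤ x) (hZ1 : 1 ≤ Z) (hw0 : 0 ≤ w)
    (hwZ : w ≤ Z) (hlgZ : Real.log x ≤ Z) (hr : (r : ℝ) ≤ 2 * x) (hP : P ≤ (r : ℝ) ^ ampAlpha)
    (hK : ampErrK g v Cκ C0 * Z ≤ c' * P) {m : ℕ} (hm : 0 < m) :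
    ∃ N : ℕ, ∀ σ : ℝ, 0 ≤ σ → σ ≤ C0 * x ^ 2 →
      ampErr g v Cκ c' ampAlpha ((N : ℝ) / m) σ r * Real.exp ((C0 * Z + 3 * w) / 2) ≤
        2 * Real.exp (-(408 * Real.log x)) := by
  have hx0 : 0 < x := by linarith
  obtain ⟨lg, hlg⟩ : ∃ lg : ℝ, lg = Real.log x := ⟨_, rfl⟩
  have hexp : Real.exp lg = x := by rw [hlg, Real.exp_log hx0]
  have hlg0 : 0 ≤ lg := by rw [hlg]; exact Real.log_nonneg hx1
  rw [← hlg] at hlgZ ⊢
  obtain ⟨E, hE⟩ : ∃ E : ℝ, E = (C0 * Z + 3 * w) / 2 := ⟨_, rfl⟩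
  have hE0 : 0 ≤ E := by rw [hE]; positivity
  have hlin := amp_err_lin (w := w) (lg := lg) hg hv hCκ hC0 hZ1 hwZ hlgZ
  rw [← hE] at hlin ⊢
  obtain ⟨ts, hts⟩ : ∃ ts : ℝ, ts = 2 / g * (E + 408 * lg) := ⟨_, rfl⟩
  have hts0 : 0 ≤ ts := by rw [hts]; positivity
  rw [← hts] at hlin
  obtain ⟨ht1, ht2⟩ := amp_err_time hts0 hm
  refine ⟨⌈(m : ℝ) * ts⌉₊, fun σ hσ0 hσ => ?_⟩
  obtain ⟨t, ht⟩ : ∃ t : ℝ, t = ((⌈(m : ℝ) * ts⌉₊ : ℕ) : ℝ) / m := ⟨_, rfl⟩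
  rw [← ht] at ht1 ht2 ⊢
  unfold ampErr
  rw [add_mul]
  have hA := amp_err_first (g := g) (t := t) (E := E) (M := 408 * lg) hg (by rw [← hts]; exact ht1)
  have hσ' : σ ≤ Real.exp (C0 + 2 * lg) := by
    have h1 : C0 ≤ Real.exp C0 := by have := Real.add_one_le_exp C0; linarith
    have h2 : Real.exp (2 * lg) = x ^ 2 := by
      rw [two_mul, Real.exp_add, hexp]; ring
    rw [Real.exp_add, h2]
    exact hσ.trans (mul_le_mul_of_nonneg_right h1 (by positivity))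
  have hR' : (((2 * r + 1 : ℕ) : ℝ)) ^ 2 ≤ Real.exp (4 + 2 * lg) := by
    have h1 : (((2 * r + 1 : ℕ) : ℝ)) ≤ Real.exp (2 + lg) := by
      rw [Real.exp_add, hexp]
      push_cast
      have := amp_five_le_exp
      nlinarith
    have h2 : Real.exp (4 + 2 * lg) = Real.exp (2 + lg) ^ 2 := by
      rw [sq, ← Real.exp_add]; congr 1; ring
    rw [h2]
    exact pow_le_pow_left₀ (by positivity) h1 2
  have hB := amp_err_second (v := v) (Cκ := Cκ) (c' := c') (t := t) (t₁ := ts + 1) (σ := σ)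
    (R := (((2 * r + 1 : ℕ) : ℝ)) ^ 2) (ρ := (r : ℝ) ^ ampAlpha) (s := C0 + 2 * lg)
    (q := 4 + 2 * lg) (E := E) (M := 408 * lg) hv hCκ (hts0.trans ht1) ht2 hσ0 hσ'
    (by positivity) hR'
    (hlin.trans (hK.trans (mul_le_mul_of_nonneg_left hP hc'.le)))
  linarith

/-- the filter error, multiplied by `e^{E}` -/
theorem amp_ev_err {g v Cκ c' C0 : ℝ} (hg : 0 < g) (hv : 0 ≤ v) (hCκ : 0 ≤ Cκ) (hc' : 0 < c')
    (hC0 : 0 ≤ C0) :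
    ∃ n0 : ℕ, ∀ n : ℕ, n0 ≤ n → ∀ m : ℕ, 0 < m → ∃ N : ℕ, ∀ σ : ℝ, 0 ≤ σ → σ ≤ C0 * (n : ℝ) ^ 2 →
      ampErr g v Cκ c' ampAlpha ((N : ℝ) / m) σ ⌈(n : ℝ) ^ ampGamma⌉₊ *
        Real.exp ((C0 * (n : ℝ) ^ (1 - expEll) + 3 * (n : ℝ) ^ (3 / 5 : ℝ)) / 2) ≤
          2 * ((n : ℝ) ^ 408)⁻¹ := by
  obtain ⟨n1, h1⟩ := amp_ev_pow 1 (p := 3 / 5) (q := 1 - expEll) (by unfold expEll; norm_num)
  obtain ⟨n2, h2⟩ := amp_ev_log 1 (p := 1 - expEll) (by unfold expEll; norm_num)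
  obtain ⟨n3, h3⟩ := amp_ev_pow (ampErrK g v Cκ C0 / c') (p := 1 - expEll)
    (q := ampGamma * ampAlpha) (by unfold expEll ampGamma ampAlpha; norm_num)
  refine ⟨max (max n1 n2) (max n3 1), fun n hn m hm => ?_⟩
  have a1 := h1 n (by omega)
  have a2 := h2 n (by omega)
  have a3 := h3 n (by omega)
  have hx1 : (1 : ℝ) ≤ n := by
    have : 1 ≤ n := by omega
    exact_mod_cast this
  have hx0 : (0 : ℝ) < n := by linarith
  rw [one_mul] at a1 a2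
  have hZ1 : 1 ≤ (n : ℝ) ^ (1 - expEll) :=
    Real.one_le_rpow hx1 (by unfold expEll; norm_num)
  have hr : ((⌈(n : ℝ) ^ ampGamma⌉₊ : ℕ) : ℝ) ≤ 2 * n := by
    have b1 := Nat.ceil_lt_add_one (Real.rpow_nonneg hx0.le ampGamma)
    have b2 : (n : ℝ) ^ ampGamma ≤ (n : ℝ) ^ (1 : ℝ) :=
      Real.rpow_le_rpow_of_exponent_le hx1 (by unfold ampGamma; norm_num)
    rw [Real.rpow_one] at b2
    linarith
  have hP : (n : ℝ) ^ (ampGamma * ampAlpha) ≤ ((⌈(n : ℝ) ^ ampGamma⌉₊ : ℕ) : ℝ) ^ ampAlpha := by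
    rw [Real.rpow_mul hx0.le]
    exact Real.rpow_le_rpow (Real.rpow_nonneg hx0.le _) (Nat.le_ceil _) ampAlpha_pos.le
  have hK : ampErrK g v Cκ C0 * (n : ℝ) ^ (1 - expEll) ≤ c' * (n : ℝ) ^ (ampGamma * ampAlpha) := by
    have := mul_le_mul_of_nonneg_left a3 hc'.le
    have e : c' * (ampErrK g v Cκ C0 / c' * (n : ℝ) ^ (1 - expEll)) =
        ampErrK g v Cκ C0 * (n : ℝ) ^ (1 - expEll) := by field_simp
    linarith
  have := amp_err_fixed hg hv hCκ hc' hC0 hx1 hZ1 (Real.rpow_nonneg hx0.le _) a1 a2 hr hP hK hm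
  rw [amp_inv_pow hx0]
  push_cast
  exact this

theorem ampErr_nonneg {g v Cκ c' α t σ : ℝ} (hCκ : 0 ≤ Cκ) (ht : 0 ≤ t) (hσ : 0 ≤ σ) (r : ℕ) :
    0 ≤ ampErr g v Cκ c' α t σ r := by
  unfold ampErr
  positivity

/-- `ampDelta ≤ 5 √ν` -/
theorem ampDelta_le {κe I0 w δ ν E : ℝ} (hκ : 0 ≤ κe) (hν0 : 0 ≤ ν) (hν1 : ν ≤ 1) (hE0 : 0 ≤ E)
    (hE : (I0 + 3 * w) / 2 ≤ E) (hx : κe * Real.exp E ≤ 2 * ν) (hδ : Real.sqrt δ ≤ ν) :
    ampDelta κe I0 w δ ≤ 5 * Real.sqrt ν := by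
  unfold ampDelta
  obtain ⟨x, hxdef⟩ : ∃ x : ℝ, x = κe * Real.exp ((I0 + 3 * w) / 2) := ⟨_, rfl⟩
  rw [← hxdef]
  have hx0 : 0 ≤ x := by rw [hxdef]; positivity
  have hx2 : x ≤ 2 * ν := by
    rw [hxdef]
    exact le_trans (mul_le_mul_of_nonneg_left (Real.exp_le_exp.2 hE) hκ) hx
  have hκ2 : κe ≤ 2 * ν := by
    have : κe * 1 ≤ κe * Real.exp E := mul_le_mul_of_nonneg_left (Real.one_le_exp hE0) hκ
    linarith
  have hs0 : 0 ≤ Real.sqrt δ := Real.sqrt_nonneg _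
  have hsν0 : 0 ≤ Real.sqrt ν := Real.sqrt_nonneg _
  have hsν1 : Real.sqrt ν ≤ 1 := (Real.sqrt_le_iff).2 ⟨zero_le_one, by simpa using hν1⟩
  have hsq : Real.sqrt ν * Real.sqrt ν = ν := Real.mul_self_sqrt hν0
  have hνs : ν ≤ Real.sqrt ν := by nlinarith
  have hxx : x ^ 2 ≤ 4 * ν := by nlinarith
  have h1 : Real.sqrt (2 * x + x ^ 2 + 2 * (3 * Real.sqrt δ + κe)) ≤ 5 * Real.sqrt ν := by
    rw [Real.sqrt_le_iff]
    refine ⟨by positivity, ?_⟩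
    have : (5 * Real.sqrt ν) ^ 2 = 25 * ν := by rw [mul_pow, Real.sq_sqrt hν0]; norm_num
    rw [this]
    linarith
  linarith

theorem amps_delta_nonneg {κe I0 w δ : ℝ} (hκ : 0 ≤ κe) : 0 ≤ ampDelta κe I0 w δ := by
  unfold ampDelta
  positivity

/-- the last step: `afwFun δ' L ≤ 2 √δ' (1 + L) ≤ C n^{-100}` -/
theorem amp_afw_final {x L Lq C0 δ' : ℝ} (hx : 5 ≤ x) (hδ0 : 0 ≤ δ')
    (hδ : δ' ≤ 5 * Real.sqrt ((x ^ 408)⁻¹)) (hL0 : 0 ≤ L) (hL : L ≤ Lq * (C0 * x ^ 2))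
    (_hLq : 0 ≤ Lq) (_hC0 : 0 ≤ C0) :
    afwFun δ' L ≤ 6 * (1 + Lq * C0) * (x ^ 100)⁻¹ := by
  have hx0 : 0 < x := by linarith
  have hx1 : 1 ≤ x := by linarith
  obtain ⟨y, hy⟩ : ∃ y : ℝ, y = (x ^ 102)⁻¹ := ⟨_, rfl⟩
  have hy0 : 0 < y := by rw [hy]; positivity
  have hy5 : y ≤ 1 / 5 := by
    rw [hy, inv_eq_one_div]
    apply one_div_le_one_div_of_le (by norm_num)
    calc (5 : ℝ) ≤ x := hx
      _ = x ^ 1 := (pow_one x).symm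
      _ ≤ x ^ 102 := pow_le_pow_right₀ hx1 (by norm_num)
  have hs : Real.sqrt ((x ^ 408)⁻¹) = y ^ 2 := by
    have : (x ^ 408)⁻¹ = (y ^ 2) ^ 2 := by
      rw [hy, ← pow_mul, inv_pow, ← pow_mul]
    rw [this, Real.sqrt_sq (by positivity)]
  rw [hs] at hδ
  have h1 : 5 * y ^ 2 ≤ 1 := by nlinarith
  have h2 : Real.sqrt (5 * y ^ 2) ≤ 3 * y := by
    rw [Real.sqrt_le_iff]
    refine ⟨by positivity, ?_⟩
    nlinarith [sq_nonneg y]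
  have hyx : y * x ^ 2 = (x ^ 100)⁻¹ := by
    rw [hy]
    have : x ^ 102 = x ^ 100 * x ^ 2 := by rw [← pow_add]
    rw [this, mul_inv, mul_assoc, inv_mul_cancel₀ (by positivity), mul_one]
  have hx2 : 1 ≤ x ^ 2 := one_le_pow₀ hx1
  have h3 : 1 + L ≤ (1 + Lq * C0) * x ^ 2 := by
    have : Lq * (C0 * x ^ 2) = Lq * C0 * x ^ 2 := by ring
    nlinarith
  calc afwFun δ' L ≤ afwFun (5 * y ^ 2) L := afwFun_mono hδ0 hδ hL0
    _ ≤ 2 * Real.sqrt (5 * y ^ 2) * (1 + L) := afwFun_le_sqrt (by positivity) h1 hL0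
    _ ≤ 2 * (3 * y) * ((1 + Lq * C0) * x ^ 2) := by gcongr
    _ = 6 * (1 + Lq * C0) * (y * x ^ 2) := by ring
    _ = _ := by rw [hyx]

/-- **The choice of the parameters.** -/
theorem amp_scalars {g v Cκ c' θ C0 C1 Lq : ℝ} (hg : 0 < g) (hv : 0 ≤ v) (hCκ : 0 ≤ Cκ)
    (hc' : 0 < c') (hθ : 0 ≤ θ) (hC0 : 0 ≤ C0) (hC1 : 0 ≤ C1) (hLq : 0 ≤ Lq) :
    ∃ (C : ℝ) (n0 : ℕ), 0 ≤ C ∧ 1 ≤ n0 ∧ ∀ n : ℕ, n0 ≤ n → ∃ (r : ℕ) (w : ℝ), 0 ≤ w ∧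
      (n : ℝ) ^ (1 - expEll) + 2 * r < (n : ℝ) ^ expBeta ∧
      ∀ m : ℕ, 0 < m → ∃ N : ℕ, ∀ σ I0 L : ℝ, 0 ≤ σ → σ ≤ C0 * (n : ℝ) ^ 2 →
        I0 ≤ C0 * (n : ℝ) ^ (1 - expEll) → 0 ≤ L → L ≤ Lq * (C0 * (n : ℝ) ^ 2) →
        afwFun (ampDelta (ampErr g v Cκ c' ampAlpha ((N : ℝ) / m) σ r) I0 w
          (ampTailB θ (C1 * C0 * n) w)) L ≤ C * ((n : ℝ) ^ 100)⁻¹ := by
  obtain ⟨n1, h1⟩ := amp_ev_radius
  obtain ⟨n2, h2⟩ := amp_ev_err hg hv hCκ hc' hC0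
  obtain ⟨n3, h3⟩ := amp_ev_tail hθ (mul_nonneg hC1 hC0)
  refine ⟨6 * (1 + Lq * C0), max (max n1 n2) (max n3 5), by positivity, by omega, fun n hn => ?_⟩
  have hx5 : (5 : ℝ) ≤ n := by
    have : 5 ≤ n := by omega
    exact_mod_cast this
  have hx0 : (0 : ℝ) < n := by linarith
  have hx1 : (1 : ℝ) ≤ n := by linarith
  refine ⟨⌈(n : ℝ) ^ ampGamma⌉₊, (n : ℝ) ^ (3 / 5 : ℝ), Real.rpow_nonneg hx0.le _,
    h1 n (by omega), fun m hm => ?_⟩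
  obtain ⟨N, hN⟩ := h2 n (by omega) m hm
  refine ⟨N, fun σ I0 L hσ0 hσ hI0 hL0 hL => ?_⟩
  have hκ : 0 ≤ ampErr g v Cκ c' ampAlpha ((N : ℝ) / m) σ ⌈(n : ℝ) ^ ampGamma⌉₊ :=
    ampErr_nonneg hCκ (by positivity) hσ0 _
  have hν0 : (0 : ℝ) ≤ ((n : ℝ) ^ 408)⁻¹ := by positivity
  have hν1 : ((n : ℝ) ^ 408)⁻¹ ≤ 1 := inv_le_one_of_one_le₀ (one_le_pow₀ hx1)
  have hE0 : 0 ≤ (C0 * (n : ℝ) ^ (1 - expEll) + 3 * (n : ℝ) ^ (3 / 5 : ℝ)) / 2 := by positivity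
  have hD := ampDelta_le (I0 := I0) (w := (n : ℝ) ^ (3 / 5 : ℝ))
    (δ := ampTailB θ (C1 * C0 * n) ((n : ℝ) ^ (3 / 5 : ℝ))) hκ hν0 hν1 hE0 (by linarith)
    (hN σ hσ0 hσ) (h3 n (by omega))
  exact amp_afw_final hx5 (amps_delta_nonneg hκ) hD hL0 hL hLq hC0

end Claimed.Agent.R296
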