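import Mathlib
import Claimed.Agent.R296.Defs
import Claimed.Agent.R296.Bridge

/-!
# Row 296: elementary support calculus (prefix `sp_`)

`emb A K` (operator on `A`), `embOff A K` (operator on the complement of `A`), product vectors,
their action, commutation, monotonicity of supports.
-/

set_option autoImplicit false
set_option linter.unusedSectionVars false

namespace Claimed.Agent.R296

open Matrix
open scoped ComplexOrder

variable {s : Type} [DecidableEq s] {io : s → Type}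

@[simp] theorem sp_crOn_cglue (A : Finset s) (a : CfgOn io A) (b : CfgOff io A) :
    crOn A (cglue A a b) = a := congrArg Prod.fst ((cfgSplit A).right_inv (a, b))

@[simp] theorem sp_crOff_cglue (A : Finset s) (a : CfgOn io A) (b : CfgOff io A) :
    crOff A (cglue A a b) = b := congrArg Prod.snd ((cfgSplit A).right_inv (a, b))

@[simp] theorem sp_cglue_cr (A : Finset s) (σ : Cfg io) :
    cglue A (crOn A σ) (crOff A σ) = σ := (cfgSplit A).left_inv σ

variable [Fintype s] [∀ x, Fintype (io x)] [∀ x, DecidableEq (io x)]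

/-- `1 ⊗ K`: the operator `K` on the complement of `A`, extended by the identity on `A` -/
def embOff (A : Finset s) (K : Matrix (CfgOff io A) (CfgOff io A) ℂ) :
    Matrix (Cfg io) (Cfg io) ℂ :=
  Matrix.of fun σ τ => if crOn A σ = crOn A τ then K (crOff A σ) (crOff A τ) else 0

/-- an operator is supported off `A` -/
def SuppOff (A : Finset s) (M : Matrix (Cfg io) (Cfg io) ℂ) : Prop :=
  ∃ K, M = embOff A K

/-- product vector `u ⊗ v` -/
def pvec (A : Finset s) (u : CfgOn io A → ℂ) (v : CfgOff io A → ℂ) : Cfg io → ℂ :=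
  fun σ => u (crOn A σ) * v (crOff A σ)

/-- summation over configurations splits -/
theorem sp_sum_cfg (A : Finset s) (f : Cfg io → ℂ) :
    ∑ σ, f σ = ∑ a : CfgOn io A, ∑ b : CfgOff io A, f (cglue A a b) := by
  rw [← Fintype.sum_prod_type']
  exact Fintype.sum_equiv (cfgSplit A) _ _ (fun σ => by simp [cfgSplit])

theorem sp_emb_mulVec (A : Finset s) (K : Matrix (CfgOn io A) (CfgOn io A) ℂ)
    (Ψ : Cfg io → ℂ) (σ : Cfg io) :
    (emb A K *ᵥ Ψ) σ = ∑ a', K (crOn A σ) a' * Ψ (cglue A a' (crOff A σ)) := by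
  simp only [mulVec, dotProduct, emb, Matrix.of_apply]
  rw [sp_sum_cfg A]
  refine Finset.sum_congr rfl fun a' _ => ?_
  simp only [sp_crOn_cglue, sp_crOff_cglue, ite_mul, zero_mul]
  rw [Finset.sum_ite_eq]
  simp

theorem sp_embOff_mulVec (A : Finset s) (K : Matrix (CfgOff io A) (CfgOff io A) ℂ)
    (Ψ : Cfg io → ℂ) (σ : Cfg io) :
    (embOff A K *ᵥ Ψ) σ = ∑ b', K (crOff A σ) b' * Ψ (cglue A (crOn A σ) b') := by
  simp only [mulVec, dotProduct, embOff, Matrix.of_apply]
  rw [sp_sum_cfg A]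
  simp only [sp_crOn_cglue, sp_crOff_cglue, ite_mul, zero_mul]
  rw [Finset.sum_comm]
  refine Finset.sum_congr rfl fun b' _ => ?_
  rw [Finset.sum_ite_eq]
  simp

theorem sp_emb_add (A : Finset s) (K K' : Matrix (CfgOn io A) (CfgOn io A) ℂ) :
    emb A (K + K') = emb A K + emb A K' := by
  ext σ τ
  simp only [emb, Matrix.of_apply, Matrix.add_apply]
  split_ifs <;> simp

theorem sp_embOff_add (A : Finset s) (K K' : Matrix (CfgOff io A) (CfgOff io A) ℂ) :
    embOff A (K + K') = embOff A K + embOff A K' := by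
  ext σ τ
  simp only [embOff, Matrix.of_apply, Matrix.add_apply]
  split_ifs <;> simp

theorem sp_emb_zero (A : Finset s) :
    emb A (0 : Matrix (CfgOn io A) (CfgOn io A) ℂ) = 0 := by
  ext σ τ
  simp [emb]

theorem sp_embOff_zero (A : Finset s) :
    embOff A (0 : Matrix (CfgOff io A) (CfgOff io A) ℂ) = 0 := by
  ext σ τ
  simp [embOff]

theorem SuppIn.sp_add {A : Finset s} {M N : Matrix (Cfg io) (Cfg io) ℂ}
    (hM : SuppIn A M) (hN : SuppIn A N) : SuppIn A (M + N) := by
  obtain ⟨K, rfl⟩ := hM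
  obtain ⟨K', rfl⟩ := hN
  exact ⟨K + K', (sp_emb_add A K K').symm⟩

theorem SuppOff.sp_add {A : Finset s} {M N : Matrix (Cfg io) (Cfg io) ℂ}
    (hM : SuppOff A M) (hN : SuppOff A N) : SuppOff A (M + N) := by
  obtain ⟨K, rfl⟩ := hM
  obtain ⟨K', rfl⟩ := hN
  exact ⟨K + K', (sp_embOff_add A K K').symm⟩

theorem sp_suppIn_zero (A : Finset s) : SuppIn A (0 : Matrix (Cfg io) (Cfg io) ℂ) :=
  ⟨0, (sp_emb_zero A).symm⟩

theorem sp_suppOff_zero (A : Finset s) : SuppOff A (0 : Matrix (Cfg io) (Cfg io) ℂ) :=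
  ⟨0, (sp_embOff_zero A).symm⟩

theorem sp_suppIn_sum {ι : Type} (A : Finset s) (t : Finset ι)
    (M : ι → Matrix (Cfg io) (Cfg io) ℂ) (h : ∀ i ∈ t, SuppIn A (M i)) :
    SuppIn A (∑ i ∈ t, M i) := by
  classical
  induction t using Finset.induction_on with
  | empty => simpa using sp_suppIn_zero A
  | insert a t ha ih =>
    rw [Finset.sum_insert ha]
    exact (h a (Finset.mem_insert_self a t)).sp_add
      (ih fun i hi => h i (Finset.mem_insert_of_mem hi))

theorem sp_suppOff_sum {ι : Type} (A : Finset s) (t : Finset ι)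
    (M : ι → Matrix (Cfg io) (Cfg io) ℂ) (h : ∀ i ∈ t, SuppOff A (M i)) :
    SuppOff A (∑ i ∈ t, M i) := by
  classical
  induction t using Finset.induction_on with
  | empty => simpa using sp_suppOff_zero A
  | insert a t ha ih =>
    rw [Finset.sum_insert ha]
    exact (h a (Finset.mem_insert_self a t)).sp_add
      (ih fun i hi => h i (Finset.mem_insert_of_mem hi))

/-- supports are monotone -/
theorem SuppIn.sp_mono {X A : Finset s} {M : Matrix (Cfg io) (Cfg io) ℂ}
    (hM : SuppIn X M) (hXA : X ⊆ A) : SuppIn A M := by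
  obtain ⟨K, rfl⟩ := hM
  refine ⟨Matrix.of fun a a' =>
    if (∀ x (hx : x ∈ A), x ∉ X → a ⟨x, hx⟩ = a' ⟨x, hx⟩) then
      K (fun x => a ⟨x.1, hXA x.2⟩) (fun x => a' ⟨x.1, hXA x.2⟩) else 0, ?_⟩
  ext σ τ
  simp only [emb, Matrix.of_apply, br_crOff_eq_iff]
  by_cases h1 : ∀ x, x ∉ X → σ x = τ x
  · have h2 : ∀ x, x ∉ A → σ x = τ x := fun x hx => h1 x (fun h => hx (hXA h))
    have h3 : ∀ x (hx : x ∈ A), x ∉ X → crOn A σ ⟨x, hx⟩ = crOn A τ ⟨x, hx⟩ :=
      fun x _ hx => h1 x hx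
    rw [if_pos h1, if_pos h2, if_pos h3]
    rfl
  · rw [if_neg h1]
    by_cases h2 : ∀ x, x ∉ A → σ x = τ x
    · rw [if_pos h2, if_neg]
      intro h3
      apply h1
      intro x hx
      by_cases hA : x ∈ A
      · exact h3 x hA hx
      · exact h2 x hA
    · rw [if_neg h2]

/-- an operator supported in a set disjoint from `A` is supported off `A` -/
theorem SuppIn.sp_off {X A : Finset s} {M : Matrix (Cfg io) (Cfg io) ℂ}
    (hM : SuppIn X M) (hXA : Disjoint X A) : SuppOff A M := by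
  obtain ⟨K, rfl⟩ := hM
  have hd : ∀ x, x ∈ X → x ∉ A := fun x hx hA => Finset.disjoint_left.mp hXA hx hA
  refine ⟨Matrix.of fun b b' =>
    if (∀ x (hx : x ∉ A), x ∉ X → b ⟨x, hx⟩ = b' ⟨x, hx⟩) then
      K (fun x => b ⟨x.1, hd x.1 x.2⟩) (fun x => b' ⟨x.1, hd x.1 x.2⟩) else 0, ?_⟩
  ext σ τ
  simp only [emb, embOff, Matrix.of_apply, br_crOff_eq_iff, br_crOn_eq_iff]
  by_cases h1 : ∀ x, x ∉ X → σ x = τ x
  · have h2 : ∀ x, x ∈ A → σ x = τ x := fun x hx => h1 x (fun h => hd x h hx)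
    have h3 : ∀ x (hx : x ∉ A), x ∉ X → crOff A σ ⟨x, hx⟩ = crOff A τ ⟨x, hx⟩ :=
      fun x _ hx => h1 x hx
    rw [if_pos h1, if_pos h2, if_pos h3]
    rfl
  · rw [if_neg h1]
    by_cases h2 : ∀ x, x ∈ A → σ x = τ x
    · rw [if_pos h2, if_neg]
      intro h3
      apply h1
      intro x hx
      by_cases hA : x ∈ A
      · exact h2 x hA
      · exact h3 x hA hx
    · rw [if_neg h2]

/-- operators on `A` and off `A` commute (on vectors) -/
theorem sp_comm_mulVec (A : Finset s) (K : Matrix (CfgOn io A) (CfgOn io A) ℂ)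
    (K' : Matrix (CfgOff io A) (CfgOff io A) ℂ) (Ψ : Cfg io → ℂ) :
    emb A K *ᵥ (embOff A K' *ᵥ Ψ) = embOff A K' *ᵥ (emb A K *ᵥ Ψ) := by
  funext σ
  rw [sp_emb_mulVec, sp_embOff_mulVec]
  simp only [sp_emb_mulVec, sp_embOff_mulVec, sp_crOn_cglue, sp_crOff_cglue, Finset.mul_sum]
  rw [Finset.sum_comm]
  refine Finset.sum_congr rfl fun b' _ => Finset.sum_congr rfl fun a' _ => ?_
  ring

end Claimed.Agent.R296
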