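import Mathlib
import Claimed.Agent.R296.Defs
import Claimed.Agent.R296.Bridge
import Claimed.Agent.R296.Supp

/-!
# Row 296: `lem:zero-boundary` (P1, Sec. 1): a cut with no crossing edge has zero entropy

Prefix `zb_`.
-/

set_option autoImplicit false
set_option linter.unusedSectionVars false

namespace Claimed.Agent.R296

open Matrix Claims.C0473
open scoped ComplexOrder

section Idem

variable {n : Type} [Fintype n] [DecidableEq n]

/-- the frozen entropy expression vanishes on idempotent matrices -/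
theorem zb_vnEnt_idem {M : Matrix n n ℂ} (hM : M * M = M) : vnEnt M = 0 := by
  unfold vnEnt
  apply Multiset.sum_eq_zero
  intro r hr
  rw [Multiset.mem_map] at hr
  obtain ⟨z, hz, rfl⟩ := hr
  have hroot : M.charpoly.IsRoot z := (Polynomial.mem_roots'.mp hz).2
  have hspec : z ∈ spectrum ℂ M := Matrix.mem_spectrum_iff_isRoot_charpoly.mpr hroot
  have hidem : IsIdempotentElem M := hM
  have : z = 0 ∨ z = 1 := by
    have h := hidem.spectrum_subset ℂ hspec
    simpa using h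
  rcases this with rfl | rfl <;> simp

end Idem

section Uniq

variable {n : Type} [Fintype n] [DecidableEq n]

/-- the gap inequality makes the ground vector unique up to a scalar -/
theorem zb_ker_unique {H : Matrix n n ℂ} {E₀ Δ : ℝ} (hΔ : 0 < Δ) {Ω : n → ℂ}
    (hΩ : star Ω ⬝ᵥ Ω = 1)
    (hgap : IsPSD (H - (E₀ : ℂ) • 1 - (Δ : ℂ) • (1 - vecMulVec Ω (star Ω))))
    (v : n → ℂ) (hv : H *ᵥ v = (E₀ : ℂ) • v) : ∃ c : ℂ, v = c • Ω := by
  -- w = v - ⟨Ω,v⟩ Ω is orthogonal to Ω and has zero norm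
  set c : ℂ := star Ω ⬝ᵥ v with hc
  refine ⟨c, ?_⟩
  have h1 := hgap.2 v
  have hP : vecMulVec Ω (star Ω) *ᵥ v = c • Ω := by
    rw [vecMulVec_mulVec]
    simp [hc]
  have h2 : (H - (E₀ : ℂ) • 1 - (Δ : ℂ) • (1 - vecMulVec Ω (star Ω))) *ᵥ v
      = -((Δ : ℂ) • (v - c • Ω)) := by
    rw [sub_mulVec, sub_mulVec, smul_mulVec, smul_mulVec, sub_mulVec, one_mulVec, hv, hP]
    simp
  rw [h2] at h1
  set w : n → ℂ := v - c • Ω with hw
  have h3 : star v ⬝ᵥ w = star w ⬝ᵥ w := by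
    have : star Ω ⬝ᵥ w = 0 := by
      rw [hw, dotProduct_sub, dotProduct_smul, hΩ, ← hc]
      simp
    have h4 : star w = star v - star c • star Ω := by
      rw [hw, star_sub, star_smul]
    rw [h4, sub_dotProduct, smul_dotProduct, this]
    simp
  rw [dotProduct_neg, dotProduct_smul, h3] at h1
  have h5 : (star w ⬝ᵥ w) = ((∑ i, ‖w i‖ ^ 2 : ℝ) : ℂ) := by
    simp only [dotProduct, Pi.star_apply]
    push_cast
    refine Finset.sum_congr rfl fun i _ => ?_
    rw [Complex.star_def, Complex.conj_mul']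
  rw [h5] at h1
  have h6 : (∑ i, ‖w i‖ ^ 2 : ℝ) ≤ 0 := by
    have : (-((Δ : ℂ) • ((∑ i, ‖w i‖ ^ 2 : ℝ) : ℂ))).re = -(Δ * ∑ i, ‖w i‖ ^ 2) := by
      rw [smul_eq_mul, ← Complex.ofReal_mul, ← Complex.ofReal_neg, Complex.ofReal_re]
    rw [this] at h1
    nlinarith
  have h7 : ∀ i, w i = 0 := by
    intro i
    have hnn : ∀ j ∈ Finset.univ, 0 ≤ ‖w j‖ ^ 2 := fun j _ => by positivity
    have := (Finset.sum_eq_zero_iff_of_nonneg hnn).mp
      (le_antisymm h6 (Finset.sum_nonneg hnn)) i (Finset.mem_univ i)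
    simpa using this
  funext i
  have := h7 i
  simp only [hw, Pi.sub_apply] at this
  exact sub_eq_zero.mp this

end Uniq

section Product

variable {s : Type} [DecidableEq s] {io : s → Type}
  [Fintype s] [∀ x, Fintype (io x)] [∀ x, DecidableEq (io x)]

/-- If `H = M₁ + M₂` with `M₁` supported in `A`, `M₂` supported off `A`, and the eigenspace of
`E₀` is spanned by `Ω ≠ 0`, then `Ω` is a product vector. -/
theorem zb_product (A : Finset s) {M₁ M₂ : Matrix (Cfg io) (Cfg io) ℂ}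
    (h₁ : SuppIn A M₁) (h₂ : SuppOff A M₂) (Ω : Cfg io → ℂ) (E₀ : ℂ) (hΩ : Ω ≠ 0)
    (heig : (M₁ + M₂) *ᵥ Ω = E₀ • Ω)
    (huniq : ∀ v, (M₁ + M₂) *ᵥ v = E₀ • v → ∃ c : ℂ, v = c • Ω) :
    ∃ u v, Ω = pvec A u v := by
  obtain ⟨K, rfl⟩ := h₁
  obtain ⟨K', rfl⟩ := h₂
  -- `emb A K Ω = α Ω`
  obtain ⟨α, hα⟩ : ∃ α : ℂ, emb A K *ᵥ Ω = α • Ω := by
    apply huniq
    have : (emb A K + embOff A K') *ᵥ (emb A K *ᵥ Ω)
        = emb A K *ᵥ ((emb A K + embOff A K') *ᵥ Ω) := by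
      rw [add_mulVec, add_mulVec, mulVec_add, sp_comm_mulVec]
    rw [this, heig, mulVec_smul]
  have hβ : embOff A K' *ᵥ Ω = (E₀ - α) • Ω := by
    rw [add_mulVec, hα] at heig
    rw [sub_smul, ← heig]
    simp
  obtain ⟨σ₀, hσ₀⟩ : ∃ σ₀, Ω σ₀ ≠ 0 := by
    by_contra hcon
    push Not at hcon
    exact hΩ (funext hcon)
  set a₀ := crOn A σ₀ with ha₀
  set b₀ := crOff A σ₀ with hb₀
  set u : CfgOn io A → ℂ := fun a => Ω (cglue A a b₀) with hu
  set v : CfgOff io A → ℂ := fun b => Ω (cglue A a₀ b) with hv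
  have hKu : ∀ a, ∑ a', K a a' * u a' = α * u a := by
    intro a
    have := congrFun hα (cglue A a b₀)
    rw [sp_emb_mulVec] at this
    simpa using this
  have hKv : ∀ b, ∑ b', K' b b' * v b' = (E₀ - α) * v b := by
    intro b
    have := congrFun hβ (cglue A a₀ b)
    rw [sp_embOff_mulVec] at this
    simpa using this
  have hprod : (emb A K + embOff A K') *ᵥ pvec A u v = E₀ • pvec A u v := by
    funext σ
    rw [add_mulVec, Pi.add_apply, sp_emb_mulVec, sp_embOff_mulVec]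
    simp only [pvec, sp_crOn_cglue, sp_crOff_cglue, Pi.smul_apply, smul_eq_mul]
    have e1 : ∑ a', K (crOn A σ) a' * (u a' * v (crOff A σ))
        = (∑ a', K (crOn A σ) a' * u a') * v (crOff A σ) := by
      rw [Finset.sum_mul]
      exact Finset.sum_congr rfl fun _ _ => by ring
    have e2 : ∑ b', K' (crOff A σ) b' * (u (crOn A σ) * v b')
        = u (crOn A σ) * ∑ b', K' (crOff A σ) b' * v b' := by
      rw [Finset.mul_sum]
      exact Finset.sum_congr rfl fun _ _ => by ring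
    rw [e1, e2, hKu, hKv]
    ring
  obtain ⟨c, hc⟩ := huniq _ hprod
  have hc0 : c = Ω σ₀ := by
    have := congrFun hc σ₀
    simp only [pvec, hu, hv, Pi.smul_apply, smul_eq_mul, ← ha₀, ← hb₀] at this
    rw [ha₀, hb₀, sp_cglue_cr] at this
    exact (mul_right_cancel₀ hσ₀ this).symm
  refine ⟨fun a => c⁻¹ * u a, v, ?_⟩
  funext σ
  have := congrFun hc σ
  simp only [pvec, Pi.smul_apply, smul_eq_mul] at this ⊢
  rw [mul_assoc, this, ← mul_assoc, inv_mul_cancel₀ (hc0 ▸ hσ₀), one_mul]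

/-- the marginal of a normalised product vector is idempotent, so its entropy vanishes -/
theorem zb_ent_pvec (A : Finset s) (u : CfgOn io A → ℂ) (v : CfgOff io A → ℂ)
    (hnorm : star (pvec A u v) ⬝ᵥ pvec A u v = 1) :
    ent (pureOp (pvec A u v)) A = 0 := by
  unfold ent
  apply zb_vnEnt_idem
  set t : ℂ := ∑ b, v b * star (v b) with ht
  have hρ : ptr A (pureOp (pvec A u v)) = t • vecMulVec u (star u) := by
    ext a a'
    simp only [ptr, pureOp, pvec, vecMulVec_apply, Matrix.of_apply, Pi.star_apply,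
      sp_crOn_cglue, sp_crOff_cglue, Matrix.smul_apply, smul_eq_mul, ht, Finset.sum_mul,
      star_mul']
    exact Finset.sum_congr rfl fun _ _ => by ring
  have hn : t * (star u ⬝ᵥ u) = 1 := by
    rw [← hnorm]
    simp only [dotProduct, Pi.star_apply]
    rw [sp_sum_cfg A]
    simp only [pvec, sp_crOn_cglue, sp_crOff_cglue, ht, star_mul']
    rw [Finset.sum_mul_sum, Finset.sum_comm]
    exact Finset.sum_congr rfl fun _ _ => Finset.sum_congr rfl fun _ _ => by ring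
  rw [hρ, smul_mul_smul_comm, vecMulVec_mul_vecMulVec, vecMulVec_smul, smul_smul, mul_assoc, hn,
    mul_one]

end Product

section Graph

variable {Λ : Finset (ℤ × ℤ)}

theorem zb_adj_iff (x y : Λ) : (latticeGraph Λ).Adj x y ↔
    |(x : ℤ × ℤ).1 - (y : ℤ × ℤ).1| + |(x : ℤ × ℤ).2 - (y : ℤ × ℤ).2| = 1 := by
  unfold latticeGraph
  rw [SimpleGraph.fromRel_adj]
  constructor
  · rintro ⟨_, h | h⟩
    · exact h
    · rw [abs_sub_comm, abs_sub_comm (x : ℤ × ℤ).2]
      exact h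
  · intro h
    refine ⟨?_, Or.inl h⟩
    rintro rfl
    simp at h

theorem zb_adj_mem {A : Finset Λ} (h : edgeBoundary Λ A = 0) {x y : Λ}
    (hadj : (latticeGraph Λ).Adj x y) (hx : x ∈ A) : y ∈ A := by
  by_contra hy
  unfold edgeBoundary at h
  rw [Finset.card_eq_zero] at h
  have : (x, y) ∈ (Finset.univ.filter fun p : Λ × Λ => p.1 ∈ A ∧ p.2 ∉ A ∧
    |(p.1 : ℤ × ℤ).1 - (p.2 : ℤ × ℤ).1| + |(p.1 : ℤ × ℤ).2 - (p.2 : ℤ × ℤ).2| = 1) := by
    simp only [Finset.mem_filter, Finset.mem_univ, true_and]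
    exact ⟨hx, hy, (zb_adj_iff x y).mp hadj⟩
  rw [h] at this
  simp at this

theorem zb_reachable_mem {A : Finset Λ} (h : edgeBoundary Λ A = 0) {x y : Λ}
    (hr : (latticeGraph Λ).Reachable x y) (hx : x ∈ A) : y ∈ A := by
  obtain ⟨w⟩ := hr
  induction w with
  | nil => exact hx
  | cons hadj _ ih => exact ih (zb_adj_mem h hadj hx)

theorem zb_adm_split {A : Finset Λ} (h : edgeBoundary Λ A = 0) {R : ℕ} {X : Finset Λ}
    (hX : X ∈ admissibleSupports Λ R) : X ⊆ A ∨ Disjoint X A := by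
  unfold admissibleSupports at hX
  simp only [Finset.mem_filter, Finset.mem_univ, true_and] at hX
  obtain ⟨_, hd⟩ := hX
  have hreach : ∀ x ∈ X, ∀ y ∈ X, (latticeGraph Λ).Reachable x y := by
    intro x hx y hy
    rw [← SimpleGraph.edist_ne_top_iff_reachable]
    exact ne_top_of_le_ne_top (ENat.natCast_ne_top R) (hd x hx y hy)
  by_cases hex : ∃ x ∈ X, x ∈ A
  · obtain ⟨x, hx, hxA⟩ := hex
    exact Or.inl fun y hy => zb_reachable_mem h (hreach x hx y hy) hxA
  · push Not at hex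
    exact Or.inr (Finset.disjoint_left.mpr hex)

end Graph

/-- **`lem:zero-boundary`** in the frozen form. -/
theorem zb_zero_boundary (q R : ℕ) [NeZero q] (Δ : ℝ) (hΔ : 0 < Δ) (Λ : Finset (ℤ × ℤ))
    (k : Finset Λ → Matrix (Λ → Fin q) (Λ → Fin q) ℂ) (E₀ : ℝ) (Ω : (Λ → Fin q) → ℂ)
    (hΩ : star Ω ⬝ᵥ Ω = 1)
    (heig : latticeHamiltonian Λ R q k *ᵥ Ω = (E₀ : ℂ) • Ω)
    (hgap : IsPSD (latticeHamiltonian Λ R q k - (E₀ : ℂ) • 1 -
            (Δ : ℂ) • (1 - vecMulVec Ω (star Ω))))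
    (A : Finset Λ) (hA : edgeBoundary Λ A = 0) : entanglementEntropy Ω A = 0 := by
  classical
  rw [entanglementEntropy_eq_ent]
  set S := admissibleSupports Λ R with hS
  set M₁ : Matrix (Λ → Fin q) (Λ → Fin q) ℂ := ∑ X ∈ S.filter (· ⊆ A), embedAt X (k X) with hM₁
  set M₂ : Matrix (Λ → Fin q) (Λ → Fin q) ℂ :=
    ∑ X ∈ S.filter (fun X => ¬ X ⊆ A), embedAt X (k X) with hM₂
  have hH : latticeHamiltonian Λ R q k = M₁ + M₂ := by
    unfold latticeHamiltonian
    rw [hM₁, hM₂, Finset.sum_filter_add_sum_filter_not]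
  have h₁ : SuppIn (io := fun _ : Λ => Fin q) A M₁ := by
    apply sp_suppIn_sum
    intro X hX
    exact (br_suppIn_embedAt X (k X)).sp_mono (Finset.mem_filter.mp hX).2
  have h₂ : SuppOff (io := fun _ : Λ => Fin q) A M₂ := by
    apply sp_suppOff_sum
    intro X hX
    obtain ⟨hXS, hXA⟩ := Finset.mem_filter.mp hX
    exact (br_suppIn_embedAt X (k X)).sp_off ((zb_adm_split hA hXS).resolve_left hXA)
  have hΩ0 : Ω ≠ 0 := by
    rintro rfl
    simp at hΩ
  obtain ⟨u, v, huv⟩ := zb_product (io := fun _ : Λ => Fin q) A h₁ h₂ Ω (E₀ : ℂ) hΩ0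
    (hH ▸ heig) (fun w hw => zb_ker_unique hΔ hΩ hgap w (hH ▸ hw))
  rw [huv]
  exact zb_ent_pvec A u v (huv ▸ hΩ)

end Claimed.Agent.R296
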