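import Mathlib
import Claimed.Agent.R296.TopDefs
import Claimed.Agent.R296.ZeroBd

/-!
# Row 296: local counting in the induced lattice graph (P1, Sec. 1.2)

* `ct_dOne_le`      : a graph path of length `r` has ambient `ℓ¹` displacement at most `r`;
* `ct_ball_card`    : `|B_Λ(x,r)| ≤ (2r+1)²`;
* `ct_terms_at`     : at most `2^((2R+1)²)` admissible supports contain a given site;
* `ct_split_count`  : at most `|∂D| (2R+1)² 2^((2R+1)²)` admissible supports are split by `D`.
Prefix `ct_`.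
-/

set_option autoImplicit false

namespace Claimed.Agent.R296

open Claims.C0473 Finset

theorem ct_dOne_self (x : ℤ × ℤ) : dOne x x = 0 := by simp [dOne]

theorem ct_dOne_comm (x y : ℤ × ℤ) : dOne x y = dOne y x := by
  simp [dOne, abs_sub_comm]

theorem ct_dOne_triangle (x y z : ℤ × ℤ) : dOne x z ≤ dOne x y + dOne y z := by
  unfold dOne
  have h1 := abs_sub_le x.1 y.1 z.1
  have h2 := abs_sub_le x.2 y.2 z.2
  linarith

theorem ct_dInf_le_dOne (x y : ℤ × ℤ) : dInf x y ≤ dOne x y := by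
  unfold dInf dOne
  have h1 := abs_nonneg (x.1 - y.1)
  have h2 := abs_nonneg (x.2 - y.2)
  exact max_le (by linarith) (by linarith)

theorem ct_dInf_self (x : ℤ × ℤ) : dInf x x = 0 := by simp [dInf]

theorem ct_dInf_comm (x y : ℤ × ℤ) : dInf x y = dInf y x := by
  simp [dInf, abs_sub_comm]

theorem ct_dInf_nonneg (x y : ℤ × ℤ) : 0 ≤ dInf x y :=
  le_max_of_le_left (abs_nonneg _)

theorem ct_dInf_triangle (x y z : ℤ × ℤ) : dInf x z ≤ dInf x y + dInf y z := by
  unfold dInf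
  have h1 := abs_sub_le x.1 y.1 z.1
  have h2 := abs_sub_le x.2 y.2 z.2
  have a1 := le_max_left |x.1 - y.1| |x.2 - y.2|
  have a2 := le_max_right |x.1 - y.1| |x.2 - y.2|
  have b1 := le_max_left |y.1 - z.1| |y.2 - z.2|
  have b2 := le_max_right |y.1 - z.1| |y.2 - z.2|
  exact max_le (by linarith) (by linarith)

variable {Λ : Finset (ℤ × ℤ)}

/-- the graph ball `B_Λ(x,r)` -/
noncomputable def gBall (Λ : Finset (ℤ × ℤ)) (x : Λ) (r : ℕ) : Finset Λ :=
  univ.filter fun y => (latticeGraph Λ).edist x y ≤ (r : ℕ∞)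

/-- the graph neighbourhood `N_r^Λ(D)` -/
noncomputable def gNbhd (Λ : Finset (ℤ × ℤ)) (D : Finset Λ) (r : ℕ) : Finset Λ :=
  univ.filter fun y => ∃ x ∈ D, (latticeGraph Λ).edist x y ≤ (r : ℕ∞)

theorem ct_mem_gBall {x y : Λ} {r : ℕ} :
    y ∈ gBall Λ x r ↔ (latticeGraph Λ).edist x y ≤ (r : ℕ∞) := by
  simp [gBall]

theorem ct_mem_gNbhd {D : Finset Λ} {y : Λ} {r : ℕ} :
    y ∈ gNbhd Λ D r ↔ ∃ x ∈ D, (latticeGraph Λ).edist x y ≤ (r : ℕ∞) := by
  simp [gNbhd]

theorem ct_adj_dOne {x y : Λ} : (latticeGraph Λ).Adj x y ↔ dOne (x : ℤ × ℤ) (y : ℤ × ℤ) = 1 :=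
  zb_adj_iff x y

theorem ct_walk_dOne {x y : Λ} (w : (latticeGraph Λ).Walk x y) :
    dOne (x : ℤ × ℤ) (y : ℤ × ℤ) ≤ w.length := by
  induction w with
  | nil => simp [ct_dOne_self]
  | @cons u v w' hadj p ih =>
    have h1 := ct_dOne_triangle (u : ℤ × ℤ) (v : ℤ × ℤ) (w' : ℤ × ℤ)
    have h2 := ct_adj_dOne.mp hadj
    rw [SimpleGraph.Walk.length_cons]
    push_cast
    linarith

/-- from `edist x y ≤ r` to a walk of length `≤ r` -/
theorem ct_exists_walk {x y : Λ} {r : ℕ} (h : (latticeGraph Λ).edist x y ≤ (r : ℕ∞)) :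
    ∃ w : (latticeGraph Λ).Walk x y, w.length ≤ r := by
  have hne : (latticeGraph Λ).edist x y ≠ ⊤ := ne_top_of_le_ne_top (ENat.natCast_ne_top r) h
  obtain ⟨w, hw⟩ := SimpleGraph.exists_walk_of_edist_ne_top hne
  refine ⟨w, ?_⟩
  rw [← hw] at h
  exact_mod_cast h

/-- a graph path of length `r` has ambient `ℓ¹` displacement at most `r` -/
theorem ct_dOne_le {x y : Λ} {r : ℕ} (h : (latticeGraph Λ).edist x y ≤ (r : ℕ∞)) :
    dOne (x : ℤ × ℤ) (y : ℤ × ℤ) ≤ r := by
  obtain ⟨w, hw⟩ := ct_exists_walk h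
  have := ct_walk_dOne w
  have h2 : (w.length : ℤ) ≤ r := by exact_mod_cast hw
  linarith

theorem ct_dInf_le {x y : Λ} {r : ℕ} (h : (latticeGraph Λ).edist x y ≤ (r : ℕ∞)) :
    dInf (x : ℤ × ℤ) (y : ℤ × ℤ) ≤ r :=
  (ct_dInf_le_dOne _ _).trans (ct_dOne_le h)

/-- `|B_Λ(x,r)| ≤ (2r+1)²` -/
theorem ct_ball_card (x : Λ) (r : ℕ) : (gBall Λ x r).card ≤ (2 * r + 1) ^ 2 := by
  have hcard : ((Icc (-(r : ℤ)) r) ×ˢ (Icc (-(r : ℤ)) r)).card = (2 * r + 1) ^ 2 := by
    rw [Finset.card_product, Int.card_Icc]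
    have : ((r : ℤ) + 1 - -(r : ℤ)).toNat = 2 * r + 1 := by omega
    rw [this, sq]
  rw [← hcard]
  apply Finset.card_le_card_of_injOn
    (fun y : Λ => ((y : ℤ × ℤ).1 - (x : ℤ × ℤ).1, (y : ℤ × ℤ).2 - (x : ℤ × ℤ).2))
  · intro y hy
    have hy' := ct_dInf_le (ct_mem_gBall.mp (by simpa using hy))
    unfold dInf at hy'
    have h1 := (le_max_left _ _).trans hy'
    have h2 := (le_max_right _ _).trans hy'
    rw [abs_le] at h1 h2
    simp only [coe_product, Set.mem_prod, mem_coe, mem_Icc]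
    constructor <;> constructor <;> linarith [h1.1, h1.2, h2.1, h2.2]
  · intro y _ z _ hyz
    simp only [Prod.mk.injEq] at hyz
    apply Subtype.ext
    apply Prod.ext
    · linarith [hyz.1]
    · linarith [hyz.2]

/-- every admissible support containing `x` lies in the ball `B_Λ(x,R)` -/
theorem ct_adm_subset_ball {R : ℕ} {X : Finset Λ} (hX : X ∈ admissibleSupports Λ R) {x : Λ}
    (hx : x ∈ X) : X ⊆ gBall Λ x R := by
  unfold admissibleSupports at hX
  simp only [mem_filter, mem_univ, true_and] at hX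
  intro y hy
  exact ct_mem_gBall.mpr (hX.2 x hx y hy)

/-- the number of admissible supports containing a given site -/
theorem ct_terms_at (R : ℕ) (x : Λ) :
    ((admissibleSupports Λ R).filter fun X => x ∈ X).card ≤ 2 ^ ((2 * R + 1) ^ 2) := by
  calc ((admissibleSupports Λ R).filter fun X => x ∈ X).card
      ≤ (gBall Λ x R).powerset.card := by
        apply Finset.card_le_card
        intro X hX
        rw [mem_filter] at hX
        exact mem_powerset.mpr (ct_adm_subset_ball hX.1 hX.2)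
    _ = 2 ^ (gBall Λ x R).card := Finset.card_powerset _
    _ ≤ 2 ^ ((2 * R + 1) ^ 2) := Nat.pow_le_pow_right (by norm_num) (ct_ball_card x R)

/-- a walk from `D` to its complement crosses the boundary -/
theorem ct_walk_cross {D : Finset Λ} {x y : Λ} (w : (latticeGraph Λ).Walk x y) (hx : x ∈ D)
    (hy : y ∉ D) : ∃ p p' : Λ, (latticeGraph Λ).Adj p p' ∧ p ∈ D ∧ p' ∉ D ∧
      (latticeGraph Λ).edist p x ≤ (w.length : ℕ∞) ∧
      (latticeGraph Λ).edist p' x ≤ (w.length : ℕ∞) := by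
  induction w with
  | nil => exact absurd hx hy
  | @cons u v w' hadj p ih =>
    have huv : (latticeGraph Λ).edist v u ≤ 1 := by
      have := SimpleGraph.edist_le (SimpleGraph.Walk.cons hadj.symm SimpleGraph.Walk.nil)
      simpa using this
    by_cases hv : v ∈ D
    · obtain ⟨a, a', hadj', ha, ha', hd, hd'⟩ := ih hv hy
      refine ⟨a, a', hadj', ha, ha', ?_, ?_⟩
      · calc (latticeGraph Λ).edist a u
            ≤ (latticeGraph Λ).edist a v + (latticeGraph Λ).edist v u :=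
              SimpleGraph.edist_triangle
          _ ≤ (p.length : ℕ∞) + 1 := add_le_add hd huv
          _ = ((SimpleGraph.Walk.cons hadj p).length : ℕ∞) := by simp
      · calc (latticeGraph Λ).edist a' u
            ≤ (latticeGraph Λ).edist a' v + (latticeGraph Λ).edist v u :=
              SimpleGraph.edist_triangle
          _ ≤ (p.length : ℕ∞) + 1 := add_le_add hd' huv
          _ = ((SimpleGraph.Walk.cons hadj p).length : ℕ∞) := by simp
    · refine ⟨u, v, hadj, hx, hv, by simp, ?_⟩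
      refine huv.trans ?_
      simp

/-- the set of ordered boundary pairs counted by the frozen `edgeBoundary` -/
noncomputable def bdPairs (Λ : Finset (ℤ × ℤ)) (D : Finset Λ) : Finset (Λ × Λ) :=
  univ.filter fun p : Λ × Λ => p.1 ∈ D ∧ p.2 ∉ D ∧
    |(p.1 : ℤ × ℤ).1 - (p.2 : ℤ × ℤ).1| + |(p.1 : ℤ × ℤ).2 - (p.2 : ℤ × ℤ).2| = 1

theorem ct_card_bdPairs (D : Finset Λ) : (bdPairs Λ D).card = edgeBoundary Λ D := rfl

/-- an admissible support is split by `D` -/
def IsSplit (D X : Finset Λ) : Prop := (∃ x ∈ X, x ∈ D) ∧ ∃ y ∈ X, y ∉ D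

/-- a split admissible support contains a site within graph distance `R` of the inner end point of
a crossing edge -/
theorem ct_split_near {R : ℕ} {D X : Finset Λ} (hX : X ∈ admissibleSupports Λ R)
    (hs : IsSplit D X) : ∃ p ∈ bdPairs Λ D, ∃ x ∈ gBall Λ p.1 R, x ∈ X := by
  obtain ⟨⟨x, hxX, hxD⟩, y, hyX, hyD⟩ := hs
  have hd := ct_mem_gBall.mp (ct_adm_subset_ball hX hxX hyX)
  obtain ⟨w, hw⟩ := ct_exists_walk hd
  obtain ⟨p, p', hadj, hp, hp', hdist, _⟩ := ct_walk_cross w hxD hyD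
  refine ⟨(p, p'), ?_, x, ?_, hxX⟩
  · simp only [bdPairs, mem_filter, mem_univ, true_and]
    exact ⟨hp, hp', (zb_adj_iff p p').mp hadj⟩
  · exact ct_mem_gBall.mpr (hdist.trans (by exact_mod_cast hw))

open Classical in
/-- **crossing count** (P1, eq. (1.4)) -/
theorem ct_split_count (R : ℕ) (D : Finset Λ) :
    ((admissibleSupports Λ R).filter fun X => IsSplit D X).card
      ≤ edgeBoundary Λ D * ((2 * R + 1) ^ 2 * 2 ^ ((2 * R + 1) ^ 2)) := by
  have hsub : ((admissibleSupports Λ R).filter fun X => IsSplit D X)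
      ⊆ (bdPairs Λ D).biUnion fun p => (gBall Λ p.1 R).biUnion fun x =>
        (admissibleSupports Λ R).filter fun X => x ∈ X := by
    intro X hX
    rw [mem_filter] at hX
    obtain ⟨p, hp, x, hx, hxX⟩ := ct_split_near hX.1 hX.2
    rw [mem_biUnion]
    refine ⟨p, hp, ?_⟩
    rw [mem_biUnion]
    exact ⟨x, hx, mem_filter.mpr ⟨hX.1, hxX⟩⟩
  refine (Finset.card_le_card hsub).trans ?_
  rw [← ct_card_bdPairs]
  refine Finset.card_biUnion_le_card_mul _ _ _ fun p _ => ?_
  refine (Finset.card_biUnion_le_card_mul _ _ (2 ^ ((2 * R + 1) ^ 2))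
    fun x _ => ct_terms_at R x).trans ?_
  exact Nat.mul_le_mul_right _ (ct_ball_card p.1 R)

end Claimed.Agent.R296
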