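import Claimed.Agent.R296.LRPos
import Claimed.Agent.R296.Count
import Claimed.Agent.R296.BridgeNorm

/-!
# Row 296, paper 1, Section 3: exports on the frozen objects of `Def_0473`

* `AdmIx Λ R` : index type of the interaction terms (admissible supports);
* `locHam_lattice` : the frozen Hamiltonian is a `LocHam` on `latticeGraph Λ`;
* `sec3_lr_ce` : `lem:quasilocal-lr`;
* `sec3_positive` : `prop:positive`.
-/

set_option autoImplicit false

namespace Claimed.Agent.R296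

open Matrix Claims.C0473
open scoped MatrixOrder Matrix.Norms.L2Operator ComplexOrder

/-- index type of the interaction terms -/
abbrev AdmIx (Λ : Finset (ℤ × ℤ)) (R : ℕ) : Type := {X : Finset Λ // X ∈ admissibleSupports Λ R}

/-- the multiplicity constant `μ_R` in the form of `Count.lean` -/
def muR (R : ℕ) : ℕ := 2 ^ ((2 * R + 1) ^ 2)

variable {q R : ℕ} [NeZero q] {J Δ : ℝ} {Λ : Finset (ℤ × ℤ)}
  {k : Finset Λ → Matrix (Λ → Fin q) (Λ → Fin q) ℂ}

theorem sum_admIx (k : Finset Λ → Matrix (Λ → Fin q) (Λ → Fin q) ℂ) :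
    ∑ X : AdmIx Λ R, embedAt X.1 (k X.1) = latticeHamiltonian Λ R q k := by
  unfold latticeHamiltonian
  exact Finset.sum_coe_sort (admissibleSupports Λ R) fun X => embedAt X (k X)

theorem admIx_diam (X : AdmIx Λ R) : ∀ x ∈ X.1, ∀ y ∈ X.1,
    (latticeGraph Λ).edist x y ≤ (R : ℕ∞) := by
  have h := X.2
  unfold admissibleSupports at h
  rw [Finset.mem_filter] at h
  exact h.2.2

theorem admIx_nonempty (X : AdmIx Λ R) : X.1.Nonempty := by
  have h := X.2
  unfold admissibleSupports at h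
  rw [Finset.mem_filter] at h
  exact h.2.1

theorem admIx_mult (x : Λ) : (Finset.univ.filter fun X : AdmIx Λ R => x ∈ X.1).card ≤ muR R := by
  classical
  refine le_trans ?_ (ct_terms_at R x)
  apply Finset.card_le_card_of_injOn (fun X => X.1)
  · intro X hX
    simp only [Finset.coe_filter, Finset.mem_univ, true_and, Set.mem_ofPred_eq] at hX
    simp only [Finset.coe_filter, Set.mem_ofPred_eq]
    exact ⟨X.2, hX⟩
  · intro X _ Y _ h
    exact Subtype.ext h

/-- the frozen Hamiltonian as a finite-range Hamiltonian on the induced lattice graph -/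
theorem locHam_lattice (hJ : 0 ≤ J) (hk : AdmInt q R J Λ k) :
    LocHam (io := fun _ : Λ => Fin q) (latticeGraph Λ) (fun X : AdmIx Λ R => X.1)
      (fun X => embedAt X.1 (k X.1)) q R (muR R) J where
  card_io := fun _ => by simp
  growth := fun x r => ct_ball_card x r
  diam := fun X => admIx_diam X
  mult := fun x => admIx_mult x
  supp := fun X => br_suppIn_embedAt X.1 (k X.1)
  herm := fun X => (hk X.1 X.2).1
  norm := fun X => hk.bn_norm_le hJ X.2

/-- **`lem:quasilocal-lr`, eq. (quasilocal-lr-ce)** on the frozen objects -/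
theorem sec3_lr_ce (q R : ℕ) [NeZero q] (J : ℝ) (hJ : 0 ≤ J) :
    ∃ C v c : ℝ, 0 < C ∧ 0 < v ∧ 0 < c ∧
      ∀ (Λ : Finset (ℤ × ℤ)) (k : Finset Λ → Matrix (Λ → Fin q) (Λ → Fin q) ℂ),
        AdmInt q R J Λ k → ∀ (X : AdmIx Λ R) (a : Λ), a ∈ X.1 →
        ∀ A : Matrix (Λ → Fin q) (Λ → Fin q) ℂ, SuppIn (io := fun _ : Λ => Fin q) X.1 A →
        ∀ (l : ℕ) (t : ℝ),
        ‖lrDyn (latticeHamiltonian Λ R q k) t A -
            cexp (io := fun _ : Λ => Fin q) (lrBall (latticeGraph Λ) a l)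
              (lrDyn (latticeHamiltonian Λ R q k) t A)‖
          ≤ ‖A‖ * min 2 (C * Real.exp (v * |t| - c * l)) := by
  obtain ⟨C, v, c, hC, hv, hc, h⟩ := lr_cexp_ball q R (muR R) J hJ
  refine ⟨C, v, c, hC, hv, hc, ?_⟩
  intro Λ k hk X a ha A hA l t
  have := h (locHam_lattice hJ hk) X a ha A hA l t
  rwa [sum_admIx] at this

/-- **`prop:positive`** on the frozen objects.  The constraints are indexed by the admissible
supports; `g = Δ / cs`. -/
theorem sec3_positive (q R : ℕ) [NeZero q] (J Δ : ℝ) (hJ : 0 < J) (hΔ : 0 < Δ) (α : ℝ)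
    (hα0 : 0 < α) (hα1 : α < 1) :
    ∃ cs C c : ℝ, 0 < cs ∧ 0 < C ∧ 0 < c ∧
      ∀ (Λ : Finset (ℤ × ℤ)) (k : Finset Λ → Matrix (Λ → Fin q) (Λ → Fin q) ℂ),
        AdmInt q R J Λ k → ∀ (E₀ : ℝ) (Ω : (Λ → Fin q) → ℂ), GapState q R Δ Λ k E₀ Ω →
        ∃ kk : AdmIx Λ R → Matrix (Λ → Fin q) (Λ → Fin q) ℂ,
          PosSys (io := fun _ : Λ => Fin q) (latticeGraph Λ) (fun X : AdmIx Λ R => X.1) Ω kk
            (Δ / cs) C c α ∧
          latticeHamiltonian Λ R q k - (E₀ : ℂ) • 1 ≤ (cs : ℂ) • ∑ X, kk X := by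
  obtain ⟨cs, C, c, hcs, hC, hc, h⟩ := lr_positive q R (muR R) J Δ hJ hΔ α hα0 hα1
  refine ⟨cs, C, c, hcs, hC, hc, ?_⟩
  intro Λ k hk E₀ Ω hΩ
  have h1 := h (locHam_lattice hJ.le hk) Ω E₀ hΩ.1 (by rw [sum_admIx]; exact hΩ.2.1)
    (by rw [sum_admIx]; exact hΩ.bn_gap)
  rwa [sum_admIx] at h1

end Claimed.Agent.R296
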