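import Claimed.Agent.R296.Defs
import Claimed.Agent.R296.Supp

/-!
# Row 296: locality calculus, part A (`emb` as a star-algebra homomorphism, `SuppIn` closure)

* `emb A` is an injective (hence isometric) unital star-algebra homomorphism;
* `SuppIn A` is closed under the algebraic operations, `star`, `NormedSpace.exp`, `cfc`;
* operators with disjoint supports commute.
(`Supp.lean` of helper6 may be used: `sp_sum_cfg`, `SuppIn.sp_mono`, ...)
-/

set_option autoImplicit false
set_option linter.unusedSectionVars false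

namespace Claimed.Agent.R296

open Matrix
open scoped MatrixOrder Matrix.Norms.L2Operator ComplexOrder

variable {s : Type} [DecidableEq s] [Fintype s] {io : s → Type}
  [∀ x, Fintype (io x)] [∀ x, DecidableEq (io x)]

/-! ### `emb` is a star-algebra homomorphism -/

theorem emb_eq_kronecker (A : Finset s) (K : Matrix (CfgOn io A) (CfgOn io A) ℂ) :
    emb A K = (kroneckerMap (· * ·) K (1 : Matrix (CfgOff io A) (CfgOff io A) ℂ)).submatrix
      (cfgSplit A) (cfgSplit A) := by
  ext σ τ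
  simp only [emb, Matrix.of_apply, submatrix_apply, kroneckerMap_apply, cfgSplit, Equiv.coe_fn_mk,
    Matrix.one_apply, mul_ite, mul_one, mul_zero]

theorem emb_one (A : Finset s) : emb A (1 : Matrix (CfgOn io A) (CfgOn io A) ℂ) = 1 := by
  rw [emb_eq_kronecker, kroneckerMap_one_one _ zero_mul mul_zero (one_mul 1),
    submatrix_one_equiv]

theorem emb_zero (A : Finset s) : emb A (0 : Matrix (CfgOn io A) (CfgOn io A) ℂ) = 0 := by
  exact sp_emb_zero A

theorem emb_add (A : Finset s) (K L : Matrix (CfgOn io A) (CfgOn io A) ℂ) :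
    emb A (K + L) = emb A K + emb A L := by
  exact sp_emb_add A K L

theorem emb_smul (A : Finset s) (c : ℂ) (K : Matrix (CfgOn io A) (CfgOn io A) ℂ) :
    emb A (c • K) = c • emb A K := by
  ext σ τ
  simp only [emb, Matrix.of_apply, Matrix.smul_apply, smul_eq_mul, mul_ite, mul_zero]

theorem emb_mul (A : Finset s) (K L : Matrix (CfgOn io A) (CfgOn io A) ℂ) :
    emb A (K * L) = emb A K * emb A L := by
  have h := Matrix.mul_kronecker_mul K L (1 : Matrix (CfgOff io A) (CfgOff io A) ℂ)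
    (1 : Matrix (CfgOff io A) (CfgOff io A) ℂ)
  rw [one_mul] at h
  rw [emb_eq_kronecker, emb_eq_kronecker, emb_eq_kronecker, submatrix_mul_equiv]
  exact congrArg (fun X => X.submatrix (cfgSplit A) (cfgSplit A)) h

theorem emb_conjTranspose (A : Finset s) (K : Matrix (CfgOn io A) (CfgOn io A) ℂ) :
    emb A Kᴴ = (emb A K)ᴴ := by
  ext σ τ
  simp only [emb, Matrix.of_apply, conjTranspose_apply]
  by_cases h : crOff A σ = crOff A τ
  · rw [if_pos h, if_pos h.symm]
  · rw [if_neg h, if_neg (fun h' => h h'.symm), star_zero]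

/-- `emb A` as a unital star-algebra homomorphism -/
noncomputable def embHom (A : Finset s) :
    Matrix (CfgOn io A) (CfgOn io A) ℂ →⋆ₐ[ℂ] Matrix (Cfg io) (Cfg io) ℂ where
  toFun := emb A
  map_one' := emb_one A
  map_mul' := emb_mul A
  map_zero' := emb_zero A
  map_add' := emb_add A
  commutes' c := by
    rw [Algebra.algebraMap_eq_smul_one, Algebra.algebraMap_eq_smul_one, emb_smul, emb_one]
  map_star' K := by
    rw [star_eq_conjTranspose, star_eq_conjTranspose, emb_conjTranspose]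

@[simp] theorem embHom_apply (A : Finset s) (K : Matrix (CfgOn io A) (CfgOn io A) ℂ) :
    embHom A K = emb A K := rfl

theorem continuous_embHom (A : Finset s) : Continuous (embHom (io := io) A) :=
  AddMonoidHomClass.continuous_of_bound (embHom A) 1 fun K => by
    simpa only [one_mul] using NonUnitalStarAlgHom.norm_apply_le (embHom A) K

theorem ptr_emb (A : Finset s) (K : Matrix (CfgOn io A) (CfgOn io A) ℂ) :
    ptr A (emb A K) = (Fintype.card (CfgOff io A) : ℂ) • K := by
  ext a a'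
  simp only [ptr, emb, Matrix.of_apply, sp_crOn_cglue, sp_crOff_cglue, if_true, Finset.sum_const,
    Finset.card_univ, Matrix.smul_apply, nsmul_eq_mul, smul_eq_mul]

theorem emb_injective [∀ x, Nonempty (io x)] (A : Finset s) :
    Function.Injective (emb (io := io) A) := by
  intro K L h
  have h1 := congrArg (ptr A) h
  rw [ptr_emb, ptr_emb] at h1
  have h2 : (Fintype.card (CfgOff io A) : ℂ) ≠ 0 := by
    exact_mod_cast Fintype.card_ne_zero
  exact smul_right_injective _ h2 h1

theorem norm_emb_le (A : Finset s) (K : Matrix (CfgOn io A) (CfgOn io A) ℂ) :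
    ‖emb A K‖ ≤ ‖K‖ := by
  exact NonUnitalStarAlgHom.norm_apply_le (embHom A) K

theorem norm_emb [∀ x, Nonempty (io x)] (A : Finset s)
    (K : Matrix (CfgOn io A) (CfgOn io A) ℂ) : ‖emb A K‖ = ‖K‖ := by
  exact NonUnitalStarAlgHom.norm_map (embHom A) (emb_injective A) K

theorem emb_nonneg {A : Finset s} {K : Matrix (CfgOn io A) (CfgOn io A) ℂ} (hK : 0 ≤ K) :
    0 ≤ emb A K := by
  exact map_nonneg (embHom A) hK

theorem emb_exp (A : Finset s) (K : Matrix (CfgOn io A) (CfgOn io A) ℂ) :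
    emb A (NormedSpace.exp K) = NormedSpace.exp (emb A K) := by
  exact NormedSpace.map_exp_of_mem_ball (𝕂 := ℂ) (embHom A) (continuous_embHom A) K
    ((NormedSpace.expSeries_radius_eq_top ℂ (Matrix (CfgOn io A) (CfgOn io A) ℂ)).symm ▸
      edist_lt_top _ _)

theorem emb_cfc_real (A : Finset s) (f : ℝ → ℝ) {K : Matrix (CfgOn io A) (CfgOn io A) ℂ}
    (hK : IsSelfAdjoint K) : emb A (cfc f K) = cfc f (emb A K) := by
  exact StarAlgHom.map_cfc (embHom A) f K (K.finite_real_spectrum.continuousOn f)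
    (continuous_embHom A) hK (hK.map (embHom A))

/-! ### entrywise characterisation and closure properties of `SuppIn` -/

/-- replace the values of `σ` off `A` by those of `ρ` -/
def cmix (A : Finset s) (σ ρ : Cfg io) : Cfg io := fun x => if x ∈ A then σ x else ρ x

/-- entrywise characterisation of `SuppIn` -/
theorem suppIn_iff (A : Finset s) (M : Matrix (Cfg io) (Cfg io) ℂ) :
    SuppIn A M ↔ (∀ σ τ : Cfg io, (∃ x, x ∉ A ∧ σ x ≠ τ x) → M σ τ = 0) ∧
      ∀ σ τ ρ : Cfg io, (∀ x, x ∉ A → σ x = τ x) → M (cmix A σ ρ) (cmix A τ ρ) = M σ τ := by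
  constructor
  · rintro ⟨K, rfl⟩
    refine ⟨fun σ τ h => ?_, fun σ τ ρ h => ?_⟩
    · obtain ⟨x, hx, hne⟩ := h
      simp only [emb, Matrix.of_apply]
      rw [if_neg]
      intro h'
      exact hne (congrFun h' ⟨x, hx⟩)
    · simp only [emb, Matrix.of_apply]
      have h1 : crOff A (cmix A σ ρ) = crOff A (cmix A τ ρ) := by
        funext x
        simp [crOff, cmix, x.2]
      have h2 : crOff A σ = crOff A τ := by
        funext x
        exact h x.1 x.2
      have h3 : ∀ υ : Cfg io, crOn A (cmix A υ ρ) = crOn A υ := by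
        intro υ
        funext x
        simp [crOn, cmix, x.2]
      rw [if_pos h1, if_pos h2, h3, h3]
  · rintro ⟨h1, h2⟩
    rcases isEmpty_or_nonempty (Cfg io) with hE | ⟨⟨ρ⟩⟩
    · exact ⟨0, by ext σ; exact hE.elim σ⟩
    · refine ⟨Matrix.of fun a a' => M (cglue A a (crOff A ρ)) (cglue A a' (crOff A ρ)), ?_⟩
      ext σ τ
      simp only [emb, Matrix.of_apply]
      have h3 : ∀ υ : Cfg io, cglue A (crOn A υ) (crOff A ρ) = cmix A υ ρ := by
        intro υ
        funext x
        by_cases hx : x ∈ A <;> simp [cglue, crOn, crOff, cmix, hx]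
      by_cases h : crOff A σ = crOff A τ
      · rw [if_pos h, h3, h3, h2 σ τ ρ fun x hx => congrFun h ⟨x, hx⟩]
      · rw [if_neg h]
        apply h1
        by_contra hcon
        push Not at hcon
        exact h (funext fun x => hcon x.1 x.2)

theorem SuppIn.one (A : Finset s) : SuppIn A (1 : Matrix (Cfg io) (Cfg io) ℂ) :=
  ⟨1, (emb_one A).symm⟩

theorem SuppIn.zero (A : Finset s) : SuppIn A (0 : Matrix (Cfg io) (Cfg io) ℂ) :=
  ⟨0, (emb_zero A).symm⟩

theorem SuppIn.add {A : Finset s} {M N : Matrix (Cfg io) (Cfg io) ℂ} (hM : SuppIn A M)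
    (hN : SuppIn A N) : SuppIn A (M + N) := by
  obtain ⟨K, rfl⟩ := hM
  obtain ⟨L, rfl⟩ := hN
  exact ⟨K + L, (emb_add A K L).symm⟩

theorem SuppIn.smul {A : Finset s} {M : Matrix (Cfg io) (Cfg io) ℂ} (c : ℂ) (hM : SuppIn A M) :
    SuppIn A (c • M) := by
  obtain ⟨K, rfl⟩ := hM
  exact ⟨c • K, (emb_smul A c K).symm⟩

theorem SuppIn.neg {A : Finset s} {M : Matrix (Cfg io) (Cfg io) ℂ} (hM : SuppIn A M) :
    SuppIn A (-M) := by
  have := hM.smul (-1)
  simpa using this

theorem SuppIn.sub {A : Finset s} {M N : Matrix (Cfg io) (Cfg io) ℂ} (hM : SuppIn A M)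
    (hN : SuppIn A N) : SuppIn A (M - N) := by
  rw [sub_eq_add_neg]
  exact hM.add hN.neg

theorem SuppIn.mul {A : Finset s} {M N : Matrix (Cfg io) (Cfg io) ℂ} (hM : SuppIn A M)
    (hN : SuppIn A N) : SuppIn A (M * N) := by
  obtain ⟨K, rfl⟩ := hM
  obtain ⟨L, rfl⟩ := hN
  exact ⟨K * L, (emb_mul A K L).symm⟩

theorem SuppIn.conjTranspose {A : Finset s} {M : Matrix (Cfg io) (Cfg io) ℂ} (hM : SuppIn A M) :
    SuppIn A Mᴴ := by
  obtain ⟨K, rfl⟩ := hM
  exact ⟨Kᴴ, (emb_conjTranspose A K).symm⟩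

theorem SuppIn.star {A : Finset s} {M : Matrix (Cfg io) (Cfg io) ℂ} (hM : SuppIn A M) :
    SuppIn A (star M) := hM.conjTranspose

theorem SuppIn.sum {ι : Type*} {A : Finset s} (S : Finset ι)
    {M : ι → Matrix (Cfg io) (Cfg io) ℂ} (hM : ∀ i ∈ S, SuppIn A (M i)) :
    SuppIn A (∑ i ∈ S, M i) := by
  classical
  induction S using Finset.induction_on with
  | empty => simpa using SuppIn.zero A
  | insert i S hi ih =>
    rw [Finset.sum_insert hi]
    exact (hM i (Finset.mem_insert_self i S)).add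
      (ih fun j hj => hM j (Finset.mem_insert_of_mem hj))

theorem SuppIn.mono {A B : Finset s} (hAB : A ⊆ B) {M : Matrix (Cfg io) (Cfg io) ℂ}
    (hM : SuppIn A M) : SuppIn B M := by
  exact hM.sp_mono hAB

theorem SuppIn.univ (M : Matrix (Cfg io) (Cfg io) ℂ) : SuppIn Finset.univ M := by
  rw [suppIn_iff]
  refine ⟨fun σ τ ⟨x, hx, _⟩ => absurd (Finset.mem_univ x) hx, fun σ τ ρ _ => ?_⟩
  have h : ∀ υ : Cfg io, cmix Finset.univ υ ρ = υ := fun υ => by
    funext x
    simp [cmix]
  rw [h, h]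

theorem SuppIn.inter {A B : Finset s} {M : Matrix (Cfg io) (Cfg io) ℂ}
    (hA : SuppIn A M) (hB : SuppIn B M) : SuppIn (A ∩ B) M := by
  rw [suppIn_iff] at hA hB ⊢
  refine ⟨fun σ τ ⟨x, hx, hne⟩ => ?_, fun σ τ ρ h => ?_⟩
  · by_cases hxA : x ∈ A
    · exact hB.1 σ τ ⟨x, fun hxB => hx (Finset.mem_inter.2 ⟨hxA, hxB⟩), hne⟩
    · exact hA.1 σ τ ⟨x, hxA, hne⟩
  · have h1 : ∀ υ : Cfg io, cmix (A ∩ B) υ ρ = cmix A (cmix B υ ρ) ρ := by
      intro υ
      funext x
      by_cases hxA : x ∈ A <;> by_cases hxB : x ∈ B <;> simp [cmix, hxA, hxB]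
    rw [h1, h1, hA.2 (cmix B σ ρ) (cmix B τ ρ) ρ, hB.2 σ τ ρ]
    · intro x hx
      exact h x fun hx' => hx (Finset.mem_inter.1 hx').2
    · intro x hx
      by_cases hxB : x ∈ B
      · simp only [cmix, if_pos hxB]
        exact h x fun hx' => hx (Finset.mem_inter.1 hx').1
      · simp only [cmix, if_neg hxB]

/-- operators with disjoint supports commute -/
theorem SuppIn.commute {A B : Finset s} (hAB : Disjoint A B) {M N : Matrix (Cfg io) (Cfg io) ℂ}
    (hM : SuppIn A M) (hN : SuppIn B N) : Commute M N := by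
  obtain ⟨K, rfl⟩ := hM
  obtain ⟨K', rfl⟩ := hN.sp_off hAB.symm
  change emb A K * embOff A K' = embOff A K' * emb A K
  apply Matrix.mulVec_injective
  funext Ψ
  rw [← Matrix.mulVec_mulVec, ← Matrix.mulVec_mulVec]
  exact sp_comm_mulVec A K K' Ψ

theorem SuppIn.exp {A : Finset s} {M : Matrix (Cfg io) (Cfg io) ℂ} (hM : SuppIn A M) :
    SuppIn A (NormedSpace.exp M) := by
  obtain ⟨K, rfl⟩ := hM
  exact ⟨NormedSpace.exp K, (emb_exp A K).symm⟩

theorem SuppIn.cfc_real [∀ x, Nonempty (io x)] {A : Finset s} {M : Matrix (Cfg io) (Cfg io) ℂ}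
    (hM : SuppIn A M) (hsa : IsSelfAdjoint M) (f : ℝ → ℝ) : SuppIn A (cfc f M) := by
  obtain ⟨K, rfl⟩ := hM
  have hK : IsSelfAdjoint K := by
    apply emb_injective A
    change emb A Kᴴ = emb A K
    rw [emb_conjTranspose]
    exact hsa
  exact ⟨cfc f K, (emb_cfc_real A f hK).symm⟩

theorem SuppIn.sqrt [∀ x, Nonempty (io x)] {A : Finset s} {M : Matrix (Cfg io) (Cfg io) ℂ}
    (hM : SuppIn A M) (h0 : 0 ≤ M) : SuppIn A (CFC.sqrt M) := by
  rw [CFC.sqrt_eq_real_sqrt M h0, cfcₙ_eq_cfc (by fun_prop) (by simp)]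
  exact hM.cfc_real (IsSelfAdjoint.of_nonneg h0) Real.sqrt

theorem SuppIn.abs [∀ x, Nonempty (io x)] {A : Finset s} {M : Matrix (Cfg io) (Cfg io) ℂ}
    (hM : SuppIn A M) : SuppIn A (CFC.abs M) := by
  exact (hM.star.mul hM).sqrt (star_mul_self_nonneg M)

end Claimed.Agent.R296
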