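/-
Row 296, paper P1 Section 2, Lemma 2.1 (lem:tail): the purely scalar leaves
(three lines on a narrow strip, the even Schwarz type quadratic bound, the dyadic iteration).
Owner: helper43.  Prefix `tl_`.
-/
import Mathlib

set_option autoImplicit false

namespace Claimed.Agent.R296

open Complex Filter Topology

/-! ### (T5) quadratic bound for the even part -/

/-- Schwarz type bound: an entire even function bounded by `M` on the closed disc of radius `δ`
satisfies `‖g z - g 0‖ ≤ 2 M ‖z‖² / δ²` on this disc. -/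
theorem tl_even_schwarz {g : ℂ → ℂ} (hg : Differentiable ℂ g) (heven : ∀ z, g (-z) = g z)
    {M δ : ℝ} (hδ : 0 < δ) (hM : ∀ z : ℂ, ‖z‖ ≤ δ → ‖g z‖ ≤ M) {z : ℂ} (hz : ‖z‖ ≤ δ) :
    ‖g z - g 0‖ ≤ 2 * M * ‖z‖ ^ 2 / δ ^ 2 := by
  have hM0 : 0 ≤ M := (norm_nonneg _).trans (hM 0 (by simpa using hδ.le))
  -- the derivative at `0` vanishes
  have hd0 : deriv g 0 = 0 := by
    have h1 : deriv (fun x => g (-x)) 0 = -deriv g (-0) := deriv_comp_neg (f := g) (x := (0 : ℂ))
    have h2 : (fun x => g (-x)) = g := funext heven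
    rw [h2, neg_zero] at h1
    have h3 : (2 : ℂ) * deriv g 0 = 0 := by linear_combination h1
    simpa using h3
  set g₁ : ℂ → ℂ := dslope g 0 with hg₁
  have hg₁d : Differentiable ℂ g₁ := by
    rw [← differentiableOn_univ]
    exact (Complex.differentiableOn_dslope univ_mem).2 hg.differentiableOn
  set k : ℂ → ℂ := dslope g₁ 0 with hk
  have hkd : Differentiable ℂ k := by
    rw [← differentiableOn_univ]
    exact (Complex.differentiableOn_dslope univ_mem).2 hg₁d.differentiableOn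
  have hg₁0 : g₁ 0 = 0 := by rw [hg₁, dslope_same, hd0]
  have hfac : ∀ w : ℂ, g w - g 0 = w ^ 2 * k w := by
    intro w
    have h1 := sub_smul_dslope g 0 w
    have h2 := sub_smul_dslope g₁ 0 w
    simp only [sub_zero, smul_eq_mul] at h1 h2
    rw [hg₁0, sub_zero] at h2
    rw [← h1, ← hg₁, ← h2, ← hk]
    ring
  have hbd : ∀ w ∈ frontier (Metric.ball (0 : ℂ) δ), ‖k w‖ ≤ 2 * M / δ ^ 2 := by
    intro w hw
    rw [frontier_ball (0 : ℂ) hδ.ne', mem_sphere_zero_iff_norm] at hw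
    have h1 := hfac w
    have h2 : ‖g w - g 0‖ ≤ 2 * M := by
      calc ‖g w - g 0‖ ≤ ‖g w‖ + ‖g 0‖ := norm_sub_le _ _
        _ ≤ M + M := add_le_add (hM w hw.le) (hM 0 (by simpa using hδ.le))
        _ = 2 * M := by ring
    rw [h1, norm_mul, norm_pow, hw] at h2
    rw [le_div_iff₀ (by positivity)]
    linarith
  have hk_le : ‖k z‖ ≤ 2 * M / δ ^ 2 := by
    refine Complex.norm_le_of_forall_mem_frontier_norm_le Metric.isBounded_ball
      hkd.diffContOnCl hbd ?_
    rw [closure_ball (0 : ℂ) hδ.ne']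
    simpa using hz
  rw [hfac z, norm_mul, norm_pow]
  calc ‖z‖ ^ 2 * ‖k z‖ ≤ ‖z‖ ^ 2 * (2 * M / δ ^ 2) := by gcongr
    _ = 2 * M * ‖z‖ ^ 2 / δ ^ 2 := by ring

/-- (T5) `f` entire, `|f| ≤ M` on the disc of radius `δ`, `f (-conj z) = conj (f z)`.  Then the real
part of `f x - f 0` is quadratically small on the real axis. -/
theorem tl_real_quadratic {f : ℂ → ℂ} (hf : Differentiable ℂ f)
    (hsym : ∀ z, f (-(starRingEnd ℂ z)) = starRingEnd ℂ (f z))
    {M δ : ℝ} (hδ : 0 < δ) (hM : ∀ z : ℂ, ‖z‖ ≤ δ → ‖f z‖ ≤ M) {x : ℝ} (hx : |x| ≤ δ) :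
    |(f x - f 0).re| ≤ 2 * M * x ^ 2 / δ ^ 2 := by
  set g : ℂ → ℂ := fun z => (f z + f (-z)) / 2 with hg
  have hgd : Differentiable ℂ g :=
    (hf.add (hf.comp differentiable_neg)).div_const 2
  have heven : ∀ z, g (-z) = g z := by
    intro z; simp only [hg, neg_neg]; ring
  have hgM : ∀ z : ℂ, ‖z‖ ≤ δ → ‖g z‖ ≤ M := by
    intro z hz
    simp only [hg]
    rw [norm_div]
    have h1 : ‖f z + f (-z)‖ ≤ M + M :=
      (norm_add_le _ _).trans (add_le_add (hM z hz) (hM (-z) (by rwa [norm_neg])))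
    have h2 : ‖(2 : ℂ)‖ = 2 := by simp
    rw [h2, div_le_iff₀ (by norm_num)]
    linarith
  have hmain := tl_even_schwarz hgd heven hδ hgM (z := (x : ℂ)) (by simpa using hx)
  have hre : (f x - f 0).re = (g x - g 0).re := by
    have h1 : f (-(x : ℂ)) = starRingEnd ℂ (f x) := by
      have := hsym (x : ℂ)
      rwa [Complex.conj_ofReal] at this
    simp only [hg, h1, neg_zero]
    simp only [Complex.sub_re, Complex.div_re, Complex.add_re, Complex.conj_re, Complex.add_im,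
      Complex.conj_im]
    norm_num
    ring
  rw [hre]
  refine (Complex.abs_re_le_norm _).trans (hmain.trans (le_of_eq ?_))
  simp [sq_abs]

/-! ### three lines on a narrow strip -/

/-- three lines between the imaginary axis and the line `re z = w`. -/
theorem tl_three_lines_right {f : ℂ → ℂ} (hf : Differentiable ℂ f) {c D w : ℝ} (hw : 0 < w)
    (hc : 0 ≤ c) (hD : 1 ≤ D) (h0 : ∀ z : ℂ, z.re = 0 → ‖f z‖ ≤ c)
    (hs : ∀ z : ℂ, 0 ≤ z.re → z.re ≤ w → ‖f z‖ ≤ c * D) {z : ℂ} (hz0 : 0 ≤ z.re)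
    (hzw : z.re ≤ w) : ‖f z‖ ≤ c * D ^ (z.re / w) := by
  rcases hc.eq_or_lt with rfl | hcpos
  · have := hs z hz0 hzw
    simpa using this
  have hB : BddAbove ((norm ∘ f) '' HadamardThreeLines.verticalClosedStrip 0 w) := by
    refine ⟨c * D, ?_⟩
    rintro _ ⟨y, hy, rfl⟩
    exact hs y hy.1 hy.2
  have key := HadamardThreeLines.norm_le_interp_of_mem_verticalClosedStrip' (f := f) (z := z)
    (a := c) (b := c * D) hw ⟨hz0, hzw⟩ hf.diffContOnCl hB (fun y hy => h0 y hy)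
    (fun y hy => hs y (by rw [show y.re = w from hy]; exact hw.le) (le_of_eq hy))
  simp only [sub_zero] at key
  refine key.trans (le_of_eq ?_)
  have hDpos : 0 < D := lt_of_lt_of_le one_pos hD
  rw [Real.mul_rpow hcpos.le hDpos.le, ← mul_assoc, ← Real.rpow_add hcpos]
  simp

/-- three lines on both sides of the imaginary axis. -/
theorem tl_three_lines {f : ℂ → ℂ} (hf : Differentiable ℂ f) {c D w : ℝ} (hw : 0 < w)
    (hc : 0 ≤ c) (hD : 1 ≤ D) (h0 : ∀ z : ℂ, z.re = 0 → ‖f z‖ ≤ c)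
    (hs : ∀ z : ℂ, |z.re| ≤ w → ‖f z‖ ≤ c * D) {z : ℂ} (hz : |z.re| ≤ w) :
    ‖f z‖ ≤ c * D ^ (|z.re| / w) := by
  rcases le_total 0 z.re with h | h
  · rw [abs_of_nonneg h] at hz ⊢
    exact tl_three_lines_right hf hw hc hD h0
      (fun y hy0 hyw => hs y (by rwa [abs_of_nonneg hy0])) h hz
  · rw [abs_of_nonpos h] at hz ⊢
    have := tl_three_lines_right (f := fun y => f (-y)) (hf.comp differentiable_neg) hw hc hD
      (fun y hy => h0 (-y) (by simp [hy]))
      (fun y hy0 hyw => hs (-y) (by simpa [abs_of_nonneg hy0] using hyw)) (z := -z)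
      (by simpa using h) (by simpa using hz)
    simpa using this

/-- the narrow strip bound `|f| ≤ e c₀` of (eq:initial-narrow-strip). -/
theorem tl_narrow_strip {f : ℂ → ℂ} (hf : Differentiable ℂ f) {c d : ℝ}
    (hc : 0 ≤ c) (hd : 1 ≤ d) (h0 : ∀ z : ℂ, z.re = 0 → ‖f z‖ ≤ c)
    (hs : ∀ z : ℂ, |z.re| ≤ 1 / 4 → ‖f z‖ ≤ 2 * c * d ^ 2) {z : ℂ}
    (hz : |z.re| ≤ 1 / (8 * (1 + Real.log d))) : ‖f z‖ ≤ Real.exp 1 * c := by
  have hlog : 0 ≤ Real.log d := Real.log_nonneg hd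
  have hl : 0 < 1 + Real.log d := by linarith
  have hdpos : 0 < d := lt_of_lt_of_le one_pos hd
  have hz4 : |z.re| ≤ 1 / 4 := by
    refine hz.trans ?_
    rw [div_le_div_iff₀ (by positivity) (by norm_num)]
    linarith
  have hD : (1 : ℝ) ≤ 2 * d ^ 2 := by nlinarith
  have key := tl_three_lines hf (c := c) (D := 2 * d ^ 2) (w := 1 / 4) (by norm_num) hc hD h0
    (fun y hy => (hs y hy).trans (le_of_eq (by ring))) hz4
  refine key.trans ?_
  rw [mul_comm]
  refine mul_le_mul_of_nonneg_right ?_ hc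
  have hDpos : 0 < 2 * d ^ 2 := by positivity
  rw [Real.rpow_def_of_pos hDpos]
  apply Real.exp_le_exp.2
  have hlogD : Real.log (2 * d ^ 2) ≤ 2 * (1 + Real.log d) := by
    rw [Real.log_mul (by norm_num) (by positivity), Real.log_pow]
    have : Real.log 2 ≤ 2 := by
      have := Real.log_two_lt_d9
      linarith
    push_cast
    linarith
  have hlogD0 : 0 ≤ Real.log (2 * d ^ 2) := Real.log_nonneg hD
  calc Real.log (2 * d ^ 2) * (|z.re| / (1 / 4))
      ≤ (2 * (1 + Real.log d)) * ((1 / (8 * (1 + Real.log d))) / (1 / 4)) := by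
        gcongr
    _ = 1 := by field_simp; norm_num

/-- **Lemma Q** (eq:initial-real-quadratic): the real quadratic bound. -/
theorem tl_quadratic {f : ℂ → ℂ} (hf : Differentiable ℂ f)
    (hsym : ∀ z, f (-(starRingEnd ℂ z)) = starRingEnd ℂ (f z)) {c d : ℝ}
    (hc : 0 ≤ c) (hd : 1 ≤ d) (h0 : ∀ z : ℂ, z.re = 0 → ‖f z‖ ≤ c)
    (hs : ∀ z : ℂ, |z.re| ≤ 1 / 4 → ‖f z‖ ≤ 2 * c * d ^ 2) {x : ℝ}
    (hx : |x| ≤ 1 / (8 * (1 + Real.log d))) :
    |(f x - f 0).re| ≤ 128 * Real.exp 1 * c * (1 + Real.log d) ^ 2 * x ^ 2 := by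
  have hlog : 0 ≤ Real.log d := Real.log_nonneg hd
  have hl : 0 < 1 + Real.log d := by linarith
  have hδ : 0 < 1 / (8 * (1 + Real.log d)) := by positivity
  have := tl_real_quadratic hf hsym hδ (M := Real.exp 1 * c)
    (fun z hz => tl_narrow_strip hf hc hd h0 hs ((Complex.abs_re_le_norm z).trans hz)) hx
  refine this.trans (le_of_eq ?_)
  field_simp
  ring

/-! ### (T8) the dyadic iteration -/

theorem tl_iterate {L : ℝ → ℝ} {S K u₀ : ℝ} (hK : 0 ≤ K) (hL0 : L 0 = 0)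
    (hd : HasDerivAt L S 0) (hrec : ∀ u, |u| ≤ u₀ → L u ≤ 2 * L (u / 2) + K * u ^ 2) {u : ℝ}
    (hu : |u| ≤ u₀) : L u ≤ u * S + 2 * K * u ^ 2 := by
  have hstep : ∀ n : ℕ, L u ≤ 2 ^ n * L (u / 2 ^ n) + K * u ^ 2 * (2 - 2 / 2 ^ n) := by
    intro n
    induction n with
    | zero => simp
    | succ n ih =>
      have h2 : (0 : ℝ) < 2 ^ n := by positivity
      have hun : |u / 2 ^ n| ≤ u₀ := by
        rw [abs_div, abs_of_pos h2]
        refine le_trans ?_ hu
        exact div_le_self (abs_nonneg u) (one_le_pow₀ (by norm_num))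
      have h1 := hrec _ hun
      have h3 : u / 2 ^ n / 2 = u / 2 ^ (n + 1) := by rw [pow_succ]; field_simp
      rw [h3] at h1
      calc L u ≤ 2 ^ n * L (u / 2 ^ n) + K * u ^ 2 * (2 - 2 / 2 ^ n) := ih
        _ ≤ 2 ^ n * (2 * L (u / 2 ^ (n + 1)) + K * (u / 2 ^ n) ^ 2)
              + K * u ^ 2 * (2 - 2 / 2 ^ n) := by gcongr
        _ = 2 ^ (n + 1) * L (u / 2 ^ (n + 1)) + K * u ^ 2 * (2 - 2 / 2 ^ (n + 1)) := by
            rw [pow_succ]; field_simp; ring
  have hstep' : ∀ n : ℕ, L u ≤ 2 ^ n * L (u / 2 ^ n) + 2 * K * u ^ 2 := by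
    intro n
    refine (hstep n).trans ?_
    have : 0 ≤ K * u ^ 2 * (2 / 2 ^ n) := by positivity
    nlinarith
  rcases eq_or_ne u 0 with rfl | hu0
  · simp [hL0]
  have hlim : Tendsto (fun n : ℕ => (2 : ℝ) ^ n * L (u / 2 ^ n)) atTop (𝓝 (u * S)) := by
    have h1 := hd.tendsto_slope_zero
    have h2 : Tendsto (fun n : ℕ => u / (2 : ℝ) ^ n) atTop (𝓝[≠] 0) := by
      rw [tendsto_nhdsWithin_iff]
      refine ⟨?_, Eventually.of_forall fun n => ?_⟩
      · have : Tendsto (fun n : ℕ => u * (1 / 2 : ℝ) ^ n) atTop (𝓝 (u * 0)) :=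
          (tendsto_pow_atTop_nhds_zero_of_lt_one (by norm_num) (by norm_num)).const_mul u
        simpa [div_eq_mul_inv] using this
      · simp only [Set.mem_compl_iff, Set.mem_singleton_iff]
        positivity
    have h3 := (h1.comp h2).const_mul u
    refine h3.congr fun n => ?_
    simp only [Function.comp, zero_add, hL0, sub_zero, smul_eq_mul]
    field_simp
  exact ge_of_tendsto' (hlim.add_const _) hstep'

end Claimed.Agent.R296
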