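/-
Row 296, paper P1 Section 2: the row/column Cauchy-Schwarz estimate (T1) and the Schmidt form (T2)
used in lem:tail, lem:initial-buffer (energy estimate), lem:skew and P2 prop:patch.

Everything is written in the SCHMIDT PICTURE: a vector on `α × β` is a rectangular matrix
`X : Matrix α β ℂ` whose rows are orthogonal, `X * Xᴴ = diagonal p`.
For an operator `h` on `α × β` the matrix `tlG X h j k = ⟨X_j, h_{jk} X_k⟩` collects all the
information needed to compute `⟨(diag a ⊗ 1) X, h (diag b ⊗ 1) X⟩ = ∑ conj a_j b_k G_jk`.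
Owner: helper43.  Prefix `tl`.
-/
import Mathlib

set_option autoImplicit false
set_option linter.unusedSectionVars false
set_option linter.unusedDecidableInType false

namespace Claimed.Agent.R296

open Matrix
open scoped Matrix.Norms.L2Operator ComplexOrder Kronecker

/-! ### plain `ℓ²` utilities -/

section Util

variable {m n : Type*} [Fintype m] [Fintype n]

/-- squared `ℓ²` norm of a plain vector -/
noncomputable def tlSq (v : n → ℂ) : ℝ := ∑ i, ‖v i‖ ^ 2

theorem tlSq_nonneg (v : n → ℂ) : 0 ≤ tlSq v := Finset.sum_nonneg fun _ _ => by positivity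

theorem tlSq_eq_norm (v : n → ℂ) : tlSq v = ‖(WithLp.toLp 2 v : EuclideanSpace ℂ n)‖ ^ 2 := by
  rw [EuclideanSpace.norm_sq_eq]; rfl

theorem tlSq_mulVec_le [DecidableEq n] (A : Matrix m n ℂ) (v : n → ℂ) :
    tlSq (A *ᵥ v) ≤ ‖A‖ ^ 2 * tlSq v := by
  have h := Matrix.l2_opNorm_mulVec A (WithLp.toLp 2 v)
  rw [tlSq_eq_norm, tlSq_eq_norm, ← mul_pow]
  exact pow_le_pow_left₀ (norm_nonneg _) h 2

theorem tl_star_dot_self (v : n → ℂ) : star v ⬝ᵥ v = ((tlSq v : ℝ) : ℂ) := by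
  simp only [dotProduct, Pi.star_apply, tlSq, Complex.ofReal_sum, Complex.ofReal_pow]
  refine Finset.sum_congr rfl fun i _ => ?_
  rw [RCLike.star_def, ← Complex.normSq_eq_conj_mul_self, Complex.normSq_eq_norm_sq]
  simp

/-- Cauchy-Schwarz for plain vectors -/
theorem tl_norm_dot_le (v w : n → ℂ) :
    ‖star v ⬝ᵥ w‖ ≤ Real.sqrt (tlSq v) * Real.sqrt (tlSq w) := by
  calc ‖star v ⬝ᵥ w‖ ≤ ∑ i, ‖v i‖ * ‖w i‖ := by
        simp only [dotProduct, Pi.star_apply]
        refine (norm_sum_le _ _).trans (Finset.sum_le_sum fun i _ => ?_)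
        rw [norm_mul, norm_star]
    _ ≤ _ := Real.sum_mul_le_sqrt_mul_sqrt _ _ _

theorem tl_norm_form_le [DecidableEq n] (A : Matrix m n ℂ) (v : m → ℂ) (w : n → ℂ) :
    ‖star v ⬝ᵥ (A *ᵥ w)‖ ≤ ‖A‖ * (Real.sqrt (tlSq v) * Real.sqrt (tlSq w)) := by
  refine (tl_norm_dot_le v (A *ᵥ w)).trans ?_
  have h1 : Real.sqrt (tlSq (A *ᵥ w)) ≤ ‖A‖ * Real.sqrt (tlSq w) := by
    calc Real.sqrt (tlSq (A *ᵥ w)) ≤ Real.sqrt (‖A‖ ^ 2 * tlSq w) :=
          Real.sqrt_le_sqrt (tlSq_mulVec_le A w)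
      _ = ‖A‖ * Real.sqrt (tlSq w) := by
          rw [Real.sqrt_mul (by positivity), Real.sqrt_sq (norm_nonneg _)]
  calc Real.sqrt (tlSq v) * Real.sqrt (tlSq (A *ᵥ w))
      ≤ Real.sqrt (tlSq v) * (‖A‖ * Real.sqrt (tlSq w)) := by gcongr
    _ = _ := by ring

theorem tl_col_sq_le [DecidableEq n] (A : Matrix m n ℂ) (k : n) :
    ∑ j, ‖A j k‖ ^ 2 ≤ ‖A‖ ^ 2 := by
  have h := tlSq_mulVec_le A (Pi.single k 1)
  have h1 : tlSq (Pi.single k (1 : ℂ) : n → ℂ) = 1 := by
    unfold tlSq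
    rw [Finset.sum_eq_single k]
    · simp
    · intro b _ hb; simp [Pi.single_eq_of_ne hb]
    · intro hk; exact absurd (Finset.mem_univ k) hk
  rw [h1, mul_one] at h
  refine le_trans (le_of_eq ?_) h
  unfold tlSq
  refine Finset.sum_congr rfl fun j _ => ?_
  simp

theorem tl_row_sq_le [DecidableEq m] [DecidableEq n] (A : Matrix m n ℂ) (j : m) :
    ∑ k, ‖A j k‖ ^ 2 ≤ ‖A‖ ^ 2 := by
  have h := tl_col_sq_le Aᴴ j
  rw [l2_opNorm_conjTranspose] at h
  refine le_trans (le_of_eq ?_) h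
  refine Finset.sum_congr rfl fun k _ => ?_
  simp

/-- **(T1)** row/column Cauchy-Schwarz (a Schur multiplier bound). -/
theorem tl_schur_bound [DecidableEq n] (c e : Matrix n n ℂ) (t : n → ℝ) (ω : n → n → ℂ)
    (hω : ∀ j k, ‖ω j k‖ ≤ t j + t k) (ht : ∀ j, 0 ≤ t j) :
    ‖∑ j, ∑ k, ω j k * (c j k * e j k)‖ ≤ 2 * (∑ j, t j) * (‖c‖ * ‖e‖) := by
  have hrow : ∀ j, ∑ k, ‖c j k‖ * ‖e j k‖ ≤ ‖c‖ * ‖e‖ := by
    intro j
    refine (Real.sum_mul_le_sqrt_mul_sqrt _ _ _).trans ?_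
    refine mul_le_mul ?_ ?_ (Real.sqrt_nonneg _) (norm_nonneg _)
    · exact (Real.sqrt_le_sqrt (tl_row_sq_le c j)).trans (le_of_eq (Real.sqrt_sq (norm_nonneg _)))
    · exact (Real.sqrt_le_sqrt (tl_row_sq_le e j)).trans (le_of_eq (Real.sqrt_sq (norm_nonneg _)))
  have hcol : ∀ k, ∑ j, ‖c j k‖ * ‖e j k‖ ≤ ‖c‖ * ‖e‖ := by
    intro k
    refine (Real.sum_mul_le_sqrt_mul_sqrt _ _ _).trans ?_
    refine mul_le_mul ?_ ?_ (Real.sqrt_nonneg _) (norm_nonneg _)
    · exact (Real.sqrt_le_sqrt (tl_col_sq_le c k)).trans (le_of_eq (Real.sqrt_sq (norm_nonneg _)))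
    · exact (Real.sqrt_le_sqrt (tl_col_sq_le e k)).trans (le_of_eq (Real.sqrt_sq (norm_nonneg _)))
  calc ‖∑ j, ∑ k, ω j k * (c j k * e j k)‖
      ≤ ∑ j, ∑ k, (t j + t k) * (‖c j k‖ * ‖e j k‖) := by
        refine (norm_sum_le _ _).trans (Finset.sum_le_sum fun j _ => ?_)
        refine (norm_sum_le _ _).trans (Finset.sum_le_sum fun k _ => ?_)
        rw [norm_mul, norm_mul]
        exact mul_le_mul_of_nonneg_right (hω j k) (by positivity)
    _ = ∑ j, t j * ∑ k, ‖c j k‖ * ‖e j k‖ + ∑ k, t k * ∑ j, ‖c j k‖ * ‖e j k‖ := by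
        simp only [add_mul, Finset.sum_add_distrib, Finset.mul_sum]
        congr 1
        exact Finset.sum_comm
    _ ≤ ∑ j, t j * (‖c‖ * ‖e‖) + ∑ k, t k * (‖c‖ * ‖e‖) := by
        refine add_le_add (Finset.sum_le_sum fun j _ => ?_) (Finset.sum_le_sum fun k _ => ?_)
        · exact mul_le_mul_of_nonneg_left (hrow j) (ht j)
        · exact mul_le_mul_of_nonneg_left (hcol k) (ht k)
    _ = 2 * (∑ j, t j) * (‖c‖ * ‖e‖) := by
        rw [← Finset.sum_mul]; ring

end Util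

/-! ### the Schmidt picture -/

section Schmidt

variable {α β : Type*} [Fintype α] [Fintype β] [DecidableEq α] [DecidableEq β]

/-- the vector `(diag a ⊗ 1) X` on `α × β` -/
def tlTw (a : α → ℂ) (X : Matrix α β ℂ) : α × β → ℂ := fun q => a q.1 * X q.1 q.2

/-- `G_jk = ⟨X_j, h_{jk} X_k⟩` -/
def tlG (X : Matrix α β ℂ) (h : Matrix (α × β) (α × β) ℂ) : Matrix α α ℂ :=
  Matrix.of fun j k => ∑ b, ∑ b', star (X j b) * h (j, b) (k, b') * X k b'

/-- the bilinear form `∑ a_j b_k G_jk` -/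
def tlB (X : Matrix α β ℂ) (h : Matrix (α × β) (α × β) ℂ) (a b : α → ℂ) : ℂ :=
  ∑ j, ∑ k, a j * b k * tlG X h j k

theorem tlG_apply (X : Matrix α β ℂ) (h : Matrix (α × β) (α × β) ℂ) (j k : α) :
    tlG X h j k = ∑ b, ∑ b', star (X j b) * h (j, b) (k, b') * X k b' := rfl

theorem tlB_eq_form (X : Matrix α β ℂ) (h : Matrix (α × β) (α × β) ℂ) (a b : α → ℂ) :
    tlB X h (star a) b = star (tlTw a X) ⬝ᵥ (h *ᵥ tlTw b X) := by
  simp only [tlB, tlG_apply, dotProduct, mulVec, Fintype.sum_prod_type, tlTw, Pi.star_apply,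
    star_mul', Finset.mul_sum]
  refine Finset.sum_congr rfl fun j _ => ?_
  rw [Finset.sum_comm]
  refine Finset.sum_congr rfl fun b _ => ?_
  refine Finset.sum_congr rfl fun k _ => ?_
  refine Finset.sum_congr rfl fun b' _ => ?_
  ring

theorem tlG_add (X : Matrix α β ℂ) (h h' : Matrix (α × β) (α × β) ℂ) :
    tlG X (h + h') = tlG X h + tlG X h' := by
  ext j k
  simp only [tlG_apply, Matrix.add_apply, mul_add, add_mul, Finset.sum_add_distrib]

theorem tlG_zero (X : Matrix α β ℂ) : tlG X 0 = 0 := by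
  ext j k
  simp [tlG_apply]

theorem tlG_sum {ι : Type*} (s : Finset ι) (X : Matrix α β ℂ)
    (h : ι → Matrix (α × β) (α × β) ℂ) : tlG X (∑ i ∈ s, h i) = ∑ i ∈ s, tlG X (h i) := by
  classical
  induction s using Finset.induction_on with
  | empty => simp [tlG_zero]
  | insert a s ha ih => rw [Finset.sum_insert ha, Finset.sum_insert ha, tlG_add, ih]

theorem tlB_sum {ι : Type*} (s : Finset ι) (X : Matrix α β ℂ)
    (h : ι → Matrix (α × β) (α × β) ℂ) (a b : α → ℂ) :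
    tlB X (∑ i ∈ s, h i) a b = ∑ i ∈ s, tlB X (h i) a b := by
  classical
  induction s using Finset.induction_on with
  | empty => simp [tlB, tlG_zero]
  | insert i s hi ih =>
    rw [Finset.sum_insert hi, Finset.sum_insert hi, ← ih]
    simp only [tlB, tlG_add, Matrix.add_apply, mul_add, Finset.sum_add_distrib]

theorem tlG_conj (X : Matrix α β ℂ) {h : Matrix (α × β) (α × β) ℂ} (hh : h.IsHermitian)
    (j k : α) : tlG X h k j = star (tlG X h j k) := by
  simp only [tlG_apply, star_sum, star_mul', star_star]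
  rw [Finset.sum_comm]
  refine Finset.sum_congr rfl fun b _ => Finset.sum_congr rfl fun b' _ => ?_
  have : star (h (j, b) (k, b')) = h (k, b') (j, b) := by
    have := congrFun (congrFun hh (k, b')) (j, b)
    simpa [conjTranspose_apply] using this
  rw [this]; ring

theorem tlG_kronecker (X : Matrix α β ℂ) (c : Matrix α α ℂ) (e : Matrix β β ℂ) (j k : α) :
    tlG X (c ⊗ₖ e) j k = c j k * ∑ b, ∑ b', star (X j b) * e b b' * X k b' := by
  simp only [tlG_apply, kroneckerMap_apply, Finset.mul_sum]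
  refine Finset.sum_congr rfl fun b _ => Finset.sum_congr rfl fun b' _ => ?_
  ring

variable {X : Matrix α β ℂ} {p : α → ℝ}

theorem tl_row_inner (hX : X * Xᴴ = diagonal (fun j => ((p j : ℝ) : ℂ))) (j k : α) :
    ∑ b, X j b * star (X k b) = if j = k then ((p j : ℝ) : ℂ) else 0 := by
  have := congrFun (congrFun hX j) k
  simpa [Matrix.mul_apply, conjTranspose_apply, diagonal_apply] using this

theorem tl_row_sq (hX : X * Xᴴ = diagonal (fun j => ((p j : ℝ) : ℂ))) (j : α) :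
    ∑ b, ‖X j b‖ ^ 2 = p j := by
  have h := tl_row_inner hX j j
  rw [if_pos rfl] at h
  have h2 : ((∑ b, ‖X j b‖ ^ 2 : ℝ) : ℂ) = ((p j : ℝ) : ℂ) := by
    rw [← h]
    push_cast
    refine Finset.sum_congr rfl fun b _ => ?_
    rw [RCLike.star_def, Complex.mul_conj, Complex.normSq_eq_norm_sq]
    simp
  exact_mod_cast h2

theorem tl_p_nonneg (hX : X * Xᴴ = diagonal (fun j => ((p j : ℝ) : ℂ))) (j : α) : 0 ≤ p j := by
  rw [← tl_row_sq hX j]; positivity

theorem tl_row_zero (hX : X * Xᴴ = diagonal (fun j => ((p j : ℝ) : ℂ))) {j : α} (hj : p j = 0)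
    (b : β) : X j b = 0 := by
  have h := tl_row_sq hX j
  rw [hj] at h
  have := (Finset.sum_eq_zero_iff_of_nonneg (fun b _ => by positivity)).1 h b (Finset.mem_univ b)
  simpa using this

theorem tlG_left_zero (hX : X * Xᴴ = diagonal (fun j => ((p j : ℝ) : ℂ)))
    (h : Matrix (α × β) (α × β) ℂ) {j : α} (hj : p j = 0) (k : α) : tlG X h j k = 0 := by
  simp [tlG_apply, tl_row_zero hX hj]

theorem tlG_right_zero (hX : X * Xᴴ = diagonal (fun j => ((p j : ℝ) : ℂ)))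
    (h : Matrix (α × β) (α × β) ℂ) (j : α) {k : α} (hk : p k = 0) : tlG X h j k = 0 := by
  simp [tlG_apply, tl_row_zero hX hk]

theorem tlSq_tlTw (hX : X * Xᴴ = diagonal (fun j => ((p j : ℝ) : ℂ))) (a : α → ℂ) :
    tlSq (tlTw a X) = ∑ j, ‖a j‖ ^ 2 * p j := by
  simp only [tlSq, Fintype.sum_prod_type, tlTw, norm_mul, mul_pow, ← Finset.mul_sum,
    tl_row_sq hX]

/-- (P1) the norm bound -/
theorem tlB_norm_le (hX : X * Xᴴ = diagonal (fun j => ((p j : ℝ) : ℂ)))
    (h : Matrix (α × β) (α × β) ℂ) (a b : α → ℂ) :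
    ‖tlB X h (star a) b‖ ≤
      ‖h‖ * (Real.sqrt (∑ j, ‖a j‖ ^ 2 * p j) * Real.sqrt (∑ j, ‖b j‖ ^ 2 * p j)) := by
  rw [tlB_eq_form, ← tlSq_tlTw hX, ← tlSq_tlTw hX]
  exact tl_norm_form_le h _ _

/-- (P6) operators on the first factor have a diagonal `G` -/
theorem tlG_kronecker_one (hX : X * Xᴴ = diagonal (fun j => ((p j : ℝ) : ℂ)))
    (c : Matrix α α ℂ) {j k : α} (hjk : j ≠ k) : tlG X (c ⊗ₖ (1 : Matrix β β ℂ)) j k = 0 := by
  rw [tlG_kronecker]
  have h := tl_row_inner hX k j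
  rw [if_neg (Ne.symm hjk)] at h
  have : ∑ b, ∑ b', star (X j b) * (1 : Matrix β β ℂ) b b' * X k b' = 0 := by
    rw [← h]
    refine Finset.sum_congr rfl fun b _ => ?_
    simp [Matrix.one_apply, mul_comm]
  rw [this, mul_zero]

/-- (P7) operators on the second factor have a diagonal `G` -/
theorem tlG_one_kronecker (X : Matrix α β ℂ) (e : Matrix β β ℂ) {j k : α} (hjk : j ≠ k) :
    tlG X ((1 : Matrix α α ℂ) ⊗ₖ e) j k = 0 := by
  rw [tlG_kronecker, Matrix.one_apply_ne hjk, zero_mul]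

/-- the compression of `e` to the normalised rows of `X` -/
noncomputable def tlComp (X : Matrix α β ℂ) (p : α → ℝ) (e : Matrix β β ℂ) : Matrix α α ℂ :=
  (Matrix.of fun (b : β) (j : α) => X j b / (Real.sqrt (p j) : ℂ))ᴴ * e *
    (Matrix.of fun (b : β) (j : α) => X j b / (Real.sqrt (p j) : ℂ))

theorem tlComp_norm_le (hX : X * Xᴴ = diagonal (fun j => ((p j : ℝ) : ℂ))) (e : Matrix β β ℂ) :
    ‖tlComp X p e‖ ≤ ‖e‖ := by
  set V : Matrix β α ℂ := Matrix.of fun (b : β) (j : α) => X j b / (Real.sqrt (p j) : ℂ) with hV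
  have hVV : Vᴴ * V = diagonal (fun j => if p j = 0 then (0 : ℂ) else 1) := by
    ext j k
    simp only [Matrix.mul_apply, conjTranspose_apply, hV, Matrix.of_apply, diagonal_apply]
    have h := tl_row_inner hX k j
    have h1 : ∑ b, star (X j b / (Real.sqrt (p j) : ℂ)) * (X k b / (Real.sqrt (p k) : ℂ))
        = (∑ b, X k b * star (X j b)) / ((Real.sqrt (p j) : ℂ) * (Real.sqrt (p k) : ℂ)) := by
      rw [Finset.sum_div]
      refine Finset.sum_congr rfl fun b _ => ?_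
      rw [star_div₀]
      have : star ((Real.sqrt (p j) : ℝ) : ℂ) = ((Real.sqrt (p j) : ℝ) : ℂ) := by
        rw [RCLike.star_def, Complex.conj_ofReal]
      rw [this]
      ring
    rw [h1, h]
    by_cases hjk : j = k
    · subst hjk
      simp only [if_true]
      by_cases hp : p j = 0
      · simp [hp]
      · rw [if_neg hp, ← Complex.ofReal_mul, Real.mul_self_sqrt (tl_p_nonneg hX j)]
        exact div_self (by exact_mod_cast hp)
    · rw [if_neg (Ne.symm hjk), if_neg hjk, zero_div]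
  have hVn : ‖V‖ ≤ 1 := by
    have h1 := l2_opNorm_conjTranspose_mul_self V
    rw [hVV, l2_opNorm_diagonal] at h1
    have h2 : ‖(fun j => if p j = 0 then (0 : ℂ) else 1)‖ ≤ 1 :=
      (pi_norm_le_iff_of_nonneg zero_le_one).2 fun j => by split_ifs <;> simp
    nlinarith [norm_nonneg V]
  have hVn' : ‖Vᴴ‖ ≤ 1 := by rwa [l2_opNorm_conjTranspose]
  calc ‖tlComp X p e‖ = ‖Vᴴ * e * V‖ := rfl
    _ ≤ ‖Vᴴ‖ * ‖e‖ * ‖V‖ :=
        (l2_opNorm_mul _ _).trans (mul_le_mul_of_nonneg_right (l2_opNorm_mul _ _) (norm_nonneg _))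
    _ ≤ 1 * ‖e‖ * 1 := by gcongr
    _ = ‖e‖ := by ring

/-- (P4) **Schmidt form** of a product operator -/
theorem tlG_kronecker_eq (hX : X * Xᴴ = diagonal (fun j => ((p j : ℝ) : ℂ)))
    (c : Matrix α α ℂ) (e : Matrix β β ℂ) (j k : α) :
    tlG X (c ⊗ₖ e) j k =
      ((Real.sqrt (p j) * Real.sqrt (p k) : ℝ) : ℂ) * (c j k * tlComp X p e j k) := by
  rw [tlG_kronecker]
  have hx : ∀ (i : α) (b : β), X i b = (Real.sqrt (p i) : ℂ) * (X i b / (Real.sqrt (p i) : ℂ)) := by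
    intro i b
    by_cases hp : p i = 0
    · simp [tl_row_zero hX hp]
    · have : (Real.sqrt (p i) : ℂ) ≠ 0 := by
        have := Real.sqrt_ne_zero'.2 (lt_of_le_of_ne (tl_p_nonneg hX i) (Ne.symm hp))
        exact_mod_cast this
      field_simp
  have h1 : tlComp X p e j k = ∑ b, ∑ b', star (X j b / (Real.sqrt (p j) : ℂ)) * e b b' *
      (X k b' / (Real.sqrt (p k) : ℂ)) := by
    simp only [tlComp, Matrix.mul_apply, conjTranspose_apply, Matrix.of_apply, Finset.sum_mul]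
    exact Finset.sum_comm
  rw [h1]
  simp only [Finset.mul_sum]
  refine Finset.sum_congr rfl fun b _ => Finset.sum_congr rfl fun b' _ => ?_
  conv_lhs => rw [hx j b, hx k b']
  rw [star_mul']
  have : star ((Real.sqrt (p j) : ℝ) : ℂ) = ((Real.sqrt (p j) : ℝ) : ℂ) := by
    rw [RCLike.star_def, Complex.conj_ofReal]
  rw [this]
  push_cast
  ring

/-- **(T1)+(T2)**: weighted sums of the `G` matrix of a product operator. -/
theorem tlG_weighted_bound (hX : X * Xᴴ = diagonal (fun j => ((p j : ℝ) : ℂ)))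
    (c : Matrix α α ℂ) (e : Matrix β β ℂ) (t : α → ℝ) (ht : ∀ j, 0 ≤ t j) (ω : α → α → ℂ)
    (hω : ∀ j k, ‖ω j k‖ * (Real.sqrt (p j) * Real.sqrt (p k)) ≤ t j + t k) :
    ‖∑ j, ∑ k, ω j k * tlG X (c ⊗ₖ e) j k‖ ≤ 2 * (∑ j, t j) * (‖c‖ * ‖e‖) := by
  have h1 : ∑ j, ∑ k, ω j k * tlG X (c ⊗ₖ e) j k
      = ∑ j, ∑ k, (ω j k * ((Real.sqrt (p j) * Real.sqrt (p k) : ℝ) : ℂ)) *
          (c j k * tlComp X p e j k) := by
    refine Finset.sum_congr rfl fun j _ => Finset.sum_congr rfl fun k _ => ?_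
    rw [tlG_kronecker_eq hX]; ring
  rw [h1]
  refine (tl_schur_bound c (tlComp X p e) t _ (fun j k => ?_) ht).trans ?_
  · rw [norm_mul, Complex.norm_real, Real.norm_of_nonneg (by positivity)]
    exact hω j k
  · have := tlComp_norm_le hX e
    have hs : 0 ≤ ∑ j, t j := Finset.sum_nonneg fun j _ => ht j
    gcongr

end Schmidt

end Claimed.Agent.R296
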