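/-
Row 296, paper P1 Section 2, Lemma 2.1 (lem:tail): the analytic core in the Schmidt picture.
`X : Matrix α β ℂ` is the ground vector written in a Schmidt basis of the first factor,
`X * Xᴴ = diagonal p`.  Owner: helper43.  Prefix `tl`.
-/
import Claimed.Agent.R296.TailScalar
import Claimed.Agent.R296.TailSchur

set_option autoImplicit false
set_option linter.unusedSectionVars false
set_option linter.unusedDecidableInType false

namespace Claimed.Agent.R296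

open Matrix
open scoped Matrix.Norms.L2Operator ComplexOrder Kronecker

variable {α β : Type*} [Fintype α] [Fintype β] [DecidableEq α] [DecidableEq β]

/-- `x ^ t` on the support (`0` at `x ≤ 0`) -/
noncomputable def tlPw (x t : ℝ) : ℝ := if 0 < x then x ^ t else 0

/-- `M(u) = ∑_{p_j > 0} p_j ^ (1 - u)` -/
noncomputable def tlM (p : α → ℝ) (u : ℝ) : ℝ := ∑ j, tlPw (p j) (1 - u)

/-- the tilt `p_j ^ (-u/2)` -/
noncomputable def tlPhi (p : α → ℝ) (u : ℝ) (j : α) : ℂ := ((p j ^ (-u / 2) : ℝ) : ℂ)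

/-- the phases `exp (z (1-u) log p_j)` -/
noncomputable def tlE (p : α → ℝ) (u : ℝ) (z : ℂ) (j : α) : ℂ :=
  Complex.exp (z * (((1 - u) * Real.log (p j) : ℝ) : ℂ))

/-- the (unnormalised) function `M(u) f(z)` of the proof of lem:tail -/
noncomputable def tlF (X : Matrix α β ℂ) (p : α → ℝ) (h : Matrix (α × β) (α × β) ℂ) (u : ℝ)
    (z : ℂ) : ℂ :=
  tlB X h (fun j => tlPhi p u j * tlE p u z j) (fun k => tlPhi p u k * tlE p u (-z) k)

/-- a crossing term: a sum of at most `d²` products of norm at most `c₀` -/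
def TlCross (c₀ d : ℝ) (h : Matrix (α × β) (α × β) ℂ) : Prop :=
  ∃ (N : ℕ) (c : Fin N → Matrix α α ℂ) (e : Fin N → Matrix β β ℂ),
    (N : ℝ) ≤ d ^ 2 ∧ (∀ a, ‖c a‖ * ‖e a‖ ≤ c₀) ∧ h = ∑ a, c a ⊗ₖ e a

theorem tlPw_nonneg (x t : ℝ) : 0 ≤ tlPw x t := by
  unfold tlPw; split_ifs with h
  · exact Real.rpow_nonneg h.le _
  · exact le_rfl

theorem tlPw_pos {x : ℝ} (hx : 0 < x) (t : ℝ) : 0 < tlPw x t := by
  unfold tlPw; rw [if_pos hx]; exact Real.rpow_pos_of_pos hx _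

theorem tlPw_eq_exp {x : ℝ} (hx : 0 < x) (t : ℝ) : tlPw x t = Real.exp (t * Real.log x) := by
  unfold tlPw; rw [if_pos hx, Real.rpow_def_of_pos hx, mul_comm]

theorem tlM_nonneg (p : α → ℝ) (u : ℝ) : 0 ≤ tlM p u :=
  Finset.sum_nonneg fun _ _ => tlPw_nonneg _ _

theorem tlM_pos {p : α → ℝ} (hp1 : ∑ j, p j = 1) (u : ℝ) : 0 < tlM p u := by
  have : ∃ j, 0 < p j := by
    by_contra hcon
    have : ∑ j, p j ≤ 0 := Finset.sum_nonpos fun j _ => not_lt.1 fun hj => hcon ⟨j, hj⟩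
    linarith
  obtain ⟨j, hj⟩ := this
  exact Finset.sum_pos' (fun _ _ => tlPw_nonneg _ _) ⟨j, Finset.mem_univ j, tlPw_pos hj _⟩

theorem tlB_star (X : Matrix α β ℂ) {h : Matrix (α × β) (α × β) ℂ} (hh : h.IsHermitian)
    (a b : α → ℂ) : star (tlB X h a b) = tlB X h (star b) (star a) := by
  simp only [tlB, star_sum, star_mul', Pi.star_apply]
  rw [Finset.sum_comm]
  refine Finset.sum_congr rfl fun k _ => Finset.sum_congr rfl fun j _ => ?_
  rw [tlG_conj X hh j k]; ring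

theorem tlPhi_star (p : α → ℝ) (u : ℝ) (j : α) : star (tlPhi p u j) = tlPhi p u j := by
  unfold tlPhi; rw [RCLike.star_def, Complex.conj_ofReal]

theorem tlE_star (p : α → ℝ) (u : ℝ) (z : ℂ) (j : α) :
    star (tlE p u z j) = tlE p u (starRingEnd ℂ z) j := by
  unfold tlE
  rw [RCLike.star_def, ← Complex.exp_conj, map_mul, Complex.conj_ofReal]

theorem tlE_norm (p : α → ℝ) (u : ℝ) (z : ℂ) (j : α) :
    ‖tlE p u z j‖ = Real.exp (z.re * ((1 - u) * Real.log (p j))) := by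
  unfold tlE
  rw [Complex.norm_exp]
  simp

theorem tlPhi_norm {p : α → ℝ} (hp0 : ∀ j, 0 ≤ p j) (u : ℝ) (j : α) :
    ‖tlPhi p u j‖ = p j ^ (-u / 2) := by
  unfold tlPhi
  rw [Complex.norm_real, Real.norm_of_nonneg (Real.rpow_nonneg (hp0 j) _)]

theorem tlPhi_sq_mul {p : α → ℝ} (hp0 : ∀ j, 0 ≤ p j) (u : ℝ) (j : α) :
    (p j ^ (-u / 2)) ^ 2 * p j = tlPw (p j) (1 - u) := by
  rcases (hp0 j).eq_or_lt with h | h
  · rw [← h]; simp [tlPw]
  · unfold tlPw
    rw [if_pos h, ← Real.rpow_natCast, ← Real.rpow_mul h.le]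
    conv_lhs => rw [← Real.rpow_one (p j)]
    rw [← Real.rpow_mul h.le, ← Real.rpow_add h]
    congr 1
    push_cast
    ring

theorem tlPhi_mul {p : α → ℝ} (hp0 : ∀ j, 0 ≤ p j) (u : ℝ) (j : α) :
    p j ^ (-u / 2) * p j = tlPw (p j) (1 - u / 2) := by
  rcases (hp0 j).eq_or_lt with h | h
  · rw [← h]; simp [tlPw]
  · unfold tlPw
    rw [if_pos h]
    conv_lhs => rw [← Real.rpow_one (p j)]
    rw [← Real.rpow_mul h.le, ← Real.rpow_add h]
    congr 1
    ring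

theorem tlF_differentiable (X : Matrix α β ℂ) (p : α → ℝ) (h : Matrix (α × β) (α × β) ℂ)
    (u : ℝ) : Differentiable ℂ (tlF X p h u) := by
  unfold tlF tlB tlE
  fun_prop

theorem tlF_sym (X : Matrix α β ℂ) (p : α → ℝ) {h : Matrix (α × β) (α × β) ℂ}
    (hh : h.IsHermitian) (u : ℝ) (z : ℂ) :
    tlF X p h u (-(starRingEnd ℂ z)) = starRingEnd ℂ (tlF X p h u z) := by
  rw [← RCLike.star_def, tlF, tlF, tlB_star X hh]
  congr 1
  · funext j
    simp only [Pi.star_apply, star_mul', tlPhi_star, tlE_star, map_neg, RCLike.star_def]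
  · funext j
    simp only [Pi.star_apply, star_mul', tlPhi_star, tlE_star, neg_neg, RCLike.star_def]

variable {X : Matrix α β ℂ} {p : α → ℝ}

/-- bound on the imaginary axis -/
theorem tlF_norm_imag (hX : X * Xᴴ = diagonal (fun j => ((p j : ℝ) : ℂ)))
    (h : Matrix (α × β) (α × β) ℂ) (u : ℝ) {z : ℂ} (hz : z.re = 0) :
    ‖tlF X p h u z‖ ≤ ‖h‖ * tlM p u := by
  have hp0 := tl_p_nonneg hX
  have h1 := tlB_norm_le hX h (star fun j => tlPhi p u j * tlE p u z j)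
    (fun k => tlPhi p u k * tlE p u (-z) k)
  rw [star_star] at h1
  have e1 : ∑ j, ‖(star fun j => tlPhi p u j * tlE p u z j) j‖ ^ 2 * p j = tlM p u := by
    unfold tlM
    refine Finset.sum_congr rfl fun j _ => ?_
    rw [Pi.star_apply, norm_star, norm_mul, tlE_norm, hz, zero_mul, Real.exp_zero, mul_one,
      tlPhi_norm hp0, tlPhi_sq_mul hp0]
  have e2 : ∑ j, ‖tlPhi p u j * tlE p u (-z) j‖ ^ 2 * p j = tlM p u := by
    unfold tlM
    refine Finset.sum_congr rfl fun j _ => ?_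
    rw [norm_mul, tlE_norm, Complex.neg_re, hz, neg_zero, zero_mul, Real.exp_zero, mul_one,
      tlPhi_norm hp0, tlPhi_sq_mul hp0]
  rw [e1, e2, Real.mul_self_sqrt (tlM_nonneg p u)] at h1
  exact h1

/-- the weight inequality `s_j^(1/2+x) s_k^(1/2-x) ≤ s_j + s_k` -/
theorem tl_weight_le (hp0 : ∀ j, 0 ≤ p j) {u : ℝ} (hu : u ≤ 1) {z : ℂ} (hz : |z.re| ≤ 1 / 2)
    (j k : α) :
    ‖(tlPhi p u j * tlE p u z j) * (tlPhi p u k * tlE p u (-z) k)‖ *
      (Real.sqrt (p j) * Real.sqrt (p k)) ≤ tlPw (p j) (1 - u) + tlPw (p k) (1 - u) := by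
  have hnn : 0 ≤ tlPw (p j) (1 - u) + tlPw (p k) (1 - u) :=
    add_nonneg (tlPw_nonneg _ _) (tlPw_nonneg _ _)
  rcases (hp0 j).eq_or_lt with hj | hj
  · rw [← hj]; simpa using (by rw [← hj] at hnn; exact hnn)
  rcases (hp0 k).eq_or_lt with hk | hk
  · rw [← hk]; simpa using (by rw [← hk] at hnn; exact hnn)
  rw [norm_mul, norm_mul, norm_mul, tlE_norm, tlE_norm, tlPhi_norm hp0, tlPhi_norm hp0,
    tlPw_eq_exp hj, tlPw_eq_exp hk, Real.rpow_def_of_pos hj, Real.rpow_def_of_pos hk,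
    Real.sqrt_eq_rpow, Real.sqrt_eq_rpow, Real.rpow_def_of_pos hj, Real.rpow_def_of_pos hk,
    ← Real.exp_add, ← Real.exp_add, ← Real.exp_add, ← Real.exp_add, ← Real.exp_add]
  set a := Real.log (p j)
  set b := Real.log (p k)
  set x := z.re
  have hx := abs_le.1 hz
  have h1u : 0 ≤ 1 - u := by linarith
  have hexp : a * (-u / 2) + x * ((1 - u) * a) + (b * (-u / 2) + (-z).re * ((1 - u) * b))
      + (a * (1 / 2) + b * (1 / 2)) = (1 - u) * ((1 / 2 + x) * a + (1 / 2 - x) * b) := by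
    rw [Complex.neg_re]; ring
  rw [hexp]
  rcases le_total a b with hab | hab
  · refine le_trans (Real.exp_le_exp.2 ?_) (le_add_of_nonneg_left (Real.exp_nonneg _))
    refine mul_le_mul_of_nonneg_left ?_ h1u
    nlinarith [hx.1, hx.2]
  · refine le_trans (Real.exp_le_exp.2 ?_) (le_add_of_nonneg_right (Real.exp_nonneg _))
    refine mul_le_mul_of_nonneg_left ?_ h1u
    nlinarith [hx.1, hx.2]

/-- bound on the strip `|re z| ≤ 1/2` -/
theorem tlF_norm_strip (hX : X * Xᴴ = diagonal (fun j => ((p j : ℝ) : ℂ)))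
    {h : Matrix (α × β) (α × β) ℂ} {c₀ d : ℝ} (hc₀ : 0 ≤ c₀) (hcr : TlCross c₀ d h) {u : ℝ}
    (hu : u ≤ 1) {z : ℂ} (hz : |z.re| ≤ 1 / 2) :
    ‖tlF X p h u z‖ ≤ 2 * (c₀ * tlM p u) * d ^ 2 := by
  have hp0 := tl_p_nonneg hX
  obtain ⟨N, c, e, hN, hce, rfl⟩ := hcr
  rw [tlF, tlB_sum]
  have hterm : ∀ a : Fin N, ‖tlB X (c a ⊗ₖ e a) (fun j => tlPhi p u j * tlE p u z j)
      (fun k => tlPhi p u k * tlE p u (-z) k)‖ ≤ 2 * tlM p u * c₀ := by
    intro a
    have := tlG_weighted_bound hX (c a) (e a) (fun j => tlPw (p j) (1 - u))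
      (fun j => tlPw_nonneg _ _)
      (fun j k => (tlPhi p u j * tlE p u z j) * (tlPhi p u k * tlE p u (-z) k))
      (fun j k => tl_weight_le hp0 hu hz j k)
    refine this.trans ?_
    have hM := tlM_nonneg p u
    exact mul_le_mul_of_nonneg_left (hce a) (by unfold tlM at hM; positivity)
  calc ‖∑ a, tlB X (c a ⊗ₖ e a) (fun j => tlPhi p u j * tlE p u z j)
        (fun k => tlPhi p u k * tlE p u (-z) k)‖
      ≤ ∑ _a : Fin N, 2 * tlM p u * c₀ :=
        (norm_sum_le _ _).trans (Finset.sum_le_sum fun a _ => hterm a)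
    _ = (N : ℝ) * (2 * tlM p u * c₀) := by simp
    _ ≤ d ^ 2 * (2 * tlM p u * c₀) :=
        mul_le_mul_of_nonneg_right hN (by have := tlM_nonneg p u; positivity)
    _ = _ := by ring

theorem tlF_zero (X : Matrix α β ℂ) (p : α → ℝ) (h : Matrix (α × β) (α × β) ℂ) (u : ℝ) :
    tlF X p h u 0 = tlB X h (tlPhi p u) (tlPhi p u) := by
  unfold tlF tlE
  simp

/-- at `z_u = -u / (2 (1-u))` the conjugation by the tilt is reproduced -/
theorem tlF_zu (hX : X * Xᴴ = diagonal (fun j => ((p j : ℝ) : ℂ)))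
    (h : Matrix (α × β) (α × β) ℂ) {u : ℝ} (hu : u < 1) :
    tlF X p h u ((-u / (2 * (1 - u)) : ℝ) : ℂ) = tlB X h (fun j => tlPhi p u j ^ 2) 1 := by
  have hp0 := tl_p_nonneg hX
  unfold tlF tlB
  refine Finset.sum_congr rfl fun j _ => Finset.sum_congr rfl fun k _ => ?_
  rcases (hp0 j).eq_or_lt with hj | hj
  · rw [tlG_left_zero hX h hj.symm]; simp
  rcases (hp0 k).eq_or_lt with hk | hk
  · rw [tlG_right_zero hX h j hk.symm]; simp
  congr 1
  have h1u : (1 - u) ≠ 0 := by linarith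
  have e1 : tlE p u ((-u / (2 * (1 - u)) : ℝ) : ℂ) j = tlPhi p u j := by
    unfold tlE tlPhi
    rw [← Complex.ofReal_mul, ← Complex.ofReal_exp, Real.rpow_def_of_pos hj]
    congr 2
    field_simp
  have e2 : tlPhi p u k * tlE p u (-((-u / (2 * (1 - u)) : ℝ) : ℂ)) k = 1 := by
    unfold tlE tlPhi
    rw [← Complex.ofReal_neg, ← Complex.ofReal_mul, ← Complex.ofReal_exp,
      Real.rpow_def_of_pos hk, ← Complex.ofReal_mul, ← Real.exp_add]
    have : Real.log (p k) * (-u / 2) + -(-u / (2 * (1 - u))) * ((1 - u) * Real.log (p k)) = 0 := by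
      field_simp
      ring
    rw [this]; simp
  show (tlPhi p u j * tlE p u ((-u / (2 * (1 - u)) : ℝ) : ℂ) j) *
      (tlPhi p u k * tlE p u (-((-u / (2 * (1 - u)) : ℝ) : ℂ)) k) = tlPhi p u j ^ 2 * 1
  rw [e1, e2]
  ring

/-- **the quadratic bound for one crossing term** -/
theorem tl_term_quadratic (hX : X * Xᴴ = diagonal (fun j => ((p j : ℝ) : ℂ)))
    {h : Matrix (α × β) (α × β) ℂ} (hh : h.IsHermitian) {c₀ d : ℝ} (hc₀ : 0 ≤ c₀) (hd : 1 ≤ d)
    (hn : ‖h‖ ≤ c₀) (hcr : TlCross c₀ d h) {u : ℝ} (hu2 : |u| ≤ 1 / 2)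
    (hu : |u| ≤ 1 / (8 * (1 + Real.log d))) :
    |(tlB X h (fun j => tlPhi p u j ^ 2) 1 - tlB X h (tlPhi p u) (tlPhi p u)).re| ≤
      128 * Real.exp 1 * (c₀ * tlM p u) * (1 + Real.log d) ^ 2 * u ^ 2 := by
  have hM := tlM_nonneg p u
  have hu' := abs_le.1 hu2
  have h1u : 0 < 1 - u := by linarith
  have hzu : |(-u / (2 * (1 - u)))| ≤ |u| := by
    rw [abs_div, abs_neg, abs_of_pos (by positivity : 0 < 2 * (1 - u))]
    exact div_le_self (abs_nonneg u) (by linarith)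
  have key := tl_quadratic (tlF_differentiable X p h u) (tlF_sym X p hh u)
    (c := c₀ * tlM p u) (d := d) (by positivity) hd
    (fun z hz => (tlF_norm_imag hX h u hz).trans (mul_le_mul_of_nonneg_right hn hM))
    (fun z hz => tlF_norm_strip hX hc₀ hcr (by linarith) (hz.trans (by norm_num)))
    (x := -u / (2 * (1 - u))) (hzu.trans hu)
  rw [tlF_zu hX h (by linarith), tlF_zero] at key
  refine key.trans ?_
  have hsq : (-u / (2 * (1 - u))) ^ 2 ≤ u ^ 2 := by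
    rw [← sq_abs, ← sq_abs u]
    exact pow_le_pow_left₀ (abs_nonneg _) hzu 2
  have hlog : 0 ≤ Real.log d := Real.log_nonneg hd
  gcongr

end Claimed.Agent.R296
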