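/-
Row 296, paper P1 Section 2, Lemma 2.1 (lem:tail): tilted energy, gap, halving inequality,
moment generating function bound and the tail bound, in the Schmidt picture.
Owner: helper43.  Prefix `tl`.
-/
import Claimed.Agent.R296.TailCore

set_option autoImplicit false
set_option linter.unusedSectionVars false
set_option linter.unusedDecidableInType false

namespace Claimed.Agent.R296

open Matrix
open scoped Matrix.Norms.L2Operator ComplexOrder Kronecker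

variable {α β : Type*} [Fintype α] [Fintype β] [DecidableEq α] [DecidableEq β]
variable {X : Matrix α β ℂ} {p : α → ℝ}

theorem tl_dot_tw (hX : X * Xᴴ = diagonal (fun j => ((p j : ℝ) : ℂ))) (a b : α → ℂ) :
    star (tlTw a X) ⬝ᵥ tlTw b X = ∑ j, star (a j) * b j * (p j : ℂ) := by
  simp only [dotProduct, Fintype.sum_prod_type, tlTw, Pi.star_apply, star_mul']
  refine Finset.sum_congr rfl fun j _ => ?_
  have h := tl_row_inner hX j j
  rw [if_pos rfl] at h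
  rw [← h, Finset.mul_sum]
  refine Finset.sum_congr rfl fun b _ => ?_
  ring

/-- Step A: the eigenvalue equation as a statement on the form `tlB` -/
theorem tl_eig_form (hX : X * Xᴴ = diagonal (fun j => ((p j : ℝ) : ℂ)))
    {H : Matrix (α × β) (α × β) ℂ} {E₀ : ℝ} (heig : H *ᵥ tlTw 1 X = (E₀ : ℂ) • tlTw 1 X)
    (a : α → ℂ) : tlB X H a 1 = E₀ * ∑ j, a j * (p j : ℂ) := by
  have h := tlB_eq_form X H (star a) 1
  rw [star_star] at h
  rw [h, heig, dotProduct_smul, tl_dot_tw hX]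
  simp

/-- Step B: the gap inequality for real tilts -/
theorem tl_gap_form (hX : X * Xᴴ = diagonal (fun j => ((p j : ℝ) : ℂ)))
    {H : Matrix (α × β) (α × β) ℂ} {E₀ g₀ : ℝ}
    (hgap : (H - (E₀ : ℂ) • (1 : Matrix (α × β) (α × β) ℂ) -
      (g₀ : ℂ) • (1 - vecMulVec (tlTw 1 X) (star (tlTw 1 X)))).PosSemidef) (a : α → ℝ) :
    g₀ * (∑ j, a j ^ 2 * p j - (∑ j, a j * p j) ^ 2) ≤
      (tlB X H (fun j => (a j : ℂ)) (fun j => (a j : ℂ))).re - E₀ * ∑ j, a j ^ 2 * p j := by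
  set ac : α → ℂ := fun j => (a j : ℂ) with hac
  have hstar : star ac = ac := by
    funext j; simp [hac]
  have h0 := hgap.dotProduct_mulVec_nonneg (tlTw ac X)
  rw [sub_mulVec, sub_mulVec, smul_mulVec, smul_mulVec, sub_mulVec, one_mulVec,
    vecMulVec_mulVec, dotProduct_sub, dotProduct_sub, dotProduct_smul, dotProduct_smul,
    dotProduct_sub, ← tlB_eq_form, hstar, tl_dot_tw hX] at h0
  have e1 : star (tlTw 1 X) ⬝ᵥ tlTw ac X = ((∑ j, a j * p j : ℝ) : ℂ) := by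
    rw [tl_dot_tw hX]; simp [hac]
  have e2 : star (tlTw ac X) ⬝ᵥ tlTw 1 X = ((∑ j, a j * p j : ℝ) : ℂ) := by
    rw [tl_dot_tw hX]; simp [hac]
  have e3 : ∑ j, star (ac j) * ac j * (p j : ℂ) = ((∑ j, a j ^ 2 * p j : ℝ) : ℂ) := by
    simp [hac, sq]
  rw [e3] at h0
  have e4 : star (tlTw ac X) ⬝ᵥ (MulOpposite.op (star (tlTw 1 X) ⬝ᵥ tlTw ac X) • tlTw 1 X)
      = (((∑ j, a j * p j) ^ 2 : ℝ) : ℂ) := by
    rw [e1]
    have : (MulOpposite.op ((∑ j, a j * p j : ℝ) : ℂ) • tlTw 1 X)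
        = ((∑ j, a j * p j : ℝ) : ℂ) • tlTw 1 X := by
      funext q; simp [mul_comm]
    rw [this, dotProduct_smul, e2]
    simp [sq]
  rw [e4] at h0
  have h1 := (Complex.le_def.1 h0).1
  simp only [Complex.zero_re, Complex.sub_re, smul_eq_mul, Complex.re_ofReal_mul,
    Complex.ofReal_re] at h1
  linarith

theorem tlB_of_diag {h : Matrix (α × β) (α × β) ℂ}
    (hd : ∀ j k, j ≠ k → tlG X h j k = 0) (a b : α → ℂ) :
    tlB X h a b = ∑ j, a j * b j * tlG X h j j := by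
  unfold tlB
  refine Finset.sum_congr rfl fun j _ => ?_
  rw [Finset.sum_eq_single j]
  · intro k _ hk; rw [hd j k (Ne.symm hk), mul_zero]
  · intro hj; exact absurd (Finset.mem_univ j) hj

section Main

variable {I : Type*} [Fintype I] {h : I → Matrix (α × β) (α × β) ℂ} {c₀ g₀ E₀ Bc : ℝ}
  {Ix : Finset I} {d : I → ℝ}

/-- Step C: the tilted energy (eq:initial-tilted-energy), multiplied by `M(u)` -/
theorem tl_tilted_energy (hX : X * Xᴴ = diagonal (fun j => ((p j : ℝ) : ℂ)))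
    (hherm : ∀ i, (h i).IsHermitian) (hc₀ : 0 ≤ c₀) (hnorm : ∀ i, ‖h i‖ ≤ c₀)
    (heig : (∑ i, h i) *ᵥ tlTw 1 X = (E₀ : ℂ) • tlTw 1 X)
    (hnc : ∀ i, i ∉ Ix → ∀ j k, j ≠ k → tlG X (h i) j k = 0)
    (hd : ∀ i ∈ Ix, 1 ≤ d i) (hcr : ∀ i ∈ Ix, TlCross c₀ (d i) (h i))
    (hB : 1 + ∑ i ∈ Ix, (1 + Real.log (d i)) ^ 2 ≤ Bc) {u : ℝ}
    (hu : |u| ≤ 1 / (32 * Real.sqrt Bc)) :
    (tlB X (∑ i, h i) (tlPhi p u) (tlPhi p u)).re - E₀ * tlM p u ≤
      128 * Real.exp 1 * c₀ * Bc * u ^ 2 * tlM p u := by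
  classical
  have hp0 := tl_p_nonneg hX
  have hM := tlM_nonneg p u
  have hsumnn : 0 ≤ ∑ i ∈ Ix, (1 + Real.log (d i)) ^ 2 := Finset.sum_nonneg fun i _ => sq_nonneg _
  have hB1 : 1 ≤ Bc := by linarith
  have hsB : 1 ≤ Real.sqrt Bc := by
    rw [← Real.sqrt_one]; exact Real.sqrt_le_sqrt hB1
  have hu2 : |u| ≤ 1 / 2 := by
    refine hu.trans ?_
    rw [div_le_div_iff₀ (by positivity) (by norm_num)]
    linarith
  have hE : ((E₀ * tlM p u : ℝ) : ℂ) = tlB X (∑ i, h i) (fun j => tlPhi p u j ^ 2) 1 := by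
    rw [tl_eig_form hX heig]
    push_cast
    congr 1
    unfold tlM
    push_cast
    refine Finset.sum_congr rfl fun j _ => ?_
    rw [← tlPhi_sq_mul hp0]
    simp [tlPhi]
  have hE' : E₀ * tlM p u = (tlB X (∑ i, h i) (fun j => tlPhi p u j ^ 2) 1).re := by
    rw [← hE, Complex.ofReal_re]
  rw [hE', ← Complex.sub_re, tlB_sum, tlB_sum, ← Finset.sum_sub_distrib, Complex.re_sum]
  have hterm : ∀ i, (tlB X (h i) (tlPhi p u) (tlPhi p u)
      - tlB X (h i) (fun j => tlPhi p u j ^ 2) 1).re ≤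
      if i ∈ Ix then 128 * Real.exp 1 * (c₀ * tlM p u) * (1 + Real.log (d i)) ^ 2 * u ^ 2
      else 0 := by
    intro i
    by_cases hi : i ∈ Ix
    · rw [if_pos hi]
      have hli : 0 < 1 + Real.log (d i) := by
        have := Real.log_nonneg (hd i hi); linarith
      have hle : 1 + Real.log (d i) ≤ Real.sqrt Bc := by
        apply Real.le_sqrt_of_sq_le
        have : (1 + Real.log (d i)) ^ 2 ≤ ∑ i ∈ Ix, (1 + Real.log (d i)) ^ 2 :=
          Finset.single_le_sum (f := fun i => (1 + Real.log (d i)) ^ 2)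
            (fun i _ => sq_nonneg _) hi
        linarith
      have hui : |u| ≤ 1 / (8 * (1 + Real.log (d i))) := by
        refine hu.trans ?_
        rw [div_le_div_iff₀ (by positivity) (by positivity)]
        linarith
      have := tl_term_quadratic hX (hherm i) hc₀ (hd i hi) (hnorm i) (hcr i hi) hu2 hui
      rw [← neg_sub, Complex.neg_re]
      exact (neg_le_abs _).trans this
    · rw [if_neg hi, tlB_of_diag (hnc i hi), tlB_of_diag (hnc i hi)]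
      apply le_of_eq
      have : ∑ j, tlPhi p u j * tlPhi p u j * tlG X (h i) j j
          - ∑ j, tlPhi p u j ^ 2 * (1 : α → ℂ) j * tlG X (h i) j j = 0 := by
        rw [sub_eq_zero]
        refine Finset.sum_congr rfl fun j _ => ?_
        simp [sq]
      rw [this, Complex.zero_re]
  refine (Finset.sum_le_sum fun i _ => hterm i).trans ?_
  rw [Finset.sum_ite_mem, Finset.univ_inter]
  have : ∑ i ∈ Ix, 128 * Real.exp 1 * (c₀ * tlM p u) * (1 + Real.log (d i)) ^ 2 * u ^ 2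
      = 128 * Real.exp 1 * c₀ * (∑ i ∈ Ix, (1 + Real.log (d i)) ^ 2) * u ^ 2 * tlM p u := by
    rw [Finset.mul_sum, Finset.sum_mul, Finset.sum_mul]
    refine Finset.sum_congr rfl fun i _ => ?_
    ring
  rw [this]
  have : ∑ i ∈ Ix, (1 + Real.log (d i)) ^ 2 ≤ Bc := by linarith
  gcongr

/-- Step D: the halving inequality `L(u) ≤ 2 L(u/2) + 256 e ϑ 𝓑 u²` -/
theorem tl_halving (hX : X * Xᴴ = diagonal (fun j => ((p j : ℝ) : ℂ))) (hp1 : ∑ j, p j = 1)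
    (hherm : ∀ i, (h i).IsHermitian) (hc₀ : 0 ≤ c₀) (hg₀ : 0 < g₀) (hnorm : ∀ i, ‖h i‖ ≤ c₀)
    (heig : (∑ i, h i) *ᵥ tlTw 1 X = (E₀ : ℂ) • tlTw 1 X)
    (hgap : ((∑ i, h i) - (E₀ : ℂ) • (1 : Matrix (α × β) (α × β) ℂ) -
      (g₀ : ℂ) • (1 - vecMulVec (tlTw 1 X) (star (tlTw 1 X)))).PosSemidef)
    (hnc : ∀ i, i ∉ Ix → ∀ j k, j ≠ k → tlG X (h i) j k = 0)
    (hd : ∀ i ∈ Ix, 1 ≤ d i) (hcr : ∀ i ∈ Ix, TlCross c₀ (d i) (h i))
    (hB : 1 + ∑ i ∈ Ix, (1 + Real.log (d i)) ^ 2 ≤ Bc) {u : ℝ}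
    (hu : |u| ≤ 1 / (32 * Real.sqrt ((1 + c₀ / g₀) * Bc))) :
    Real.log (tlM p u) ≤ 2 * Real.log (tlM p (u / 2)) +
      256 * Real.exp 1 * (c₀ / g₀) * Bc * u ^ 2 := by
  have hp0 := tl_p_nonneg hX
  have hM := tlM_pos hp1 u
  have hM2 := tlM_pos hp1 (u / 2)
  have hsumnn : 0 ≤ ∑ i ∈ Ix, (1 + Real.log (d i)) ^ 2 := Finset.sum_nonneg fun i _ => sq_nonneg _
  have hB1 : 1 ≤ Bc := by linarith
  have hθ : 0 ≤ c₀ / g₀ := div_nonneg hc₀ hg₀.le
  have hsle : Real.sqrt Bc ≤ Real.sqrt ((1 + c₀ / g₀) * Bc) := by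
    apply Real.sqrt_le_sqrt
    nlinarith
  have hsB : 0 < Real.sqrt Bc := Real.sqrt_pos.2 (by linarith)
  have hu1 : |u| ≤ 1 / (32 * Real.sqrt Bc) := by
    refine hu.trans ?_
    rw [div_le_div_iff₀ (by positivity) (by positivity)]
    linarith
  have hen := tl_tilted_energy hX hherm hc₀ hnorm heig hnc hd hcr hB hu1
  have hgp := tl_gap_form hX hgap (fun j => p j ^ (-u / 2))
  have e1 : ∑ j, (p j ^ (-u / 2)) ^ 2 * p j = tlM p u :=
    Finset.sum_congr rfl fun j _ => tlPhi_sq_mul hp0 u j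
  have e2 : ∑ j, p j ^ (-u / 2) * p j = tlM p (u / 2) :=
    Finset.sum_congr rfl fun j _ => tlPhi_mul hp0 u j
  rw [e1, e2] at hgp
  have hgp' : g₀ * (tlM p u - tlM p (u / 2) ^ 2) ≤
      128 * Real.exp 1 * c₀ * Bc * u ^ 2 * tlM p u := hgp.trans hen
  -- the small parameter
  set v : ℝ := 128 * Real.exp 1 * (c₀ / g₀) * Bc * u ^ 2 with hv
  have hv0 : 0 ≤ v := by positivity
  have hu_sq : u ^ 2 * (1024 * ((1 + c₀ / g₀) * Bc)) ≤ 1 := by
    have hpos : 0 < (1 + c₀ / g₀) * Bc := by positivity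
    have hs : 0 < Real.sqrt ((1 + c₀ / g₀) * Bc) := Real.sqrt_pos.2 hpos
    have h1 : |u| * (32 * Real.sqrt ((1 + c₀ / g₀) * Bc)) ≤ 1 := by
      rwa [le_div_iff₀ (by positivity)] at hu
    have h2 : (|u| * (32 * Real.sqrt ((1 + c₀ / g₀) * Bc))) ^ 2 ≤ 1 ^ 2 :=
      pow_le_pow_left₀ (by positivity) h1 2
    rw [mul_pow, mul_pow, Real.sq_sqrt hpos.le, sq_abs] at h2
    linarith
  have hv12 : v ≤ 1 / 2 := by
    have he : Real.exp 1 < 2.7182818286 := Real.exp_one_lt_d9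
    have h3 : (c₀ / g₀) * Bc * u ^ 2 ≤ 1 / 1024 := by nlinarith [mul_nonneg hθ (by linarith : (0:ℝ) ≤ Bc), sq_nonneg u, mul_nonneg (by linarith : (0:ℝ) ≤ Bc) (sq_nonneg u)]
    have h4 : 0 ≤ (c₀ / g₀) * Bc * u ^ 2 := by positivity
    calc v = 128 * Real.exp 1 * ((c₀ / g₀) * Bc * u ^ 2) := by rw [hv]; ring
      _ ≤ 128 * 2.7182818286 * (1 / 1024) := by gcongr
      _ ≤ 1 / 2 := by norm_num
  have hkey : tlM p u * (1 - v) ≤ tlM p (u / 2) ^ 2 := by
    have h5 : tlM p u - tlM p (u / 2) ^ 2 ≤ v * tlM p u := by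
      have : g₀ * (tlM p u - tlM p (u / 2) ^ 2) ≤ g₀ * (v * tlM p u) := by
        refine hgp'.trans (le_of_eq ?_)
        rw [hv]; field_simp
      exact le_of_mul_le_mul_left this hg₀
    linarith
  have h1v : 0 < 1 - v := by linarith
  have hlog := Real.log_le_log (by positivity) hkey
  rw [Real.log_mul hM.ne' h1v.ne', Real.log_pow] at hlog
  have hl1 : -(2 * v) ≤ Real.log (1 - v) := by
    have := Real.one_sub_inv_le_log_of_pos h1v
    refine le_trans ?_ this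
    have h6 : (1 - v)⁻¹ ≤ 1 + 2 * v := by
      rw [inv_le_comm₀ h1v (by positivity), inv_eq_one_div, div_le_iff₀ (by positivity)]
      nlinarith
    linarith
  have : 256 * Real.exp 1 * (c₀ / g₀) * Bc * u ^ 2 = 2 * v := by rw [hv]; ring
  rw [this]
  push_cast at hlog
  linarith

theorem tlPw_hasDerivAt {x : ℝ} (hx : 0 ≤ x) :
    HasDerivAt (fun u : ℝ => tlPw x (1 - u)) (Real.negMulLog x) 0 := by
  rcases hx.eq_or_lt with rfl | hx
  · simp only [tlPw, lt_irrefl, if_false, Real.negMulLog_zero]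
    exact hasDerivAt_const _ _
  · have h1 : (fun u : ℝ => tlPw x (1 - u)) = fun u : ℝ => Real.exp ((1 - u) * Real.log x) := by
      funext u; exact tlPw_eq_exp hx _
    rw [h1]
    have h2 : HasDerivAt (fun u : ℝ => (1 - u) * Real.log x) (-1 * Real.log x) 0 :=
      ((hasDerivAt_id (0 : ℝ)).const_sub 1).mul_const _
    have h3 := h2.exp
    convert h3 using 1
    simp only [sub_zero, one_mul, Real.exp_log hx, Real.negMulLog]
    ring

theorem tlM_zero (hp0 : ∀ j, 0 ≤ p j) : tlM p 0 = ∑ j, p j := by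
  unfold tlM
  refine Finset.sum_congr rfl fun j _ => ?_
  rcases (hp0 j).eq_or_lt with h | h
  · simp [tlPw, ← h]
  · simp [tlPw, h]

theorem tl_logM_hasDerivAt (hp0 : ∀ j, 0 ≤ p j) (hp1 : ∑ j, p j = 1) :
    HasDerivAt (fun u : ℝ => Real.log (tlM p u)) (∑ j, Real.negMulLog (p j)) 0 := by
  have h1 : HasDerivAt (fun u : ℝ => tlM p u) (∑ j, Real.negMulLog (p j)) 0 := by
    unfold tlM
    exact HasDerivAt.fun_sum fun j _ => tlPw_hasDerivAt (hp0 j)
  have h0 : tlM p 0 = 1 := by rw [tlM_zero hp0, hp1]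
  have h2 := h1.log (by rw [h0]; norm_num)
  rw [h0, div_one] at h2
  exact h2

/-- **Lemma 2.1, (eq:initial-tail-mgf), in the Schmidt picture.** -/
theorem tl_mgf_schmidt (hX : X * Xᴴ = diagonal (fun j => ((p j : ℝ) : ℂ))) (hp1 : ∑ j, p j = 1)
    (hherm : ∀ i, (h i).IsHermitian) (hc₀ : 0 ≤ c₀) (hg₀ : 0 < g₀) (hnorm : ∀ i, ‖h i‖ ≤ c₀)
    (heig : (∑ i, h i) *ᵥ tlTw 1 X = (E₀ : ℂ) • tlTw 1 X)
    (hgap : ((∑ i, h i) - (E₀ : ℂ) • (1 : Matrix (α × β) (α × β) ℂ) -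
      (g₀ : ℂ) • (1 - vecMulVec (tlTw 1 X) (star (tlTw 1 X)))).PosSemidef)
    (hnc : ∀ i, i ∉ Ix → ∀ j k, j ≠ k → tlG X (h i) j k = 0)
    (hd : ∀ i ∈ Ix, 1 ≤ d i) (hcr : ∀ i ∈ Ix, TlCross c₀ (d i) (h i))
    (hB : 1 + ∑ i ∈ Ix, (1 + Real.log (d i)) ^ 2 ≤ Bc) {u : ℝ}
    (hu : |u| ≤ 1 / (32 * Real.sqrt ((1 + c₀ / g₀) * Bc))) :
    Real.log (tlM p u) ≤ u * ∑ j, Real.negMulLog (p j) +
      512 * Real.exp 1 * (c₀ / g₀) * Bc * u ^ 2 := by
  have hp0 := tl_p_nonneg hX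
  have hsumnn : 0 ≤ ∑ i ∈ Ix, (1 + Real.log (d i)) ^ 2 := Finset.sum_nonneg fun i _ => sq_nonneg _
  have hB1 : 1 ≤ Bc := by linarith
  have hθ : 0 ≤ c₀ / g₀ := div_nonneg hc₀ hg₀.le
  have h0 : Real.log (tlM p 0) = 0 := by rw [tlM_zero hp0, hp1, Real.log_one]
  have := tl_iterate (L := fun u => Real.log (tlM p u)) (K := 256 * Real.exp 1 * (c₀ / g₀) * Bc)
    (by positivity) h0 (tl_logM_hasDerivAt hp0 hp1)
    (fun u hu => tl_halving hX hp1 hherm hc₀ hg₀ hnorm heig hgap hnc hd hcr hB hu) hu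
  refine this.trans (le_of_eq ?_)
  ring

end Main

end Claimed.Agent.R296
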