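/-
Row 296, paper P1 Section 2, Lemma 2.1 (lem:tail): from the Schmidt picture to an arbitrary
splitting `e : n ≃ α × β` of the index type; Renyi sums and tail masses of a marginal;
the exponential Markov inequality.   Owner: helper43.  Prefix `tl`.
-/
import Claimed.Agent.R296.TailMgf
import Claimed.Agent.R296.EntPtrE
import Claimed.Agent.R296.EntBasic
import Claimed.Agent.R296.EntPure

set_option autoImplicit false
set_option linter.unusedSectionVars false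
set_option linter.unusedDecidableInType false

namespace Claimed.Agent.R296

open Matrix
open scoped Matrix.Norms.L2Operator ComplexOrder Kronecker

/-! ### spectral sums -/

section Spec

variable {n : Type} [Fintype n] [DecidableEq n]

/-- `Tr ρ^t` on the support of `ρ`, in the frozen style (roots of the characteristic polynomial) -/
noncomputable def tlRenyi (ρ : Matrix n n ℂ) (t : ℝ) : ℝ :=
  ((ρ.charpoly.roots).map fun z => tlPw z.re t).sum

/-- total weight of the eigenvalues `p > 0` of `ρ` with `|-log p - S(ρ)| > w` -/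
noncomputable def tlTailMass (ρ : Matrix n n ℂ) (w : ℝ) : ℝ :=
  ((ρ.charpoly.roots).map fun z =>
    if 0 < z.re ∧ w < |(-Real.log z.re) - vnEnt ρ| then z.re else 0).sum

theorem tl_specSum_eq {ρ : Matrix n n ℂ} (hρ : ρ.IsHermitian) (g : ℝ → ℝ) :
    ((ρ.charpoly.roots).map fun z => g z.re).sum = ∑ i, g (hρ.eigenvalues i) := by
  rw [hρ.roots_charpoly_eq_eigenvalues, Multiset.map_map]
  simp

theorem tlRenyi_eq {ρ : Matrix n n ℂ} (hρ : ρ.IsHermitian) (u : ℝ) :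
    tlRenyi ρ (1 - u) = tlM hρ.eigenvalues u := tl_specSum_eq hρ fun x => tlPw x (1 - u)

theorem tlTailMass_eq {ρ : Matrix n n ℂ} (hρ : ρ.IsHermitian) (w : ℝ) :
    tlTailMass ρ w = ∑ i, if 0 < hρ.eigenvalues i ∧
      w < |(-Real.log (hρ.eigenvalues i)) - vnEnt ρ| then hρ.eigenvalues i else 0 :=
  tl_specSum_eq hρ fun x => if 0 < x ∧ w < |(-Real.log x) - vnEnt ρ| then x else 0

end Spec

/-! ### (T9) exponential Markov inequality -/

theorem tl_markov {α : Type*} [Fintype α] [DecidableEq α] {p : α → ℝ} (hp1 : ∑ j, p j = 1) {S K u₀ : ℝ}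
    (hu₀ : 0 ≤ u₀)
    (hplus : Real.log (tlM p u₀) ≤ u₀ * S + K) (hminus : Real.log (tlM p (-u₀)) ≤ -u₀ * S + K)
    (w : ℝ) :
    ∑ j, (if 0 < p j ∧ w < |(-Real.log (p j)) - S| then p j else 0) ≤
      2 * Real.exp K * Real.exp (-(u₀ * w)) := by
  have h1 : tlM p u₀ ≤ Real.exp (u₀ * S + K) :=
    (Real.log_le_iff_le_exp (tlM_pos hp1 _)).1 hplus
  have h2 : tlM p (-u₀) ≤ Real.exp (-u₀ * S + K) :=
    (Real.log_le_iff_le_exp (tlM_pos hp1 _)).1 hminus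
  have hterm : ∀ j, (if 0 < p j ∧ w < |(-Real.log (p j)) - S| then p j else 0) ≤
      tlPw (p j) (1 - u₀) * Real.exp (-(u₀ * (S + w))) +
        tlPw (p j) (1 - -u₀) * Real.exp (u₀ * (S - w)) := by
    intro j
    have hnn : 0 ≤ tlPw (p j) (1 - u₀) * Real.exp (-(u₀ * (S + w))) +
        tlPw (p j) (1 - -u₀) * Real.exp (u₀ * (S - w)) :=
      add_nonneg (mul_nonneg (tlPw_nonneg _ _) (Real.exp_nonneg _))
        (mul_nonneg (tlPw_nonneg _ _) (Real.exp_nonneg _))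
    split_ifs with hj
    · obtain ⟨hpos, hw⟩ := hj
      rw [tlPw_eq_exp hpos, tlPw_eq_exp hpos, ← Real.exp_add, ← Real.exp_add]
      have hp : p j = Real.exp (Real.log (p j)) := (Real.exp_log hpos).symm
      rcases lt_abs.1 hw with hw | hw
      · refine le_trans ?_ (le_add_of_nonneg_right (Real.exp_nonneg _))
        conv_lhs => rw [hp]
        apply Real.exp_le_exp.2
        nlinarith
      · refine le_trans ?_ (le_add_of_nonneg_left (Real.exp_nonneg _))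
        conv_lhs => rw [hp]
        apply Real.exp_le_exp.2
        nlinarith
    · exact hnn
  calc ∑ j, (if 0 < p j ∧ w < |(-Real.log (p j)) - S| then p j else 0)
      ≤ ∑ j, (tlPw (p j) (1 - u₀) * Real.exp (-(u₀ * (S + w))) +
        tlPw (p j) (1 - -u₀) * Real.exp (u₀ * (S - w))) := Finset.sum_le_sum fun j _ => hterm j
    _ = tlM p u₀ * Real.exp (-(u₀ * (S + w))) + tlM p (-u₀) * Real.exp (u₀ * (S - w)) := by
        rw [Finset.sum_add_distrib, ← Finset.sum_mul, ← Finset.sum_mul]; rfl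
    _ ≤ Real.exp (u₀ * S + K) * Real.exp (-(u₀ * (S + w))) +
        Real.exp (-u₀ * S + K) * Real.exp (u₀ * (S - w)) := by gcongr
    _ = 2 * Real.exp K * Real.exp (-(u₀ * w)) := by
        rw [← Real.exp_add, ← Real.exp_add, mul_assoc, ← Real.exp_add]
        have e1 : u₀ * S + K + -(u₀ * (S + w)) = K + -(u₀ * w) := by ring
        have e2 : -u₀ * S + K + u₀ * (S - w) = K + -(u₀ * w) := by ring
        rw [e1, e2]; ring

/-! ### unitary transport -/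

section Unitary

variable {α β n I : Type*} [Fintype α] [Fintype β] [DecidableEq α] [DecidableEq β]
  [Fintype n] [DecidableEq n] [Fintype I]

theorem tl_norm_le_one_of_isometry {m k : Type*} [Fintype m] [Fintype k] [DecidableEq m]
    [DecidableEq k] (V : Matrix m k ℂ) (hV : Vᴴ * V = 1) : ‖V‖ ≤ 1 := by
  have h1 := l2_opNorm_conjTranspose_mul_self V
  rw [hV] at h1
  have h2 : ‖(1 : Matrix k k ℂ)‖ ≤ 1 := by
    rw [← diagonal_one, l2_opNorm_diagonal]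
    exact (pi_norm_le_iff_of_nonneg zero_le_one).2 fun i => by simp
  nlinarith [norm_nonneg V]

theorem tl_norm_conj_le {m k : Type*} [Fintype m] [Fintype k] [DecidableEq m]
    [DecidableEq k] (V : Matrix m k ℂ) (hV : Vᴴ * V = 1) (M : Matrix k k ℂ) :
    ‖V * M * Vᴴ‖ ≤ ‖M‖ := by
  have h1 := tl_norm_le_one_of_isometry V hV
  have h2 : ‖Vᴴ‖ ≤ 1 := by rwa [l2_opNorm_conjTranspose]
  calc ‖V * M * Vᴴ‖ ≤ ‖V‖ * ‖M‖ * ‖Vᴴ‖ :=
        (l2_opNorm_mul _ _).trans (mul_le_mul_of_nonneg_right (l2_opNorm_mul _ _) (norm_nonneg _))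
    _ ≤ 1 * ‖M‖ * 1 := by gcongr
    _ = ‖M‖ := by ring

/-- **lem:tail (mgf) after a unitary change of basis `V` to a Schmidt picture.** -/
theorem tl_mgf_unitary {X : Matrix α β ℂ} {p : α → ℝ} {h : I → Matrix n n ℂ}
    {c₀ g₀ E₀ Bc : ℝ} {Ix : Finset I} {d : I → ℝ} (V : Matrix (α × β) n ℂ)
    (hV1 : Vᴴ * V = 1) (hV2 : V * Vᴴ = 1) (Ψ : n → ℂ) (hVΨ : V *ᵥ Ψ = tlTw 1 X)
    (hX : X * Xᴴ = diagonal (fun j => ((p j : ℝ) : ℂ))) (hp1 : ∑ j, p j = 1)
    (hherm : ∀ i, (h i).IsHermitian) (hc₀ : 0 ≤ c₀) (hg₀ : 0 < g₀) (hnorm : ∀ i, ‖h i‖ ≤ c₀)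
    (heig : (∑ i, h i) *ᵥ Ψ = (E₀ : ℂ) • Ψ)
    (hgap : ((∑ i, h i) - (E₀ : ℂ) • (1 : Matrix n n ℂ) -
      (g₀ : ℂ) • (1 - vecMulVec Ψ (star Ψ))).PosSemidef)
    (hnc : ∀ i, i ∉ Ix → ∀ j k, j ≠ k → tlG X (V * h i * Vᴴ) j k = 0)
    (hd : ∀ i ∈ Ix, 1 ≤ d i) (hcr : ∀ i ∈ Ix, TlCross c₀ (d i) (V * h i * Vᴴ))
    (hB : 1 + ∑ i ∈ Ix, (1 + Real.log (d i)) ^ 2 ≤ Bc) {u : ℝ}
    (hu : |u| ≤ 1 / (32 * Real.sqrt ((1 + c₀ / g₀) * Bc))) :
    Real.log (tlM p u) ≤ u * ∑ j, Real.negMulLog (p j) +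
      512 * Real.exp 1 * (c₀ / g₀) * Bc * u ^ 2 := by
  have hsum : ∑ i, V * h i * Vᴴ = V * (∑ i, h i) * Vᴴ := by
    rw [Matrix.mul_sum, Matrix.sum_mul]
  refine tl_mgf_schmidt (h := fun i => V * h i * Vᴴ) (E₀ := E₀) hX hp1
    (fun i => isHermitian_isometry_conj V (hherm i)) hc₀ hg₀
    (fun i => (tl_norm_conj_le V hV1 (h i)).trans (hnorm i)) ?_ ?_ hnc hd hcr hB hu
  · rw [hsum, ← hVΨ, mulVec_mulVec, Matrix.mul_assoc, hV1, Matrix.mul_one, ← mulVec_mulVec, heig,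
      mulVec_smul]
  · have h1 := hgap.mul_mul_conjTranspose_same V
    have h2 : V * ((∑ i, h i) - (E₀ : ℂ) • (1 : Matrix n n ℂ) -
        (g₀ : ℂ) • (1 - vecMulVec Ψ (star Ψ))) * Vᴴ
        = (∑ i, V * h i * Vᴴ) - (E₀ : ℂ) • (1 : Matrix (α × β) (α × β) ℂ) -
          (g₀ : ℂ) • (1 - vecMulVec (tlTw 1 X) (star (tlTw 1 X))) := by
      rw [hsum, ← hVΨ, star_mulVec, ← vecMulVec_mul, ← mul_vecMulVec]
      simp only [Matrix.mul_sub, Matrix.sub_mul, Matrix.mul_smul, Matrix.smul_mul, Matrix.mul_one,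
        hV2]
    rwa [h2] at h1

end Unitary

/-! ### an arbitrary splitting -/

section Split

variable {α β n : Type} [Fintype α] [Fintype β] [DecidableEq α] [DecidableEq β]
  [Fintype n] [DecidableEq n]

/-- the permutation matrix of a reindexing -/
def tlPerm (e : n ≃ α × β) : Matrix (α × β) n ℂ := (1 : Matrix n n ℂ).submatrix e.symm id

theorem tlPerm_mulVec (e : n ≃ α × β) (Ψ : n → ℂ) : tlPerm e *ᵥ Ψ = Ψ ∘ e.symm := by
  funext q
  simp [tlPerm, mulVec, dotProduct, Matrix.one_apply]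

theorem tlPerm_conj (e : n ≃ α × β) (M : Matrix n n ℂ) :
    tlPerm e * M * (tlPerm e)ᴴ = M.submatrix e.symm e.symm := by
  ext q q'
  simp [tlPerm, Matrix.mul_apply, Matrix.one_apply]

theorem tlPerm_isometry (e : n ≃ α × β) : (tlPerm e)ᴴ * tlPerm e = 1 := by
  ext i j
  simp only [tlPerm, Matrix.mul_apply, conjTranspose_apply, submatrix_apply, id, Matrix.one_apply]
  rw [← e.sum_comp]
  simp [eq_comm]

theorem tlPerm_coisometry (e : n ≃ α × β) : tlPerm e * (tlPerm e)ᴴ = 1 := by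
  have := tlPerm_conj e 1
  rw [Matrix.mul_one] at this
  rw [this, submatrix_one_equiv]

theorem tl_kron_one_mulVec (A : Matrix α α ℂ) (Φ : α × β → ℂ) :
    (A ⊗ₖ (1 : Matrix β β ℂ)) *ᵥ Φ = tlTw 1 (A * coefMat Φ) := by
  funext q
  simp only [mulVec, dotProduct, kroneckerMap_apply, Fintype.sum_prod_type, tlTw, Pi.one_apply,
    one_mul, Matrix.mul_apply, coefMat, Matrix.of_apply, Matrix.one_apply]
  refine Finset.sum_congr rfl fun a _ => ?_
  simp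

theorem TlCross.conj {c₀ d : ℝ} {h : Matrix (α × β) (α × β) ℂ} (hh : TlCross c₀ d h)
    (W : Matrix α α ℂ) (hW : Wᴴ * W = 1) :
    TlCross c₀ d ((W ⊗ₖ (1 : Matrix β β ℂ)) * h * (W ⊗ₖ (1 : Matrix β β ℂ))ᴴ) := by
  obtain ⟨N, c, e, hN, hce, rfl⟩ := hh
  refine ⟨N, fun a => W * c a * Wᴴ, e, hN, fun a => ?_, ?_⟩
  · exact (mul_le_mul_of_nonneg_right (tl_norm_conj_le W hW (c a)) (norm_nonneg _)).trans (hce a)
  · rw [Finset.mul_sum, Finset.sum_mul]
    refine Finset.sum_congr rfl fun a _ => ?_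
    rw [conjTranspose_kronecker, conjTranspose_one, ← mul_kronecker_mul, ← mul_kronecker_mul,
      Matrix.one_mul, Matrix.mul_one]

/-- **Lemma 2.1 (eq:initial-tail-mgf) for an arbitrary splitting `e : n ≃ α × β`.** -/
theorem tl_mgf_split {I : Type*} [Fintype I] (e : n ≃ α × β) {h : I → Matrix n n ℂ}
    {c₀ g₀ E₀ Bc : ℝ} {Ix : Finset I} {d : I → ℝ} (Ψ : n → ℂ) (hΨ : star Ψ ⬝ᵥ Ψ = 1)
    (hherm : ∀ i, (h i).IsHermitian) (hc₀ : 0 ≤ c₀) (hg₀ : 0 < g₀) (hnorm : ∀ i, ‖h i‖ ≤ c₀)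
    (heig : (∑ i, h i) *ᵥ Ψ = (E₀ : ℂ) • Ψ)
    (hgap : ((∑ i, h i) - (E₀ : ℂ) • (1 : Matrix n n ℂ) - (g₀ : ℂ) • (1 - pureOp Ψ)).PosSemidef)
    (hnc : ∀ i, i ∉ Ix → (∃ c : Matrix α α ℂ, (h i).submatrix e.symm e.symm = c ⊗ₖ 1) ∨
      (∃ c : Matrix β β ℂ, (h i).submatrix e.symm e.symm = 1 ⊗ₖ c))
    (hd : ∀ i ∈ Ix, 1 ≤ d i) (hcr : ∀ i ∈ Ix, TlCross c₀ (d i) ((h i).submatrix e.symm e.symm))
    (hB : 1 + ∑ i ∈ Ix, (1 + Real.log (d i)) ^ 2 ≤ Bc) {u : ℝ}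
    (hu : |u| ≤ 1 / (32 * Real.sqrt ((1 + c₀ / g₀) * Bc))) :
    Real.log (tlRenyi (ptrE e (pureOp Ψ)) (1 - u)) ≤ u * vnEnt (ptrE e (pureOp Ψ)) +
      512 * Real.exp 1 * (c₀ / g₀) * Bc * u ^ 2 := by
  set X₀ : Matrix α β ℂ := coefMat (Ψ ∘ e.symm) with hX₀
  have hρeq : ptrE e (pureOp Ψ) = X₀ * X₀ᴴ := by
    ext x x'
    simp [ptrE_apply, pureOp_apply, hX₀, coefMat, Matrix.mul_apply, conjTranspose_apply]
  have hρ : (ptrE e (pureOp Ψ)).IsHermitian := by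
    rw [hρeq]; exact isHermitian_mul_conjTranspose_self X₀
  rw [tlRenyi_eq hρ, vnEnt_eq_sum_eigenvalues hρ]
  set U : Matrix α α ℂ := (hρ.eigenvectorUnitary : Matrix α α ℂ) with hU
  have hUU : Uᴴ * U = 1 := eigU_conjTranspose_mul hρ
  have hUU' : U * Uᴴ = 1 := eigU_mul_conjTranspose hρ
  set W : Matrix (α × β) (α × β) ℂ := Uᴴ ⊗ₖ (1 : Matrix β β ℂ) with hW
  have hWW : Wᴴ * W = 1 := by
    rw [hW, conjTranspose_kronecker, conjTranspose_conjTranspose, conjTranspose_one,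
      ← mul_kronecker_mul, hUU', Matrix.one_mul, one_kronecker_one]
  have hWW' : W * Wᴴ = 1 := by
    rw [hW, conjTranspose_kronecker, conjTranspose_conjTranspose, conjTranspose_one,
      ← mul_kronecker_mul, hUU, Matrix.one_mul, one_kronecker_one]
  have hX : (Uᴴ * X₀) * (Uᴴ * X₀)ᴴ = diagonal (fun j => ((hρ.eigenvalues j : ℝ) : ℂ)) := by
    rw [conjTranspose_mul, conjTranspose_conjTranspose]
    calc Uᴴ * X₀ * (X₀ᴴ * U) = Uᴴ * (X₀ * X₀ᴴ) * U := by simp only [Matrix.mul_assoc]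
      _ = Uᴴ * (U * diagonal (fun j => ((hρ.eigenvalues j : ℝ) : ℂ)) * Uᴴ) * U := by
          rw [← hρeq]; conv_lhs => rw [spectral_plain hρ]
      _ = (Uᴴ * U) * diagonal (fun j => ((hρ.eigenvalues j : ℝ) : ℂ)) * (Uᴴ * U) := by
          simp only [Matrix.mul_assoc]
      _ = _ := by rw [hUU, Matrix.one_mul, Matrix.mul_one]
  have hconj : ∀ M : Matrix n n ℂ, (W * tlPerm e) * M * (W * tlPerm e)ᴴ
      = W * M.submatrix e.symm e.symm * Wᴴ := by
    intro M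
    rw [← tlPerm_conj, conjTranspose_mul]
    simp only [Matrix.mul_assoc]
  have hp1 : ∑ j, hρ.eigenvalues j = 1 := by
    have h1 : ((∑ j, hρ.eigenvalues j : ℝ) : ℂ) = (ptrE e (pureOp Ψ)).trace := by
      rw [hρ.trace_eq_sum_eigenvalues]; simp
    rw [trace_ptrE] at h1
    unfold pureOp at h1
    rw [trace_vecMulVec, dotProduct_comm, hΨ] at h1
    exact_mod_cast h1
  refine tl_mgf_unitary (X := Uᴴ * X₀) (E₀ := E₀) (W * tlPerm e) ?_ ?_ Ψ ?_ hX hp1 hherm hc₀ hg₀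
    hnorm heig hgap ?_ hd ?_ hB hu
  · rw [conjTranspose_mul]
    calc (tlPerm e)ᴴ * Wᴴ * (W * tlPerm e) = (tlPerm e)ᴴ * (Wᴴ * W) * tlPerm e := by
          simp only [Matrix.mul_assoc]
      _ = 1 := by rw [hWW, Matrix.mul_one, tlPerm_isometry]
  · rw [conjTranspose_mul]
    calc W * tlPerm e * ((tlPerm e)ᴴ * Wᴴ) = W * (tlPerm e * (tlPerm e)ᴴ) * Wᴴ := by
          simp only [Matrix.mul_assoc]
      _ = 1 := by rw [tlPerm_coisometry, Matrix.mul_one, hWW']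
  · rw [← mulVec_mulVec, tlPerm_mulVec, hW, tl_kron_one_mulVec]
  · intro i hi j k hjk
    rw [hconj]
    rcases hnc i hi with ⟨c, hc⟩ | ⟨c, hc⟩
    · rw [hc, hW, conjTranspose_kronecker, conjTranspose_one, ← mul_kronecker_mul,
        ← mul_kronecker_mul, Matrix.one_mul, Matrix.mul_one]
      exact tlG_kronecker_one hX _ hjk
    · rw [hc, hW, conjTranspose_kronecker, conjTranspose_one, ← mul_kronecker_mul,
        ← mul_kronecker_mul, Matrix.one_mul, Matrix.mul_one, Matrix.mul_one,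
        conjTranspose_conjTranspose, hUU]
      exact tlG_one_kronecker _ _ hjk
  · intro i hi
    rw [hconj]
    exact (hcr i hi).conj Uᴴ (by rw [conjTranspose_conjTranspose]; exact hUU')

end Split

/-! ### the interface for consumers: moment data of a density matrix -/

section Interface

variable {n : Type} [Fintype n] [DecidableEq n]

/-- **marginal moment data**: `log Tr ρ^(1-u) ≤ u S(ρ) + κ u²` for `|u| ≤ u₀`. -/
def TlMgf (ρ : Matrix n n ℂ) (κ u₀ : ℝ) : Prop :=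
  ∀ u : ℝ, |u| ≤ u₀ → Real.log (tlRenyi ρ (1 - u)) ≤ u * vnEnt ρ + κ * u ^ 2

theorem TlMgf.mono {ρ : Matrix n n ℂ} {κ κ' u₀ u₀' : ℝ} (h : TlMgf ρ κ u₀) (hκ : κ ≤ κ')
    (hu : u₀' ≤ u₀) : TlMgf ρ κ' u₀' := by
  intro u hu'
  refine (h u (hu'.trans hu)).trans ?_
  have := sq_nonneg u
  gcongr

/-- (T9) moment data imply the two sided tail bound -/
theorem TlMgf.tail {ρ : Matrix n n ℂ} {κ u₀ : ℝ} (h : TlMgf ρ κ u₀) (hρ : IsDensity ρ)
    (hu₀ : 0 ≤ u₀) (w : ℝ) :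
    tlTailMass ρ w ≤ 2 * Real.exp (κ * u₀ ^ 2) * Real.exp (-(u₀ * w)) := by
  have hH := hρ.isHermitian
  rw [tlTailMass_eq hH]
  have h1 := h u₀ (by rw [abs_of_nonneg hu₀])
  have h2 := h (-u₀) (by rw [abs_neg, abs_of_nonneg hu₀])
  rw [tlRenyi_eq hH] at h1 h2
  rw [neg_sq] at h2
  exact tl_markov hρ.sum_eigenvalues hu₀ h1 h2 w

/-- the constants of lem:tail -/
theorem tl_const_le {θ Bc : ℝ} (hθ : 0 ≤ θ) (hB : 1 ≤ Bc) :
    512 * Real.exp 1 * θ * Bc * (1 / (32 * Real.sqrt ((1 + θ) * Bc))) ^ 2 ≤ Real.exp 1 / 2 := by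
  have hpos : 0 < (1 + θ) * Bc := by positivity
  rw [div_pow, mul_pow, Real.sq_sqrt hpos.le, one_pow]
  have he := Real.exp_pos 1
  rw [mul_one_div, div_le_div_iff₀ (by positivity) (by norm_num)]
  nlinarith [mul_pos he (by linarith : (0:ℝ) < Bc), mul_nonneg hθ (by linarith : (0:ℝ) ≤ Bc)]

end Interface

end Claimed.Agent.R296
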