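/-
Row 296, paper P1 Section 2, Lemma 2.1 (lem:tail) at the level of sites:
matrix unit decomposition of a crossing term (T3) and the final statements
`tl_tail_mgf`, `tl_tail_prob`.   Owner: helper43.  Prefix `tl`.
-/
import Claimed.Agent.R296.TailBip
import Claimed.Agent.R296.LocEmb

set_option autoImplicit false
set_option linter.unusedSectionVars false
set_option linter.unusedDecidableInType false

namespace Claimed.Agent.R296

open Matrix
open scoped Matrix.Norms.L2Operator ComplexOrder Kronecker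

/-! ### two norm lemmas -/

section Norms

variable {m k l : Type*} [Fintype m] [Fintype k] [Fintype l] [DecidableEq m] [DecidableEq k]
  [DecidableEq l]

theorem tl_norm_sel_le (f : k → m) (hf : Function.Injective f) :
    ‖((1 : Matrix m m ℂ).submatrix f id)‖ ≤ 1 := by
  have h1 : (((1 : Matrix m m ℂ).submatrix f id)ᴴ)ᴴ * ((1 : Matrix m m ℂ).submatrix f id)ᴴ = 1 := by
    ext x y
    simp only [conjTranspose_conjTranspose, Matrix.mul_apply, submatrix_apply, id,
      conjTranspose_apply, Matrix.one_apply]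
    by_cases hxy : x = y
    · subst hxy; simp
    · have : f x ≠ f y := fun h => hxy (hf h)
      simp [hxy, this]
  have := tl_norm_le_one_of_isometry _ h1
  rwa [l2_opNorm_conjTranspose] at this

/-- a submatrix along injective maps has smaller operator norm -/
theorem tl_norm_submatrix_le (M : Matrix m m ℂ) (f : k → m) (g : l → m)
    (hf : Function.Injective f) (hg : Function.Injective g) : ‖M.submatrix f g‖ ≤ ‖M‖ := by
  have h1 : M.submatrix f g
      = (1 : Matrix m m ℂ).submatrix f id * M * ((1 : Matrix m m ℂ).submatrix g id)ᴴ := by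
    ext x y
    simp [Matrix.mul_apply, Matrix.one_apply]
  have hf' := tl_norm_sel_le f hf
  have hg' : ‖((1 : Matrix m m ℂ).submatrix g id)ᴴ‖ ≤ 1 := by
    rw [l2_opNorm_conjTranspose]; exact tl_norm_sel_le g hg
  rw [h1]
  calc _ ≤ ‖(1 : Matrix m m ℂ).submatrix f id‖ * ‖M‖ * ‖((1 : Matrix m m ℂ).submatrix g id)ᴴ‖ :=
        (l2_opNorm_mul _ _).trans (mul_le_mul_of_nonneg_right (l2_opNorm_mul _ _) (norm_nonneg _))
    _ ≤ 1 * ‖M‖ * 1 := by gcongr
    _ = ‖M‖ := by ring

/-- a partial permutation matrix is a contraction -/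
theorem tl_norm_partial_perm (R : m → k → Prop) [∀ x y, Decidable (R x y)]
    (h1 : ∀ x y y', R x y → R x y' → y = y') (h2 : ∀ x x' y, R x y → R x' y → x = x') :
    ‖(Matrix.of fun x y => if R x y then (1 : ℂ) else 0 : Matrix m k ℂ)‖ ≤ 1 := by
  classical
  set c : Matrix m k ℂ := Matrix.of fun x y => if R x y then (1 : ℂ) else 0 with hc
  have hcc : cᴴ * c = diagonal (fun y => if ∃ x, R x y then (1 : ℂ) else 0) := by
    ext y y'
    simp only [Matrix.mul_apply, conjTranspose_apply, hc, Matrix.of_apply, diagonal_apply]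
    by_cases hyy : y = y'
    · subst hyy
      rw [if_pos rfl]
      by_cases hex : ∃ x, R x y
      · obtain ⟨x₀, hx₀⟩ := hex
        rw [if_pos ⟨x₀, hx₀⟩, Finset.sum_eq_single x₀]
        · simp [hx₀]
        · intro x _ hx
          have : ¬ R x y := fun h => hx (h2 x x₀ y h hx₀)
          simp [this]
        · intro h; exact absurd (Finset.mem_univ _) h
      · rw [if_neg hex]
        refine Finset.sum_eq_zero fun x _ => ?_
        have : ¬ R x y := fun h => hex ⟨x, h⟩
        simp [this]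
    · rw [if_neg hyy]
      refine Finset.sum_eq_zero fun x _ => ?_
      by_cases hx : R x y
      · have : ¬ R x y' := fun h => hyy (h1 x y y' hx h)
        simp [this]
      · simp [hx]
  have h3 := l2_opNorm_conjTranspose_mul_self c
  rw [hcc, l2_opNorm_diagonal] at h3
  have h4 : ‖(fun y => if ∃ x, R x y then (1 : ℂ) else 0)‖ ≤ 1 :=
    (pi_norm_le_iff_of_nonneg zero_le_one).2 fun y => by split_ifs <;> simp
  nlinarith [norm_nonneg c]

end Norms

theorem TlCross.of_fintype {α β ι : Type*} [Fintype α] [Fintype β] [DecidableEq α] [DecidableEq β]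
    [Fintype ι] {c₀ d : ℝ} {h : Matrix (α × β) (α × β) ℂ} (c : ι → Matrix α α ℂ)
    (e : ι → Matrix β β ℂ) (hcard : (Fintype.card ι : ℝ) ≤ d ^ 2)
    (hce : ∀ a, ‖c a‖ * ‖e a‖ ≤ c₀) (hh : h = ∑ a, c a ⊗ₖ e a) : TlCross c₀ d h := by
  refine ⟨Fintype.card ι, fun a => c ((Fintype.equivFin ι).symm a),
    fun a => e ((Fintype.equivFin ι).symm a), hcard, fun a => hce _, ?_⟩
  rw [hh]
  exact ((Fintype.equivFin ι).symm.sum_comp fun a => c a ⊗ₖ e a).symm

/-! ### sites -/

section Sites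

variable {s : Type} [DecidableEq s] [Fintype s] {io : s → Type}
  [∀ x, Fintype (io x)] [∀ x, DecidableEq (io x)]

theorem tl_cfgSplit_symm (B : Finset s) (x : CfgOn io B) (x' : CfgOff io B) :
    (cfgSplit B).symm (x, x') = cglue B x x' := rfl

theorem tl_crOn_cglue (B : Finset s) (x : CfgOn io B) (x' : CfgOff io B) :
    crOn B (cglue B x x') = x :=
  congrArg Prod.fst ((cfgSplit B).right_inv (x, x'))

theorem tl_crOff_cglue (B : Finset s) (x : CfgOn io B) (x' : CfgOff io B) :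
    crOff B (cglue B x x') = x' :=
  congrArg Prod.snd ((cfgSplit B).right_inv (x, x'))

/-- a term supported inside `B` -/
theorem tl_form_inside {D B : Finset s} {h : Matrix (Cfg io) (Cfg io) ℂ} (hh : SuppIn D h)
    (hDB : D ⊆ B) : ∃ c : Matrix (CfgOn io B) (CfgOn io B) ℂ,
      h.submatrix (cfgSplit B).symm (cfgSplit B).symm = c ⊗ₖ 1 := by
  obtain ⟨K, rfl⟩ := hh.sp_mono hDB
  refine ⟨K, ?_⟩
  rw [emb_eq_kronecker, submatrix_submatrix]
  simp

/-- a term supported off `B` -/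
theorem tl_form_outside {D B : Finset s} {h : Matrix (Cfg io) (Cfg io) ℂ} (hh : SuppIn D h)
    (hDB : Disjoint D B) : ∃ c : Matrix (CfgOff io B) (CfgOff io B) ℂ,
      h.submatrix (cfgSplit B).symm (cfgSplit B).symm = 1 ⊗ₖ c := by
  obtain ⟨K, rfl⟩ := hh.sp_off hDB
  refine ⟨K, ?_⟩
  ext ⟨x, x'⟩ ⟨y, y'⟩
  simp only [submatrix_apply, tl_cfgSplit_symm, embOff, Matrix.of_apply, tl_crOn_cglue,
    tl_crOff_cglue, kroneckerMap_apply, Matrix.one_apply]
  split_ifs <;> simp

/-- restriction of a configuration on `B` to `D ∩ B` -/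
def tlRes (D B : Finset s) (x : CfgOn io B) : CfgOn io (D ∩ B) :=
  fun y => x ⟨y.1, (Finset.mem_inter.1 y.2).2⟩

/-- extension of a configuration on `D ∩ B` to `B` by a reference configuration -/
def tlExt (D B : Finset s) (ρ₀ : Cfg io) (a : CfgOn io (D ∩ B)) : CfgOn io B :=
  fun z => if hz : z.1 ∈ D then a ⟨z.1, Finset.mem_inter.2 ⟨hz, z.2⟩⟩ else ρ₀ z.1

/-- **(T3)** matrix unit decomposition of a term across the cut `B`. -/
theorem tl_form_cross [Nonempty (Cfg io)] {D : Finset s} (B : Finset s)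
    {h : Matrix (Cfg io) (Cfg io) ℂ} (hh : SuppIn D h) {c₀ : ℝ} (hn : ‖h‖ ≤ c₀) :
    TlCross c₀ (Fintype.card (CfgOn io (D ∩ B)) : ℝ)
      (h.submatrix (cfgSplit B).symm (cfgSplit B).symm) := by
  classical
  obtain ⟨ρ₀⟩ := ‹Nonempty (Cfg io)›
  have hc₀ : 0 ≤ c₀ := (norm_nonneg _).trans hn
  set P : CfgOn io B → CfgOn io B → Prop := fun x y => ∀ z : {z // z ∈ B}, z.1 ∉ D → x z = y z
    with hP
  set c : CfgOn io (D ∩ B) × CfgOn io (D ∩ B) → Matrix (CfgOn io B) (CfgOn io B) ℂ :=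
    fun ab => Matrix.of fun x y =>
      if tlRes D B x = ab.1 ∧ tlRes D B y = ab.2 ∧ P x y then (1 : ℂ) else 0 with hc
  set ee : CfgOn io (D ∩ B) × CfgOn io (D ∩ B) → Matrix (CfgOff io B) (CfgOff io B) ℂ :=
    fun ab => h.submatrix (fun x' => cglue B (tlExt D B ρ₀ ab.1) x')
      (fun y' => cglue B (tlExt D B ρ₀ ab.2) y') with hee
  have hinj : ∀ a : CfgOn io B, Function.Injective fun x' : CfgOff io B => cglue B a x' := by
    intro a x' y' hxy
    have := congrArg (crOff B) hxy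
    simpa [tl_crOff_cglue] using this
  have hdet : ∀ (x y : CfgOn io B), tlRes D B x = tlRes D B y → P x y → x = y := by
    intro x y h1 h2
    funext z
    by_cases hz : z.1 ∈ D
    · exact congrFun h1 ⟨z.1, Finset.mem_inter.2 ⟨hz, z.2⟩⟩
    · exact h2 z hz
  refine TlCross.of_fintype c ee ?_ (fun ab => ?_) ?_
  · rw [Fintype.card_prod]; push_cast; rw [sq]
  · have h1 : ‖c ab‖ ≤ 1 := by
      refine tl_norm_partial_perm
        (fun x y => tlRes D B x = ab.1 ∧ tlRes D B y = ab.2 ∧ P x y) ?_ ?_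
      · rintro x y y' ⟨_, hy, hxy⟩ ⟨_, hy', hxy'⟩
        exact hdet y y' (hy.trans hy'.symm) fun z hz => (hxy z hz).symm.trans (hxy' z hz)
      · rintro x x' y ⟨hx, _, hxy⟩ ⟨hx', _, hxy'⟩
        exact hdet x x' (hx.trans hx'.symm) fun z hz => (hxy z hz).trans (hxy' z hz).symm
    have h2 : ‖ee ab‖ ≤ c₀ := (tl_norm_submatrix_le h _ _ (hinj _) (hinj _)).trans hn
    calc ‖c ab‖ * ‖ee ab‖ ≤ 1 * c₀ := by gcongr
      _ = c₀ := one_mul _
  · obtain ⟨K, rfl⟩ := hh
    ext ⟨x, x'⟩ ⟨y, y'⟩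
    rw [Matrix.sum_apply, Fintype.sum_prod_type]
    simp only [kroneckerMap_apply, hc, hee, Matrix.of_apply, submatrix_apply, tl_cfgSplit_symm]
    rw [Finset.sum_eq_single (tlRes D B x), Finset.sum_eq_single (tlRes D B y)]
    · -- the main identity
      have hon : ∀ (w : CfgOn io B) (w' : CfgOff io B),
          crOn D (cglue B (tlExt D B ρ₀ (tlRes D B w)) w') = crOn D (cglue B w w') := by
        intro w w'
        funext z
        by_cases hz : z.1 ∈ B
        · simp [crOn, cglue, hz, tlExt, tlRes, z.2]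
        · simp [crOn, cglue, hz]
      have hoff1 : crOff D (cglue B x x') = crOff D (cglue B y y') ↔
          P x y ∧ ∀ z : {z // z ∉ B}, z.1 ∉ D → x' z = y' z := by
        constructor
        · intro hxy
          refine ⟨fun z hz => ?_, fun z hz => ?_⟩
          · have := congrFun hxy ⟨z.1, hz⟩
            simpa [crOff, cglue, z.2] using this
          · have := congrFun hxy ⟨z.1, hz⟩
            simpa [crOff, cglue, z.2] using this
        · rintro ⟨h1, h2⟩
          funext z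
          by_cases hz : z.1 ∈ B
          · simpa [crOff, cglue, hz] using h1 ⟨z.1, hz⟩ z.2
          · simpa [crOff, cglue, hz] using h2 ⟨z.1, hz⟩ z.2
      have hoff2 : crOff D (cglue B (tlExt D B ρ₀ (tlRes D B x)) x')
          = crOff D (cglue B (tlExt D B ρ₀ (tlRes D B y)) y') ↔
          ∀ z : {z // z ∉ B}, z.1 ∉ D → x' z = y' z := by
        constructor
        · intro hxy z hz
          have := congrFun hxy ⟨z.1, hz⟩
          simpa [crOff, cglue, z.2] using this
        · intro h2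
          funext z
          by_cases hz : z.1 ∈ B
          · simp [crOff, cglue, hz, tlExt, z.2]
          · simpa [crOff, cglue, hz] using h2 ⟨z.1, hz⟩ z.2
      simp only [emb, Matrix.of_apply, hon, true_and]
      by_cases hPxy : P x y
      · rw [if_pos hPxy, one_mul]
        by_cases hQ : ∀ z : {z // z ∉ B}, z.1 ∉ D → x' z = y' z
        · rw [if_pos (hoff1.2 ⟨hPxy, hQ⟩), if_pos (hoff2.2 hQ)]
        · rw [if_neg (fun h => hQ (hoff1.1 h).2), if_neg (fun h => hQ (hoff2.1 h))]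
      · rw [if_neg hPxy, zero_mul, if_neg (fun h => hPxy (hoff1.1 h).1)]
    · intro b _ hb
      rw [if_neg (fun h => hb h.2.1.symm), zero_mul]
    · intro h; exact absurd (Finset.mem_univ _) h
    · intro a _ ha
      refine Finset.sum_eq_zero fun b _ => ?_
      rw [if_neg (fun h => ha h.1.symm), zero_mul]
    · intro h; exact absurd (Finset.mem_univ _) h

/-! ### the final statements -/

/-- the indices whose designated support meets both sides of the cut `B` -/
def tlCrossing {I : Type} [Fintype I] (D : I → Finset s) (B : Finset s) : Finset I :=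
  Finset.univ.filter fun i => ¬ D i ⊆ B ∧ ¬ Disjoint (D i) B

/-- the cut parameter `𝓑 = 1 + ∑_{i crossing} log² (e d_i)`, `d_i = ∏_{x ∈ D_i} dim H_x` -/
noncomputable def tlCutParam {I : Type} [Fintype I] (io : s → Type) [∀ x, Fintype (io x)]
    (D : I → Finset s) (B : Finset s) : ℝ :=
  1 + ∑ i ∈ tlCrossing D B, (1 + ∑ x ∈ D i, Real.log (Fintype.card (io x))) ^ 2

theorem tl_log_card_cfgOn [Nonempty (Cfg io)] (A : Finset s) :
    Real.log (Fintype.card (CfgOn io A)) = ∑ x ∈ A, Real.log (Fintype.card (io x)) := by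
  obtain ⟨ρ₀⟩ := ‹Nonempty (Cfg io)›
  rw [Fintype.card_pi, Nat.cast_prod, Real.log_prod]
  · exact Finset.sum_coe_sort A fun x => Real.log (Fintype.card (io x))
  · intro x _
    have : Nonempty (io x.1) := ⟨ρ₀ x.1⟩
    exact_mod_cast Fintype.card_ne_zero

theorem tl_nonempty_of_unit {n : Type*} [Fintype n] {Ψ : n → ℂ} (hΨ : star Ψ ⬝ᵥ Ψ = 1) :
    Nonempty n := by
  by_contra hne
  rw [not_nonempty_iff] at hne
  simp [dotProduct] at hΨ

theorem tl_ptr_pure_isDensity {Ψ : Cfg io → ℂ} (hΨ : star Ψ ⬝ᵥ Ψ = 1) (B : Finset s) :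
    IsDensity (ptr B (pureOp Ψ)) := by
  refine ⟨ptrE_posSemidef (cfgSplit B) (pureOp_posSemidef Ψ), ?_⟩
  rw [ptr_eq_ptrE, trace_ptrE]
  unfold pureOp
  rw [trace_vecMulVec, dotProduct_comm, hΨ]

/-- **Lemma 2.1 (lem:tail), moment bound (eq:initial-tail-mgf).**
Finite tensor product over the sites `s`, terms `h i` with designated supports `D i`, norm `≤ c₀`,
unique ground vector `Ψ` with gap `g₀`; `B` is any subset of sites, `Bc` any upper bound for the cut
parameter. -/
theorem tl_tail_mgf {I : Type} [Fintype I] (D : I → Finset s)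
    (h : I → Matrix (Cfg io) (Cfg io) ℂ) {c₀ g₀ E₀ Bc : ℝ} (Ψ : Cfg io → ℂ)
    (hΨ : star Ψ ⬝ᵥ Ψ = 1) (hsupp : ∀ i, SuppIn (D i) (h i)) (hherm : ∀ i, (h i).IsHermitian)
    (hg₀ : 0 < g₀) (hnorm : ∀ i, ‖h i‖ ≤ c₀) (hc₀ : 0 ≤ c₀)
    (heig : (∑ i, h i) *ᵥ Ψ = (E₀ : ℂ) • Ψ)
    (hgap : ((∑ i, h i) - (E₀ : ℂ) • (1 : Matrix (Cfg io) (Cfg io) ℂ) -
      (g₀ : ℂ) • (1 - pureOp Ψ)).PosSemidef)
    (B : Finset s) (hB : tlCutParam io D B ≤ Bc) :
    TlMgf (ptr B (pureOp Ψ)) (512 * Real.exp 1 * (c₀ / g₀) * Bc)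
      (1 / (32 * Real.sqrt ((1 + c₀ / g₀) * Bc))) := by
  intro u hu
  have hne : Nonempty (Cfg io) := tl_nonempty_of_unit hΨ
  obtain ⟨ρ₀⟩ := id hne
  rw [ptr_eq_ptrE]
  refine tl_mgf_split (cfgSplit B) (Ix := tlCrossing D B)
    (d := fun i => (Fintype.card (CfgOn io (D i ∩ B)) : ℝ)) Ψ hΨ hherm hc₀ hg₀ hnorm heig hgap
    ?_ ?_ ?_ ?_ hu
  · intro i hi
    simp only [tlCrossing, Finset.mem_filter, Finset.mem_univ, true_and, not_and, not_not] at hi
    by_cases hDB : D i ⊆ B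
    · exact Or.inl (tl_form_inside (hsupp i) hDB)
    · exact Or.inr (tl_form_outside (hsupp i) (hi hDB))
  · intro i _
    have : Nonempty (CfgOn io (D i ∩ B)) := ⟨fun x => ρ₀ x.1⟩
    exact_mod_cast Nat.one_le_iff_ne_zero.2 Fintype.card_ne_zero
  · intro i _
    exact tl_form_cross B (hsupp i) (hnorm i)
  · refine le_trans ?_ hB
    unfold tlCutParam
    refine add_le_add le_rfl (Finset.sum_le_sum fun i _ => ?_)
    rw [tl_log_card_cfgOn]
    have h0 : 0 ≤ ∑ x ∈ D i ∩ B, Real.log (Fintype.card (io x)) :=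
      Finset.sum_nonneg fun x _ => Real.log_natCast_nonneg _
    have h1 : ∑ x ∈ D i ∩ B, Real.log (Fintype.card (io x)) ≤
        ∑ x ∈ D i, Real.log (Fintype.card (io x)) :=
      Finset.sum_le_sum_of_subset_of_nonneg Finset.inter_subset_left
        fun x _ _ => Real.log_natCast_nonneg _
    exact pow_le_pow_left₀ (by linarith) (by linarith) 2

theorem tlCutParam_one_le {I : Type} [Fintype I] (D : I → Finset s) (B : Finset s) :
    1 ≤ tlCutParam io D B := by
  unfold tlCutParam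
  have : 0 ≤ ∑ i ∈ tlCrossing D B, (1 + ∑ x ∈ D i, Real.log (Fintype.card (io x))) ^ 2 :=
    Finset.sum_nonneg fun i _ => sq_nonneg _
  linarith

/-- **Lemma 2.1 (lem:tail), tail bound (eq:initial-tail-probability).** -/
theorem tl_tail_prob {I : Type} [Fintype I] (D : I → Finset s)
    (h : I → Matrix (Cfg io) (Cfg io) ℂ) {c₀ g₀ E₀ Bc : ℝ} (Ψ : Cfg io → ℂ)
    (hΨ : star Ψ ⬝ᵥ Ψ = 1) (hsupp : ∀ i, SuppIn (D i) (h i)) (hherm : ∀ i, (h i).IsHermitian)
    (hg₀ : 0 < g₀) (hnorm : ∀ i, ‖h i‖ ≤ c₀) (hc₀ : 0 ≤ c₀)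
    (heig : (∑ i, h i) *ᵥ Ψ = (E₀ : ℂ) • Ψ)
    (hgap : ((∑ i, h i) - (E₀ : ℂ) • (1 : Matrix (Cfg io) (Cfg io) ℂ) -
      (g₀ : ℂ) • (1 - pureOp Ψ)).PosSemidef)
    (B : Finset s) (hB : tlCutParam io D B ≤ Bc) (w : ℝ) :
    tlTailMass (ptr B (pureOp Ψ)) w ≤ 2 * Real.exp (Real.exp 1 / 2) *
      Real.exp (-w / (32 * Real.sqrt ((1 + c₀ / g₀) * Bc))) := by
  have hmgf := tl_tail_mgf D h Ψ hΨ hsupp hherm hg₀ hnorm hc₀ heig hgap B hB
  have hB1 : 1 ≤ Bc := (tlCutParam_one_le D B).trans hB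
  have hθ : 0 ≤ c₀ / g₀ := div_nonneg hc₀ hg₀.le
  have h1 := hmgf.tail (tl_ptr_pure_isDensity hΨ B) (by positivity) w
  refine h1.trans ?_
  have h2 := tl_const_le hθ hB1
  have h3 : -(1 / (32 * Real.sqrt ((1 + c₀ / g₀) * Bc)) * w)
      = -w / (32 * Real.sqrt ((1 + c₀ / g₀) * Bc)) := by ring
  rw [h3]
  gcongr

end Sites

end Claimed.Agent.R296
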