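import Mathlib
import Claimed.Agent.R296.TopDefs
import Claimed.Agent.R296.Count
import Claimed.Agent.R296.Top

/-!
# Row 296: `InfoDecayStmt` from the collar bound (Prop. 8.7) and amplification (Prop. 9.2)

This is the path argument in the proof of Theorem 1.1 of P1: a graph path of length `≤ 2r` from
`S₀ = A ∩ T_L` stays within ambient distance `L + 2r < n^β` of `T`; it can neither reach an earlier
region nor cross the cut.  Prefix `tg_`.
-/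

set_option autoImplicit false

namespace Claimed.Agent.R296

open Matrix Claims.C0473 Finset

/-- `X = A ∩ T` -/
def tplX {Λ : Finset (ℤ × ℤ)} (A : Finset Λ) (T : Finset (ℤ × ℤ)) : Finset Λ :=
  A.filter fun x => (x : ℤ × ℤ) ∈ T

/-- `S₀ = A ∩ T_L`, with `T_L` the ambient sup-norm dilation of `T` by `L` -/
def tplS {Λ : Finset (ℤ × ℤ)} (A : Finset Λ) (T : Finset (ℤ × ℤ)) (L : ℕ) : Finset Λ :=
  A.filter fun x => ∃ t ∈ T, dInf t (x : ℤ × ℤ) ≤ L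

/-- P1, Proposition 8.7 (sublinear collar bound), with the size and boundary assertions. -/
def CollarStmt (q R : ℕ) [NeZero q] (J Δ : ℝ) (Ctpl D0 : ℕ) : Prop :=
  ∃ (C : ℝ) (n0 : ℕ),
    ∀ (Λ : Finset (ℤ × ℤ)) (k : Finset Λ → Matrix (Λ → Fin q) (Λ → Fin q) ℂ),
    AdmInt q R J Λ k → ∀ (E₀ : ℝ) (Ω : (Λ → Fin q) → ℂ), GapState q R Δ Λ k E₀ Ω →
    ∀ (A : Finset Λ) (T : Finset (ℤ × ℤ)) (n s0 : ℕ), n0 ≤ n →
      IsTemplate Ctpl T n s0 →
      (∀ x ∈ T, ∀ z ∈ cutEnds Λ A, (4 * D0 * s0 : ℤ) < dInf x z) →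
      ⌊(n : ℝ) ^ (1 - expEll)⌋₊ ≤ s0 →
      minfo (io := fun _ : Λ => Fin q) (pureOp Ω) (tplX A T)
          (tplS A T ⌊(n : ℝ) ^ (1 - expEll)⌋₊)ᶜ ≤ C * (n : ℝ) ^ (1 - expEll) ∧
      ((tplS A T ⌊(n : ℝ) ^ (1 - expEll)⌋₊).card : ℝ) ≤ C * (n : ℝ) ^ 2 ∧
      (edgeBoundary Λ (tplX A T) : ℝ) ≤ C * n ∧
      (edgeBoundary Λ (tplS A T ⌊(n : ℝ) ^ (1 - expEll)⌋₊ \ tplX A T) : ℝ) ≤ C * n ∧
      (edgeBoundary Λ (tplS A T ⌊(n : ℝ) ^ (1 - expEll)⌋₊) : ℝ) ≤ C * n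

/-- P1, Proposition 9.2 (amplification) with `M = 100`, in a form which mentions neither the
template nor the cut. -/
def AmplStmt (q R : ℕ) [NeZero q] (J Δ : ℝ) : Prop :=
  ∀ C0 : ℝ, ∃ (C : ℝ) (n0 : ℕ),
    ∀ (Λ : Finset (ℤ × ℤ)) (k : Finset Λ → Matrix (Λ → Fin q) (Λ → Fin q) ℂ),
    AdmInt q R J Λ k → ∀ (E₀ : ℝ) (Ω : (Λ → Fin q) → ℂ), GapState q R Δ Λ k E₀ Ω →
    ∀ (X S0 : Finset Λ) (n : ℕ), n0 ≤ n → X ⊆ S0 →
      (S0.card : ℝ) ≤ C0 * (n : ℝ) ^ 2 →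
      (edgeBoundary Λ X : ℝ) ≤ C0 * n →
      (edgeBoundary Λ (S0 \ X) : ℝ) ≤ C0 * n →
      (edgeBoundary Λ S0 : ℝ) ≤ C0 * n →
      minfo (io := fun _ : Λ => Fin q) (pureOp Ω) X S0ᶜ ≤ C0 * (n : ℝ) ^ (1 - expEll) →
      ∃ r : ℕ, (n : ℝ) ^ (1 - expEll) + 2 * r < (n : ℝ) ^ expBeta ∧
        ∀ Jr : Finset Λ, Disjoint Jr (gNbhd Λ S0 (2 * r)) →
          minfo (io := fun _ : Λ => Fin q) (pureOp Ω) X Jr ≤ C * ((n : ℝ) ^ 100)⁻¹

/-- monotonicity of the mutual information in its first argument -/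
theorem EntLike.tg_minfo_mono {Λ : Type} [Fintype Λ] [DecidableEq Λ] {S : Finset Λ → ℝ}
    (hS : EntLike S) {X' X Jr : Finset Λ} (hX : X' ⊆ X) (hd : Disjoint X Jr) :
    S X' + S Jr - S (X' ∪ Jr) ≤ S X + S Jr - S (X ∪ Jr) := by
  have h := hS.submod X (X' ∪ Jr)
  have e1 : X ∪ (X' ∪ Jr) = X ∪ Jr := by
    rw [← Finset.union_assoc, Finset.union_eq_left.mpr hX]
  have e2 : X ∩ (X' ∪ Jr) = X' := by
    rw [Finset.inter_union_distrib_left, Finset.disjoint_iff_inter_eq_empty.mp hd,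
      Finset.union_empty, Finset.inter_eq_right.mpr hX]
  rw [e1, e2] at h
  linarith

/-- a member of the domain which has a neighbour on the other side of the cut is a cut end -/
theorem tg_mem_cutEnds {Λ : Finset (ℤ × ℤ)} {A : Finset Λ} {p p' : Λ}
    (hadj : (latticeGraph Λ).Adj p p') (hp : p ∈ A) (hp' : p' ∉ A) :
    (p : ℤ × ℤ) ∈ cutEnds Λ A := by
  unfold cutEnds
  rw [mem_image]
  refine ⟨p, ?_, rfl⟩
  simp only [mem_filter, mem_univ, true_and]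
  exact ⟨p', ct_adj_dOne.mp hadj, fun h => hp' (h.mp hp)⟩

/-- **The path argument**: `InfoDecayStmt` follows from the collar bound and amplification. -/
theorem tg_infoDecay (hEnt : EntApiStmt) (q R : ℕ) [NeZero q] (J Δ : ℝ) (Ctpl D0 : ℕ)
    (hCol : CollarStmt q R J Δ Ctpl D0) (hAmp : AmplStmt q R J Δ) :
    InfoDecayStmt q R J Δ Ctpl D0 := by
  classical
  obtain ⟨C1, n1, hC⟩ := hCol
  obtain ⟨C2, n2, hA⟩ := hAmp C1
  refine ⟨C2, max n1 n2, fun Λ k hk E₀ Ω hG A T n s0 hn htpl hclear X' Jr hX' hJr => ?_⟩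
  obtain ⟨hc1, hc2, hc3⟩ := hclear
  set L := ⌊(n : ℝ) ^ (1 - expEll)⌋₊ with hL
  obtain ⟨i1, i2, i3, i4, i5⟩ :=
    hC Λ k hk E₀ Ω hG A T n s0 ((le_max_left _ _).trans hn) htpl hc1 hc2
  have hsub : tplX A T ⊆ tplS A T L := by
    intro x hx
    unfold tplX at hx
    unfold tplS
    rw [mem_filter] at hx ⊢
    exact ⟨hx.1, (x : ℤ × ℤ), hx.2, by simp [ct_dInf_self]⟩
  obtain ⟨r, hr, hinfo⟩ := hA Λ k hk E₀ Ω hG (tplX A T) (tplS A T L) n
    ((le_max_right _ _).trans hn) hsub i2 i3 i4 i5 i1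
  have hLle : (L : ℝ) ≤ (n : ℝ) ^ (1 - expEll) := Nat.floor_le (by positivity)
  have hnb : 0 ≤ (n : ℝ) ^ expBeta := by positivity
  -- `Jr` avoids the graph neighbourhood of `S₀`
  have hdisj : Disjoint Jr (gNbhd Λ (tplS A T L) (2 * r)) := by
    rw [Finset.disjoint_left]
    intro y hy hyN
    obtain ⟨s, hs, hd⟩ := ct_mem_gNbhd.mp hyN
    unfold tplS at hs
    rw [mem_filter] at hs
    obtain ⟨hsA, t, ht, hts⟩ := hs
    -- every point within graph distance `2r` of `s` is within ambient distance `< n^β` of `t`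
    have hnear : ∀ z : Λ, (latticeGraph Λ).edist z s ≤ ((2 * r : ℕ) : ℕ∞) →
        (dInf t (z : ℤ × ℤ) : ℝ) < (n : ℝ) ^ expBeta := by
      intro z hz
      have h1 : dInf (z : ℤ × ℤ) (s : ℤ × ℤ) ≤ ((2 * r : ℕ) : ℤ) := ct_dInf_le hz
      have h2 := ct_dInf_triangle t (s : ℤ × ℤ) (z : ℤ × ℤ)
      rw [ct_dInf_comm (s : ℤ × ℤ)] at h2
      have h3 : dInf t (z : ℤ × ℤ) ≤ (L : ℤ) + ((2 * r : ℕ) : ℤ) := by linarith
      have h4 : (dInf t (z : ℤ × ℤ) : ℝ) ≤ (L : ℝ) + 2 * r := by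
        have : ((dInf t (z : ℤ × ℤ) : ℤ) : ℝ) ≤ (((L : ℤ) + ((2 * r : ℕ) : ℤ) : ℤ) : ℝ) := by
          exact_mod_cast h3
        simpa using this
      linarith
    by_cases hyA : y ∈ A
    · have h1 := hJr y hy hyA t ht
      have h2 := hnear y (by rw [SimpleGraph.edist_comm]; exact hd)
      linarith
    · obtain ⟨w, hw⟩ := ct_exists_walk hd
      obtain ⟨p, p', hadj, hp, hp', hdp, _⟩ := ct_walk_cross w hsA hyA
      have h1 := hc3 t ht _ (tg_mem_cutEnds hadj hp hp')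
      have h2 := hnear p (hdp.trans (by exact_mod_cast hw))
      linarith
  have hmain := hinfo Jr hdisj
  -- monotonicity in the first argument
  have hS := top_entLike hEnt Ω hG.1
  have hX'sub : X' ⊆ tplX A T := by
    intro x hx
    unfold tplX
    rw [mem_filter]
    exact hX' x hx
  have hXJ : Disjoint (tplX A T) Jr := by
    rw [Finset.disjoint_left]
    intro x hx hxJ
    refine Finset.disjoint_left.mp hdisj hxJ (ct_mem_gNbhd.mpr ⟨x, hsub hx, by simp⟩)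
  have hmono := hS.tg_minfo_mono hX'sub hXJ
  unfold minfo at hmain ⊢
  linarith

end Claimed.Agent.R296
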