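import Claimed.Agent.R296.AmpBridge
import Claimed.Agent.R296.AmpScal
import Claimed.Agent.R296.Sec3
import Claimed.Agent.R296.TailSites
import Claimed.Agent.R296.TopGlue

/-!
# Row 296, paper 1, Section 9 (amplification), file 14: tails and filter on the frozen objects

* `amp_tail_lattice` : `lem:tail` for a region `B` of the lattice, cut parameter `1 + C1 |∂B|`;
* `amp_filter_lattice` : the local filter from `sec3_positive` + `amp_filter_site`;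
Architect: helper286.
-/

set_option autoImplicit false
set_option linter.unusedSectionVars false
set_option linter.unusedDecidableInType false

namespace Claimed.Agent.R296

open Matrix Claims.C0473 Claimed.Agent.R298
open scoped MatrixOrder Matrix.Norms.L2Operator ComplexOrder

theorem ampNbhd_eq_gNbhd {Λ : Finset (ℤ × ℤ)} (S : Finset Λ) (r : ℕ) :
    ampNbhd (latticeGraph Λ) S r = gNbhd Λ S r := by
  ext y
  rw [ct_mem_gNbhd]
  simp [ampNbhd]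

/-- the crossing terms are the split admissible supports (`ct_split_count`) -/
theorem amp_card_crossing {Λ : Finset (ℤ × ℤ)} (R : ℕ) (B : Finset Λ) :
    (tlCrossing (fun X : AdmIx Λ R => X.1) B).card ≤
      edgeBoundary Λ B * ((2 * R + 1) ^ 2 * 2 ^ ((2 * R + 1) ^ 2)) := by
  classical
  refine le_trans ?_ (ct_split_count R B)
  apply Finset.card_le_card_of_injOn (fun X => X.1)
  · intro X hX
    simp only [tlCrossing, Finset.coe_filter, Finset.mem_univ, true_and, Set.mem_ofPred_eq] at hX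
    simp only [Finset.coe_filter, Set.mem_ofPred_eq]
    refine ⟨X.2, ?_, ?_⟩
    · obtain ⟨x, hx1, hx2⟩ := Finset.not_disjoint_iff.1 hX.2
      exact ⟨x, hx1, hx2⟩
    · obtain ⟨x, hx1, hx2⟩ := Finset.not_subset.1 hX.1
      exact ⟨x, hx1, hx2⟩
  · intro X _ Y _ h
    exact Subtype.ext h

theorem amp_admIx_card_le {Λ : Finset (ℤ × ℤ)} {R : ℕ} (X : AdmIx Λ R) :
    X.1.card ≤ (2 * R + 1) ^ 2 := by
  obtain ⟨x, hx⟩ := admIx_nonempty X
  exact (Finset.card_le_card (ct_adm_subset_ball X.2 hx)).trans (ct_ball_card x R)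

/-- the cut parameter: `C1 = (2R+1)² 2^{(2R+1)²} (1 + (2R+1)² log q)²` -/
theorem amp_cutParam_le (q R : ℕ) [NeZero q] {Λ : Finset (ℤ × ℤ)} (B : Finset Λ) :
    tlCutParam (fun _ : Λ => Fin q) (fun X : AdmIx Λ R => X.1) B ≤
      1 + (((2 * R + 1) ^ 2 * 2 ^ ((2 * R + 1) ^ 2) : ℕ) : ℝ) *
        (1 + ((2 * R + 1) ^ 2 : ℕ) * Real.log q) ^ 2 * edgeBoundary Λ B := by
  unfold tlCutParam
  have hq : 0 ≤ Real.log q := Real.log_natCast_nonneg q
  have hterm : ∀ X ∈ tlCrossing (fun X : AdmIx Λ R => X.1) B,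
      (1 + ∑ x ∈ X.1, Real.log (Fintype.card (Fin q))) ^ 2
        ≤ (1 + ((2 * R + 1) ^ 2 : ℕ) * Real.log q) ^ 2 := by
    intro X _
    rw [Finset.sum_const, nsmul_eq_mul, Fintype.card_fin]
    apply pow_le_pow_left₀ (by positivity)
    have : (X.1.card : ℝ) ≤ (((2 * R + 1) ^ 2 : ℕ) : ℝ) := by exact_mod_cast amp_admIx_card_le X
    have := mul_le_mul_of_nonneg_right this hq
    linarith
  have h1 := Finset.sum_le_card_nsmul _ _ _ hterm
  rw [nsmul_eq_mul] at h1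
  have h2 : ((tlCrossing (fun X : AdmIx Λ R => X.1) B).card : ℝ)
      ≤ ((edgeBoundary Λ B * ((2 * R + 1) ^ 2 * 2 ^ ((2 * R + 1) ^ 2)) : ℕ) : ℝ) := by
    exact_mod_cast amp_card_crossing R B
  have h3 := mul_le_mul_of_nonneg_right h2
    (sq_nonneg (1 + (((2 * R + 1) ^ 2 : ℕ) : ℝ) * Real.log q))
  have h4 : ((edgeBoundary Λ B * ((2 * R + 1) ^ 2 * 2 ^ ((2 * R + 1) ^ 2)) : ℕ) : ℝ)
        * (1 + (((2 * R + 1) ^ 2 : ℕ) : ℝ) * Real.log q) ^ 2
      = (((2 * R + 1) ^ 2 * 2 ^ ((2 * R + 1) ^ 2) : ℕ) : ℝ) *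
        (1 + ((2 * R + 1) ^ 2 : ℕ) * Real.log q) ^ 2 * edgeBoundary Λ B := by
    push_cast; ring
  linarith

/-- **`lem:tail` on the frozen objects** (`tl_tail_prob`, `locHam_lattice`, `sum_admIx`) -/
theorem amp_tail_lattice (q R : ℕ) [NeZero q] (J Δ : ℝ) (hJ : 0 < J) (hΔ : 0 < Δ) :
    ∃ C1 : ℝ, 0 ≤ C1 ∧
      ∀ (Λ : Finset (ℤ × ℤ)) (k : Finset Λ → Matrix (Λ → Fin q) (Λ → Fin q) ℂ),
        AdmInt q R J Λ k → ∀ (E₀ : ℝ) (Ω : (Λ → Fin q) → ℂ), GapState q R Δ Λ k E₀ Ω →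
        ∀ (B : Finset Λ) (w : ℝ),
          tlTailMass (ptr (io := fun _ : Λ => Fin q) B (pureOp Ω)) w ≤
            ampTailB (J / Δ) (C1 * edgeBoundary Λ B) w := by
  refine ⟨(((2 * R + 1) ^ 2 * 2 ^ ((2 * R + 1) ^ 2) : ℕ) : ℝ) *
        (1 + ((2 * R + 1) ^ 2 : ℕ) * Real.log q) ^ 2, by positivity, ?_⟩
  intro Λ k hk E₀ Ω hΩ B w
  have hL := locHam_lattice hJ.le hk
  unfold ampTailB
  exact tl_tail_prob (io := fun _ : Λ => Fin q) (fun X : AdmIx Λ R => X.1)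
    (fun X => embedAt X.1 (k X.1)) (E₀ := E₀) Ω hΩ.1 hL.supp hL.herm hΔ hL.norm hJ.le
    (by rw [sum_admIx]; exact hΩ.2.1)
    (by rw [sum_admIx]; exact br_isPSD_iff.mp hΩ.2.2) B (amp_cutParam_le q R B) w

/-- **the local filter on the frozen objects** -/
theorem amp_filter_lattice (q R : ℕ) [NeZero q] (J Δ : ℝ) (hJ : 0 < J) (hΔ : 0 < Δ) :
    ∃ g v Cκ c' : ℝ, 0 < g ∧ 0 ≤ v ∧ 0 ≤ Cκ ∧ 0 < c' ∧
      ∀ (Λ : Finset (ℤ × ℤ)) (k : Finset Λ → Matrix (Λ → Fin q) (Λ → Fin q) ℂ),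
        AdmInt q R J Λ k → ∀ (E₀ : ℝ) (Ω : (Λ → Fin q) → ℂ), GapState q R Δ Λ k E₀ Ω →
        Nonempty (AdmIx Λ R) → ∀ (S : Finset Λ) (r N : ℕ),
        ∃ L' : Matrix (Λ → Fin q) (Λ → Fin q) ℂ,
          SuppIn (io := fun _ : Λ => Fin q) (gNbhd Λ S (2 * r)) L' ∧ L'ᴴ = L' ∧
          Real.sqrt (opnSq (L' *ᵥ Ω - Ω)) ≤
            ampErr g v Cκ c' ampAlpha ((N : ℝ) / Fintype.card (AdmIx Λ R)) S.card r ∧
          ∀ (κ : Type) [Fintype κ] [DecidableEq κ] (Bk : κ → Matrix (Λ → Fin q) (Λ → Fin q) ℂ),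
            (∀ j, SuppIn (io := fun _ : Λ => Fin q) S (Bk j)) →
            Real.sqrt (∑ j, opnSq (L' *ᵥ (Bk j *ᵥ Ω))) ≤
              Real.sqrt (∑ j, ‖star Ω ⬝ᵥ (Bk j *ᵥ Ω)‖ ^ 2) +
              ‖ampCol Bk‖ *
                ampErr g v Cκ c' ampAlpha ((N : ℝ) / Fintype.card (AdmIx Λ R)) S.card r := by
  obtain ⟨cs, C, c, hcs, hC, hc, hpos⟩ :=
    sec3_positive q R J Δ hJ hΔ ampAlpha ampAlpha_pos ampAlpha_lt_one
  obtain ⟨v, Cκ, c', hv, hCκ, hc', hfil⟩ :=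
    amp_filter_site (muR R) hC hc ampAlpha_pos ampAlpha_lt_one.le
  refine ⟨Δ / cs, v, Cκ, c', by positivity, hv, hCκ, hc', ?_⟩
  intro Λ k hk E₀ Ω hΩ hne S r N
  obtain ⟨kk, hP, -⟩ := hpos Λ k hk E₀ Ω hΩ
  obtain ⟨L', h1, h2, -, h3, h4⟩ := hfil (io := fun _ : Λ => Fin q) (G := latticeGraph Λ)
    (fun x r => ct_ball_card x r) (X := fun X : AdmIx Λ R => X.1) admIx_nonempty admIx_mult
    hΩ.1 (by positivity) hP S r N
  rw [ampNbhd_eq_gNbhd] at h1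
  exact ⟨L', h1, h2, h3, h4⟩

/-- a nonempty region forces an interaction term (singletons are admissible) -/
theorem amp_nonempty_admIx {Λ : Finset (ℤ × ℤ)} (R : ℕ) {X : Finset Λ} (hX : X.Nonempty) :
    Nonempty (AdmIx Λ R) := by
  obtain ⟨x, -⟩ := hX
  refine ⟨⟨{x}, ?_⟩⟩
  unfold admissibleSupports
  rw [Finset.mem_filter]
  refine ⟨Finset.mem_univ _, Finset.singleton_nonempty x, ?_⟩
  intro a ha b hb
  rw [Finset.mem_singleton] at ha hb
  subst ha hb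
  simp

/-- the empty region carries no information -/
theorem amp_minfo_empty {s : Type} [DecidableEq s] [Fintype s] {io : s → Type}
    [∀ x, Fintype (io x)] [∀ x, DecidableEq (io x)] {ρ : Matrix (Cfg io) (Cfg io) ℂ}
    (hρ : IsDensity ρ) (Y : Finset s) : minfo ρ ∅ Y = 0 := by
  unfold minfo
  rw [ent_empty hρ, Finset.empty_union]
  ring

end Claimed.Agent.R296
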