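import Claimed.Agent.R296.AmpLat

/-!
# Row 296, paper 1, Section 9 (amplification), file 15: `prop:amplification` on the frozen objects

`amp_amplStmt` : `AmplStmt q R J Δ` (consumed by `tg_infoDecay`).  Assembly only.
Architect and owner: helper286.
-/

set_option autoImplicit false
set_option linter.unusedSectionVars false
set_option linter.unusedDecidableInType false

namespace Claimed.Agent.R296

open Matrix Claims.C0473 Claimed.Agent.R298
open scoped MatrixOrder Matrix.Norms.L2Operator ComplexOrder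

/-- **Proposition 9.2 (amplification).**
`C0' = max C0 0`; constants from `amp_filter_lattice`, `amp_tail_lattice`, `amp_scalars`
(`θ = J/Δ`, `Lq = log q`); `X = ∅` by `amp_minfo_empty`; otherwise `m = #AdmIx > 0`, take `r, w, N` from
`amp_scalars`, `L'` from `amp_filter_lattice` (`S = S0`), `δ = ampTailB θ (C1 C0' n) w` (`ampTailB_mono`),
`W = gNbhd Λ S0 (2r) ⊇ S0`, `amp_site_decouple`, `minfo_mono_right` (`Jr ⊆ Wᶜ`),
`logDim X = |X| log q ≤ log q · C0' n²`. -/
theorem amp_amplStmt (q R : ℕ) [NeZero q] (J Δ : ℝ) (hJ : 0 < J) (hΔ : 0 < Δ) :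
    AmplStmt q R J Δ := by
  intro C0
  obtain ⟨g, v, Cκ, c', hg, hv, hCκ, hc', hfilt⟩ := amp_filter_lattice q R J Δ hJ hΔ
  obtain ⟨C1, hC1, htail⟩ := amp_tail_lattice q R J Δ hJ hΔ
  have hθ : 0 ≤ J / Δ := by positivity
  have hLq : 0 ≤ Real.log q := Real.log_natCast_nonneg q
  have hC0' : 0 ≤ max C0 0 := le_max_right C0 0
  obtain ⟨C, n0, hC, hn0, hsc⟩ := amp_scalars hg hv hCκ hc' hθ hC0' hC1 hLq
  refine ⟨C, n0, ?_⟩
  intro Λ k hk E₀ Ω hG X S0 n hn hXS hcard hbX hbY hbS hI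
  obtain ⟨r, w, hw, hr, hN⟩ := hsc n hn
  refine ⟨r, hr, ?_⟩
  intro Jr hJr
  have hnorm : ∑ i, ‖Ω i‖ ^ 2 = 1 := by
    have h1 := star_dotProduct_self_eq Ω
    rw [hG.1] at h1
    exact_mod_cast h1.symm
  have hρ : IsDensity (pureOp Ω) := pureOp_isDensity hnorm
  rcases X.eq_empty_or_nonempty with rfl | hXne
  · rw [amp_minfo_empty hρ]
    positivity
  have hne : Nonempty (AdmIx Λ R) := amp_nonempty_admIx R hXne
  obtain ⟨N, hfin⟩ := hN (Fintype.card (AdmIx Λ R)) Fintype.card_pos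
  obtain ⟨L', hLs, hLh, hfix, hfil⟩ := hfilt Λ k hk E₀ Ω hG hne S0 r N
  have hκ : 0 ≤ ampErr g v Cκ c' ampAlpha ((N : ℝ) / Fintype.card (AdmIx Λ R)) S0.card r :=
    ampErr_nonneg hCκ (by positivity) (by positivity) r
  have hSW : S0 ⊆ gNbhd Λ S0 (2 * r) := by
    intro x hx
    exact ct_mem_gNbhd.mpr ⟨x, hx, by simp⟩
  have hle : ∀ y : ℝ, 0 ≤ y → C0 * y ≤ max C0 0 * y := fun y hy =>
    mul_le_mul_of_nonneg_right (le_max_left C0 0) hy
  have hδ : ∀ B : Finset Λ, (edgeBoundary Λ B : ℝ) ≤ C0 * n →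
      tlTailMass (ptr (io := fun _ : Λ => Fin q) B (pureOp Ω)) w ≤
        ampTailB (J / Δ) (C1 * max C0 0 * n) w := by
    intro B hB
    refine (htail Λ k hk E₀ Ω hG B w).trans (ampTailB_mono hθ (by positivity) ?_ hw)
    rw [mul_assoc]
    exact mul_le_mul_of_nonneg_left (hB.trans (hle _ (by positivity))) hC1
  have h1 := amp_site_decouple (io := fun _ : Λ => Fin q) hG.1 hXS hSW w hκ (hδ X hbX)
    (hδ _ hbY) (hδ _ hbS) hLs hLh hfix hfil
  have h2 : minfo (io := fun _ : Λ => Fin q) (pureOp Ω) X Jr ≤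
      minfo (io := fun _ : Λ => Fin q) (pureOp Ω) X (gNbhd Λ S0 (2 * r))ᶜ := by
    refine minfo_mono_right hρ X Jr _ ?_ ?_
    · intro x hx
      rw [Finset.mem_compl]
      exact fun h => Finset.disjoint_left.mp hJr hx h
    · intro x hx
      rw [Finset.mem_inter, Finset.mem_compl] at hx
      exact absurd (hSW (hXS hx.1)) hx.2
  have hL : logDim (fun _ : Λ => Fin q) X ≤ Real.log q * (max C0 0 * (n : ℝ) ^ 2) := by
    unfold logDim
    simp only [Fintype.card_fin, Finset.sum_const, nsmul_eq_mul]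
    rw [mul_comm]
    refine mul_le_mul_of_nonneg_left ?_ hLq
    have : (X.card : ℝ) ≤ S0.card := by exact_mod_cast Finset.card_le_card hXS
    exact this.trans (hcard.trans (hle _ (by positivity)))
  have h3 := hfin S0.card (minfo (io := fun _ : Λ => Fin q) (pureOp Ω) X S0ᶜ)
    (logDim (fun _ : Λ => Fin q) X) (by positivity) (hcard.trans (hle _ (by positivity)))
    (hI.trans (hle _ (by positivity))) (logDim_nonneg X) hL
  exact h2.trans (h1.trans h3)

end Claimed.Agent.R296
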