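import Claimed.Agent.R296.LRLattice
import Claimed.Agent.R296.LRSpec
import Claimed.Agent.R296.LRFilter
import Claimed.Agent.R296.Bridge

/-!
# Row 296, BB_LR (6): `prop:positive` (positive replacement of the Hamiltonian)

General site system `(s, io)`, graph `G` with quadratic ball growth.
-/

set_option autoImplicit false
set_option linter.unusedSectionVars false

namespace Claimed.Agent.R296

open Matrix MeasureTheory
open scoped MatrixOrder Matrix.Norms.L2Operator ComplexOrder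

/-! ### the rank-one projection -/

section Pure

variable {n : Type} [Fintype n] [DecidableEq n]

theorem lrp_isSelfAdjoint (Ω : n → ℂ) : IsSelfAdjoint (pureOp Ω) := by
  unfold pureOp
  rw [IsSelfAdjoint, star_eq_conjTranspose, conjTranspose_vecMulVec, star_star]

theorem lrp_mul_self {Ω : n → ℂ} (hΩ : star Ω ⬝ᵥ Ω = 1) : pureOp Ω * pureOp Ω = pureOp Ω := by
  unfold pureOp
  rw [vecMulVec_mul_vecMulVec, hΩ, one_smul]

theorem lrp_mul_left (M : Matrix n n ℂ) (Ω : n → ℂ) :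
    M * pureOp Ω = vecMulVec (M *ᵥ Ω) (star Ω) := by
  unfold pureOp
  rw [mul_vecMulVec]

theorem lrp_mulVec {Ω : n → ℂ} (hΩ : star Ω ⬝ᵥ Ω = 1) : pureOp Ω *ᵥ Ω = Ω := by
  unfold pureOp
  rw [vecMulVec_mulVec, hΩ]
  ext i
  simp

theorem lrp_mulVec_eq_zero {M : Matrix n n ℂ} {Ω : n → ℂ} (hΩ : star Ω ⬝ᵥ Ω = 1)
    (h : M * pureOp Ω = 0) : M *ᵥ Ω = 0 := by
  rw [← lrp_mulVec hΩ, mulVec_mulVec, h, zero_mulVec]

theorem lrp_mul_mul (M : Matrix n n ℂ) (Ω : n → ℂ) :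
    pureOp Ω * M * pureOp Ω = (star Ω ⬝ᵥ (M *ᵥ Ω)) • pureOp Ω := by
  rw [mul_assoc, lrp_mul_left]
  unfold pureOp
  rw [vecMulVec_mul_vecMulVec, vecMulVec_smul]

theorem lrp_norm {Ω : n → ℂ} (hΩ : star Ω ⬝ᵥ Ω = 1) : ‖pureOp Ω‖ = 1 := by
  have h1 : ‖pureOp Ω‖ * ‖pureOp Ω‖ = ‖pureOp Ω‖ := by
    have := CStarRing.norm_star_mul_self (x := pureOp Ω)
    rw [(lrp_isSelfAdjoint Ω).star_eq, lrp_mul_self hΩ] at this
    exact this.symm
  have h2 : pureOp Ω ≠ 0 := by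
    intro h0
    have := lrp_mulVec hΩ
    rw [h0, zero_mulVec] at this
    rw [← this] at hΩ
    simp at hΩ
  have h3 : ‖pureOp Ω‖ ≠ 0 := norm_ne_zero_iff.2 h2
  exact mul_right_cancel₀ h3 (by rw [h1, one_mul])

theorem lrp_norm_expect_le {Ω : n → ℂ} (hΩ : star Ω ⬝ᵥ Ω = 1) (M : Matrix n n ℂ) :
    ‖star Ω ⬝ᵥ (M *ᵥ Ω)‖ ≤ ‖M‖ := by
  have h1 : ‖(star Ω ⬝ᵥ (M *ᵥ Ω)) • pureOp Ω‖ = ‖star Ω ⬝ᵥ (M *ᵥ Ω)‖ := by
    rw [norm_smul, lrp_norm hΩ, mul_one]
  rw [← h1, ← lrp_mul_mul]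
  calc ‖pureOp Ω * M * pureOp Ω‖ ≤ ‖pureOp Ω‖ * ‖M‖ * ‖pureOp Ω‖ :=
        (norm_mul_le _ _).trans (mul_le_mul_of_nonneg_right (norm_mul_le _ _) (norm_nonneg _))
    _ = ‖M‖ := by rw [lrp_norm hΩ]; ring

end Pure

/-! ### scalar splitting, locality of the absolute value -/

/-- splitting the time integral at `|t| = (c / 2v) l` -/
theorem lr_filter_split {α : ℝ} (hα0 : 0 < α) (hα1 : α ≤ 1) {Cf cf C v c : ℝ} (hCf : 0 < Cf)
    (hcf : 0 < cf) (hC : 0 < C) (hv : 0 < v) (hc : 0 < c) :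
    ∃ C' c' : ℝ, 0 < C' ∧ 0 < c' ∧ ∀ f : ℝ → ℝ, (∀ t, 0 ≤ f t) →
      (∀ t, f t ≤ Cf * Real.exp (-cf * |t| ^ α)) → Integrable f → ∫ t, f t = 1 → ∀ l : ℕ,
      ∫ t, f t * min 2 (C * Real.exp (v * |t| - c * l)) ≤ C' * Real.exp (-c' * (l : ℝ) ^ α) := by
  obtain ⟨C2, hC2, htail⟩ := lr_tail_integral hα0 hcf
  set κ : ℝ := c / (2 * v) with hκ
  have hκ0 : 0 < κ := by positivity
  set c' : ℝ := min (c / 2) (cf / 2 * κ ^ α) with hc'
  have hc'0 : 0 < c' := lt_min (by positivity) (by positivity)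
  refine ⟨C + 2 * Cf * C2, c', by positivity, hc'0, ?_⟩
  intro f hf0 hfle hfi hf1 l
  set T : ℝ := κ * l with hT
  have hT0 : 0 ≤ T := by positivity
  set S : Set ℝ := {t : ℝ | T < |t|} with hS
  have hSm : MeasurableSet S := measurableSet_lt measurable_const continuous_abs.measurable
  have hEi := lr_integrable_exp_neg_rpow hα0 hcf
  -- pointwise bound
  have hpt : ∀ t, f t * min 2 (C * Real.exp (v * |t| - c * l))
      ≤ (C * Real.exp (-(c / 2) * l)) * f t +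
        (2 * Cf) * S.indicator (fun t => Real.exp (-cf * |t| ^ α)) t := by
    intro t
    by_cases ht : t ∈ S
    · rw [Set.indicator_of_mem ht]
      have h1 : f t * min 2 (C * Real.exp (v * |t| - c * l)) ≤ f t * 2 :=
        mul_le_mul_of_nonneg_left (min_le_left _ _) (hf0 t)
      have h2 := hfle t
      have h3 : 0 ≤ (C * Real.exp (-(c / 2) * l)) * f t :=
        mul_nonneg (by positivity) (hf0 t)
      nlinarith
    · rw [Set.indicator_of_notMem ht, mul_zero, add_zero]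
      have ht' : |t| ≤ T := not_lt.1 ht
      have h1 : v * |t| - c * l ≤ -(c / 2) * l := by
        have : v * |t| ≤ v * T := mul_le_mul_of_nonneg_left ht' hv.le
        have e : v * T = c / 2 * l := by
          rw [hT, hκ]; field_simp
        linarith
      have h2 : min 2 (C * Real.exp (v * |t| - c * l)) ≤ C * Real.exp (-(c / 2) * l) :=
        (min_le_right _ _).trans (mul_le_mul_of_nonneg_left (Real.exp_le_exp.2 h1) hC.le)
      calc f t * min 2 (C * Real.exp (v * |t| - c * l)) ≤ f t * (C * Real.exp (-(c / 2) * l)) :=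
            mul_le_mul_of_nonneg_left h2 (hf0 t)
        _ = _ := mul_comm _ _
  have hint1 : Integrable fun t => (C * Real.exp (-(c / 2) * l)) * f t := hfi.const_mul _
  have hint2 : Integrable fun t => (2 * Cf) * S.indicator (fun t => Real.exp (-cf * |t| ^ α)) t :=
    (hEi.indicator hSm).const_mul _
  have hint0 : Integrable fun t => f t * min 2 (C * Real.exp (v * |t| - c * l)) := by
    refine Integrable.mono' (hfi.const_mul 2) ?_ ?_
    · apply hfi.aestronglyMeasurable.mul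
      apply Continuous.aestronglyMeasurable
      fun_prop
    · refine Filter.Eventually.of_forall fun t => ?_
      have hm0 : 0 ≤ min 2 (C * Real.exp (v * |t| - c * l)) := le_min (by norm_num) (by positivity)
      rw [Real.norm_of_nonneg (mul_nonneg (hf0 t) hm0), mul_comm 2]
      exact mul_le_mul_of_nonneg_left (min_le_left _ _) (hf0 t)
  have h1 : ∫ t, f t * min 2 (C * Real.exp (v * |t| - c * l))
      ≤ ∫ t, ((C * Real.exp (-(c / 2) * l)) * f t +
        (2 * Cf) * S.indicator (fun t => Real.exp (-cf * |t| ^ α)) t) :=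
    integral_mono hint0 (hint1.add hint2) hpt
  rw [integral_add hint1 hint2, integral_const_mul, integral_const_mul, hf1, mul_one,
    integral_indicator hSm] at h1
  have h2 := htail T hT0
  have hl : (l : ℝ) ^ α ≤ l := lr_nat_rpow_le hα0 hα1 l
  have hlα0 : 0 ≤ (l : ℝ) ^ α := Real.rpow_nonneg (Nat.cast_nonneg _) _
  have e1 : Real.exp (-(c / 2) * l) ≤ Real.exp (-c' * (l : ℝ) ^ α) := by
    apply Real.exp_le_exp.2
    have : c' ≤ c / 2 := min_le_left _ _
    nlinarith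
  have e2 : Real.exp (-(cf / 2) * T ^ α) ≤ Real.exp (-c' * (l : ℝ) ^ α) := by
    apply Real.exp_le_exp.2
    rw [hT, Real.mul_rpow hκ0.le (Nat.cast_nonneg _)]
    have : c' ≤ cf / 2 * κ ^ α := min_le_right _ _
    nlinarith
  calc ∫ t, f t * min 2 (C * Real.exp (v * |t| - c * l))
      ≤ C * Real.exp (-(c / 2) * l) + 2 * Cf * ∫ t in S, Real.exp (-cf * |t| ^ α) := h1
    _ ≤ C * Real.exp (-c' * (l : ℝ) ^ α) + 2 * Cf * (C2 * Real.exp (-c' * (l : ℝ) ^ α)) := by
        apply add_le_add (mul_le_mul_of_nonneg_left e1 hC.le)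
        apply mul_le_mul_of_nonneg_left _ (by positivity)
        exact h2.trans (mul_le_mul_of_nonneg_left e2 hC2.le)
    _ = _ := by ring

variable {s : Type} [DecidableEq s] [Fintype s] {io : s → Type}
  [∀ x, Fintype (io x)] [∀ x, DecidableEq (io x)]

theorem cexp_isSelfAdjoint (D : Finset s) {M : Matrix (Cfg io) (Cfg io) ℂ}
    (hM : IsSelfAdjoint M) : IsSelfAdjoint (cexp D M) := by
  rw [IsSelfAdjoint, star_eq_conjTranspose, ← cexp_conjTranspose, ← star_eq_conjTranspose,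
    hM.star_eq]

/-- locality survives the absolute value -/
theorem lr_abs_local [∀ x, Nonempty (io x)] (D : Finset s) {M : Matrix (Cfg io) (Cfg io) ℂ}
    (hM : IsSelfAdjoint M) :
    ‖CFC.abs M - cexp D (CFC.abs M)‖ ≤ 2 * Real.sqrt (2 * ‖M‖ * ‖M - cexp D M‖) := by
  set N := cexp D M with hN
  have hNsa : IsSelfAdjoint N := cexp_isSelfAdjoint D hM
  have hNn : ‖N‖ ≤ ‖M‖ := norm_cexp_le D M
  have hfix : cexp D (CFC.abs N) = CFC.abs N := cexp_of_suppIn (suppIn_cexp D M).abs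
  have h1 := lr_abs_sub_abs_le hM hNsa
  have h2 : Real.sqrt ((‖M‖ + ‖N‖) * ‖M - N‖) ≤ Real.sqrt (2 * ‖M‖ * ‖M - N‖) := by
    apply Real.sqrt_le_sqrt
    apply mul_le_mul_of_nonneg_right _ (norm_nonneg _)
    linarith
  have h3 : CFC.abs M - cexp D (CFC.abs M)
      = (CFC.abs M - CFC.abs N) - cexp D (CFC.abs M - CFC.abs N) := by
    rw [cexp_sub, hfix]; abel
  rw [h3]
  have h4 := norm_cexp_le D (CFC.abs M - CFC.abs N)
  have h5 := norm_sub_le (CFC.abs M - CFC.abs N) (cexp D (CFC.abs M - CFC.abs N))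
  linarith [h1.trans h2]

/-! ### the positive replacement -/

/-- conclusions of `prop:positive` -/
structure PosSys (G : SimpleGraph s) {ι : Type} [Fintype ι] (X : ι → Finset s) (Ω : Cfg io → ℂ)
    (k : ι → Matrix (Cfg io) (Cfg io) ℂ) (g C c α : ℝ) : Prop where
  nonneg : ∀ i, 0 ≤ k i
  le_one : ∀ i, k i ≤ 1
  kills : ∀ i, k i *ᵥ Ω = 0
  gap : (g : ℂ) • (1 - pureOp Ω) ≤ ∑ i, k i
  tail : ∀ i, ∀ a ∈ X i, ∀ l : ℕ,
    ‖k i - cexp (lrBall G a l) (k i)‖ ≤ C * Real.exp (-c * (l : ℝ) ^ α)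
  comp : ∀ i, ∀ a ∈ X i, SuppIn (lrComp G a) (k i)

/-- locality of the filtered operator -/
theorem lr_filtered_local [∀ x, Nonempty (io x)] {H h : Matrix (Cfg io) (Cfg io) ℂ}
    (hH : IsSelfAdjoint H) {f : ℝ → ℝ} (hf0 : ∀ t, 0 ≤ f t) (hfi : Integrable f)
    (D : Finset s) {b : ℝ → ℝ} (hb : ∀ t, ‖lrDyn H t h - cexp D (lrDyn H t h)‖ ≤ b t)
    (hbi : Integrable fun t => f t * b t) (e : ℂ) :
    ‖((∫ t : ℝ, (f t : ℂ) • lrDyn H t h) - e • 1)
      - cexp D ((∫ t : ℝ, (f t : ℂ) • lrDyn H t h) - e • 1)‖ ≤ ∫ t, f t * b t := by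
  have hi := lr_integrable_smul_lrDyn hfi hH h
  have hi2 : Integrable fun t : ℝ => cexp D ((f t : ℂ) • lrDyn H t h) :=
    (cexpCLM D).integrable_comp hi
  rw [cexp_sub, cexp_smul, cexp_one, cexp_integral _ D hi, sub_sub_sub_cancel_right,
    ← integral_sub hi hi2]
  refine norm_integral_le_of_norm_le hbi (Filter.Eventually.of_forall fun t => ?_)
  rw [cexp_smul, ← smul_sub, norm_smul, Complex.norm_real, Real.norm_of_nonneg (hf0 t)]
  exact mul_le_mul_of_nonneg_left (hb t) (hf0 t)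

/-- **`prop:positive`.** -/
theorem lr_positive (q R mult : ℕ) (J Δ : ℝ) (hJ : 0 < J) (hΔ : 0 < Δ) (α : ℝ) (hα0 : 0 < α)
    (hα1 : α < 1) :
    ∃ cs C c : ℝ, 0 < cs ∧ 0 < C ∧ 0 < c ∧
      ∀ {s : Type} [DecidableEq s] [Fintype s] {io : s → Type} [∀ x, Fintype (io x)]
        [∀ x, DecidableEq (io x)] [∀ x, Nonempty (io x)] {G : SimpleGraph s} {ι : Type}
        [Fintype ι] {X : ι → Finset s} {h : ι → Matrix (Cfg io) (Cfg io) ℂ},
        LocHam G X h q R mult J → ∀ (Ω : Cfg io → ℂ) (E0 : ℝ), star Ω ⬝ᵥ Ω = 1 →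
        (∑ i, h i) *ᵥ Ω = (E0 : ℂ) • Ω →
        (Δ : ℂ) • (1 - pureOp Ω) ≤ ∑ i, h i - (E0 : ℂ) • 1 →
        ∃ k : ι → Matrix (Cfg io) (Cfg io) ℂ, PosSys G X Ω k (Δ / cs) C c α ∧
          ∑ i, h i - (E0 : ℂ) • 1 ≤ (cs : ℂ) • ∑ i, k i := by
  obtain ⟨f, Cf, cf, hCf, hcf, -, hf0, -, hfle, hfi, hf1, hfvan⟩ := lr_filter_exists α hα0 hα1 Δ hΔ
  obtain ⟨C1, v1, c1, hC1, hv1, hc1, hball⟩ := lr_cexp_ball q R mult J hJ.le
  obtain ⟨C', c', hC', hc', hsplit⟩ := lr_filter_split hα0 hα1.le hCf hcf hC1 hv1 hc1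
  set cs : ℝ := 2 * J + 1 with hcs
  have hcs1 : 1 ≤ cs := by rw [hcs]; linarith
  have hcs0 : 0 < cs := by linarith
  refine ⟨cs, 2 * Real.sqrt (2 * (2 * J) * (J * C')) + 1, c' / 2, hcs0, by positivity,
    by positivity, ?_⟩
  intro s _ _ io _ _ _ G ι _ X h HL Ω E0 hΩ heig hgap
  set H : Matrix (Cfg io) (Cfg io) ℂ := ∑ i, h i with hH
  set P := pureOp Ω with hP
  have hHsa : IsSelfAdjoint H := isSelfAdjoint_sum _ fun j _ => HL.herm j
  have hPsa : IsSelfAdjoint P := lrp_isSelfAdjoint Ω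
  have hPP : P * P = P := lrp_mul_self hΩ
  have hHP : H * P = (E0 : ℂ) • P := by
    rw [hP, lrp_mul_left, heig]
    unfold pureOp
    rw [smul_vecMulVec]
  have hvan : ∀ ω : ℝ, Δ ≤ ω → lrFT (fun t => (f t : ℂ)) ω = 0 := fun ω hω =>
    hfvan ω (hω.trans (le_abs_self ω))
  set F : ι → Matrix (Cfg io) (Cfg io) ℂ := fun i => ∫ t : ℝ, (f t : ℂ) • lrDyn H t (h i) with hF
  set e : ι → ℂ := fun i => star Ω ⬝ᵥ (h i *ᵥ Ω) with he
  set M : ι → Matrix (Cfg io) (Cfg io) ℂ := fun i => F i - e i • 1 with hM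
  have hesa : ∀ i, IsSelfAdjoint (e i) := by
    intro i
    rw [IsSelfAdjoint, Complex.star_def, Complex.conj_eq_iff_im]
    exact br_quad_im_zero (HL.herm i) Ω
  have hMsa : ∀ i, IsSelfAdjoint (M i) := fun i =>
    (lr_filtered_isSelfAdjoint hHsa (HL.herm i) f).sub ((hesa i).smul (IsSelfAdjoint.one _))
  have hMP : ∀ i, M i * P = 0 := by
    intro i
    have h1 := lr_filtered_mul_proj (h := h i) hHsa hPsa hPP hHP hgap hfi hf1 hvan
    simp only [hM, hF, sub_mul, h1, smul_mul_assoc, one_mul]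
    rw [hP, lrp_mul_mul, sub_self]
  have hMsum : ∑ i, M i = H - (E0 : ℂ) • 1 := by
    simp only [hM, Finset.sum_sub_distrib]
    congr 1
    · have h1 := lr_filtered_sum Finset.univ hHsa h hfi
      rw [← hH, lr_filtered_self hf1] at h1
      exact h1.symm
    · rw [← Finset.sum_smul]
      congr 1
      simp only [he]
      rw [← dotProduct_sum, ← Matrix.sum_mulVec, ← hH, heig, dotProduct_smul, hΩ]
      simp
  have hone : ‖(1 : Matrix (Cfg io) (Cfg io) ℂ)‖ ≤ 1 := by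
    rcases subsingleton_or_nontrivial (Matrix (Cfg io) (Cfg io) ℂ) with hs | hs
    · rw [Subsingleton.elim (1 : Matrix (Cfg io) (Cfg io) ℂ) 0, norm_zero]
      exact zero_le_one
    · exact CStarRing.norm_one.le
  have hMn : ∀ i, ‖M i‖ ≤ 2 * J := by
    intro i
    have h1 : ‖F i‖ ≤ ‖h i‖ := lr_filtered_norm_le hHsa hf0 hf1
    have h2 : ‖e i • (1 : Matrix (Cfg io) (Cfg io) ℂ)‖ ≤ ‖h i‖ := by
      rw [norm_smul]
      calc ‖e i‖ * ‖(1 : Matrix (Cfg io) (Cfg io) ℂ)‖ ≤ ‖e i‖ * 1 :=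
            mul_le_mul_of_nonneg_left hone (norm_nonneg _)
        _ = ‖e i‖ := mul_one _
        _ ≤ ‖h i‖ := lrp_norm_expect_le hΩ (h i)
    have h3 := norm_sub_le (F i) (e i • (1 : Matrix (Cfg io) (Cfg io) ℂ))
    have h4 := HL.norm i
    simp only [hM]
    linarith
  have hcsinv : (0 : ℂ) ≤ ((cs⁻¹ : ℝ) : ℂ) := by exact_mod_cast (inv_pos.2 hcs0).le
  refine ⟨fun i => ((cs⁻¹ : ℝ) : ℂ) • CFC.abs (M i), ⟨?_, ?_, ?_, ?_, ?_, ?_⟩, ?_⟩
  · intro i
    exact smul_nonneg hcsinv (CFC.abs_nonneg _)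
  · intro i
    have h1 : CFC.abs (M i) ≤ algebraMap ℝ _ ‖CFC.abs (M i)‖ :=
      IsSelfAdjoint.le_algebraMap_norm_self (CFC.abs_nonneg _).isSelfAdjoint
    rw [lr_norm_abs, Algebra.algebraMap_eq_smul_one, ← Complex.coe_smul] at h1
    have h2 : ((‖M i‖ : ℝ) : ℂ) • (1 : Matrix (Cfg io) (Cfg io) ℂ) ≤ (cs : ℂ) • 1 := by
      apply smul_le_smul_of_nonneg_right _ zero_le_one
      have := hMn i
      exact_mod_cast (by linarith : ‖M i‖ ≤ cs)
    have h3 := smul_le_smul_of_nonneg_left (h1.trans h2) hcsinv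
    rw [smul_smul] at h3
    have h4 : ((cs⁻¹ : ℝ) : ℂ) * (cs : ℂ) = 1 := by
      rw [← Complex.ofReal_mul, inv_mul_cancel₀ hcs0.ne', Complex.ofReal_one]
    rwa [h4, one_smul] at h3
  · intro i
    apply lrp_mulVec_eq_zero hΩ
    rw [smul_mul_assoc, lr_abs_mul_eq_zero (hMP i), smul_zero]
  · have h1 : H - (E0 : ℂ) • 1 ≤ ∑ i, CFC.abs (M i) := by
      rw [← hMsum]
      exact Finset.sum_le_sum fun i _ => lr_le_abs (hMsa i)
    have h2 := smul_le_smul_of_nonneg_left (hgap.trans h1) hcsinv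
    rw [smul_smul, Finset.smul_sum] at h2
    convert h2 using 2
    push_cast
    rw [div_eq_inv_mul]
  · intro i a ha l
    have hb := fun t => hball HL i a ha (h i) (HL.supp i) l t
    have hbi : Integrable fun t => f t * (‖h i‖ * min 2 (C1 * Real.exp (v1 * |t| - c1 * l))) := by
      refine Integrable.mono' (hfi.const_mul (‖h i‖ * 2)) ?_ ?_
      · apply hfi.aestronglyMeasurable.mul
        apply Continuous.aestronglyMeasurable
        fun_prop
      · refine Filter.Eventually.of_forall fun t => ?_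
        have hm0 : 0 ≤ min 2 (C1 * Real.exp (v1 * |t| - c1 * l)) :=
          le_min (by norm_num) (by positivity)
        rw [Real.norm_of_nonneg (mul_nonneg (hf0 t) (mul_nonneg (norm_nonneg _) hm0)),
          mul_comm (‖h i‖ * 2)]
        exact mul_le_mul_of_nonneg_left
          (mul_le_mul_of_nonneg_left (min_le_left _ _) (norm_nonneg _)) (hf0 t)
    have h1 := lr_filtered_local hHsa hf0 hfi (lrBall G a l) hb hbi (e i)
    have h2 : ∫ t, f t * (‖h i‖ * min 2 (C1 * Real.exp (v1 * |t| - c1 * l)))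
        ≤ J * (C' * Real.exp (-c' * (l : ℝ) ^ α)) := by
      have e1 : ∀ t, f t * (‖h i‖ * min 2 (C1 * Real.exp (v1 * |t| - c1 * l)))
          = ‖h i‖ * (f t * min 2 (C1 * Real.exp (v1 * |t| - c1 * l))) := fun t => by ring
      simp only [e1]
      rw [integral_const_mul]
      have h3 := hsplit f hf0 hfle hfi hf1 l
      have h4 : 0 ≤ ∫ t, f t * min 2 (C1 * Real.exp (v1 * |t| - c1 * l)) :=
        integral_nonneg fun t => mul_nonneg (hf0 t) (le_min (by norm_num) (by positivity))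
      exact mul_le_mul (HL.norm i) h3 h4 hJ.le
    have h3 : ‖M i - cexp (lrBall G a l) (M i)‖ ≤ J * (C' * Real.exp (-c' * (l : ℝ) ^ α)) :=
      h1.trans h2
    have h4 := lr_abs_local (lrBall G a l) (hMsa i)
    rw [cexp_smul, ← smul_sub, norm_smul, Complex.norm_real,
      Real.norm_of_nonneg (inv_pos.2 hcs0).le]
    have h5 : Real.sqrt (2 * ‖M i‖ * ‖M i - cexp (lrBall G a l) (M i)‖)
        ≤ Real.sqrt (2 * (2 * J) * (J * C')) * Real.exp (-(c' / 2) * (l : ℝ) ^ α) := by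
      have e2 : Real.exp (-(c' / 2) * (l : ℝ) ^ α) = Real.sqrt (Real.exp (-c' * (l : ℝ) ^ α)) := by
        rw [← Real.exp_half]; congr 1; ring
      rw [e2, ← Real.sqrt_mul (by positivity)]
      apply Real.sqrt_le_sqrt
      calc 2 * ‖M i‖ * ‖M i - cexp (lrBall G a l) (M i)‖
          ≤ 2 * (2 * J) * (J * (C' * Real.exp (-c' * (l : ℝ) ^ α))) := by
            apply mul_le_mul _ h3 (norm_nonneg _) (by positivity)
            linarith [hMn i]
        _ = _ := by ring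
    have h6 : cs⁻¹ ≤ 1 := inv_le_one_of_one_le₀ hcs1
    have h7 : 0 ≤ ‖CFC.abs (M i) - cexp (lrBall G a l) (CFC.abs (M i))‖ := norm_nonneg _
    have h8 : 0 < Real.exp (-(c' / 2) * (l : ℝ) ^ α) := Real.exp_pos _
    calc cs⁻¹ * ‖CFC.abs (M i) - cexp (lrBall G a l) (CFC.abs (M i))‖
        ≤ 1 * ‖CFC.abs (M i) - cexp (lrBall G a l) (CFC.abs (M i))‖ :=
          mul_le_mul_of_nonneg_right h6 h7
      _ ≤ 2 * (Real.sqrt (2 * (2 * J) * (J * C')) * Real.exp (-(c' / 2) * (l : ℝ) ^ α)) := by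
          rw [one_mul]; linarith
      _ ≤ _ := by nlinarith
  · intro i a ha
    apply SuppIn.smul
    apply SuppIn.abs
    apply SuppIn.sub _ ((SuppIn.one _).smul _)
    apply SuppIn.integral
    intro t
    apply SuppIn.smul
    apply HL.lr_comp hJ.le (HL.supp i)
    intro x hx y hy
    rw [mem_lrComp]
    intro htop
    have htri : G.edist a y ≤ G.edist a x + G.edist x y := SimpleGraph.edist_triangle
    rw [htop, top_le_iff, ENat.add_eq_top] at htri
    rcases htri with h1 | h1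
    · have := HL.diam i a ha x hx
      rw [h1] at this
      exact absurd this (by simp)
    · exact hy h1
  · have h1 : H - (E0 : ℂ) • 1 ≤ ∑ i, CFC.abs (M i) := by
      rw [← hMsum]
      exact Finset.sum_le_sum fun i _ => lr_le_abs (hMsa i)
    refine h1.trans (le_of_eq ?_)
    rw [← Finset.smul_sum, smul_smul]
    have h4 : (cs : ℂ) * ((cs⁻¹ : ℝ) : ℂ) = 1 := by
      rw [← Complex.ofReal_mul, mul_inv_cancel₀ hcs0.ne', Complex.ofReal_one]
    rw [h4, one_smul]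

end Claimed.Agent.R296
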