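import Claimed.Agent.R296.AmpFilter
import Claimed.Agent.R296.AmpGeom
import Claimed.Agent.R296.LRPos
import Claimed.Agent.R296.LocOsc

/-!
# Row 296, paper 1, Section 9 (amplification), file 7: the local filter on a site system

Instantiates the abstract filter (`AmpSys.filter`) and the kernel inequalities (`amp_geom`) for the
constraints of `prop:positive` (`PosSys`).
* `ampSiteU` : the matrix units `sUnit` as an `AmpUnits`;
* `mem_ampSiteU_alg_iff` : the generated algebra of `Q` is `SuppIn Q`;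
* `ampSiteSys` : `PosSys` as an `AmpSys` (`kl i l = cexp (ball (anc i) l) (k i)`);
* `amp_filter_site` : the filter `L'` with all errors collected in `ampErr`.
Architect: helper286.
-/

set_option autoImplicit false
set_option linter.unusedSectionVars false
set_option linter.unusedDecidableInType false

namespace Claimed.Agent.R296

open Matrix Claimed.Agent.R298
open scoped MatrixOrder Matrix.Norms.L2Operator ComplexOrder

section Site

variable {s : Type} [DecidableEq s] [Fintype s] {io : s → Type}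
  [∀ x, Fintype (io x)] [∀ x, DecidableEq (io x)]

/-- the matrix units of the sites -/
def ampSiteU (s : Type) [DecidableEq s] [Fintype s] (io : s → Type)
    [∀ x, Fintype (io x)] [∀ x, DecidableEq (io x)] : AmpUnits (Cfg io) s io where
  F := sUnit
  F_mul y a b c d := sUnit_mul_sUnit y a b c d
  F_sum y := sum_sUnit_self y
  F_star y a b := sUnit_conjTranspose y a b
  F_comm y z hyz a b c d :=
    (SuppIn.commute (Finset.disjoint_singleton.2 hyz) (suppIn_sUnit y a b) (suppIn_sUnit z c d)).eq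

/-- (closure of `SuppIn Q` under `+ * •`, `suppIn_sUnit`, `Algebra.adjoin_induction`) -/
theorem suppIn_of_mem_ampSiteU_alg {Q : Finset s} {A : Matrix (Cfg io) (Cfg io) ℂ}
    (h : A ∈ (ampSiteU s io).alg Q) : SuppIn Q A := by
  induction h using Algebra.adjoin_induction with
  | mem X hX =>
    obtain ⟨z, hz, a, b, rfl⟩ := hX
    exact (suppIn_sUnit z a b).mono (Finset.singleton_subset_iff.2 hz)
  | algebraMap r =>
    rw [Algebra.algebraMap_eq_smul_one]
    exact (SuppIn.one Q).smul r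
  | add X Y _ _ hX hY => exact hX.add hY
  | mul X Y _ _ hX hY => exact hX.mul hY

theorem amp_isEmpty_cfg (h : ¬ ∀ x, Nonempty (io x)) : IsEmpty (Cfg io) := by
  rw [not_forall] at h
  obtain ⟨x, hx⟩ := h
  rw [not_nonempty_iff] at hx
  exact ⟨fun σ => hx.elim (σ x)⟩

/-- everything is supported everywhere if some site has no state -/
theorem amp_suppIn_of_isEmpty (h : ¬ ∀ x, Nonempty (io x)) (Q : Finset s)
    (A : Matrix (Cfg io) (Cfg io) ℂ) : SuppIn Q A := by
  have := amp_isEmpty_cfg h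
  exact ⟨0, by ext σ; exact this.elim σ⟩

/-- a matrix commuting with the matrix units of `y` is supported off `y` -/
theorem amp_suppIn_erase_of_comm {y : s} {M : Matrix (Cfg io) (Cfg io) ℂ}
    (h : ∀ a b : io y, sUnit y a b * M = M * sUnit y a b) : SuppIn (Finset.univ.erase y) M := by
  by_cases hne : ∀ x, Nonempty (io x)
  · have h0 : osc y M = 0 := by
      unfold osc
      refine Finset.sum_eq_zero fun a _ => Finset.sum_eq_zero fun b _ => ?_
      rw [h a b, sub_self, norm_zero]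
    have h1 := norm_sub_cexp_erase_le y M
    rw [h0] at h1
    have h2 : M = cexp (Finset.univ.erase y) M :=
      sub_eq_zero.1 (norm_le_zero_iff.1 h1)
    rw [h2]
    exact suppIn_cexp _ _
  · exact amp_suppIn_of_isEmpty hne _ _

/-- one site is split off: `A = ∑_{a b} E_ab A_ab`, `A_ab = ∑_c E_ca A E_bc` supported in `Q \ {y}` -/
theorem suppIn_split_site {Q : Finset s} {y : s} {A : Matrix (Cfg io) (Cfg io) ℂ}
    (h : SuppIn Q A) :
    A = ∑ a : io y, ∑ b : io y, sUnit y a b * ∑ c : io y, sUnit y c a * A * sUnit y b c ∧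
      ∀ a b : io y, SuppIn (Q.erase y) (∑ c : io y, sUnit y c a * A * sUnit y b c) := by
  constructor
  · have h1 : ∀ a b : io y, sUnit y a b * ∑ c : io y, sUnit y c a * A * sUnit y b c
        = sUnit y a a * A * sUnit y b b := by
      intro a b
      rw [Matrix.mul_sum, Finset.sum_eq_single b]
      · rw [← Matrix.mul_assoc, ← Matrix.mul_assoc, sUnit_mul_sUnit, if_pos rfl]
      · intro c _ hc
        rw [← Matrix.mul_assoc, ← Matrix.mul_assoc, sUnit_mul_sUnit, if_neg (Ne.symm hc)]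
        simp
      · simp
    simp only [h1]
    simp only [← Matrix.mul_sum, ← Matrix.sum_mul, sum_sUnit_self, Matrix.mul_one, Matrix.one_mul]
  · intro a b
    have h1 : SuppIn (insert y Q) (∑ c : io y, sUnit y c a * A * sUnit y b c) := by
      refine SuppIn.sum _ fun c _ => ?_
      have hs : ∀ p q : io y, SuppIn (insert y Q) (sUnit y p q) := fun p q =>
        (suppIn_sUnit y p q).mono (Finset.singleton_subset_iff.2 (Finset.mem_insert_self y Q))
      exact ((hs c a).mul (h.mono (Finset.subset_insert y Q))).mul (hs b c)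
    have h2 : SuppIn (Finset.univ.erase y) (∑ c : io y, sUnit y c a * A * sUnit y b c) := by
      apply amp_suppIn_erase_of_comm
      intro d e
      have e1 : sUnit y d e * ∑ c : io y, sUnit y c a * A * sUnit y b c
          = sUnit y d a * A * sUnit y b e := by
        rw [Matrix.mul_sum, Finset.sum_eq_single e]
        · rw [← Matrix.mul_assoc, ← Matrix.mul_assoc, sUnit_mul_sUnit, if_pos rfl]
        · intro c _ hc
          rw [← Matrix.mul_assoc, ← Matrix.mul_assoc, sUnit_mul_sUnit, if_neg (Ne.symm hc)]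
          simp
        · simp
      have e2 : (∑ c : io y, sUnit y c a * A * sUnit y b c) * sUnit y d e
          = sUnit y d a * A * sUnit y b e := by
        rw [Matrix.sum_mul, Finset.sum_eq_single d]
        · rw [Matrix.mul_assoc, sUnit_mul_sUnit, if_pos rfl]
        · intro c _ hc
          rw [Matrix.mul_assoc, sUnit_mul_sUnit, if_neg hc]
          simp
        · simp
      rw [e1, e2]
    have h3 := h1.inter h2
    have h4 : insert y Q ∩ Finset.univ.erase y = Q.erase y := by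
      ext x
      simp only [Finset.mem_inter, Finset.mem_insert, Finset.mem_erase, Finset.mem_univ, and_true]
      tauto
    rwa [h4] at h3

/-- (induction on `Q` with `suppIn_split_site`; `SuppIn ∅ A` means `A` scalar) -/
theorem mem_ampSiteU_alg_of_suppIn {Q : Finset s} {A : Matrix (Cfg io) (Cfg io) ℂ}
    (h : SuppIn Q A) : A ∈ (ampSiteU s io).alg Q := by
  by_cases hne : ∀ x, Nonempty (io x)
  swap
  · have := amp_isEmpty_cfg hne
    have h0 : A = 0 := by ext σ; exact this.elim σ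
    rw [h0]
    exact Subalgebra.zero_mem _
  induction Q using Finset.induction_on generalizing A with
  | empty =>
    obtain ⟨K, rfl⟩ := h
    have hK : K = (K default default) • (1 : Matrix (CfgOn io ∅) (CfgOn io ∅) ℂ) := by
      ext a b
      have ha : a = default := Subsingleton.elim _ _
      have hb : b = default := Subsingleton.elim _ _
      subst ha hb
      simp
    rw [hK, emb_smul, emb_one]
    exact Subalgebra.smul_mem _ (Subalgebra.one_mem _) _
  | insert y Q hy ih =>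
    obtain ⟨h1, h2⟩ := suppIn_split_site (y := y) h
    rw [h1]
    refine Subalgebra.sum_mem _ fun a _ => Subalgebra.sum_mem _ fun b _ => ?_
    refine Subalgebra.mul_mem _ ((ampSiteU s io).F_mem_alg (Finset.mem_insert_self y Q) a b) ?_
    have h3 := h2 a b
    rw [Finset.erase_insert hy] at h3
    exact (ampSiteU s io).alg_mono (Finset.subset_insert y Q) (ih h3)

theorem mem_ampSiteU_alg_iff {Q : Finset s} {A : Matrix (Cfg io) (Cfg io) ℂ} :
    A ∈ (ampSiteU s io).alg Q ↔ SuppIn Q A :=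
  ⟨suppIn_of_mem_ampSiteU_alg, mem_ampSiteU_alg_of_suppIn⟩

theorem amp_eta_tendsto {C c α : ℝ} (hc : 0 < c) (hα : 0 < α) :
    Filter.Tendsto (fun l : ℕ => C * Real.exp (-c * (l : ℝ) ^ α)) Filter.atTop (nhds 0) := by
  have h1 : Filter.Tendsto (fun l : ℕ => (l : ℝ) ^ α) Filter.atTop Filter.atTop :=
    (tendsto_rpow_atTop hα).comp tendsto_natCast_atTop_atTop
  have h2 : Filter.Tendsto (fun l : ℕ => c * (l : ℝ) ^ α) Filter.atTop Filter.atTop :=
    h1.const_mul_atTop hc
  have h3 : Filter.Tendsto (fun l : ℕ => Real.exp (-(c * (l : ℝ) ^ α))) Filter.atTop (nhds 0) :=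
    Real.tendsto_exp_neg_atTop_nhds_zero.comp h2
  have h4 := h3.const_mul C
  simpa [neg_mul] using h4

/-- the constraints of `prop:positive`, anchored at `anc i ∈ X i`, as a quasi-local system -/
noncomputable def ampSiteSys [∀ x, Nonempty (io x)] (G : SimpleGraph s) {ι : Type} [Fintype ι]
    {X : ι → Finset s} {Ω : Cfg io → ℂ} {k : ι → Matrix (Cfg io) (Cfg io) ℂ} {g C c α : ℝ}
    (P : PosSys G X Ω k g C c α) (hC : 0 ≤ C) (hc : 0 < c) (hα : 0 < α) (anc : ι → s)
    (hanc : ∀ i, anc i ∈ X i) : AmpSys (ampSiteU s io) ι where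
  Nb i l := lrBall G (anc i) l
  Nb_mono i l := by
    intro y hy
    rw [mem_lrBall] at hy ⊢
    exact hy.trans (by exact_mod_cast Nat.le_succ l)
  k := k
  kl i l := cexp (lrBall G (anc i) l) (k i)
  k_nonneg := P.nonneg
  k_le_one := P.le_one
  kl_nonneg i l := cexp_nonneg _ (P.nonneg i)
  kl_le_one i l := by
    have := cexp_mono (lrBall G (anc i) l) (P.le_one i)
    rwa [cexp_one] at this
  kl_mem i l := mem_ampSiteU_alg_of_suppIn (suppIn_cexp _ _)
  eta l := C * Real.exp (-c * (l : ℝ) ^ α)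
  eta_nonneg l := mul_nonneg hC (Real.exp_pos _).le
  eta_tendsto := amp_eta_tendsto hc hα
  tail i l := P.tail i (anc i) (hanc i) l

end Site

/-- all errors of the local filter: time `t`, source of `σ` sites, radius `r` -/
noncomputable def ampErr (g v Cκ c' α t σ : ℝ) (r : ℕ) : ℝ :=
  Real.exp (-(g * t) / 2) +
    t * (Cκ * σ * ((2 * r + 1 : ℕ) : ℝ) ^ 2 * Real.exp (v * t) * Real.exp (-c' * (r : ℝ) ^ α))

/-- bookkeeping of the three error terms -/
theorem amp_err_numeric {E t Cθ μ sC σ ρ e1 e2 Rc sη p Θ : ℝ} (ht : 0 ≤ t)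
    (hCθ : 0 ≤ Cθ) (hμ : 0 ≤ μ) (hsC : 0 ≤ sC) (hσ : 0 ≤ σ) (hρ : 1 ≤ ρ) (he1 : 1 ≤ e1)
    (he2 : 0 ≤ e2) (hsη0 : 0 ≤ sη) (hp0 : 0 ≤ p) (hRc : Rc ≤ μ * σ * ρ)
    (hsη : sη ≤ sC * e2) (hp : p ≤ e1) (hΘ : Θ = Cθ * σ * e2) :
    E + t * (2 * p * Θ) + t * (Rc * sη) ≤ E + t * ((2 * Cθ + μ * sC) * σ * ρ * e1 * e2) ∧
      0 ≤ t * (2 * p * Θ) := by
  have hA : Rc * sη ≤ μ * sC * (σ * ρ * e1 * e2) := by
    calc Rc * sη ≤ (μ * σ * ρ) * (sC * e2) :=
          mul_le_mul hRc hsη hsη0 (by positivity)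
      _ = (μ * sC * σ * ρ * e2) * 1 := by ring
      _ ≤ (μ * sC * σ * ρ * e2) * e1 := mul_le_mul_of_nonneg_left he1 (by positivity)
      _ = _ := by ring
  have hΘ0 : 0 ≤ Θ := by rw [hΘ]; positivity
  have hB : 2 * p * Θ ≤ 2 * Cθ * (σ * ρ * e1 * e2) := by
    calc 2 * p * Θ ≤ 2 * e1 * Θ := by
          apply mul_le_mul_of_nonneg_right _ hΘ0
          linarith
      _ = (2 * Cθ * σ * e1 * e2) * 1 := by rw [hΘ]; ring
      _ ≤ (2 * Cθ * σ * e1 * e2) * ρ := mul_le_mul_of_nonneg_left hρ (by positivity)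
      _ = _ := by ring
  have h1 := mul_le_mul_of_nonneg_left hA ht
  have h2 := mul_le_mul_of_nonneg_left hB ht
  refine ⟨?_, by positivity⟩
  nlinarith

/-- **The local filter on a site system.**  Constants depend only on `mult, C, c, α`.
`t = N / #labels`.  Proof: `AmpSys.filter` for `ampSiteSys`, `Ret = ampRet G anc S r`,
`W = ampNbhd G S (2 r)` (`ampRet_ball_subset`), `ω = ampOm G (c2/4) α S`, `amp_eps_le`
(`C2 = 4 √C (1 + e^{c/2}) + 2`, `c2 = c/2`), `amp_geom`, `card_ampRet_le`,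
`(1 + v/m)^N ≤ e^{v N/m}`; `c' = c / 16`, `Cκ = 2 Cθ + mult √C`. -/
theorem amp_filter_site (mult : ℕ) {C c α : ℝ} (hC : 0 < C) (hc : 0 < c) (hα0 : 0 < α)
    (hα1 : α ≤ 1) :
    ∃ v Cκ c' : ℝ, 0 ≤ v ∧ 0 ≤ Cκ ∧ 0 < c' ∧
      ∀ {s : Type} [DecidableEq s] [Fintype s] {io : s → Type} [∀ x, Fintype (io x)]
        [∀ x, DecidableEq (io x)] [∀ x, Nonempty (io x)] {G : SimpleGraph s},
        (∀ x r, (lrBall G x r).card ≤ (2 * r + 1) ^ 2) →
        ∀ {ι : Type} [Fintype ι] [Nonempty ι] {X : ι → Finset s}, (∀ i, (X i).Nonempty) →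
        (∀ x, (Finset.univ.filter fun i => x ∈ X i).card ≤ mult) →
        ∀ {Ω : Cfg io → ℂ}, star Ω ⬝ᵥ Ω = 1 →
        ∀ {k : ι → Matrix (Cfg io) (Cfg io) ℂ} {g : ℝ}, 0 ≤ g → PosSys G X Ω k g C c α →
        ∀ (S : Finset s) (r N : ℕ),
        ∃ L' : Matrix (Cfg io) (Cfg io) ℂ, SuppIn (ampNbhd G S (2 * r)) L' ∧ L'ᴴ = L' ∧ ‖L'‖ ≤ 1 ∧
          Real.sqrt (opnSq (L' *ᵥ Ω - Ω)) ≤
            ampErr g v Cκ c' α ((N : ℝ) / Fintype.card ι) S.card r ∧
          ∀ (κ : Type) [Fintype κ] [DecidableEq κ] (Bk : κ → Matrix (Cfg io) (Cfg io) ℂ),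
            (∀ j, SuppIn S (Bk j)) →
            Real.sqrt (∑ j, opnSq (L' *ᵥ (Bk j *ᵥ Ω))) ≤
              Real.sqrt (∑ j, ‖star Ω ⬝ᵥ (Bk j *ᵥ Ω)‖ ^ 2) +
              ‖ampCol Bk‖ * ampErr g v Cκ c' α ((N : ℝ) / Fintype.card ι) S.card r := by
  set C2 : ℝ := 4 * Real.sqrt C * (1 + Real.exp (c / 2)) + 2 with hC2def
  have hC2 : 0 < C2 := by positivity
  have hc2 : 0 < c / 2 := by positivity
  obtain ⟨v, Cθ, hv, hCθ, hgeom⟩ := amp_geom hα0 hα1 hC2 hc2 mult
  refine ⟨v, 2 * Cθ + mult * Real.sqrt C, c / 16, hv, by positivity, by positivity, ?_⟩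
  intro s _ _ io _ _ _ G hgrow ι _ _ X hX hmultX Ω hΩ k g hg P S r N
  classical
  choose anc hanc using hX
  have hmult : ∀ x, (Finset.univ.filter fun i => anc i = x).card ≤ mult := by
    intro x
    refine le_trans (Finset.card_le_card ?_) (hmultX x)
    intro i hi
    rw [Finset.mem_filter] at hi ⊢
    exact ⟨hi.1, hi.2 ▸ hanc i⟩
  set Sy := ampSiteSys G P hC.le hc hα0 anc hanc with hSy
  have hΩ' : opnSq Ω = 1 := by
    have := opnSq_eq_dotProduct Ω
    rw [hΩ] at this
    exact_mod_cast this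
  have heps0 : ∀ l, 0 ≤ Sy.eps l := by
    have hdel : ∀ l, 0 ≤ Sy.del l := by
      intro l
      cases l with
      | zero => show (0 : ℝ) ≤ 2; norm_num
      | succ l => show 0 ≤ 4 * Real.sqrt _; positivity
    intro l
    exact add_nonneg (hdel l) (hdel (l + 1))
  have heps : ∀ l, Sy.eps l ≤ C2 * Real.exp (-(c / 2) * (l : ℝ) ^ α) := by
    intro l
    exact amp_eps_le hα0 hα1 hC hc Sy.del rfl (fun l => rfl) l
  obtain ⟨hker, hfar⟩ := hgeom G hgrow anc hmult Sy.eps heps0 heps S r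
  set Θ : ℝ := Cθ * S.card * Real.exp (-(c / 2 / 8) * (r : ℝ) ^ α) with hΘ
  obtain ⟨L', hL'mem, hL'h, hL'n, hL'Ω, hL'B⟩ := Sy.filter hΩ' P.kills hg P.gap
    (ampRet G anc S r) r N S (ampNbhd G S (2 * r))
    (fun i hi => ampRet_ball_subset G anc S r hi) (ampOm G (c / 2 / 4) α S)
    (ampOm_nonneg G _ α S) (fun y hy => one_le_ampOm G _ hα0 hy) v Θ hv hker hfar
  -- numerics
  have hm0 : (0 : ℝ) < (Fintype.card ι : ℝ) := by exact_mod_cast Fintype.card_pos
  have ht0 : (0 : ℝ) ≤ (N : ℝ) / (Fintype.card ι : ℝ) := by positivity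
  have hrα : 0 ≤ (r : ℝ) ^ α := Real.rpow_nonneg (Nat.cast_nonneg _) _
  have hρ1 : (1 : ℝ) ≤ ((2 * r + 1 : ℕ) : ℝ) ^ 2 := by
    apply one_le_pow₀
    exact_mod_cast Nat.le_add_left 1 (2 * r)
  have hRc : ((ampRet G anc S r).card : ℝ) ≤ mult * (S.card : ℝ) * ((2 * r + 1 : ℕ) : ℝ) ^ 2 := by
    have := card_ampRet_le G hgrow anc mult hmult S r
    calc ((ampRet G anc S r).card : ℝ) ≤ ((mult * S.card * (2 * r + 1) ^ 2 : ℕ) : ℝ) := by
          exact_mod_cast this
      _ = _ := by push_cast; ring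
  have hsη : Real.sqrt (Sy.eta r) ≤ Real.sqrt C * Real.exp (-(c / 16) * (r : ℝ) ^ α) := by
    have : Sy.eta r = C * Real.exp (-c * (r : ℝ) ^ α) := rfl
    rw [this, Real.sqrt_mul hC.le, ← Real.exp_half]
    apply mul_le_mul_of_nonneg_left _ (Real.sqrt_nonneg _)
    apply Real.exp_le_exp.2
    nlinarith
  have hp : (1 + v / (Fintype.card ι : ℝ)) ^ N
      ≤ Real.exp (v * ((N : ℝ) / (Fintype.card ι : ℝ))) := by
    have h2 : 1 + v / (Fintype.card ι : ℝ) ≤ Real.exp (v / (Fintype.card ι : ℝ)) := by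
      have := Real.add_one_le_exp (v / (Fintype.card ι : ℝ)); linarith
    calc (1 + v / (Fintype.card ι : ℝ)) ^ N ≤ Real.exp (v / (Fintype.card ι : ℝ)) ^ N :=
          pow_le_pow_left₀ (by positivity) h2 N
      _ = Real.exp (N * (v / (Fintype.card ι : ℝ))) := (Real.exp_nat_mul _ _).symm
      _ = _ := by congr 1; ring
  have hΘ' : Θ = Cθ * (S.card : ℝ) * Real.exp (-(c / 16) * (r : ℝ) ^ α) := by
    rw [hΘ]; congr 2; ring
  obtain ⟨hnum, hnum0⟩ := amp_err_numeric (E := Real.exp (-(g * ((N : ℝ) / Fintype.card ι)) / 2))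
    ht0 hCθ (Nat.cast_nonneg mult) (Real.sqrt_nonneg C)
    (Nat.cast_nonneg S.card) hρ1 (Real.one_le_exp (mul_nonneg hv ht0)) (Real.exp_pos _).le
    (Real.sqrt_nonneg _) (by positivity) hRc hsη hp hΘ'
  refine ⟨L', suppIn_of_mem_ampSiteU_alg hL'mem, hL'h, hL'n, ?_, ?_⟩
  · refine hL'Ω.trans ?_
    unfold ampErr
    have h3 := Real.exp_pos (-(g * ((N : ℝ) / Fintype.card ι)) / 2)
    linarith
  · intro κ _ _ Bk hBk
    refine (hL'B κ Bk fun j => mem_ampSiteU_alg_of_suppIn (hBk j)).trans ?_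
    apply add_le_add le_rfl
    apply mul_le_mul_of_nonneg_left _ (norm_nonneg _)
    unfold ampErr
    have h3 : -(g * (N : ℝ) / (Fintype.card ι : ℝ)) / 2
        = -(g * ((N : ℝ) / Fintype.card ι)) / 2 := by ring
    rw [h3]
    exact hnum

end Claimed.Agent.R296
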