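import Claimed.Agent.R296.AmpAbs
import Claimed.Agent.R296.AmpKraus
import Claimed.Agent.R296.MatFun

/-!
# Row 296, paper 1, Section 9 (amplification), file 3: one-site conditional expectations, algebraically

A many-body structure on the matrix algebra `Matrix n n ℂ` is encoded by commuting systems of matrix
units `F y a b` (`y` a site).  The one-site conditional expectation on column operators
`B : Matrix (n × κ) n ℂ` (`κ` = spectator index) is `T y B = q⁻¹ ∑_{a,b} (F y a b ⊗ 1) B (F y b a)`.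
All properties needed by `AmpAbs` are consequences of the matrix unit relations.  Owner: helper286.
-/

set_option autoImplicit false
set_option linter.unusedSectionVars false
set_option linter.unusedDecidableInType false

namespace Claimed.Agent.R296

open Matrix Claimed.Agent.R298
open scoped Matrix.Norms.L2Operator

/-- commuting systems of matrix units, one for every site -/
structure AmpUnits (n : Type*) [Fintype n] [DecidableEq n] (Λ : Type*) (io : Λ → Type*)
    [∀ y, Fintype (io y)] [∀ y, DecidableEq (io y)] where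
  F : ∀ y, io y → io y → Matrix n n ℂ
  F_mul : ∀ y a b c d, F y a b * F y c d = if b = c then F y a d else 0
  F_sum : ∀ y, ∑ a, F y a a = 1
  F_star : ∀ y a b, (F y a b)ᴴ = F y b a
  F_comm : ∀ y z, y ≠ z → ∀ a b c d, F y a b * F z c d = F z c d * F y a b

section Kraus'

variable {m n ι : Type*} [Fintype m] [DecidableEq m] [Fintype n] [DecidableEq n]
  [Fintype ι] [DecidableEq ι]

theorem amp_norm_one_le : ‖(1 : Matrix n n ℂ)‖ ≤ 1 := opn_isometry_le_one 1 (by simp)

theorem amp_norm_le_sqrt_of_gram (A : Matrix m n ℂ) {c : ℝ} (hc : 0 ≤ c)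
    (h : Aᴴ * A = (c : ℂ) • 1) : ‖A‖ ≤ Real.sqrt c := by
  have h1 : ‖A‖ * ‖A‖ ≤ c := by
    rw [← l2_opNorm_conjTranspose_mul_self, h]
    calc ‖(c : ℂ) • (1 : Matrix n n ℂ)‖ ≤ ‖(c : ℂ)‖ * ‖(1 : Matrix n n ℂ)‖ := norm_smul_le _ _
      _ ≤ c * 1 := by
          rw [Complex.norm_real, Real.norm_of_nonneg hc]
          exact mul_le_mul_of_nonneg_left amp_norm_one_le hc
      _ = c := mul_one c
  exact Real.le_sqrt_of_sq_le (by nlinarith)

/-- scaled version of `amp_kraus_norm_le` -/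
theorem amp_kraus_norm_le' (Lk : ι → Matrix m m ℂ) (Rk : ι → Matrix n n ℂ) {c : ℝ} (hc : 0 ≤ c)
    (hL : ∑ a, Lk a * (Lk a)ᴴ = (c : ℂ) • 1) (hR : ∑ a, (Rk a)ᴴ * Rk a = (c : ℂ) • 1)
    (B : Matrix m n ℂ) : ‖∑ a, Lk a * B * Rk a‖ ≤ c * ‖B‖ := by
  rw [← ampCol_sandwich]
  have h1 : ‖ampCol Rk‖ ≤ Real.sqrt c := amp_norm_le_sqrt_of_gram _ hc (by rw [ampCol_gram, hR])
  have h2 : ‖(ampCol fun a => (Lk a)ᴴ)ᴴ‖ ≤ Real.sqrt c := by
    rw [l2_opNorm_conjTranspose]
    refine amp_norm_le_sqrt_of_gram _ hc ?_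
    rw [ampCol_gram]
    simpa using hL
  calc ‖(ampCol fun a => (Lk a)ᴴ)ᴴ * ampLft ι B * ampCol Rk‖
      ≤ ‖(ampCol fun a => (Lk a)ᴴ)ᴴ * ampLft ι B‖ * ‖ampCol Rk‖ := l2_opNorm_mul _ _
    _ ≤ (‖(ampCol fun a => (Lk a)ᴴ)ᴴ‖ * ‖ampLft ι B‖) * ‖ampCol Rk‖ := by
        gcongr
        exact l2_opNorm_mul _ _
    _ ≤ (Real.sqrt c * ‖B‖) * Real.sqrt c := by
        gcongr
        exact norm_ampLft_le B
    _ = (Real.sqrt c * Real.sqrt c) * ‖B‖ := by ring
    _ = c * ‖B‖ := by rw [Real.mul_self_sqrt hc]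

end Kraus'

section Twirl

variable {n : Type*} [Fintype n] [DecidableEq n] {Λ : Type*} {io : Λ → Type*}
  [∀ y, Fintype (io y)] [∀ y, DecidableEq (io y)] [∀ y, Nonempty (io y)]
  (U : AmpUnits n Λ io) {κ : Type*} [Fintype κ] [DecidableEq κ]

/-- the unnormalised one-site twirl -/
def AmpUnits.tw (y : Λ) (B : Matrix (n × κ) n ℂ) : Matrix (n × κ) n ℂ :=
  ∑ p : io y × io y, ampLft κ (U.F y p.1 p.2) * B * U.F y p.2 p.1

/-- `C` intertwines the matrix units of the site `y`: it acts trivially at `y` -/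
def AmpUnits.Itw (y : Λ) (C : Matrix (n × κ) n ℂ) : Prop :=
  ∀ a b, ampLft κ (U.F y a b) * C = C * U.F y a b

theorem AmpUnits.lft_mul (y : Λ) (a b c d : io y) :
    ampLft κ (U.F y a b) * ampLft κ (U.F y c d) = if b = c then ampLft κ (U.F y a d) else 0 := by
  rw [← ampLft_mul, U.F_mul]
  split_ifs
  · rfl
  · exact ampLft_zero

theorem AmpUnits.itw_tw (y : Λ) (B : Matrix (n × κ) n ℂ) : U.Itw y (U.tw y B) := by
  intro a b
  unfold AmpUnits.tw
  have h1 : ampLft κ (U.F y a b) * ∑ p : io y × io y, ampLft κ (U.F y p.1 p.2) * B * U.F y p.2 p.1 =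
      ∑ d, ampLft κ (U.F y a d) * B * U.F y d b := by
    rw [Fintype.sum_prod_type, Matrix.mul_sum, Finset.sum_eq_single b]
    · rw [Matrix.mul_sum]
      refine Finset.sum_congr rfl fun d _ => ?_
      rw [← Matrix.mul_assoc, ← Matrix.mul_assoc, U.lft_mul, if_pos rfl]
    · intro c _ hc
      rw [Matrix.mul_sum]
      refine Finset.sum_eq_zero fun d _ => ?_
      rw [← Matrix.mul_assoc, ← Matrix.mul_assoc, U.lft_mul, if_neg (Ne.symm hc)]
      simp
    · simp
  have h2 : (∑ p : io y × io y, ampLft κ (U.F y p.1 p.2) * B * U.F y p.2 p.1) * U.F y a b =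
      ∑ d, ampLft κ (U.F y a d) * B * U.F y d b := by
    rw [Fintype.sum_prod_type, Matrix.sum_mul, Finset.sum_eq_single a]
    · rw [Matrix.sum_mul]
      refine Finset.sum_congr rfl fun d _ => ?_
      rw [Matrix.mul_assoc, U.F_mul, if_pos rfl]
    · intro c _ hc
      rw [Matrix.sum_mul]
      refine Finset.sum_eq_zero fun d _ => ?_
      rw [Matrix.mul_assoc, U.F_mul, if_neg hc]
      simp
    · simp
  rw [h1, h2]

theorem AmpUnits.tw_of_itw (y : Λ) {C : Matrix (n × κ) n ℂ} (hC : U.Itw y C) :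
    U.tw y C = (Fintype.card (io y) : ℂ) • C := by
  unfold AmpUnits.tw
  have h1 : ∀ p : io y × io y, ampLft κ (U.F y p.1 p.2) * C * U.F y p.2 p.1 = C * U.F y p.1 p.1 := by
    intro p
    rw [hC p.1 p.2, Matrix.mul_assoc, U.F_mul, if_pos rfl]
  simp only [h1, Fintype.sum_prod_type, Finset.sum_const, Finset.card_univ]
  rw [← Finset.smul_sum, ← Matrix.mul_sum, U.F_sum, Matrix.mul_one]
  simp [Nat.cast_smul_eq_nsmul]

theorem AmpUnits.tw_add (y : Λ) (B C : Matrix (n × κ) n ℂ) :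
    U.tw y (B + C) = U.tw y B + U.tw y C := by
  unfold AmpUnits.tw
  simp only [Matrix.mul_add, Matrix.add_mul, Finset.sum_add_distrib]

theorem AmpUnits.tw_smul (y : Λ) (c : ℂ) (B : Matrix (n × κ) n ℂ) :
    U.tw y (c • B) = c • U.tw y B := by
  unfold AmpUnits.tw
  simp only [Matrix.mul_smul, Matrix.smul_mul, Finset.smul_sum]

theorem AmpUnits.tw_norm_le (y : Λ) (B : Matrix (n × κ) n ℂ) :
    ‖U.tw y B‖ ≤ (Fintype.card (io y) : ℝ) * ‖B‖ := by
  refine amp_kraus_norm_le' (ι := io y × io y)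
    (fun p => ampLft κ (U.F y p.1 p.2)) (fun p => U.F y p.2 p.1)
    (c := (Fintype.card (io y) : ℝ)) (by positivity) ?_ ?_ B
  · simp only [← ampLft_conjTranspose, U.F_star, U.lft_mul, if_true, Fintype.sum_prod_type,
      Finset.sum_const, Finset.card_univ]
    rw [← Finset.smul_sum, ← ampLft_sum, U.F_sum, ampLft_one]
    simp [Nat.cast_smul_eq_nsmul]
  · simp only [U.F_star, U.F_mul, if_true, Fintype.sum_prod_type, Finset.sum_const,
      Finset.card_univ]
    rw [← Finset.smul_sum, U.F_sum]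
    simp [Nat.cast_smul_eq_nsmul]

theorem AmpUnits.tw_comm (y z : Λ) (B : Matrix (n × κ) n ℂ) :
    U.tw y (U.tw z B) = U.tw z (U.tw y B) := by
  by_cases hyz : y = z
  · subst hyz; rfl
  unfold AmpUnits.tw
  simp only [Matrix.mul_sum, Matrix.sum_mul]
  rw [Finset.sum_comm]
  refine Finset.sum_congr rfl fun p _ => Finset.sum_congr rfl fun p' _ => ?_
  have h1 : ampLft κ (U.F y p'.1 p'.2) * ampLft κ (U.F z p.1 p.2) =
      ampLft κ (U.F z p.1 p.2) * ampLft κ (U.F y p'.1 p'.2) := by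
    rw [← ampLft_mul, ← ampLft_mul, U.F_comm y z hyz]
  have h2 := U.F_comm y z hyz p'.2 p'.1 p.2 p.1
  calc ampLft κ (U.F y p'.1 p'.2) * (ampLft κ (U.F z p.1 p.2) * B * U.F z p.2 p.1) * U.F y p'.2 p'.1
      = (ampLft κ (U.F y p'.1 p'.2) * ampLft κ (U.F z p.1 p.2)) * B *
          (U.F z p.2 p.1 * U.F y p'.2 p'.1) := by simp only [Matrix.mul_assoc]
    _ = (ampLft κ (U.F z p.1 p.2) * ampLft κ (U.F y p'.1 p'.2)) * B *
          (U.F y p'.2 p'.1 * U.F z p.2 p.1) := by rw [h1, h2]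
    _ = _ := by simp only [Matrix.mul_assoc]

/-- the one-site conditional expectation on column operators -/
noncomputable def AmpUnits.T (y : Λ) : Matrix (n × κ) n ℂ →ₗ[ℂ] Matrix (n × κ) n ℂ where
  toFun B := ((Fintype.card (io y) : ℂ)⁻¹) • U.tw y B
  map_add' B C := by rw [U.tw_add, smul_add]
  map_smul' c B := by
    rw [U.tw_smul, smul_comm]
    rfl

theorem AmpUnits.T_apply (y : Λ) (B : Matrix (n × κ) n ℂ) :
    U.T y B = ((Fintype.card (io y) : ℂ)⁻¹) • U.tw y B := rfl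

theorem amp_card_ne_zero (y : Λ) : (Fintype.card (io y) : ℂ) ≠ 0 := by
  exact_mod_cast Fintype.card_ne_zero

theorem AmpUnits.T_of_itw (y : Λ) {C : Matrix (n × κ) n ℂ} (hC : U.Itw y C) : U.T y C = C := by
  rw [U.T_apply, U.tw_of_itw y hC, smul_smul, inv_mul_cancel₀ (amp_card_ne_zero y), one_smul]

theorem AmpUnits.itw_T (y : Λ) (B : Matrix (n × κ) n ℂ) : U.Itw y (U.T y B) := by
  intro a b
  rw [U.T_apply, Matrix.mul_smul, Matrix.smul_mul, U.itw_tw y B a b]

theorem AmpUnits.itw_iff (y : Λ) (C : Matrix (n × κ) n ℂ) : U.Itw y C ↔ U.T y C = C :=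
  ⟨U.T_of_itw y, fun h => h ▸ U.itw_T y C⟩

theorem AmpUnits.T_norm_le (y : Λ) (B : Matrix (n × κ) n ℂ) : ‖U.T y B‖ ≤ ‖B‖ := by
  have hq : (0 : ℝ) < Fintype.card (io y) := by exact_mod_cast Fintype.card_pos
  rw [U.T_apply]
  calc ‖((Fintype.card (io y) : ℂ)⁻¹) • U.tw y B‖
      ≤ ‖((Fintype.card (io y) : ℂ)⁻¹)‖ * ‖U.tw y B‖ := norm_smul_le _ _
    _ ≤ (Fintype.card (io y) : ℝ)⁻¹ * ((Fintype.card (io y) : ℝ) * ‖B‖) := by
        rw [norm_inv, Complex.norm_natCast]
        exact mul_le_mul_of_nonneg_left (U.tw_norm_le y B) (by positivity)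
    _ = ‖B‖ := by field_simp

/-- the locality structure on column operators defined by the matrix units -/
noncomputable def AmpUnits.loc (κ : Type*) [Fintype κ] [DecidableEq κ] :
    AmpLoc (Matrix (n × κ) n ℂ) Λ where
  T := U.T
  T_norm := U.T_norm_le
  T_idem y B := U.T_of_itw y (U.itw_T y B)
  T_comm y z B := by
    simp only [U.T_apply, U.tw_smul, U.tw_comm y z B]
    rw [smul_comm]

/-! ### the algebra of operators supported in a region -/

/-- the algebra generated by the matrix units of the sites of `Q` -/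
def AmpUnits.alg (Q : Finset Λ) : Subalgebra ℂ (Matrix n n ℂ) :=
  Algebra.adjoin ℂ {X | ∃ z ∈ Q, ∃ a b, X = U.F z a b}

theorem AmpUnits.F_mem_alg {Q : Finset Λ} {z : Λ} (hz : z ∈ Q) (a b : io z) :
    U.F z a b ∈ U.alg Q :=
  Algebra.subset_adjoin ⟨z, hz, a, b, rfl⟩

theorem AmpUnits.alg_mono {Q Q' : Finset Λ} (h : Q ⊆ Q') : U.alg Q ≤ U.alg Q' := by
  refine Algebra.adjoin_mono ?_
  rintro X ⟨z, hz, a, b, rfl⟩
  exact ⟨z, h hz, a, b, rfl⟩

/-- an operator supported in `Q` passes through a column operator which is trivial on `Q` -/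
theorem AmpUnits.alg_itw {Q : Finset Λ} {A : Matrix n n ℂ} (hA : A ∈ U.alg Q)
    {C : Matrix (n × κ) n ℂ} (hC : ∀ z ∈ Q, U.Itw z C) : ampLft κ A * C = C * A := by
  induction hA using Algebra.adjoin_induction with
  | mem X hX =>
    obtain ⟨z, hz, a, b, rfl⟩ := hX
    exact hC z hz a b
  | algebraMap r =>
    rw [Algebra.algebraMap_eq_smul_one, ampLft_smul, ampLft_one]
    simp
  | add X Y _ _ hX hY => rw [ampLft_add, Matrix.add_mul, Matrix.mul_add, hX, hY]
  | mul X Y _ _ hX hY =>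
    rw [ampLft_mul, Matrix.mul_assoc, hY, ← Matrix.mul_assoc, hX, Matrix.mul_assoc]

theorem AmpUnits.alg_comm_F {Q : Finset Λ} {A : Matrix n n ℂ} (hA : A ∈ U.alg Q)
    {y : Λ} (hy : y ∉ Q) (a b : io y) : A * U.F y a b = U.F y a b * A := by
  induction hA using Algebra.adjoin_induction with
  | mem X hX =>
    obtain ⟨z, hz, c, d, rfl⟩ := hX
    exact U.F_comm z y (fun h => hy (h ▸ hz)) c d a b
  | algebraMap r =>
    rw [Algebra.algebraMap_eq_smul_one]
    simp
  | add X Y _ _ hX hY => rw [Matrix.add_mul, Matrix.mul_add, hX, hY]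
  | mul X Y _ _ hX hY =>
    rw [Matrix.mul_assoc, hY, ← Matrix.mul_assoc, hX, Matrix.mul_assoc]

theorem AmpUnits.alg_comm_alg {Q Q' : Finset Λ} (hd : Disjoint Q Q') {A B : Matrix n n ℂ}
    (hA : A ∈ U.alg Q) (hB : B ∈ U.alg Q') : A * B = B * A := by
  induction hB using Algebra.adjoin_induction with
  | mem X hX =>
    obtain ⟨z, hz, c, d, rfl⟩ := hX
    exact U.alg_comm_F hA (fun h => Finset.disjoint_left.1 hd h hz) c d
  | algebraMap r =>
    rw [Algebra.algebraMap_eq_smul_one]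
    simp
  | add X Y _ _ hX hY => rw [Matrix.add_mul, Matrix.mul_add, hX, hY]
  | mul X Y _ _ hX hY =>
    rw [← Matrix.mul_assoc, hX, Matrix.mul_assoc, hY, Matrix.mul_assoc]

theorem AmpUnits.conjTranspose_mem_alg {Q : Finset Λ} {A : Matrix n n ℂ} (hA : A ∈ U.alg Q) :
    Aᴴ ∈ U.alg Q := by
  induction hA using Algebra.adjoin_induction with
  | mem X hX =>
    obtain ⟨z, hz, c, d, rfl⟩ := hX
    rw [U.F_star]
    exact U.F_mem_alg hz d c
  | algebraMap r =>
    rw [Algebra.algebraMap_eq_smul_one, conjTranspose_smul, conjTranspose_one]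
    exact Subalgebra.smul_mem _ (Subalgebra.one_mem _) _
  | add X Y _ _ hX hY =>
    rw [conjTranspose_add]
    exact Subalgebra.add_mem _ hX hY
  | mul X Y _ _ hX hY =>
    rw [conjTranspose_mul]
    exact Subalgebra.mul_mem _ hY hX

theorem AmpUnits.mfun_mem_alg {Q : Finset Λ} {A : Matrix n n ℂ} (hA : A ∈ U.alg Q) (f : ℝ → ℂ) :
    mfun f A ∈ U.alg Q := by
  obtain ⟨p, hp⟩ := exists_poly_mfun A f
  rw [hp]
  exact Polynomial.aeval_mem_adjoin_singleton ℂ A |> fun h =>
    (Algebra.adjoin_le (by simpa using hA) : Algebra.adjoin ℂ {A} ≤ U.alg Q) h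

/-- a column of operators supported in `S` is trivial outside `S` -/
theorem AmpUnits.itw_col {S : Finset Λ} (Bk : κ → Matrix n n ℂ) (hB : ∀ k, Bk k ∈ U.alg S)
    {y : Λ} (hy : y ∉ S) : U.Itw y (ampCol Bk) := by
  intro a b
  ext p j
  rcases p with ⟨i, k⟩
  have h := congrFun (congrFun (U.alg_comm_F (hB k) hy a b) i) j
  have h1 : (ampLft κ (U.F y a b) * ampCol Bk) (i, k) j = (U.F y a b * Bk k) i j := by
    simp only [Matrix.mul_apply, ampLft_apply, ampCol_apply, Fintype.sum_prod_type]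
    refine Finset.sum_congr rfl fun i' _ => ?_
    rw [Finset.sum_eq_single k]
    · simp
    · intro k' _ hk'
      simp [Ne.symm hk']
    · simp
  have h2 : (ampCol Bk * U.F y a b) (i, k) j = (Bk k * U.F y a b) i j := by
    simp only [Matrix.mul_apply, ampCol_apply]
  rw [h1, h2, h]

end Twirl

end Claimed.Agent.R296
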