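import Claimed.Agent.R296.TailBip
import Claimed.Agent.R296.MatFun2
import Claimed.Agent.R296.EntPtrE
import Claimed.Agent.R296.EntTransfer
import Claimed.Agent.R296.AmpKraus

/-!
# Row 296, paper 1, Section 9 (amplification), file 8: typical projections

One density matrix `ρ`, window `w`: `ampTypP ρ w` = spectral projection of `ρ` on
`{x > 0, |-log x - S(ρ)| ≤ w}`, `ampTypG ρ w = ρ^{-1/2} ampTypP`, `ampRoot ρ = ρ^{1/2}`.
Everything is `mfun`-calculus: reduce to scalar inequalities on the eigenvalues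
(`mfun_mul`, `mfun_sub_posSemidef`, `mfun_congr`, `trace_mfun`, `tlTailMass_eq`).
Architect: helper286.  Proofs: helper43.
-/

set_option autoImplicit false
set_option linter.unusedSectionVars false
set_option linter.unusedDecidableInType false

namespace Claimed.Agent.R296

open Matrix Kronecker Claimed.Agent.R298
open scoped MatrixOrder Matrix.Norms.L2Operator ComplexOrder

section Typ

variable {n : Type} [Fintype n] [DecidableEq n]

/-- the selector of the typical window -/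
noncomputable def ampSel (S w x : ℝ) : ℝ := if 0 < x ∧ |(-Real.log x) - S| ≤ w then 1 else 0

/-- typical projection -/
noncomputable def ampTypP (ρ : Matrix n n ℂ) (w : ℝ) : Matrix n n ℂ :=
  mfun (fun x => ((ampSel (vnEnt ρ) w x : ℝ) : ℂ)) ρ

/-- `ρ^{-1/2}` on the typical window -/
noncomputable def ampTypG (ρ : Matrix n n ℂ) (w : ℝ) : Matrix n n ℂ :=
  mfun (fun x => ((ampSel (vnEnt ρ) w x * (Real.sqrt x)⁻¹ : ℝ) : ℂ)) ρ

/-- `ρ^{1/2}` -/
noncomputable def ampRoot (ρ : Matrix n n ℂ) : Matrix n n ℂ :=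
  mfun (fun x => ((Real.sqrt x : ℝ) : ℂ)) ρ

theorem ampTypP_isHermitian (ρ : Matrix n n ℂ) (w : ℝ) : (ampTypP ρ w).IsHermitian :=
  mfun_isHermitian _ ρ

theorem ampTypG_isHermitian (ρ : Matrix n n ℂ) (w : ℝ) : (ampTypG ρ w).IsHermitian :=
  mfun_isHermitian _ ρ

theorem ampRoot_isHermitian (ρ : Matrix n n ℂ) : (ampRoot ρ).IsHermitian :=
  mfun_isHermitian _ ρ

/-! ### scalar facts on the selector -/

theorem ampSel_mul_self (S w x : ℝ) : ampSel S w x * ampSel S w x = ampSel S w x := by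
  unfold ampSel; split_ifs <;> simp

theorem ampSel_nonneg (S w x : ℝ) : 0 ≤ ampSel S w x := by
  unfold ampSel; split_ifs <;> simp

theorem ampSel_le_one (S w x : ℝ) : ampSel S w x ≤ 1 := by
  unfold ampSel; split_ifs <;> simp

theorem ampSel_le_exp_mul (S w : ℝ) {x : ℝ} (hx : 0 ≤ x) :
    ampSel S w x ≤ Real.exp (S + w) * x := by
  unfold ampSel
  split_ifs with h
  · obtain ⟨h0, h1⟩ := h
    have h2 := (abs_le.1 h1).2
    have h3 : Real.exp (-(S + w)) ≤ x := by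
      rw [← Real.exp_log h0]; exact Real.exp_le_exp.2 (by linarith)
    calc (1 : ℝ) = Real.exp (S + w) * Real.exp (-(S + w)) := by
          rw [← Real.exp_add]; simp
      _ ≤ _ := mul_le_mul_of_nonneg_left h3 (Real.exp_pos _).le
  · exact mul_nonneg (Real.exp_pos _).le hx

theorem ampSel_mul_le_exp (S w x : ℝ) :
    ampSel S w x * x ≤ Real.exp (-S + w) * ampSel S w x := by
  unfold ampSel
  split_ifs with h
  · obtain ⟨h0, h1⟩ := h
    have h2 := (abs_le.1 h1).1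
    rw [one_mul, mul_one, ← Real.exp_log h0]
    exact Real.exp_le_exp.2 (by linarith)
  · simp

theorem ampSel_pos_of_ne {S w x : ℝ} (h : ampSel S w x ≠ 0) : 0 < x := by
  unfold ampSel at h
  split_ifs at h with h'
  · exact h'.1
  · exact absurd rfl h

theorem ampSel_inv_sqrt_mul_sqrt (S w x : ℝ) :
    ampSel S w x * (Real.sqrt x)⁻¹ * Real.sqrt x = ampSel S w x := by
  by_cases h : ampSel S w x = 0
  · simp [h]
  · have := Real.sqrt_ne_zero'.2 (ampSel_pos_of_ne h)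
    field_simp

/-! ### `mfun` with real symbols -/

theorem amp_mfun_le {A : Matrix n n ℂ} (hA : A.IsHermitian) (f g : ℝ → ℝ)
    (h : ∀ i, f (hA.eigenvalues i) ≤ g (hA.eigenvalues i)) :
    mfun (fun x => ((f x : ℝ) : ℂ)) A ≤ mfun (fun x => ((g x : ℝ) : ℂ)) A :=
  Matrix.le_iff.2 (mfun_sub_posSemidef hA f g h)

theorem amp_mfun_mul (f g : ℝ → ℝ) (A : Matrix n n ℂ) :
    mfun (fun x => ((f x : ℝ) : ℂ)) A * mfun (fun x => ((g x : ℝ) : ℂ)) A =
      mfun (fun x => ((f x * g x : ℝ) : ℂ)) A := by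
  rw [← mfun_mul]; simp only [Complex.ofReal_mul]

theorem amp_mfun_smul (c : ℝ) (f : ℝ → ℝ) (A : Matrix n n ℂ) :
    ((c : ℝ) : ℂ) • mfun (fun x => ((f x : ℝ) : ℂ)) A =
      mfun (fun x => ((c * f x : ℝ) : ℂ)) A := by
  rw [← mfun_smul]; simp only [Complex.ofReal_mul]

theorem amp_mfun_congr {A : Matrix n n ℂ} (hA : A.IsHermitian) {f g : ℝ → ℝ}
    (h : ∀ i, f (hA.eigenvalues i) = g (hA.eigenvalues i)) :
    mfun (fun x => ((f x : ℝ) : ℂ)) A = mfun (fun x => ((g x : ℝ) : ℂ)) A :=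
  mfun_congr hA fun i => by rw [h i]

theorem ampTypP_of_not {ρ : Matrix n n ℂ} (h : ¬ ρ.IsHermitian) (w : ℝ) : ampTypP ρ w = 0 :=
  mfun_of_not_isHermitian h _

theorem ampTypP_mul_self (ρ : Matrix n n ℂ) (w : ℝ) : ampTypP ρ w * ampTypP ρ w = ampTypP ρ w := by
  unfold ampTypP
  rw [amp_mfun_mul]
  simp only [ampSel_mul_self]

theorem ampTypP_nonneg (ρ : Matrix n n ℂ) (w : ℝ) : 0 ≤ ampTypP ρ w := by
  by_cases h : ρ.IsHermitian
  · exact Matrix.nonneg_iff_posSemidef.2 (mfun_posSemidef h _ fun i => ampSel_nonneg _ _ _)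
  · rw [ampTypP_of_not h]

theorem ampTypP_le_one (ρ : Matrix n n ℂ) (w : ℝ) : ampTypP ρ w ≤ 1 := by
  by_cases h : ρ.IsHermitian
  · have h1 := amp_mfun_le h (ampSel (vnEnt ρ) w) (fun _ => 1) fun i => ampSel_le_one _ _ _
    have h2 : mfun (fun _ => (((1 : ℝ) : ℝ) : ℂ)) ρ = 1 := by
      simp only [Complex.ofReal_one]; exact mfun_one h
    rw [h2] at h1
    exact h1
  · rw [ampTypP_of_not h]
    exact Matrix.nonneg_iff_posSemidef.2 PosSemidef.one

theorem norm_ampTypP_le (ρ : Matrix n n ℂ) (w : ℝ) : ‖ampTypP ρ w‖ ≤ 1 := by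
  by_cases h : ρ.IsHermitian
  · refine norm_mfun_le h _ zero_le_one fun i => ?_
    rw [Complex.norm_real, Real.norm_of_nonneg (ampSel_nonneg _ _ _)]
    exact ampSel_le_one _ _ _
  · rw [ampTypP_of_not h, norm_zero]; exact zero_le_one

theorem ampTypP_commute (ρ : Matrix n n ℂ) (w : ℝ) : Commute (ampTypP ρ w) ρ :=
  (mfun_commute _ (Commute.refl ρ)).symm

theorem amp_mfun_id {ρ : Matrix n n ℂ} (h : ρ.IsHermitian) :
    mfun (fun x => ((x : ℝ) : ℂ)) ρ = ρ := mfun_id h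

/-- `P ≤ e^{S+w} ρ` -/
theorem ampTypP_le_smul {ρ : Matrix n n ℂ} (hρ : ρ.PosSemidef) (w : ℝ) :
    ampTypP ρ w ≤ ((Real.exp (vnEnt ρ + w) : ℝ) : ℂ) • ρ := by
  have h := hρ.isHermitian
  have h1 : ((Real.exp (vnEnt ρ + w) : ℝ) : ℂ) • ρ =
      mfun (fun x => ((Real.exp (vnEnt ρ + w) * x : ℝ) : ℂ)) ρ := by
    rw [← amp_mfun_smul, amp_mfun_id h]
  rw [h1]
  exact amp_mfun_le h _ _ fun i => ampSel_le_exp_mul _ _ (hρ.eigenvalues_nonneg i)

/-- `P ρ P ≤ e^{-S+w} P` -/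
theorem ampTypP_mul_mul_le {ρ : Matrix n n ℂ} (hρ : ρ.PosSemidef) (w : ℝ) :
    ampTypP ρ w * ρ * ampTypP ρ w ≤ ((Real.exp (-vnEnt ρ + w) : ℝ) : ℂ) • ampTypP ρ w := by
  have h := hρ.isHermitian
  have h1 : ampTypP ρ w * ρ * ampTypP ρ w =
      mfun (fun x => ((ampSel (vnEnt ρ) w x * x * ampSel (vnEnt ρ) w x : ℝ) : ℂ)) ρ := by
    rw [← amp_mfun_mul, ← amp_mfun_mul, amp_mfun_id h]; rfl
  rw [h1]
  unfold ampTypP
  rw [amp_mfun_smul]
  refine amp_mfun_le h _ _ fun i => ?_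
  have h2 := ampSel_mul_le_exp (vnEnt ρ) w (h.eigenvalues i)
  have h3 := mul_le_mul_of_nonneg_right h2 (ampSel_nonneg (vnEnt ρ) w (h.eigenvalues i))
  rwa [mul_assoc (Real.exp _), ampSel_mul_self] at h3

/-- `0 ≤ P ρ P = ρ P ≤ ρ` -/
theorem ampTypP_mul_le {ρ : Matrix n n ℂ} (hρ : ρ.PosSemidef) (w : ℝ) :
    0 ≤ ρ * ampTypP ρ w ∧ ρ * ampTypP ρ w ≤ ρ := by
  have h := hρ.isHermitian
  have h1 : ρ * ampTypP ρ w = mfun (fun x => ((x * ampSel (vnEnt ρ) w x : ℝ) : ℂ)) ρ := by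
    rw [← amp_mfun_mul, amp_mfun_id h]; rfl
  rw [h1]
  constructor
  · exact Matrix.nonneg_iff_posSemidef.2 (mfun_posSemidef h _ fun i =>
      mul_nonneg (hρ.eigenvalues_nonneg i) (ampSel_nonneg _ _ _))
  · conv_rhs => rw [← amp_mfun_id h]
    exact amp_mfun_le h _ _ fun i =>
      mul_le_of_le_one_right (hρ.eigenvalues_nonneg i) (ampSel_le_one _ _ _)

/-- `Γ² ≤ e^{S+w}` -/
theorem ampTypG_sq_le {ρ : Matrix n n ℂ} (hρ : ρ.PosSemidef) (w : ℝ) :
    ampTypG ρ w * ampTypG ρ w ≤ ((Real.exp (vnEnt ρ + w) : ℝ) : ℂ) • 1 := by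
  have h := hρ.isHermitian
  rw [← mfun_const h]
  unfold ampTypG
  rw [amp_mfun_mul]
  refine amp_mfun_le h _ (fun _ => Real.exp (vnEnt ρ + w)) fun i => ?_
  set x := h.eigenvalues i
  by_cases h0 : ampSel (vnEnt ρ) w x = 0
  · simp only [h0, zero_mul]; exact (Real.exp_pos _).le
  · have hx := ampSel_pos_of_ne h0
    have h1 := ampSel_le_exp_mul (vnEnt ρ) w hx.le
    have h2 : ampSel (vnEnt ρ) w x * (Real.sqrt x)⁻¹ * (ampSel (vnEnt ρ) w x * (Real.sqrt x)⁻¹)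
        = ampSel (vnEnt ρ) w x * x⁻¹ := by
      calc _ = (ampSel (vnEnt ρ) w x * ampSel (vnEnt ρ) w x) *
            (Real.sqrt x * Real.sqrt x)⁻¹ := by rw [mul_inv]; ring
        _ = _ := by rw [ampSel_mul_self, Real.mul_self_sqrt hx.le]
    rw [h2]
    calc ampSel (vnEnt ρ) w x * x⁻¹ ≤ Real.exp (vnEnt ρ + w) * x * x⁻¹ :=
          mul_le_mul_of_nonneg_right h1 (inv_nonneg.2 hx.le)
      _ = Real.exp (vnEnt ρ + w) := by field_simp

theorem ampRoot_mul_self {ρ : Matrix n n ℂ} (hρ : ρ.PosSemidef) : ampRoot ρ * ampRoot ρ = ρ := by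
  have h := hρ.isHermitian
  unfold ampRoot
  rw [amp_mfun_mul]
  conv_rhs => rw [← amp_mfun_id h]
  exact amp_mfun_congr h fun i => Real.mul_self_sqrt (hρ.eigenvalues_nonneg i)

theorem ampTypG_mul_root {ρ : Matrix n n ℂ} (hρ : ρ.PosSemidef) (w : ℝ) :
    ampTypG ρ w * ampRoot ρ = ampTypP ρ w := by
  unfold ampTypG ampRoot ampTypP
  rw [amp_mfun_mul]
  simp only [ampSel_inv_sqrt_mul_sqrt]

theorem ampRoot_mul_typG {ρ : Matrix n n ℂ} (hρ : ρ.PosSemidef) (w : ℝ) :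
    ampRoot ρ * ampTypG ρ w = ampTypP ρ w := by
  rw [← ampTypG_mul_root hρ]
  exact (mfun_commute_self _ _ ρ).eq

theorem ampTypG_mul_mul {ρ : Matrix n n ℂ} (hρ : ρ.PosSemidef) (w : ℝ) :
    ampTypG ρ w * ρ * ampTypG ρ w = ampTypP ρ w := by
  calc ampTypG ρ w * ρ * ampTypG ρ w
      = ampTypG ρ w * (ampRoot ρ * ampRoot ρ) * ampTypG ρ w := by rw [ampRoot_mul_self hρ]
    _ = (ampTypG ρ w * ampRoot ρ) * (ampRoot ρ * ampTypG ρ w) := by
        simp only [Matrix.mul_assoc]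
    _ = _ := by rw [ampTypG_mul_root hρ, ampRoot_mul_typG hρ, ampTypP_mul_self]

/-- the mass outside of the window -/
theorem ampTyp_tail {ρ : Matrix n n ℂ} (hρ : ρ.PosSemidef) (w : ℝ) :
    (ρ * (1 - ampTypP ρ w)).trace = ((tlTailMass ρ w : ℝ) : ℂ) := by
  have h := hρ.isHermitian
  have h1 : ρ * (1 - ampTypP ρ w) =
      mfun (fun x => ((x * (1 - ampSel (vnEnt ρ) w x) : ℝ) : ℂ)) ρ := by
    rw [← amp_mfun_mul, amp_mfun_id h]
    congr 1
    simp only [Complex.ofReal_sub, Complex.ofReal_one]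
    rw [mfun_sub, mfun_one h]; rfl
  rw [h1, trace_mfun h, tlTailMass_eq h, Complex.ofReal_sum]
  refine Finset.sum_congr rfl fun i _ => ?_
  congr 1
  have hx := hρ.eigenvalues_nonneg i
  set x := h.eigenvalues i
  unfold ampSel
  rcases hx.eq_or_lt with h0 | h0
  · rw [← h0]; simp
  · by_cases h2 : |(-Real.log x) - vnEnt ρ| ≤ w
    · rw [if_pos ⟨h0, h2⟩, if_neg (fun h3 => absurd h2 (not_le.2 h3.2))]; ring
    · rw [if_neg (fun h3 => h2 h3.2), if_pos ⟨h0, not_le.1 h2⟩]; ring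

/-- a typical projection of a marginal moves the pure state by the square root of the tail
(`‖(1 - P̂) Ω‖² = ⟨Ω, (1 - P̂) Ω⟩ = Tr ρ (1 - P)`, `trace_mul_embE`) -/
theorem ampTyp_vec {m r : Type} [Fintype m] [DecidableEq m] [Fintype r] [DecidableEq r]
    (e : n ≃ m × r) (Ω : n → ℂ) (w : ℝ) :
    opnSq (embE e (ampTypP (ptrE e (pureOp Ω)) w) *ᵥ Ω - Ω) =
      tlTailMass (ptrE e (pureOp Ω)) w := by
  set ρ := ptrE e (pureOp Ω) with hρdef
  have hρ : ρ.PosSemidef := ptrE_posSemidef e (pureOp_posSemidef Ω)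
  set P := ampTypP ρ w with hP
  set Q : Matrix n n ℂ := embE e (1 - P) with hQ
  have hQH : Qᴴ = Q := by
    rw [hQ, ← embE_conjTranspose, conjTranspose_sub, conjTranspose_one,
      (ampTypP_isHermitian ρ w).eq]
  have hQQ : Q * Q = Q := by
    rw [hQ, ← embE_mul]
    congr 1
    rw [Matrix.mul_sub, Matrix.sub_mul, Matrix.sub_mul, Matrix.one_mul, Matrix.one_mul,
      Matrix.mul_one, ampTypP_mul_self]
    abel
  have h1 : embE e P *ᵥ Ω - Ω = -(Q *ᵥ Ω) := by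
    rw [hQ, embE_sub, embE_one, Matrix.sub_mulVec, Matrix.one_mulVec]; abel
  have h2 : ((opnSq (embE e P *ᵥ Ω - Ω) : ℝ) : ℂ) = ((tlTailMass ρ w : ℝ) : ℂ) := by
    rw [opnSq_eq_dotProduct, h1, star_neg, neg_dotProduct_neg, star_mulVec, hQH,
      ← dotProduct_mulVec, mulVec_mulVec, hQQ, ← ampTyp_tail hρ, ← trace_mul_embE, ← hQ,
      pureOp, vecMulVec_mul, trace_vecMulVec, dotProduct_mulVec, dotProduct_comm]
  exact_mod_cast h2

end Typ

end Claimed.Agent.R296
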