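import Mathlib

/-!
# Row 296: the recursion of Proposition 2.3 (P1), abstract form

`σ` is a set function on finite subsets of `ℤ²` (in the application `σ P = S_Ω(A ∩ P)`) which
vanishes on `∅`, is non-negative, submodular and bounded by the volume.  Given the discount of
Lemma 2.2 for all rectangles whose padding lies in a fixed rectangle `Qs`, every rectangle
`Q ⊆ Qs` satisfies `σ Q ≤ C size(Q)^(1+e₀)` with `e₀ < 1`.

The random order of the paper is replaced by an average over `s²` colourings (`s = 2 Cpad + 5`).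
Prefix `bx_`.
-/

set_option autoImplicit false

namespace Claimed.Agent.R296

open Finset

/-- set functions with the properties of the ambient entropies `P ↦ S(A ∩ P)` -/
structure BxSub {α : Type} [DecidableEq α] (σ : Finset α → ℝ) : Prop where
  empty : σ ∅ = 0
  nonneg : ∀ P, 0 ≤ σ P
  submod : ∀ P Q, σ (P ∪ Q) + σ (P ∩ Q) ≤ σ P + σ Q

section Chain

variable {α ι : Type} [DecidableEq α] [DecidableEq ι] {σ : Finset α → ℝ}

theorem BxSub.bx_subadd (hσ : BxSub σ) (P Q : Finset α) : σ (P ∪ Q) ≤ σ P + σ Q := by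
  have h1 := hσ.submod P Q
  have h2 := hσ.nonneg (P ∩ Q)
  linarith

theorem BxSub.bx_subadd_biUnion (hσ : BxSub σ) (t : Finset ι) (X : ι → Finset α) :
    σ (t.biUnion X) ≤ ∑ i ∈ t, σ (X i) := by
  induction t using Finset.induction_on with
  | empty => simp [hσ.empty]
  | insert a t ha ih =>
    rw [Finset.biUnion_insert, Finset.sum_insert ha]
    have := hσ.bx_subadd (X a) (t.biUnion X)
    linarith

/-- conditioning on more decreases the conditional entropy -/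
theorem BxSub.bx_cond_mono (hσ : BxSub σ) {X T V : Finset α} (hT : T ⊆ V) (hX : Disjoint X V) :
    σ (X ∪ V) - σ V ≤ σ (X ∪ T) - σ T := by
  have h := hσ.submod V (X ∪ T)
  have e1 : V ∪ (X ∪ T) = X ∪ V := by
    rw [Finset.union_comm X T, ← Finset.union_assoc, Finset.union_eq_left.mpr hT,
      Finset.union_comm]
  have e2 : V ∩ (X ∪ T) = T := by
    rw [Finset.inter_union_distrib_left, Finset.inter_comm V X,
      Finset.disjoint_iff_inter_eq_empty.mp hX, Finset.empty_union, Finset.inter_eq_right.mpr hT]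
  rw [e1, e2] at h
  linarith

/-- chain rule with discounted terms: the regions `X k`, `k ∈ Kc`, come last, and the buffer
`T k` of each of them lies in the union of the regions `X k`, `k ∈ K`. -/
theorem BxSub.bx_chain (hσ : BxSub σ) (K : Finset ι) (X T : ι → Finset α) (d : ι → ℝ) :
    ∀ Kc : Finset ι, Disjoint K Kc →
    (∀ k ∈ K ∪ Kc, ∀ k' ∈ K ∪ Kc, k ≠ k' → Disjoint (X k) (X k')) →
    (∀ k ∈ Kc, T k ⊆ K.biUnion X) →
    (∀ k ∈ Kc, σ (X k ∪ T k) - σ (T k) ≤ d k) →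
    σ ((K ∪ Kc).biUnion X) ≤ ∑ k ∈ K, σ (X k) + ∑ k ∈ Kc, d k := by
  intro Kc
  induction Kc using Finset.induction_on with
  | empty =>
    intro _ _ _ _
    simpa using hσ.bx_subadd_biUnion K X
  | insert a Kc ha ih =>
    intro hdis hpair hT hd
    have hdis' : Disjoint K Kc :=
      Finset.disjoint_of_subset_right (Finset.subset_insert a Kc) hdis
    have hsubs : K ∪ Kc ⊆ K ∪ insert a Kc :=
      Finset.union_subset_union_right (Finset.subset_insert a Kc)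
    have ih' := ih hdis' (fun k hk k' hk' => hpair k (hsubs hk) k' (hsubs hk'))
      (fun k hk => hT k (Finset.mem_insert_of_mem hk))
      (fun k hk => hd k (Finset.mem_insert_of_mem hk))
    have haK : a ∉ K := fun h => Finset.disjoint_left.mp hdis h (Finset.mem_insert_self a Kc)
    have hmem : a ∈ K ∪ insert a Kc := Finset.mem_union_right _ (Finset.mem_insert_self a Kc)
    have e1 : (K ∪ insert a Kc).biUnion X = X a ∪ (K ∪ Kc).biUnion X := by
      rw [Finset.union_insert, Finset.biUnion_insert]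
    have hXV : Disjoint (X a) ((K ∪ Kc).biUnion X) := by
      rw [Finset.disjoint_biUnion_right]
      intro k hk
      apply hpair a hmem k (hsubs hk)
      rintro rfl
      rcases Finset.mem_union.mp hk with h | h
      · exact haK h
      · exact ha h
    have hTV : T a ⊆ (K ∪ Kc).biUnion X :=
      (hT a (Finset.mem_insert_self a Kc)).trans
        (Finset.biUnion_subset_biUnion_of_subset_left X Finset.subset_union_left)
    have h1 := hσ.bx_cond_mono hTV hXV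
    have h2 := hd a (Finset.mem_insert_self a Kc)
    rw [e1, Finset.sum_insert ha]
    linarith

end Chain

/-! ### Rectangles -/

/-- the integer rectangle `[a₁,b₁) × [a₂,b₂)` -/
structure BxRect where
  a₁ : ℤ
  b₁ : ℤ
  a₂ : ℤ
  b₂ : ℤ

/-- the set of lattice points of a rectangle -/
noncomputable def BxRect.fs (Q : BxRect) : Finset (ℤ × ℤ) := Ico Q.a₁ Q.b₁ ×ˢ Ico Q.a₂ Q.b₂

/-- the larger number of sites along an axis -/
noncomputable def BxRect.size (Q : BxRect) : ℤ := max (Q.b₁ - Q.a₁) (Q.b₂ - Q.a₂)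

/-- `Q^{+d}` -/
def BxRect.pad (Q : BxRect) (d : ℤ) : BxRect := ⟨Q.a₁ - d, Q.b₁ + d, Q.a₂ - d, Q.b₂ + d⟩

/-- the child of `Q` at position `(i,j)` for chunks of `r` sites -/
noncomputable def BxRect.child (Q : BxRect) (r : ℤ) (p : ℤ × ℤ) : BxRect :=
  ⟨Q.a₁ + p.1 * r, min (Q.a₁ + (p.1 + 1) * r) Q.b₁, Q.a₂ + p.2 * r, min (Q.a₂ + (p.2 + 1) * r) Q.b₂⟩

theorem BxRect.mem_fs {Q : BxRect} {x : ℤ × ℤ} :
    x ∈ Q.fs ↔ Q.a₁ ≤ x.1 ∧ x.1 < Q.b₁ ∧ Q.a₂ ≤ x.2 ∧ x.2 < Q.b₂ := by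
  simp [BxRect.fs, and_assoc]

theorem bx_ediv_eq_iff {t r i : ℤ} (hr : 0 < r) : t / r = i ↔ i * r ≤ t ∧ t < (i + 1) * r := by
  constructor
  · rintro rfl
    exact ⟨(Int.le_ediv_iff_mul_le hr).mp le_rfl,
      (Int.ediv_lt_iff_lt_mul hr).mp (by omega)⟩
  · rintro ⟨h1, h2⟩
    have a := (Int.le_ediv_iff_mul_le hr).mpr h1
    have b := (Int.ediv_lt_iff_lt_mul hr).mpr h2
    omega

/-- the position of the child containing a point -/
def BxRect.idx (Q : BxRect) (r : ℤ) (x : ℤ × ℤ) : ℤ × ℤ := ((x.1 - Q.a₁) / r, (x.2 - Q.a₂) / r)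

theorem BxRect.mem_child {Q : BxRect} {r : ℤ} (hr : 0 < r) {p x : ℤ × ℤ} (hp1 : 0 ≤ p.1)
    (hp2 : 0 ≤ p.2) : x ∈ (Q.child r p).fs ↔ x ∈ Q.fs ∧ Q.idx r x = p := by
  rw [BxRect.mem_fs, BxRect.mem_fs]
  simp only [BxRect.child, BxRect.idx, lt_min_iff, Prod.ext_iff, bx_ediv_eq_iff hr]
  have e1 : 0 ≤ p.1 * r := mul_nonneg hp1 hr.le
  have e2 : 0 ≤ p.2 * r := mul_nonneg hp2 hr.le
  constructor
  · rintro ⟨h1, ⟨h2, h3⟩, h4, h5, h6⟩
    refine ⟨⟨by linarith, h3, by linarith, h6⟩, ⟨by linarith, by linarith⟩, by linarith,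
      by linarith⟩
  · rintro ⟨⟨h1, h2, h3, h4⟩, ⟨h5, h6⟩, h7, h8⟩
    exact ⟨by linarith, ⟨by linarith, h2⟩, by linarith, by linarith, h4⟩

/-! ### Children of a rectangle -/

section Children

variable (Q : BxRect) (r M C : ℕ)

/-- positions of the children -/
noncomputable def bxK (M : ℕ) : Finset (ℤ × ℤ) := Ico (0 : ℤ) M ×ˢ Ico (0 : ℤ) M

theorem bx_mem_K {M : ℕ} {p : ℤ × ℤ} :
    p ∈ bxK M ↔ 0 ≤ p.1 ∧ p.1 < M ∧ 0 ≤ p.2 ∧ p.2 < M := by
  simp [bxK, and_assoc]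

theorem bx_card_K (M : ℕ) : (bxK M).card = M * M := by
  simp [bxK]

variable {Q r M C}

theorem bx_idx_mem (hr : 1 ≤ r) (hQ : Q.size ≤ (M * r : ℕ)) {x : ℤ × ℤ} (hx : x ∈ Q.fs) :
    Q.idx r x ∈ bxK M := by
  rw [BxRect.mem_fs] at hx
  obtain ⟨h1, h2, h3, h4⟩ := hx
  have hr' : (0 : ℤ) < r := by exact_mod_cast hr
  have s1 : Q.b₁ - Q.a₁ ≤ (M * r : ℕ) := (le_max_left _ _).trans hQ
  have s2 : Q.b₂ - Q.a₂ ≤ (M * r : ℕ) := (le_max_right _ _).trans hQ
  push_cast at s1 s2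
  rw [bx_mem_K]
  simp only [BxRect.idx]
  refine ⟨Int.ediv_nonneg (by linarith) hr'.le, (Int.ediv_lt_iff_lt_mul hr').mpr (by linarith),
    Int.ediv_nonneg (by linarith) hr'.le, (Int.ediv_lt_iff_lt_mul hr').mpr (by linarith)⟩

theorem bx_mem_child_K (hr : 1 ≤ r) {p x : ℤ × ℤ} (hp : p ∈ bxK M) :
    x ∈ (Q.child r p).fs ↔ x ∈ Q.fs ∧ Q.idx r x = p := by
  rw [bx_mem_K] at hp
  exact BxRect.mem_child (by exact_mod_cast hr) hp.1 hp.2.2.1

/-- the children cover the parent -/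
theorem bx_cover (hr : 1 ≤ r) (hQ : Q.size ≤ (M * r : ℕ)) :
    (bxK M).biUnion (fun p => (Q.child r p).fs) = Q.fs := by
  ext x
  rw [mem_biUnion]
  constructor
  · rintro ⟨p, hp, hx⟩
    exact ((bx_mem_child_K hr hp).mp hx).1
  · intro hx
    exact ⟨Q.idx r x, bx_idx_mem hr hQ hx, (bx_mem_child_K hr (bx_idx_mem hr hQ hx)).mpr ⟨hx, rfl⟩⟩

/-- the children are pairwise disjoint -/
theorem bx_child_disj (hr : 1 ≤ r) {p p' : ℤ × ℤ} (hp : p ∈ bxK M) (hp' : p' ∈ bxK M)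
    (hne : p ≠ p') : Disjoint (Q.child r p).fs (Q.child r p').fs := by
  rw [Finset.disjoint_left]
  intro x hx hx'
  exact hne (((bx_mem_child_K hr hp).mp hx).2.symm.trans ((bx_mem_child_K hr hp').mp hx').2)

theorem bx_child_sub (hr : 1 ≤ r) {p : ℤ × ℤ} (hp : p ∈ bxK M) : (Q.child r p).fs ⊆ Q.fs :=
  fun _ hx => ((bx_mem_child_K hr hp).mp hx).1

theorem bx_child_size (p : ℤ × ℤ) : (Q.child r p).size ≤ r := by
  unfold BxRect.size BxRect.child
  simp only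
  apply max_le
  · have := min_le_left (Q.a₁ + (p.1 + 1) * r) Q.b₁
    linarith
  · have := min_le_left (Q.a₂ + (p.2 + 1) * r) Q.b₂
    linarith

/-- a position is good in one coordinate: the padded chunk lies in the parent interval -/
def bxGood1 (a b : ℤ) (r C : ℕ) (i : ℤ) : Prop := (C : ℤ) ≤ i ∧ a + (i + 1 + C) * r ≤ b

instance (a b : ℤ) (r C : ℕ) (i : ℤ) : Decidable (bxGood1 a b r C i) := by
  unfold bxGood1; infer_instance

/-- interior children -/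
def bxGood (Q : BxRect) (r C : ℕ) (p : ℤ × ℤ) : Prop :=
  bxGood1 Q.a₁ Q.b₁ r C p.1 ∧ bxGood1 Q.a₂ Q.b₂ r C p.2

instance (Q : BxRect) (r C : ℕ) (p : ℤ × ℤ) : Decidable (bxGood Q r C p) := by
  unfold bxGood; infer_instance

theorem bx_good_child {p : ℤ × ℤ} (hg : bxGood Q r C p) :
    Q.child r p = ⟨Q.a₁ + p.1 * r, Q.a₁ + (p.1 + 1) * r, Q.a₂ + p.2 * r, Q.a₂ + (p.2 + 1) * r⟩ := by
  obtain ⟨⟨h1, h2⟩, h3, h4⟩ := hg
  have e : (0 : ℤ) ≤ (C : ℤ) * r := by positivity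
  unfold BxRect.child
  congr 1
  · apply min_eq_left
    nlinarith
  · apply min_eq_left
    nlinarith

/-- the padding of an interior child lies in the parent -/
theorem bx_good_pad_sub {p : ℤ × ℤ} (hg : bxGood Q r C p) :
    ((Q.child r p).pad ((C * r : ℕ) : ℤ)).fs ⊆ Q.fs := by
  rw [bx_good_child hg]
  obtain ⟨⟨h1, h2⟩, h3, h4⟩ := hg
  intro x hx
  rw [BxRect.mem_fs] at hx ⊢
  simp only [BxRect.pad] at hx
  push_cast at hx
  obtain ⟨x1, x2, x3, x4⟩ := hx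
  have e1 : (0 : ℤ) ≤ (p.1 - C) * r := mul_nonneg (by linarith) (by positivity)
  have e2 : (0 : ℤ) ≤ (p.2 - C) * r := mul_nonneg (by linarith) (by positivity)
  refine ⟨by nlinarith, by nlinarith, by nlinarith, by nlinarith⟩

/-- a point of the padding of an interior child lies in a child at offset at most `C` -/
theorem bx_good_pad_idx (hr : 1 ≤ r) {p : ℤ × ℤ} (hg : bxGood Q r C p) {x : ℤ × ℤ}
    (hx : x ∈ ((Q.child r p).pad ((C * r : ℕ) : ℤ)).fs) :
    |(Q.idx r x).1 - p.1| ≤ C ∧ |(Q.idx r x).2 - p.2| ≤ C := by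
  rw [bx_good_child hg] at hx
  rw [BxRect.mem_fs] at hx
  simp only [BxRect.pad] at hx
  push_cast at hx
  obtain ⟨x1, x2, x3, x4⟩ := hx
  have hr' : (0 : ℤ) < r := by exact_mod_cast hr
  simp only [BxRect.idx]
  constructor
  · rw [abs_le]
    constructor
    · have : p.1 - C ≤ (x.1 - Q.a₁) / r := (Int.le_ediv_iff_mul_le hr').mpr (by nlinarith)
      linarith
    · have : (x.1 - Q.a₁) / r < p.1 + 1 + C := (Int.ediv_lt_iff_lt_mul hr').mpr (by nlinarith)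
      linarith
  · rw [abs_le]
    constructor
    · have : p.2 - C ≤ (x.2 - Q.a₂) / r := (Int.le_ediv_iff_mul_le hr').mpr (by nlinarith)
      linarith
    · have : (x.2 - Q.a₂) / r < p.2 + 1 + C := (Int.ediv_lt_iff_lt_mul hr').mpr (by nlinarith)
      linarith

end Children

/-! ### The recursion step -/

/-- all rectangles of size `≤ r` inside `Qs` have `σ ≤ F` -/
def BxBox (σ : Finset (ℤ × ℤ) → ℝ) (Qs : BxRect) (r : ℕ) (F : ℝ) : Prop :=
  ∀ Q : BxRect, Q.fs ⊆ Qs.fs → Q.size ≤ r → σ Q.fs ≤ F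

/-- the discount of Lemma 2.2 for all rectangles whose padding lies in `Qs` -/
def BxBuf (σ : Finset (ℤ × ℤ) → ℝ) (Qs : BxRect) (C : ℕ) (Cbuf : ℝ) : Prop :=
  ∀ (r : ℕ) (Q₀ : BxRect), 1 ≤ r → Q₀.a₁ < Q₀.b₁ → Q₀.a₂ < Q₀.b₂ → Q₀.size ≤ r →
    (Q₀.pad ((C * r : ℕ) : ℤ)).fs ⊆ Qs.fs →
    σ (Q₀.pad ((C * r : ℕ) : ℤ)).fs - σ ((Q₀.pad ((C * r : ℕ) : ℤ)).fs \ Q₀.fs)
      ≤ σ Q₀.fs / 2 + Cbuf * r

/-- the colour of a position -/
def bxCol (C : ℕ) (p : ℤ × ℤ) : ℤ × ℤ := (p.1 % ((C : ℤ) + 1), p.2 % ((C : ℤ) + 1))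

/-- the set of colours -/
noncomputable def bxCols (C : ℕ) : Finset (ℤ × ℤ) :=
  Ico (0 : ℤ) ((C : ℤ) + 1) ×ˢ Ico (0 : ℤ) ((C : ℤ) + 1)

theorem bx_col_mem (C : ℕ) (p : ℤ × ℤ) : bxCol C p ∈ bxCols C := by
  have h : (0 : ℤ) < (C : ℤ) + 1 := by positivity
  simp only [bxCols, bxCol, mem_product, mem_Ico]
  exact ⟨⟨Int.emod_nonneg _ h.ne', Int.emod_lt_of_pos _ h⟩,
    Int.emod_nonneg _ h.ne', Int.emod_lt_of_pos _ h⟩

theorem bx_card_cols (C : ℕ) : (bxCols C).card = (C + 1) * (C + 1) := by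
  have : ((C : ℤ) + 1).toNat = C + 1 := by omega
  simp [bxCols, this]

theorem bx_eq_of_mod {C : ℕ} {i j : ℤ} (hm : i % ((C : ℤ) + 1) = j % ((C : ℤ) + 1))
    (hd : |i - j| ≤ C) : i = j := by
  have hdvd : ((C : ℤ) + 1) ∣ i - j := Int.ModEq.dvd (Int.ModEq.symm hm)
  have := Int.eq_zero_of_abs_lt_dvd hdvd (by linarith)
  linarith

section Step

variable {σ : Finset (ℤ × ℤ) → ℝ} {Qs Q : BxRect} {r M C : ℕ} {Cbuf : ℝ}

/-- the inequality for one colour -/
theorem bx_colour_ineq (hσ : BxSub σ) (hbuf : BxBuf σ Qs C Cbuf) (hr : 1 ≤ r)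
    (hQs : Q.fs ⊆ Qs.fs) (hQ : Q.size ≤ (M * r : ℕ)) (c : ℤ × ℤ) :
    σ Q.fs ≤ ∑ p ∈ bxK M, σ (Q.child r p).fs
      - ∑ p ∈ (bxK M).filter (fun p => bxGood Q r C p) with bxCol C p = c,
          (σ (Q.child r p).fs / 2 - Cbuf * r) := by
  classical
  set X : ℤ × ℤ → Finset (ℤ × ℤ) := fun p => (Q.child r p).fs with hX
  set Kc := ((bxK M).filter (fun p => bxGood Q r C p)).filter (fun p => bxCol C p = c) with hKc
  set K' := bxK M \ Kc with hK'
  have hKcsub : Kc ⊆ bxK M := (Finset.filter_subset _ _).trans (Finset.filter_subset _ _)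
  have hunion : K' ∪ Kc = bxK M := Finset.sdiff_union_of_subset hKcsub
  have hchain := hσ.bx_chain K' X (fun p => ((Q.child r p).pad ((C * r : ℕ) : ℤ)).fs \ X p)
    (fun p => σ (X p) / 2 + Cbuf * r) Kc Finset.sdiff_disjoint ?_ ?_ ?_
  · rw [hunion, bx_cover hr hQ] at hchain
    have hsplit : ∑ p ∈ bxK M, σ (X p) = ∑ p ∈ K', σ (X p) + ∑ p ∈ Kc, σ (X p) := by
      rw [← hunion, Finset.sum_union Finset.sdiff_disjoint]
    have hsub : ∑ p ∈ Kc, (σ (X p) / 2 - Cbuf * r)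
        = ∑ p ∈ Kc, σ (X p) - ∑ p ∈ Kc, (σ (X p) / 2 + Cbuf * r) := by
      rw [← Finset.sum_sub_distrib]
      exact Finset.sum_congr rfl fun _ _ => by ring
    rw [hsplit, hsub]
    linarith
  · rw [hunion]
    intro p hp p' hp' hne
    exact bx_child_disj hr hp hp' hne
  · intro p hp x hx
    rw [mem_sdiff] at hx
    obtain ⟨hxpad, hxX⟩ := hx
    have hp1 := Finset.mem_filter.mp hp
    have hp2 := Finset.mem_filter.mp hp1.1
    have hg : bxGood Q r C p := hp2.2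
    have hxQ : x ∈ Q.fs := bx_good_pad_sub hg hxpad
    have hidx := bx_idx_mem hr hQ hxQ
    rw [mem_biUnion]
    refine ⟨Q.idx r x, ?_, (bx_mem_child_K hr hidx).mpr ⟨hxQ, rfl⟩⟩
    rw [hK', mem_sdiff]
    refine ⟨hidx, fun hin => hxX ?_⟩
    have hin1 := Finset.mem_filter.mp hin
    have hcol : bxCol C (Q.idx r x) = bxCol C p := hin1.2.trans hp1.2.symm
    obtain ⟨d1, d2⟩ := bx_good_pad_idx hr hg hxpad
    have e1 := bx_eq_of_mod (congrArg Prod.fst hcol) d1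
    have e2 := bx_eq_of_mod (congrArg Prod.snd hcol) d2
    exact (bx_mem_child_K hr hp2.1).mpr ⟨hxQ, Prod.ext e1 e2⟩
  · intro p hp
    have hp1 := Finset.mem_filter.mp hp
    have hp2 := Finset.mem_filter.mp hp1.1
    have hg : bxGood Q r C p := hp2.2
    have hr' : (0 : ℤ) < r := by exact_mod_cast hr
    have hsubpad : X p ⊆ ((Q.child r p).pad ((C * r : ℕ) : ℤ)).fs := by
      intro x hx
      rw [hX] at hx
      rw [BxRect.mem_fs] at hx ⊢
      simp only [BxRect.pad]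
      have : (0 : ℤ) ≤ ((C * r : ℕ) : ℤ) := by positivity
      obtain ⟨x1, x2, x3, x4⟩ := hx
      exact ⟨by linarith, by linarith, by linarith, by linarith⟩
    have e : X p ∪ (((Q.child r p).pad ((C * r : ℕ) : ℤ)).fs \ X p)
        = ((Q.child r p).pad ((C * r : ℕ) : ℤ)).fs := Finset.union_sdiff_of_subset hsubpad
    rw [e]
    refine hbuf r (Q.child r p) hr ?_ ?_ (bx_child_size p) ((bx_good_pad_sub hg).trans hQs)
    · rw [bx_good_child hg]
      simp only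
      nlinarith
    · rw [bx_good_child hg]
      simp only
      nlinarith

/-- the average over all colours -/
theorem bx_avg_ineq (hσ : BxSub σ) (hbuf : BxBuf σ Qs C Cbuf) (hr : 1 ≤ r)
    (hQs : Q.fs ⊆ Qs.fs) (hQ : Q.size ≤ (M * r : ℕ)) :
    ((C : ℝ) + 1) ^ 2 * σ Q.fs ≤ ((C : ℝ) + 1) ^ 2 * ∑ p ∈ bxK M, σ (Q.child r p).fs
      - ∑ p ∈ (bxK M).filter (fun p => bxGood Q r C p), (σ (Q.child r p).fs / 2 - Cbuf * r) := by
  classical
  have h := Finset.sum_le_sum (s := bxCols C)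
    (fun c _ => bx_colour_ineq (M := M) hσ hbuf hr hQs hQ c)
  rw [Finset.sum_const, Finset.sum_sub_distrib, Finset.sum_const, bx_card_cols,
    Finset.sum_fiberwise_of_maps_to (fun p _ => bx_col_mem C p)] at h
  simp only [nsmul_eq_mul] at h
  push_cast at h
  nlinarith

/-- bad non-empty positions in one coordinate -/
noncomputable def bxBad1 (a b : ℤ) (r M C : ℕ) : Finset ℤ :=
  (Ico (0 : ℤ) M).filter fun i => ¬ bxGood1 a b r C i ∧ a + i * r < b

theorem bx_card_bad1 (a b : ℤ) (hr : 1 ≤ r) : (bxBad1 a b r M C).card ≤ 2 * C + 1 := by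
  have hr' : (0 : ℤ) < r := by exact_mod_cast hr
  set i₀ : ℤ := (b - a - 1) / r with hi₀
  have hsub : bxBad1 a b r M C ⊆ Ico (0 : ℤ) C ∪ Icc (i₀ - C) i₀ := by
    intro i hi
    unfold bxBad1 at hi
    rw [mem_filter, mem_Ico] at hi
    obtain ⟨⟨h0, _⟩, hng, hne⟩ := hi
    rw [mem_union, mem_Ico, mem_Icc]
    by_cases hC : i < C
    · exact Or.inl ⟨h0, hC⟩
    · right
      push Not at hC
      have hb : b < a + (i + 1 + C) * r := by
        by_contra hcon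
        push Not at hcon
        exact hng ⟨hC, hcon⟩
      have h1 : i ≤ i₀ := (Int.le_ediv_iff_mul_le hr').mpr (by linarith)
      have h2 : i₀ < i + 1 + C := (Int.ediv_lt_iff_lt_mul hr').mpr (by linarith)
      exact ⟨by linarith, h1⟩
  calc (bxBad1 a b r M C).card ≤ (Ico (0 : ℤ) C ∪ Icc (i₀ - C) i₀).card := card_le_card hsub
    _ ≤ (Ico (0 : ℤ) C).card + (Icc (i₀ - C) i₀).card := card_union_le _ _
    _ = 2 * C + 1 := by
        rw [Int.card_Ico, Int.card_Icc]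
        have e1 : ((C : ℤ) - 0).toNat = C := by omega
        have e2 : (i₀ + 1 - (i₀ - C)).toNat = C + 1 := by omega
        rw [e1, e2]
        ring

/-- non-interior non-empty children -/
noncomputable def bxBadNe (Q : BxRect) (r M C : ℕ) : Finset (ℤ × ℤ) :=
  (bxK M).filter fun p => ¬ bxGood Q r C p ∧ (Q.child r p).fs.Nonempty

theorem bx_card_badNe (hr : 1 ≤ r) : (bxBadNe Q r M C).card ≤ 2 * ((2 * C + 1) * M) := by
  have hsub : bxBadNe Q r M C ⊆ (bxBad1 Q.a₁ Q.b₁ r M C ×ˢ Ico (0 : ℤ) M)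
      ∪ (Ico (0 : ℤ) M ×ˢ bxBad1 Q.a₂ Q.b₂ r M C) := by
    intro p hp
    unfold bxBadNe at hp
    rw [mem_filter, bx_mem_K] at hp
    obtain ⟨⟨h1, h2, h3, h4⟩, hng, x, hx⟩ := hp
    rw [BxRect.mem_fs] at hx
    simp only [BxRect.child, lt_min_iff] at hx
    obtain ⟨x1, ⟨_, x2⟩, x3, _, x4⟩ := hx
    rw [mem_union, mem_product, mem_product]
    unfold bxBad1
    simp only [mem_filter, mem_Ico]
    by_cases hg1 : bxGood1 Q.a₁ Q.b₁ r C p.1
    · right
      exact ⟨⟨h1, h2⟩, ⟨h3, h4⟩, fun hg2 => hng ⟨hg1, hg2⟩, by linarith⟩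
    · left
      exact ⟨⟨⟨h1, h2⟩, hg1, by linarith⟩, h3, h4⟩
  have hM : (Ico (0 : ℤ) M).card = M := by simp
  calc (bxBadNe Q r M C).card
      ≤ (bxBad1 Q.a₁ Q.b₁ r M C ×ˢ Ico (0 : ℤ) M).card
        + (Ico (0 : ℤ) M ×ˢ bxBad1 Q.a₂ Q.b₂ r M C).card :=
        (card_le_card hsub).trans (card_union_le _ _)
    _ = (bxBad1 Q.a₁ Q.b₁ r M C).card * M + M * (bxBad1 Q.a₂ Q.b₂ r M C).card := by
        rw [card_product, card_product, hM]
    _ ≤ (2 * C + 1) * M + M * (2 * C + 1) :=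
        Nat.add_le_add (Nat.mul_le_mul_right _ (bx_card_bad1 _ _ hr))
          (Nat.mul_le_mul_left _ (bx_card_bad1 _ _ hr))
    _ = 2 * ((2 * C + 1) * M) := by ring

theorem BxBox.bx_nonneg (hσ : BxSub σ) {F : ℝ} (hF : BxBox σ Qs r F) : 0 ≤ F := by
  have h := hF ⟨0, 0, 0, 0⟩ (by simp [BxRect.fs]) (by simp [BxRect.size])
  have e : (⟨0, 0, 0, 0⟩ : BxRect).fs = ∅ := by simp [BxRect.fs]
  rw [e, hσ.empty] at h
  exact h

/-- **the recursion step** of Proposition 2.3 -/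
theorem bx_step (hσ : BxSub σ) (hbuf : BxBuf σ Qs C Cbuf) (hCbuf : 0 ≤ Cbuf) (hr : 1 ≤ r)
    {F : ℝ} (hF : BxBox σ Qs r F) :
    BxBox σ Qs (M * r)
      ((((((C : ℝ) + 1) ^ 2 - 1 / 2) * (M : ℝ) ^ 2 + (2 * C + 1) * M) / ((C : ℝ) + 1) ^ 2) * F
        + (M : ℝ) ^ 2 * Cbuf * r) := by
  classical
  intro Q hQs hQ
  have hF0 : 0 ≤ F := hF.bx_nonneg hσ
  have havg := bx_avg_ineq (M := M) hσ hbuf hr hQs hQ
  set a : ℤ × ℤ → ℝ := fun p => σ (Q.child r p).fs with ha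
  set Kg := (bxK M).filter (fun p => bxGood Q r C p) with hKg
  set Kn := (bxK M).filter (fun p => ¬ bxGood Q r C p) with hKn
  have hsplit : ∑ p ∈ bxK M, a p = ∑ p ∈ Kg, a p + ∑ p ∈ Kn, a p :=
    (Finset.sum_filter_add_sum_filter_not _ _ _).symm
  have haF : ∀ p ∈ bxK M, a p ≤ F := fun p hp =>
    hF (Q.child r p) ((bx_child_sub hr hp).trans hQs) (bx_child_size p)
  have hgood : ∑ p ∈ Kg, a p ≤ Kg.card * F := by
    have := Finset.sum_le_sum (s := Kg) (f := a) (g := fun _ => F)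
      (fun p hp => haF p (Finset.mem_filter.mp hp).1)
    simpa using this
  have hbad : ∑ p ∈ Kn, a p ≤ (bxBadNe Q r M C).card * F := by
    have h1 : ∑ p ∈ Kn, a p ≤ ∑ p ∈ Kn, (if (Q.child r p).fs.Nonempty then F else 0) := by
      apply Finset.sum_le_sum
      intro p hp
      by_cases hne : (Q.child r p).fs.Nonempty
      · rw [if_pos hne]
        exact haF p (Finset.mem_filter.mp hp).1
      · rw [if_neg hne]
        rw [Finset.not_nonempty_iff_eq_empty] at hne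
        simp [ha, hne, hσ.empty]
    have h2 : ∑ p ∈ Kn, (if (Q.child r p).fs.Nonempty then F else 0)
        = (bxBadNe Q r M C).card * F := by
      rw [← Finset.sum_filter, Finset.sum_const, nsmul_eq_mul]
      congr 2
      unfold bxBadNe
      rw [hKn, Finset.filter_filter]
    linarith
  have hcard : (Kg.card : ℝ) + (bxBadNe Q r M C).card ≤ (M : ℝ) ^ 2 := by
    have hdisj : Disjoint Kg (bxBadNe Q r M C) := by
      rw [Finset.disjoint_left]
      intro p hp hp'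
      exact (Finset.mem_filter.mp hp').2.1 (Finset.mem_filter.mp hp).2
    have : Kg.card + (bxBadNe Q r M C).card ≤ M * M := by
      rw [← Finset.card_union_of_disjoint hdisj, ← bx_card_K M]
      apply Finset.card_le_card
      exact Finset.union_subset (Finset.filter_subset _ _) (Finset.filter_subset _ _)
    have h2 : ((Kg.card + (bxBadNe Q r M C).card : ℕ) : ℝ) ≤ ((M * M : ℕ) : ℝ) := by
      exact_mod_cast this
    push_cast at h2
    nlinarith
  have hbn : ((bxBadNe Q r M C).card : ℝ) ≤ 2 * ((2 * C + 1) * M) := by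
    have := bx_card_badNe (Q := Q) (M := M) (C := C) hr
    exact_mod_cast this
  have hsum : ∑ p ∈ Kg, (a p / 2 - Cbuf * r) = (∑ p ∈ Kg, a p) / 2 - Kg.card * (Cbuf * r) := by
    rw [Finset.sum_sub_distrib, Finset.sum_const, nsmul_eq_mul, Finset.sum_div]
  rw [hsplit, hsum] at havg
  set s2 : ℝ := ((C : ℝ) + 1) ^ 2 with hs2
  have hs2pos : 1 ≤ s2 := by
    have : (0 : ℝ) ≤ C := Nat.cast_nonneg C
    rw [hs2]
    nlinarith
  set g : ℝ := (Kg.card : ℝ) with hg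
  set bn : ℝ := ((bxBadNe Q r M C).card : ℝ) with hbnd
  have hg0 : 0 ≤ g := Nat.cast_nonneg _
  have hbn0 : 0 ≤ bn := Nat.cast_nonneg _
  have hr0 : (0 : ℝ) ≤ r := Nat.cast_nonneg r
  have hcr : 0 ≤ Cbuf * r := mul_nonneg hCbuf hr0
  -- `s² σ(Q) ≤ (s² - 1/2) g F + s² bn F + g Cbuf r`
  have h1 : s2 * σ Q.fs ≤ (s2 - 1 / 2) * (g * F) + s2 * (bn * F) + g * (Cbuf * r) := by
    have e1 : (s2 - 1 / 2) * ∑ p ∈ Kg, a p ≤ (s2 - 1 / 2) * (g * F) :=
      mul_le_mul_of_nonneg_left hgood (by linarith)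
    have e2 : s2 * ∑ p ∈ Kn, a p ≤ s2 * (bn * F) := mul_le_mul_of_nonneg_left hbad (by linarith)
    nlinarith
  have h2 : (s2 - 1 / 2) * g + s2 * bn ≤ (s2 - 1 / 2) * (M : ℝ) ^ 2 + (2 * C + 1) * M := by
    nlinarith
  have h3 : s2 * σ Q.fs ≤ ((s2 - 1 / 2) * (M : ℝ) ^ 2 + (2 * C + 1) * M) * F
      + s2 * ((M : ℝ) ^ 2 * Cbuf * r) := by
    have e1 : ((s2 - 1 / 2) * g + s2 * bn) * F
        ≤ ((s2 - 1 / 2) * (M : ℝ) ^ 2 + (2 * C + 1) * M) * F :=
      mul_le_mul_of_nonneg_right h2 hF0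
    have e2 : g * (Cbuf * r) ≤ s2 * ((M : ℝ) ^ 2 * Cbuf * r) := by
      have : g ≤ (M : ℝ) ^ 2 := by linarith
      have e3 : g * (Cbuf * r) ≤ (M : ℝ) ^ 2 * (Cbuf * r) := mul_le_mul_of_nonneg_right this hcr
      have e4 : (M : ℝ) ^ 2 * (Cbuf * r) ≤ s2 * ((M : ℝ) ^ 2 * (Cbuf * r)) := by
        have : 0 ≤ (M : ℝ) ^ 2 * (Cbuf * r) := by positivity
        nlinarith
      calc g * (Cbuf * r) ≤ s2 * ((M : ℝ) ^ 2 * (Cbuf * r)) := e3.trans e4
        _ = s2 * ((M : ℝ) ^ 2 * Cbuf * r) := by ring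
    nlinarith
  have hs2' : 0 < s2 := by linarith
  rw [div_mul_eq_mul_div, ← sub_nonneg]
  have : ((s2 - 1 / 2) * (M : ℝ) ^ 2 + (2 * C + 1) * M) * F / s2 + (M : ℝ) ^ 2 * Cbuf * r
      - σ Q.fs = (((s2 - 1 / 2) * (M : ℝ) ^ 2 + (2 * C + 1) * M) * F
        + s2 * ((M : ℝ) ^ 2 * Cbuf * r) - s2 * σ Q.fs) / s2 := by
    field_simp
  rw [this]
  exact div_nonneg (by linarith) hs2'.le

end Step

end Claimed.Agent.R296
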