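import Mathlib
import Claimed.Agent.R296.BoxAbs

/-!
# Row 296: Proposition 2.3 (P1), abstract form: iteration of the recursion

`bx_main`: for `σ` submodular, bounded by the volume, with the discount of Lemma 2.2 inside `Qs`,
`σ Q ≤ K size(Q)^(1+e₀)` for all rectangles `Q ⊆ Qs`; `K` and `e₀ ∈ (0,1)` depend only on
`Cpad, Cbuf, log q`.
-/

set_option autoImplicit false

namespace Claimed.Agent.R296

open Finset

theorem BxBox.bx_mono {σ : Finset (ℤ × ℤ) → ℝ} {Qs : BxRect} {r : ℕ} {F F' : ℝ}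
    (h : BxBox σ Qs r F) (hF : F ≤ F') : BxBox σ Qs r F' :=
  fun Q h1 h2 => (h Q h1 h2).trans hF

/-- rectangles of size `≤ 1` -/
theorem bx_base {σ : Finset (ℤ × ℤ) → ℝ} {lq : ℝ} (hlq : 0 ≤ lq)
    (hvol : ∀ P, σ P ≤ (P.card : ℝ) * lq) (Qs : BxRect) : BxBox σ Qs 1 lq := by
  intro Q _ hQ
  have hQ' : max (Q.b₁ - Q.a₁) (Q.b₂ - Q.a₂) ≤ 1 := by simpa [BxRect.size] using hQ
  have s1 : Q.b₁ - Q.a₁ ≤ 1 := (le_max_left _ _).trans hQ'
  have s2 : Q.b₂ - Q.a₂ ≤ 1 := (le_max_right _ _).trans hQ'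
  have hc : Q.fs.card ≤ 1 := by
    unfold BxRect.fs
    rw [card_product, Int.card_Ico, Int.card_Ico]
    have e1 : (Q.b₁ - Q.a₁).toNat ≤ 1 := by omega
    have e2 : (Q.b₂ - Q.a₂).toNat ≤ 1 := by omega
    calc _ ≤ 1 * 1 := Nat.mul_le_mul e1 e2
      _ = 1 := by norm_num
  have hc' : (Q.fs.card : ℝ) ≤ 1 := by exact_mod_cast hc
  calc σ Q.fs ≤ (Q.fs.card : ℝ) * lq := hvol _
    _ ≤ 1 * lq := mul_le_mul_of_nonneg_right hc' hlq
    _ = lq := one_mul _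

/-- the scale factor `M = 8 (C+1)` -/
def bxM (C : ℕ) : ℕ := 8 * (C + 1)

/-- the growth factor `λ = (1 - p₀/4) M²`, `p₀ = (C+1)⁻²` -/
noncomputable def bxLam (C : ℕ) : ℝ := (1 - 1 / (4 * ((C : ℝ) + 1) ^ 2)) * (bxM C : ℝ) ^ 2

theorem bx_lam_eq (C : ℕ) : bxLam C = 64 * ((C : ℝ) + 1) ^ 2 - 16 := by
  have h : ((C : ℝ) + 1) ≠ 0 := by positivity
  unfold bxLam bxM
  push_cast
  field_simp
  ring

theorem bx_M_lt_lam (C : ℕ) : (bxM C : ℝ) < bxLam C := by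
  rw [bx_lam_eq]
  unfold bxM
  push_cast
  have : (0 : ℝ) ≤ C := Nat.cast_nonneg C
  nlinarith

theorem bx_lam_lt (C : ℕ) : bxLam C < (bxM C : ℝ) ^ 2 := by
  rw [bx_lam_eq]
  unfold bxM
  push_cast
  nlinarith

theorem bx_coef_le (C : ℕ) :
    ((((C : ℝ) + 1) ^ 2 - 1 / 2) * (bxM C : ℝ) ^ 2 + (2 * C + 1) * (bxM C : ℝ)) / ((C : ℝ) + 1) ^ 2
      ≤ bxLam C := by
  have h : (0 : ℝ) < ((C : ℝ) + 1) ^ 2 := by positivity
  rw [div_le_iff₀ h, bx_lam_eq]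
  unfold bxM
  push_cast
  have : (0 : ℝ) ≤ C := Nat.cast_nonneg C
  nlinarith

section Iter

variable {σ : Finset (ℤ × ℤ) → ℝ} {Qs : BxRect} {C : ℕ} {Cbuf lq : ℝ}

/-- the inhomogeneous constant `b = M² Cbuf / (λ - M)` -/
noncomputable def bxB (C : ℕ) (Cbuf : ℝ) : ℝ := (bxM C : ℝ) ^ 2 * Cbuf / (bxLam C - bxM C)

theorem bx_B_nonneg (C : ℕ) {Cbuf : ℝ} (h : 0 ≤ Cbuf) : 0 ≤ bxB C Cbuf := by
  unfold bxB
  have := bx_M_lt_lam C
  exact div_nonneg (by positivity) (by linarith)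

theorem bx_iter (hσ : BxSub σ) (hlq : 0 ≤ lq) (hvol : ∀ P, σ P ≤ (P.card : ℝ) * lq)
    (hCbuf : 0 ≤ Cbuf) (hbuf : BxBuf σ Qs C Cbuf) (j : ℕ) :
    BxBox σ Qs (bxM C ^ j) ((lq + bxB C Cbuf) * bxLam C ^ j - bxB C Cbuf * (bxM C : ℝ) ^ j) := by
  induction j with
  | zero =>
    simpa using bx_base hlq hvol Qs
  | succ j ih =>
    have hr : 1 ≤ bxM C ^ j := Nat.one_le_pow _ _ (by unfold bxM; omega)
    have hstep := bx_step (M := bxM C) hσ hbuf hCbuf hr ih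
    have hF0 := ih.bx_nonneg hσ
    rw [pow_succ, mul_comm]
    refine hstep.bx_mono ?_
    have hb : bxB C Cbuf * (bxLam C - bxM C) = (bxM C : ℝ) ^ 2 * Cbuf := by
      unfold bxB
      have := bx_M_lt_lam C
      have hne : bxLam C - bxM C ≠ 0 := by linarith
      field_simp
    have h1 := mul_le_mul_of_nonneg_right (bx_coef_le C) hF0
    push_cast
    calc _ ≤ bxLam C * ((lq + bxB C Cbuf) * bxLam C ^ j - bxB C Cbuf * (bxM C : ℝ) ^ j)
          + (bxM C : ℝ) ^ 2 * Cbuf * (bxM C : ℝ) ^ j := by linarith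
      _ = (lq + bxB C Cbuf) * (bxLam C ^ j * bxLam C)
          - (bxB C Cbuf * (bxLam C - bxM C) - (bxM C : ℝ) ^ 2 * Cbuf) * (bxM C : ℝ) ^ j
          - bxB C Cbuf * ((bxM C : ℝ) ^ j * bxM C) := by ring
      _ = _ := by rw [hb]; ring

end Iter

/-- the exponent `e₀ = log_M λ - 1` -/
noncomputable def bxE (C : ℕ) : ℝ := Real.logb (bxM C) (bxLam C) - 1

theorem bx_M_gt_one (C : ℕ) : (1 : ℝ) < bxM C := by
  unfold bxM
  push_cast
  have : (0 : ℝ) ≤ C := Nat.cast_nonneg C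
  linarith

theorem bx_E_pos (C : ℕ) : 0 < bxE C := by
  unfold bxE
  have h1 := bx_M_gt_one C
  have h := Real.logb_lt_logb h1 (by linarith) (bx_M_lt_lam C)
  rw [Real.logb_self_eq_one h1] at h
  linarith

theorem bx_E_lt_one (C : ℕ) : bxE C < 1 := by
  unfold bxE
  have h1 := bx_M_gt_one C
  have h0 : 0 < bxLam C := by have := bx_M_lt_lam C; linarith
  have h := Real.logb_lt_logb h1 h0 (bx_lam_lt C)
  rw [Real.logb_pow, Real.logb_self_eq_one h1] at h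
  norm_num at h
  linarith

theorem bx_M_rpow (C : ℕ) : (bxM C : ℝ) ^ (1 + bxE C) = bxLam C := by
  have h1 := bx_M_gt_one C
  have h0 : 0 < bxLam C := by have := bx_M_lt_lam C; linarith
  unfold bxE
  rw [add_sub_cancel]
  exact Real.rpow_logb (by linarith) (by linarith) h0

/-- **Proposition 2.3 of P1, abstract form.** -/
theorem bx_main (C : ℕ) (Cbuf lq : ℝ) (hCbuf : 0 ≤ Cbuf) (hlq : 0 ≤ lq) :
    ∃ K e₀ : ℝ, 0 < e₀ ∧ e₀ < 1 ∧ ∀ (σ : Finset (ℤ × ℤ) → ℝ) (Qs : BxRect), BxSub σ →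
      (∀ P, σ P ≤ (P.card : ℝ) * lq) → BxBuf σ Qs C Cbuf →
      ∀ Q : BxRect, Q.fs ⊆ Qs.fs → 1 ≤ Q.size → σ Q.fs ≤ K * (Q.size : ℝ) ^ (1 + e₀) := by
  refine ⟨(lq + bxB C Cbuf) * bxLam C, bxE C, bx_E_pos C, bx_E_lt_one C, ?_⟩
  intro σ Qs hσ hvol hbuf Q hQs hsize
  have hM1 := bx_M_gt_one C
  have hMnat : 1 < bxM C := by exact_mod_cast hM1
  have hlam : 1 < bxLam C := by have := bx_M_lt_lam C; linarith
  have hB := bx_B_nonneg C hCbuf
  set n : ℕ := Q.size.toNat with hn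
  have hnZ : (n : ℤ) = Q.size := Int.toNat_of_nonneg (by linarith)
  have hnR : (Q.size : ℝ) = (n : ℝ) := by
    rw [← hnZ]
    simp
  have hn1 : 1 ≤ n := by omega
  set j := Nat.clog (bxM C) n with hj
  have hle : n ≤ bxM C ^ j := Nat.le_pow_clog hMnat n
  have hbox := bx_iter hσ hlq hvol hCbuf hbuf j Q hQs (by rw [← hnZ]; exact_mod_cast hle)
  have h1 : σ Q.fs ≤ (lq + bxB C Cbuf) * bxLam C ^ j := by
    have : 0 ≤ bxB C Cbuf * (bxM C : ℝ) ^ j := by positivity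
    linarith
  have hcoef : 0 ≤ lq + bxB C Cbuf := by linarith
  -- `λ^j ≤ λ n^(1+e₀)`
  have h2 : bxLam C ^ j ≤ bxLam C * (n : ℝ) ^ (1 + bxE C) := by
    rcases Nat.lt_or_ge 1 n with hn2 | hn2
    · have hlt := Nat.pow_pred_clog_lt_self hMnat hn2
      rw [← hj] at hlt
      have hjpos : 0 < j := Nat.clog_pos hMnat hn2
      have hjs : j = j.pred + 1 := (Nat.succ_pred_eq_of_pos hjpos).symm
      have e1 : bxLam C ^ j.pred = ((bxM C : ℝ) ^ j.pred) ^ (1 + bxE C) := by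
        rw [← bx_M_rpow C, ← Real.rpow_natCast, ← Real.rpow_mul (by linarith), mul_comm,
          Real.rpow_mul (by linarith), Real.rpow_natCast]
      have e2 : ((bxM C : ℝ) ^ j.pred) ^ (1 + bxE C) ≤ (n : ℝ) ^ (1 + bxE C) := by
        apply Real.rpow_le_rpow (by positivity)
        · exact_mod_cast hlt.le
        · have := bx_E_pos C
          linarith
      calc bxLam C ^ j = bxLam C ^ (j.pred + 1) := by rw [← hjs]
        _ = bxLam C * bxLam C ^ j.pred := by rw [pow_succ, mul_comm]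
        _ ≤ bxLam C * (n : ℝ) ^ (1 + bxE C) := by
            rw [e1]
            exact mul_le_mul_of_nonneg_left e2 (by linarith)
    · have hn3 : n = 1 := le_antisymm hn2 hn1
      have hj0 : j = 0 := by rw [hj, hn3]; simp
      rw [hj0, hn3]
      simp
      linarith
  rw [hnR]
  calc σ Q.fs ≤ (lq + bxB C Cbuf) * bxLam C ^ j := h1
    _ ≤ (lq + bxB C Cbuf) * (bxLam C * (n : ℝ) ^ (1 + bxE C)) :=
        mul_le_mul_of_nonneg_left h2 hcoef
    _ = _ := by ring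

end Claimed.Agent.R296
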