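import Mathlib
import Claimed.Agent.R296.TopGlue
import Claimed.Agent.R296.BoxMain

/-!
# Row 296: Proposition 2.3 (P1) for ground states: `BoxStmt` from `BufferStmt` (Lemma 2.2)

Interfaces: `SafeRect`, `BufferStmt` (Lemma 2.2), `BoxStmt` (safe-box estimate with exponent `1+e`).
Main result: `bx_boxStmt`.
-/

set_option autoImplicit false

namespace Claimed.Agent.R296

open Matrix Claims.C0473 Finset

/-- a rectangle is safe: `dist_∞(Q,Z) > D₀ size(Q)` -/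
def SafeRect (D0 : ℕ) (Z : Finset (ℤ × ℤ)) (Q : BxRect) : Prop :=
  ∀ x ∈ Q.fs, ∀ z ∈ Z, (D0 : ℤ) * Q.size < dInf x z

/-- P1, Lemma 2.2 (conditional entropy in a buffered rectangle) -/
def BufferStmt (q R : ℕ) [NeZero q] (J Δ : ℝ) (D0 : ℕ) : Prop :=
  ∃ (Cpad : ℕ) (Cbuf : ℝ), 1 ≤ Cpad ∧
    ∀ (Λ : Finset (ℤ × ℤ)) (k : Finset Λ → Matrix (Λ → Fin q) (Λ → Fin q) ℂ),
    AdmInt q R J Λ k → ∀ (E₀ : ℝ) (Ω : (Λ → Fin q) → ℂ), GapState q R Δ Λ k E₀ Ω →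
    ∀ (A : Finset Λ) (Q Q₀ : BxRect) (r : ℕ), 1 ≤ r → SafeRect D0 (cutEnds Λ A) Q →
      Q₀.a₁ < Q₀.b₁ → Q₀.a₂ < Q₀.b₂ → Q₀.size ≤ r →
      (Q₀.pad ((Cpad * r : ℕ) : ℤ)).fs ⊆ Q.fs →
      ent (io := fun _ : Λ => Fin q) (pureOp Ω) (tplX A (Q₀.pad ((Cpad * r : ℕ) : ℤ)).fs)
        - ent (io := fun _ : Λ => Fin q) (pureOp Ω)
            (tplX A (Q₀.pad ((Cpad * r : ℕ) : ℤ)).fs \ tplX A Q₀.fs)
        ≤ ent (io := fun _ : Λ => Fin q) (pureOp Ω) (tplX A Q₀.fs) / 2 + Cbuf * r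

/-- the safe-box estimate `F_box(r) ≤ C r^(1+e)` -/
def BoxStmt (q R : ℕ) [NeZero q] (J Δ : ℝ) (D0 : ℕ) (e : ℝ) : Prop :=
  ∃ C : ℝ,
    ∀ (Λ : Finset (ℤ × ℤ)) (k : Finset Λ → Matrix (Λ → Fin q) (Λ → Fin q) ℂ),
    AdmInt q R J Λ k → ∀ (E₀ : ℝ) (Ω : (Λ → Fin q) → ℂ), GapState q R Δ Λ k E₀ Ω →
    ∀ (A : Finset Λ) (Q : BxRect), SafeRect D0 (cutEnds Λ A) Q → 1 ≤ Q.size →
      ent (io := fun _ : Λ => Fin q) (pureOp Ω) (tplX A Q.fs) ≤ C * (Q.size : ℝ) ^ (1 + e)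

section Cap

variable {Λ : Finset (ℤ × ℤ)} (A : Finset Λ)

theorem bx_tplX_empty : tplX A ∅ = ∅ := by simp [tplX]

theorem bx_tplX_union (P Q : Finset (ℤ × ℤ)) : tplX A (P ∪ Q) = tplX A P ∪ tplX A Q := by
  ext x
  simp only [tplX, mem_filter, mem_union]
  tauto

theorem bx_tplX_inter (P Q : Finset (ℤ × ℤ)) : tplX A (P ∩ Q) = tplX A P ∩ tplX A Q := by
  ext x
  simp only [tplX, mem_filter, mem_inter]
  tauto

theorem bx_tplX_sdiff (P Q : Finset (ℤ × ℤ)) : tplX A (P \ Q) = tplX A P \ tplX A Q := by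
  ext x
  simp only [tplX, mem_filter, mem_sdiff]
  tauto

theorem bx_tplX_card (P : Finset (ℤ × ℤ)) : (tplX A P).card ≤ P.card := by
  apply Finset.card_le_card_of_injOn (fun x : Λ => (x : ℤ × ℤ))
  · intro x hx
    have hx' : x ∈ tplX A P := by simpa using hx
    unfold tplX at hx'
    simpa using (Finset.mem_filter.mp hx').2
  · intro x _ y _ hxy
    exact Subtype.ext hxy

end Cap

/-- **Proposition 2.3 of P1**: the initial safe-box estimate follows from Lemma 2.2. -/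
theorem bx_boxStmt (hEnt : EntApiStmt) (q R : ℕ) [NeZero q] (J Δ : ℝ) (D0 : ℕ)
    (hBuf : BufferStmt q R J Δ D0) : ∃ e₀ : ℝ, 0 < e₀ ∧ e₀ < 1 ∧ BoxStmt q R J Δ D0 e₀ := by
  obtain ⟨Cpad, Cbuf, _, hB⟩ := hBuf
  obtain ⟨K, e₀, h0, h1, hmain⟩ := bx_main Cpad (max Cbuf 0) (Real.log q) (le_max_right _ _)
    (Real.log_natCast_nonneg q)
  refine ⟨e₀, h0, h1, K, fun Λ k hk E₀ Ω hG A Q hsafe hsize => ?_⟩
  obtain ⟨e0, e1, e2, _, e4⟩ := hEnt Λ q Ω hG.1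
  set σ : Finset (ℤ × ℤ) → ℝ :=
    fun P => ent (io := fun _ : Λ => Fin q) (pureOp Ω) (tplX A P) with hσ
  have hsub : BxSub σ := by
    refine ⟨?_, fun P => e1 _, fun P P' => ?_⟩
    · simp only [hσ, bx_tplX_empty]
      exact e0
    · simp only [hσ, bx_tplX_union, bx_tplX_inter]
      exact e4 _ _
  have hvol : ∀ P, σ P ≤ (P.card : ℝ) * Real.log q := by
    intro P
    refine (e2 (tplX A P)).trans ?_
    apply mul_le_mul_of_nonneg_right _ (Real.log_natCast_nonneg q)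
    exact_mod_cast bx_tplX_card A P
  have hbuf : BxBuf σ Q Cpad (max Cbuf 0) := by
    intro r Q₀ hr ha hb hs hpad
    have := hB Λ k hk E₀ Ω hG A Q Q₀ r hr hsafe ha hb hs hpad
    simp only [hσ, bx_tplX_sdiff]
    have h2 : Cbuf * r ≤ max Cbuf 0 * r :=
      mul_le_mul_of_nonneg_right (le_max_left _ _) (Nat.cast_nonneg r)
    linarith
  exact hmain σ Q hsub hvol hbuf Q (Finset.Subset.refl _) hsize

end Claimed.Agent.R296
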