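import Mathlib
import Claimed.Agent.R296.BoxTop
import Claimed.Agent.R296.Sys

/-!
# Row 296: geometry of safe rectangles (P1, Sec. 2.2, leaves G1-G3)

* `bg_supp_in_A`   : an admissible support meeting `A ∩ Q`, `Q` safe, lies in `A`;
* `bg_boundary`    : `|∂_Λ(A ∩ Q')| ≤ 2 (w₁ + w₂)` for a rectangle `Q'` inside a safe rectangle;
* `bg_tri`         : trichotomy/single split for the contours `A ∩ Q₀^{+d}`.
Prefix `bg_`.
-/

set_option autoImplicit false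

namespace Claimed.Agent.R296

open Claims.C0473 Finset

variable {Λ : Finset (ℤ × ℤ)} {A : Finset Λ} {D0 R : ℕ} {Q : BxRect}

theorem bg_mem_tplX {P : Finset (ℤ × ℤ)} {x : Λ} : x ∈ tplX A P ↔ x ∈ A ∧ (x : ℤ × ℤ) ∈ P := by
  simp [tplX]

theorem bg_size_pos {x : ℤ × ℤ} (hx : x ∈ Q.fs) : 1 ≤ Q.size := by
  rw [BxRect.mem_fs] at hx
  have : 1 ≤ Q.b₁ - Q.a₁ := by linarith [hx.1, hx.2.1]
  exact this.trans (le_max_left _ _)

/-- no point of a safe rectangle is within distance `D0` of a cut end -/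
theorem bg_far {x : ℤ × ℤ} (hsafe : SafeRect D0 (cutEnds Λ A) Q) (hx : x ∈ Q.fs) {z : ℤ × ℤ}
    (hz : z ∈ cutEnds Λ A) : (D0 : ℤ) < dInf x z := by
  have h1 := hsafe x hx z hz
  have h2 := bg_size_pos hx
  have h3 : (0 : ℤ) ≤ D0 := Int.natCast_nonneg D0
  nlinarith

/-- **(G1)** everything within graph distance `≤ D0` of a point of `A ∩ Q` lies in `A` -/
theorem bg_near_in_A (hsafe : SafeRect D0 (cutEnds Λ A) Q) {x y : Λ} (hxA : x ∈ A)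
    (hxQ : (x : ℤ × ℤ) ∈ Q.fs) (hd : (latticeGraph Λ).edist x y ≤ (D0 : ℕ∞)) : y ∈ A := by
  by_contra hy
  obtain ⟨w, hw⟩ := ct_exists_walk hd
  obtain ⟨p, p', hadj, hp, hp', hdp, _⟩ := ct_walk_cross w hxA hy
  have h1 := bg_far hsafe hxQ (tg_mem_cutEnds hadj hp hp')
  have h2 : dInf (p : ℤ × ℤ) (x : ℤ × ℤ) ≤ D0 := ct_dInf_le (hdp.trans (by exact_mod_cast hw))
  rw [ct_dInf_comm] at h2
  linarith

/-- **(G1)** an admissible support meeting `A ∩ Q` lies in `A` -/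
theorem bg_supp_in_A (hsafe : SafeRect D0 (cutEnds Λ A) Q) (hR : R ≤ D0) {X : Finset Λ}
    (hX : X ∈ admissibleSupports Λ R) {x : Λ} (hx : x ∈ X) (hxA : x ∈ A)
    (hxQ : (x : ℤ × ℤ) ∈ Q.fs) : X ⊆ A := by
  intro y hy
  apply bg_near_in_A hsafe hxA hxQ
  exact (ct_mem_gBall.mp (ct_adm_subset_ball hX hx hy)).trans (by exact_mod_cast hR)

theorem bg_dOne_one {x y : ℤ × ℤ} (h : dOne x y = 1) :
    (y = (x.1 + 1, x.2)) ∨ (y = (x.1 - 1, x.2)) ∨ (y = (x.1, x.2 + 1)) ∨ (y = (x.1, x.2 - 1)) := by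
  unfold dOne at h
  obtain ⟨y1, y2⟩ := y
  simp only [Prod.mk.injEq]
  simp only at h
  rcases abs_cases (x.1 - y1) with ⟨h1, _⟩ | ⟨h1, _⟩ <;>
  rcases abs_cases (x.2 - y2) with ⟨h2, _⟩ | ⟨h2, _⟩ <;> rw [h1, h2] at h <;> omega

/-- the ordered ambient boundary pairs of a rectangle -/
noncomputable def bgRectBd (Q : BxRect) : Finset ((ℤ × ℤ) × (ℤ × ℤ)) :=
  ((Ico Q.a₂ Q.b₂).image fun y => ((Q.b₁ - 1, y), (Q.b₁, y))) ∪
  ((Ico Q.a₂ Q.b₂).image fun y => ((Q.a₁, y), (Q.a₁ - 1, y))) ∪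
  ((Ico Q.a₁ Q.b₁).image fun x => ((x, Q.b₂ - 1), (x, Q.b₂))) ∪
  ((Ico Q.a₁ Q.b₁).image fun x => ((x, Q.a₂), (x, Q.a₂ - 1)))

theorem bg_card_rectBd (Q : BxRect) :
    (bgRectBd Q).card ≤ 2 * ((Q.b₁ - Q.a₁).toNat + (Q.b₂ - Q.a₂).toNat) := by
  unfold bgRectBd
  have c1 : (Ico Q.a₁ Q.b₁).card = (Q.b₁ - Q.a₁).toNat := Int.card_Ico _ _
  have c2 : (Ico Q.a₂ Q.b₂).card = (Q.b₂ - Q.a₂).toNat := Int.card_Ico _ _
  refine (card_union_le _ _).trans ?_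
  have e4 := card_image_le (s := Ico Q.a₁ Q.b₁) (f := fun x => ((x, Q.a₂), (x, Q.a₂ - 1)))
  refine (Nat.add_le_add_right ((card_union_le _ _).trans
    (Nat.add_le_add_right (card_union_le _ _) _)) _).trans ?_
  have e1 := card_image_le (s := Ico Q.a₂ Q.b₂) (f := fun y => ((Q.b₁ - 1, y), (Q.b₁, y)))
  have e2 := card_image_le (s := Ico Q.a₂ Q.b₂) (f := fun y => ((Q.a₁, y), (Q.a₁ - 1, y)))
  have e3 := card_image_le (s := Ico Q.a₁ Q.b₁) (f := fun x => ((x, Q.b₂ - 1), (x, Q.b₂)))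
  omega

theorem bg_mem_rectBd {Q : BxRect} {x y : ℤ × ℤ} (hx : x ∈ Q.fs) (hy : y ∉ Q.fs)
    (h : dOne x y = 1) : (x, y) ∈ bgRectBd Q := by
  rw [BxRect.mem_fs] at hx hy
  obtain ⟨x1, x2⟩ := x
  simp only at hx
  obtain ⟨h1, h2, h3, h4⟩ := hx
  unfold bgRectBd
  simp only [mem_union]
  rcases bg_dOne_one h with rfl | rfl | rfl | rfl
  · simp only at hy
    left; left; left
    have e : Q.b₁ = x1 + 1 := by omega
    exact mem_image.mpr ⟨x2, mem_Ico.mpr ⟨h3, h4⟩, by simp [e]⟩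
  · simp only at hy
    left; left; right
    have e : Q.a₁ = x1 := by omega
    exact mem_image.mpr ⟨x2, mem_Ico.mpr ⟨h3, h4⟩, by simp [e]⟩
  · simp only at hy
    left; right
    have e : Q.b₂ = x2 + 1 := by omega
    exact mem_image.mpr ⟨x1, mem_Ico.mpr ⟨h1, h2⟩, by simp [e]⟩
  · simp only at hy
    right
    have e : Q.a₂ = x2 := by omega
    exact mem_image.mpr ⟨x1, mem_Ico.mpr ⟨h1, h2⟩, by simp [e]⟩

/-- **(G2)** the edge boundary of `A ∩ Q'` for a rectangle inside a safe rectangle -/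
theorem bg_boundary (hsafe : SafeRect D0 (cutEnds Λ A) Q) {Q' : BxRect} (hsub : Q'.fs ⊆ Q.fs) :
    edgeBoundary Λ (tplX A Q'.fs) ≤ 2 * ((Q'.b₁ - Q'.a₁).toNat + (Q'.b₂ - Q'.a₂).toNat) := by
  rw [← ct_card_bdPairs]
  refine le_trans ?_ (bg_card_rectBd Q')
  apply Finset.card_le_card_of_injOn (fun p : Λ × Λ => ((p.1 : ℤ × ℤ), (p.2 : ℤ × ℤ)))
  · intro p hp
    have hp' : p ∈ bdPairs Λ (tplX A Q'.fs) := by simpa using hp
    unfold bdPairs at hp'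
    simp only [mem_filter, mem_univ, true_and] at hp'
    obtain ⟨h1, h2, h3⟩ := hp'
    rw [bg_mem_tplX] at h1 h2
    have hadj : (latticeGraph Λ).Adj p.1 p.2 := (zb_adj_iff p.1 p.2).mpr h3
    have hpA : p.2 ∈ A := by
      by_contra hcon
      have := bg_far hsafe (hsub h1.2) (tg_mem_cutEnds hadj h1.1 hcon)
      rw [ct_dInf_self] at this
      have h0 : (0 : ℤ) ≤ D0 := Int.natCast_nonneg D0
      linarith
    have hnot : (p.2 : ℤ × ℤ) ∉ Q'.fs := fun h => h2 ⟨hpA, h⟩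
    simpa using bg_mem_rectBd h1.2 hnot h3
  · intro p _ p' _ hpp
    simp only [Prod.mk.injEq] at hpp
    exact Prod.ext (Subtype.ext hpp.1) (Subtype.ext hpp.2)

/-- padding is monotone -/
theorem bg_pad_mono (Q₀ : BxRect) {d d' : ℤ} (h : d ≤ d') : (Q₀.pad d).fs ⊆ (Q₀.pad d').fs := by
  intro x hx
  rw [BxRect.mem_fs] at hx ⊢
  simp only [BxRect.pad] at hx ⊢
  obtain ⟨h1, h2, h3, h4⟩ := hx
  exact ⟨by linarith, by linarith, by linarith, by linarith⟩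

/-- a point within sup distance `ρ` of `Q₀^{+d}` lies in `Q₀^{+(d+ρ)}` -/
theorem bg_pad_near (Q₀ : BxRect) {d ρ : ℤ} {x y : ℤ × ℤ} (hx : x ∈ (Q₀.pad d).fs)
    (hxy : dInf x y ≤ ρ) : y ∈ (Q₀.pad (d + ρ)).fs := by
  rw [BxRect.mem_fs] at hx ⊢
  simp only [BxRect.pad] at hx ⊢
  obtain ⟨h1, h2, h3, h4⟩ := hx
  unfold dInf at hxy
  have a1 := abs_le.mp ((le_max_left _ _).trans hxy)
  have a2 := abs_le.mp ((le_max_right _ _).trans hxy)
  exact ⟨by linarith [a1.1, a1.2], by linarith [a1.1, a1.2], by linarith [a2.1, a2.2],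
    by linarith [a2.1, a2.2]⟩

/-- **(G3)** trichotomy for a contour `A ∩ Q₀^{+d}` inside a safe rectangle: an admissible support
is contained in it, disjoint from it, or split by it and then contained in `A ∩ Q₀^{+(d+R)}`
and disjoint from `A ∩ Q₀^{+(d-R-1)}`. -/
theorem bg_tri (hsafe : SafeRect D0 (cutEnds Λ A) Q) (hR : R ≤ D0) (Q₀ : BxRect) {d : ℤ}
    (hsub : (Q₀.pad d).fs ⊆ Q.fs) {X : Finset Λ} (hX : X ∈ admissibleSupports Λ R) :
    X ⊆ tplX A (Q₀.pad d).fs ∨ Disjoint X (tplX A (Q₀.pad d).fs) ∨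
      (IsSplit (tplX A (Q₀.pad d).fs) X ∧ X ⊆ tplX A (Q₀.pad (d + R)).fs ∧
        Disjoint X (tplX A (Q₀.pad (d - R - 1)).fs)) := by
  by_cases h1 : X ⊆ tplX A (Q₀.pad d).fs
  · exact Or.inl h1
  by_cases h2 : Disjoint X (tplX A (Q₀.pad d).fs)
  · exact Or.inr (Or.inl h2)
  right; right
  rw [Finset.not_disjoint_iff] at h2
  obtain ⟨x, hxX, hxY⟩ := h2
  rw [Finset.not_subset] at h1
  obtain ⟨y, hyX, hyY⟩ := h1
  have hx' := bg_mem_tplX.mp hxY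
  have hXA : X ⊆ A := bg_supp_in_A hsafe hR hX hxX hx'.1 (hsub hx'.2)
  have hdiam : ∀ u ∈ X, ∀ v ∈ X, dInf (u : ℤ × ℤ) (v : ℤ × ℤ) ≤ R := fun u hu v hv =>
    ct_dInf_le (ct_mem_gBall.mp (ct_adm_subset_ball hX hu hv))
  refine ⟨⟨⟨x, hxX, hxY⟩, y, hyX, hyY⟩, ?_, ?_⟩
  · intro z hz
    exact bg_mem_tplX.mpr ⟨hXA hz, bg_pad_near Q₀ hx'.2 (hdiam x hxX z hz)⟩
  · rw [Finset.disjoint_left]
    intro z hz hzY
    have hz' := bg_mem_tplX.mp hzY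
    have := bg_pad_near Q₀ hz'.2 (hdiam z hz y hyX)
    apply hyY
    refine bg_mem_tplX.mpr ⟨hXA hyX, bg_pad_mono Q₀ (by linarith) this⟩

end Claimed.Agent.R296
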