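import Claimed.Agent.R296.BufDefs

/-!
# Row 296, P1 Lemma 2.2: elementary API for `bf_ex`, `bf_nsq`, `bf_prod`, `bf_seg`, `bf_ges`
Owner: helper101.
-/

set_option autoImplicit false
set_option linter.unusedSectionVars false
set_option linter.unusedDecidableInType false

namespace Claimed.Agent.R296

open Matrix
open scoped MatrixOrder Matrix.Norms.L2Operator ComplexOrder

section Gen

variable {n : Type} [Fintype n] [DecidableEq n]

theorem bf_nsq_eq_sum (v : n → ℂ) : bf_nsq v = ∑ i, ‖v i‖ ^ 2 := by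
  rw [bf_nsq, star_dotProduct_self_eq, Complex.ofReal_re]

theorem bf_dot_self (v : n → ℂ) : star v ⬝ᵥ v = (bf_nsq v : ℂ) := by
  rw [bf_nsq_eq_sum, star_dotProduct_self_eq]

theorem bf_nsq_nonneg (v : n → ℂ) : 0 ≤ bf_nsq v := by
  rw [bf_nsq_eq_sum]; positivity

theorem bf_nsq_eq_zero_iff (v : n → ℂ) : bf_nsq v = 0 ↔ v = 0 := by
  rw [bf_nsq_eq_sum, Finset.sum_eq_zero_iff_of_nonneg (fun i _ => by positivity)]
  constructor
  · intro h; funext i; simpa using h i (Finset.mem_univ i)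
  · rintro rfl i _; simp

theorem bf_nsq_zero : bf_nsq (0 : n → ℂ) = 0 := (bf_nsq_eq_zero_iff 0).2 rfl

theorem bf_ex_add (ψ : n → ℂ) (M N : Matrix n n ℂ) : bf_ex ψ (M + N) = bf_ex ψ M + bf_ex ψ N := by
  simp [bf_ex, add_mulVec, dotProduct_add]

theorem bf_ex_sub (ψ : n → ℂ) (M N : Matrix n n ℂ) : bf_ex ψ (M - N) = bf_ex ψ M - bf_ex ψ N := by
  simp [bf_ex, sub_mulVec, dotProduct_sub]

theorem bf_ex_smul (ψ : n → ℂ) (c : ℂ) (M : Matrix n n ℂ) : bf_ex ψ (c • M) = c * bf_ex ψ M := by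
  simp [bf_ex, smul_mulVec, dotProduct_smul]

theorem bf_ex_zero (ψ : n → ℂ) : bf_ex ψ (0 : Matrix n n ℂ) = 0 := by
  simp [bf_ex]

theorem bf_ex_sum {ι : Type*} (ψ : n → ℂ) (S : Finset ι) (M : ι → Matrix n n ℂ) :
    bf_ex ψ (∑ i ∈ S, M i) = ∑ i ∈ S, bf_ex ψ (M i) := by
  classical
  induction S using Finset.induction_on with
  | empty => simp [bf_ex_zero]
  | insert i S hi ih => rw [Finset.sum_insert hi, Finset.sum_insert hi, bf_ex_add, ih]

theorem bf_ex_one (ψ : n → ℂ) : bf_ex ψ (1 : Matrix n n ℂ) = (bf_nsq ψ : ℂ) := by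
  rw [bf_ex, one_mulVec, bf_dot_self]

theorem bf_ex_conjTranspose (ψ : n → ℂ) (M : Matrix n n ℂ) : bf_ex ψ Mᴴ = star (bf_ex ψ M) := by
  unfold bf_ex
  rw [← star_dotProduct_star, star_star, star_mulVec, dotProduct_mulVec]

theorem bf_ex_mulVec (M G : Matrix n n ℂ) (v : n → ℂ) :
    bf_ex (M *ᵥ v) G = bf_ex v (Mᴴ * G * M) := by
  unfold bf_ex
  rw [star_mulVec, ← dotProduct_mulVec, mulVec_mulVec, mulVec_mulVec, Matrix.mul_assoc]

theorem bf_dot_mulVec (M : Matrix n n ℂ) (u v : n → ℂ) :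
    star (M *ᵥ u) ⬝ᵥ v = star u ⬝ᵥ (Mᴴ *ᵥ v) := by
  rw [star_mulVec, ← dotProduct_mulVec]

theorem bf_nsq_mulVec (M : Matrix n n ℂ) (v : n → ℂ) :
    bf_nsq (M *ᵥ v) = (bf_ex v (Mᴴ * M)).re := by
  unfold bf_nsq bf_ex
  rw [bf_dot_mulVec, mulVec_mulVec]

/-- an isometry preserves the norm -/
theorem bf_nsq_isometry {V : Matrix n n ℂ} (hV : Vᴴ * V = 1) (v : n → ℂ) :
    bf_nsq (V *ᵥ v) = bf_nsq v := by
  rw [bf_nsq_mulVec, hV, bf_ex_one]; simp

/-- Cauchy-Schwarz -/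
theorem bf_cauchy (u v : n → ℂ) : ‖star u ⬝ᵥ v‖ ^ 2 ≤ bf_nsq u * bf_nsq v := by
  have h := norm_inner_le_norm (𝕜 := ℂ) (WithLp.toLp 2 u : EuclideanSpace ℂ n) (WithLp.toLp 2 v)
  rw [EuclideanSpace.inner_eq_star_dotProduct] at h
  have hu : ‖(WithLp.toLp 2 u : EuclideanSpace ℂ n)‖ ^ 2 = bf_nsq u := by
    rw [EuclideanSpace.norm_sq_eq, bf_nsq_eq_sum]
  have hv : ‖(WithLp.toLp 2 v : EuclideanSpace ℂ n)‖ ^ 2 = bf_nsq v := by
    rw [EuclideanSpace.norm_sq_eq, bf_nsq_eq_sum]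
  have h2 : ‖star u ⬝ᵥ v‖ = ‖v ⬝ᵥ star u‖ := by rw [dotProduct_comm]
  rw [← hu, ← hv, ← mul_pow, h2]
  exact pow_le_pow_left₀ (norm_nonneg _) h 2

/-! ### ordered products -/

@[simp] theorem bf_prod_zero (L : ℕ → Matrix n n ℂ) : bf_prod L 0 = 1 := rfl
theorem bf_prod_succ (L : ℕ → Matrix n n ℂ) (m : ℕ) : bf_prod L (m + 1) = L m * bf_prod L m := rfl
@[simp] theorem bf_seg_zero (L : ℕ → Matrix n n ℂ) (j : ℕ) : bf_seg L j 0 = 1 := rfl
theorem bf_seg_succ (L : ℕ → Matrix n n ℂ) (j r : ℕ) :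
    bf_seg L j (r + 1) = L (j + r) * bf_seg L j r := rfl
@[simp] theorem bf_ges_zero (L : ℕ → Matrix n n ℂ) (j : ℕ) : bf_ges L j 0 = 1 := rfl
theorem bf_ges_succ (L : ℕ → Matrix n n ℂ) (j r : ℕ) :
    bf_ges L j (r + 1) = bf_ges L j r * L (j + r) := rfl

theorem bf_prod_eq_seg (L : ℕ → Matrix n n ℂ) (m : ℕ) : bf_prod L m = bf_seg L 0 m := by
  induction m with
  | zero => rfl
  | succ m ih => rw [bf_prod_succ, bf_seg_succ, ih, zero_add]

theorem bf_seg_add (L : ℕ → Matrix n n ℂ) (j r r' : ℕ) :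
    bf_seg L j (r + r') = bf_seg L (j + r) r' * bf_seg L j r := by
  induction r' with
  | zero => simp
  | succ r' ih => rw [← add_assoc, bf_seg_succ, bf_seg_succ, ih, Matrix.mul_assoc, add_assoc]

theorem bf_ges_add (L : ℕ → Matrix n n ℂ) (j r r' : ℕ) :
    bf_ges L j (r + r') = bf_ges L j r * bf_ges L (j + r) r' := by
  induction r' with
  | zero => simp
  | succ r' ih => rw [← add_assoc, bf_ges_succ, bf_ges_succ, ih, Matrix.mul_assoc, add_assoc]

theorem bf_seg_succ' (L : ℕ → Matrix n n ℂ) (j r : ℕ) :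
    bf_seg L j (r + 1) = bf_seg L (j + 1) r * L j := by
  rw [add_comm r 1, bf_seg_add, bf_seg_succ, bf_seg_zero, add_zero, Matrix.mul_one]

theorem bf_ges_succ' (L : ℕ → Matrix n n ℂ) (j r : ℕ) :
    bf_ges L j (r + 1) = L j * bf_ges L (j + 1) r := by
  rw [add_comm r 1, bf_ges_add, bf_ges_succ, bf_ges_zero, add_zero, Matrix.one_mul]

/-- splitting the full product at level `j` -/
theorem bf_prod_split (L : ℕ → Matrix n n ℂ) {j m : ℕ} (hj : j < m) :
    bf_prod L m = bf_seg L (j + 1) (m - j - 1) * L j * bf_prod L j := by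
  have h1 : m = j + ((m - j - 1) + 1) := by omega
  conv_lhs => rw [h1, bf_prod_eq_seg, bf_seg_add, zero_add, bf_seg_succ']
  rw [bf_prod_eq_seg]

theorem bf_seg_mul_ges {L Li : ℕ → Matrix n n ℂ} (h : ∀ k, L k * Li k = 1) (j r : ℕ) :
    bf_seg L j r * bf_ges Li j r = 1 := by
  induction r with
  | zero => simp
  | succ r ih =>
    rw [bf_seg_succ, bf_ges_succ]
    calc L (j + r) * bf_seg L j r * (bf_ges Li j r * Li (j + r))
        = L (j + r) * (bf_seg L j r * bf_ges Li j r) * Li (j + r) := by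
          simp only [Matrix.mul_assoc]
      _ = 1 := by rw [ih, Matrix.mul_one, h]

theorem bf_ges_mul_seg {L Li : ℕ → Matrix n n ℂ} (h : ∀ k, Li k * L k = 1) (j r : ℕ) :
    bf_ges Li j r * bf_seg L j r = 1 := by
  induction r with
  | zero => simp
  | succ r ih =>
    rw [bf_seg_succ, bf_ges_succ]
    calc bf_ges Li j r * Li (j + r) * (L (j + r) * bf_seg L j r)
        = bf_ges Li j r * (Li (j + r) * L (j + r)) * bf_seg L j r := by
          simp only [Matrix.mul_assoc]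
      _ = 1 := by rw [h, Matrix.mul_one, ih]

theorem bf_seg_congr {L L' : ℕ → Matrix n n ℂ} {j r : ℕ} (h : ∀ k, j ≤ k → k < j + r → L k = L' k) :
    bf_seg L j r = bf_seg L' j r := by
  induction r with
  | zero => rfl
  | succ r ih =>
    rw [bf_seg_succ, bf_seg_succ, h (j + r) (by omega) (by omega),
      ih fun k h1 h2 => h k h1 (by omega)]

theorem bf_prod_congr {L L' : ℕ → Matrix n n ℂ} {m : ℕ} (h : ∀ k, k < m → L k = L' k) :
    bf_prod L m = bf_prod L' m := by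
  rw [bf_prod_eq_seg, bf_prod_eq_seg]
  exact bf_seg_congr fun k _ h2 => h k (by omega)

/-- an operator commuting with all factors commutes with the product -/
theorem bf_seg_commute {L : ℕ → Matrix n n ℂ} {G : Matrix n n ℂ} {j r : ℕ}
    (h : ∀ k, j ≤ k → k < j + r → Commute G (L k)) : Commute G (bf_seg L j r) := by
  induction r with
  | zero => exact Commute.one_right G
  | succ r ih =>
    rw [bf_seg_succ]
    exact (h (j + r) (by omega) (by omega)).mul_right (ih fun k h1 h2 => h k h1 (by omega))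

theorem bf_seg_conjTranspose (L : ℕ → Matrix n n ℂ) (j r : ℕ) :
    (bf_seg L j r)ᴴ = bf_ges (fun k => (L k)ᴴ) j r := by
  induction r with
  | zero => simp
  | succ r ih => rw [bf_seg_succ, bf_ges_succ, conjTranspose_mul, ih]

end Gen

section Sites

variable {s : Type} [DecidableEq s] [Fintype s] {io : s → Type}
  [∀ x, Fintype (io x)] [∀ x, DecidableEq (io x)]

theorem bf_seg_suppIn {A : Finset s} {L : ℕ → Matrix (Cfg io) (Cfg io) ℂ} {j r : ℕ}
    (h : ∀ k, j ≤ k → k < j + r → SuppIn A (L k)) : SuppIn A (bf_seg L j r) := by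
  induction r with
  | zero => exact SuppIn.one A
  | succ r ih =>
    rw [bf_seg_succ]
    exact (h (j + r) (by omega) (by omega)).mul (ih fun k h1 h2 => h k h1 (by omega))

theorem bf_ges_suppIn {A : Finset s} {L : ℕ → Matrix (Cfg io) (Cfg io) ℂ} {j r : ℕ}
    (h : ∀ k, j ≤ k → k < j + r → SuppIn A (L k)) : SuppIn A (bf_ges L j r) := by
  induction r with
  | zero => exact SuppIn.one A
  | succ r ih =>
    rw [bf_ges_succ]
    exact (ih fun k h1 h2 => h k h1 (by omega)).mul (h (j + r) (by omega) (by omega))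

theorem bf_Fz_suppIn (Y : ℕ → Finset s) (a : ℕ → ℝ) (σ : bf_Tup io Y) (z : ℂ) (j : ℕ) :
    SuppIn (Y j) (bf_Fz Y a σ z j) := ⟨_, rfl⟩

theorem bf_Fz_mul_neg (Y : ℕ → Finset s) (a : ℕ → ℝ) (σ : bf_Tup io Y)
    (hσ : ∀ k, (σ k).IsHermitian) (z : ℂ) (j : ℕ) :
    bf_Fz Y a σ z j * bf_Fz Y a σ (-z) j = 1 := by
  unfold bf_Fz
  rw [← emb_mul, neg_mul, hpow_mul_neg (hσ j), emb_one]

theorem bf_Fz_neg_mul (Y : ℕ → Finset s) (a : ℕ → ℝ) (σ : bf_Tup io Y)
    (hσ : ∀ k, (σ k).IsHermitian) (z : ℂ) (j : ℕ) :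
    bf_Fz Y a σ (-z) j * bf_Fz Y a σ z j = 1 := by
  unfold bf_Fz
  rw [← emb_mul, neg_mul, hpow_neg_mul (hσ j), emb_one]

theorem bf_Fz_conjTranspose (Y : ℕ → Finset s) (a : ℕ → ℝ) (σ : bf_Tup io Y) (z : ℂ) (j : ℕ) :
    (bf_Fz Y a σ z j)ᴴ = bf_Fz Y a σ (star z) j := by
  unfold bf_Fz
  rw [← emb_conjTranspose, hpow_conjTranspose, star_mul']
  simp

theorem bf_Fz_update (Y : ℕ → Finset s) (a : ℕ → ℝ) (σ : bf_Tup io Y) (z : ℂ) (j : ℕ)
    (τ : Matrix (CfgOn io (Y j)) (CfgOn io (Y j)) ℂ) {k : ℕ} (hk : k ≠ j) :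
    bf_Fz Y a (Function.update σ j τ) z k = bf_Fz Y a σ z k := by
  unfold bf_Fz
  rw [Function.update_of_ne hk]

theorem bf_Fz_update_self (Y : ℕ → Finset s) (a : ℕ → ℝ) (σ : bf_Tup io Y) (z : ℂ) (j : ℕ)
    (τ : Matrix (CfgOn io (Y j)) (CfgOn io (Y j)) ℂ) :
    bf_Fz Y a (Function.update σ j τ) z j = emb (Y j) (hpow τ (z * ((a j / 2 : ℝ) : ℂ))) := by
  unfold bf_Fz
  rw [Function.update_self]

end Sites

end Claimed.Agent.R296
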