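import Claimed.Agent.R296.BufDefs
import Claimed.Agent.R296.EntProd
import Claimed.Agent.R296.TailSites

/-!
# Row 296, P1 Lemma 2.2: single cut estimates (prefix `bf_`)

* `bf_rowcol`       : the row/column Cauchy-Schwarz bound (leaf T1 of Notes/P1S02);
* `bf_bip_energy`   : change of the expectation of `c ⊗ e` under conjugation of `c` by a positive
                      matrix commuting with the marginal (abstract product index `α × β`);
* `bf_cut_energy`   : the same at a cut `A | Aᶜ` of a system of sites;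
* `bf_ex_emb`       : `⟨ψ, emb A K ψ⟩ = Tr (ρ_A K)`.
Owner: helper101 (statements), helper43 (proofs).
-/

set_option autoImplicit false

namespace Claimed.Agent.R296

open Matrix Kronecker
open scoped MatrixOrder Matrix.Norms.L2Operator ComplexOrder

section Abstract

variable {α β : Type} [Fintype α] [DecidableEq α] [Fintype β] [DecidableEq β]

/-- row/column bound: `|∑ W_ik c_ik E_ik| ≤ 2 κ ‖c‖ ‖E‖ ∑ p` if `|W_ik| ≤ κ (p_i + p_k)`. -/
theorem bf_rowcol (c E : Matrix α α ℂ) (p : α → ℝ) (hp : ∀ i, 0 ≤ p i) (W : α → α → ℝ) {κ : ℝ}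
    (hW : ∀ i k, |W i k| ≤ κ * (p i + p k)) :
    ‖∑ i, ∑ k, (W i k : ℂ) * c i k * E i k‖ ≤ 2 * κ * ‖c‖ * ‖E‖ * ∑ i, p i := by
  have ht : ∀ j, 0 ≤ κ * p j := by
    intro j
    have := (abs_nonneg _).trans (hW j j)
    nlinarith
  have h := tl_schur_bound c E (fun j => κ * p j) (fun i k => (W i k : ℂ))
    (fun j k => by
      rw [Complex.norm_real, Real.norm_eq_abs]
      exact (hW j k).trans (le_of_eq (by ring))) ht
  rw [← Finset.mul_sum] at h
  refine le_trans (le_of_eq ?_) (h.trans (le_of_eq (by ring)))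
  congr 1
  refine Finset.sum_congr rfl fun i _ => Finset.sum_congr rfl fun k _ => ?_
  ring

/-- expectation values are invariant under a change of basis -/
theorem bf_ex_conj {n m : Type} [Fintype n] [Fintype m] (ψ : n → ℂ) (V : Matrix m n ℂ)
    (N : Matrix m m ℂ) : bf_ex ψ (Vᴴ * N * V) = bf_ex (V *ᵥ ψ) N := by
  unfold bf_ex
  rw [star_mulVec, ← dotProduct_mulVec, mulVec_mulVec, mulVec_mulVec, Matrix.mul_assoc]

/-- the expectation of `diag(a) c diag(b) ⊗ e` in the Schmidt picture -/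
theorem bf_ex_schmidt (X : Matrix α β ℂ) (a b : α → ℂ) (c : Matrix α α ℂ) (e : Matrix β β ℂ) :
    bf_ex (tlTw 1 X) ((diagonal a * c * diagonal b) ⊗ₖ e) =
      ∑ j, ∑ k, a j * b k * tlG X (c ⊗ₖ e) j k := by
  have h := tlB_eq_form X ((diagonal a * c * diagonal b) ⊗ₖ e) 1 1
  unfold bf_ex
  rw [← h]
  simp only [tlB, star_one, Pi.one_apply, one_mul, tlG_kronecker, mul_diagonal, diagonal_mul]
  refine Finset.sum_congr rfl fun j _ => Finset.sum_congr rfl fun k _ => ?_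
  ring

/-- conjugation of the first tensor factor by `L = U diag(l) Uᴴ`, where `U` also diagonalises the
marginal `ρ = U diag(p) Uᴴ` of `ψ` on the first factor. -/
theorem bf_bip_energy (ψ : α × β → ℂ) {U : Matrix α α ℂ} (hU : Uᴴ * U = 1) (hU' : U * Uᴴ = 1)
    (p l : α → ℝ) (hρ : ptrFst (pureOp ψ) = U * diagonal (fun i => (p i : ℂ)) * Uᴴ)
    (hl : ∀ i, 0 < l i) {κ : ℝ}
    (hκ : ∀ i k, 0 < p i → 0 < p k →
      Real.sqrt (p i * p k) * |(l i / l k + l k / l i) / 2 - 1| ≤ κ * (p i + p k))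
    (c : Matrix α α ℂ) (e : Matrix β β ℂ) :
    ‖(bf_ex ψ ((U * diagonal (fun i => (l i : ℂ)) * Uᴴ * c *
            (U * diagonal (fun i => ((l i)⁻¹ : ℂ)) * Uᴴ)) ⊗ₖ e) +
        bf_ex ψ ((U * diagonal (fun i => ((l i)⁻¹ : ℂ)) * Uᴴ * c *
            (U * diagonal (fun i => (l i : ℂ)) * Uᴴ)) ⊗ₖ e)) / 2 - bf_ex ψ (c ⊗ₖ e)‖ ≤
      2 * κ * ‖c‖ * ‖e‖ * ∑ i, p i := by
  set X : Matrix α β ℂ := Uᴴ * coefMat ψ with hXdef
  have hX : X * Xᴴ = diagonal (fun j => ((p j : ℝ) : ℂ)) := by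
    rw [hXdef, conjTranspose_mul, conjTranspose_conjTranspose, Matrix.mul_assoc,
      ← Matrix.mul_assoc (coefMat ψ), ← ptrFst_pureOp, hρ]
    calc Uᴴ * (U * diagonal (fun i => (p i : ℂ)) * Uᴴ * U)
        = (Uᴴ * U) * diagonal (fun i => (p i : ℂ)) * (Uᴴ * U) := by
          simp only [Matrix.mul_assoc]
      _ = _ := by rw [hU, Matrix.one_mul, Matrix.mul_one]
  have hφ : (Uᴴ ⊗ₖ (1 : Matrix β β ℂ)) *ᵥ ψ = tlTw 1 X := tl_kron_one_mulVec _ _
  set c' : Matrix α α ℂ := Uᴴ * c * U with hc'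
  -- transport to the Schmidt picture
  have key : ∀ a b : α → ℂ, bf_ex ψ ((U * diagonal a * Uᴴ * c * (U * diagonal b * Uᴴ)) ⊗ₖ e) =
      ∑ j, ∑ k, a j * b k * tlG X (c' ⊗ₖ e) j k := by
    intro a b
    rw [← bf_ex_schmidt, ← hφ, ← bf_ex_conj]
    congr 1
    rw [conjTranspose_kronecker, conjTranspose_one, conjTranspose_conjTranspose,
      ← mul_kronecker_mul, ← mul_kronecker_mul, Matrix.one_mul, Matrix.mul_one, hc']
    congr 1
    simp only [Matrix.mul_assoc]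
  have key1 : bf_ex ψ (c ⊗ₖ e) = ∑ j, ∑ k, tlG X (c' ⊗ₖ e) j k := by
    have h := key 1 1
    have h1 : diagonal (1 : α → ℂ) = 1 := diagonal_one
    rw [h1, Matrix.mul_one, hU', Matrix.one_mul, Matrix.mul_one] at h
    rw [h]
    simp
  rw [key, key, key1]
  have hp := tl_p_nonneg hX
  have ht : ∀ j, 0 ≤ κ * p j := by
    intro j
    rcases (hp j).eq_or_lt with h0 | h0
    · rw [← h0, mul_zero]
    · have h := hκ j j h0 h0
      have h2 : (l j / l j + l j / l j) / 2 - 1 = 0 := by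
        rw [div_self (hl j).ne']; norm_num
      rw [h2, abs_zero, mul_zero] at h
      nlinarith
  have hb := tlG_weighted_bound hX c' e (fun j => κ * p j) ht
    (fun j k => (((l j / l k + l k / l j) / 2 - 1 : ℝ) : ℂ)) (fun j k => by
      rw [Complex.norm_real, Real.norm_eq_abs]
      rcases (hp j).eq_or_lt with h0 | h0
      · rw [← h0, Real.sqrt_zero, zero_mul, mul_zero, mul_zero, zero_add]; exact ht k
      rcases (hp k).eq_or_lt with h1 | h1
      · rw [← h1, Real.sqrt_zero, mul_zero, mul_zero, mul_zero, add_zero]; exact ht j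
      have h := hκ j k h0 h1
      rw [Real.sqrt_mul h0.le] at h
      linarith)
  have hc'n : ‖c'‖ ≤ ‖c‖ := by
    have := tl_norm_conj_le Uᴴ (by rw [conjTranspose_conjTranspose]; exact hU') c
    rwa [conjTranspose_conjTranspose] at this
  have hs : 0 ≤ ∑ j, κ * p j := Finset.sum_nonneg fun j _ => ht j
  refine le_trans (le_of_eq ?_) (hb.trans ?_)
  · congr 1
    rw [← Finset.sum_add_distrib, Finset.sum_div, ← Finset.sum_sub_distrib]
    refine Finset.sum_congr rfl fun j _ => ?_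
    rw [← Finset.sum_add_distrib, Finset.sum_div, ← Finset.sum_sub_distrib]
    refine Finset.sum_congr rfl fun k _ => ?_
    push_cast
    ring
  · calc 2 * (∑ j, κ * p j) * (‖c'‖ * ‖e‖) ≤ 2 * (∑ j, κ * p j) * (‖c‖ * ‖e‖) := by gcongr
      _ = 2 * κ * ‖c‖ * ‖e‖ * ∑ i, p i := by rw [← Finset.mul_sum]; ring

end Abstract

section Sites

variable {s : Type} [DecidableEq s] [Fintype s] {io : s → Type}
  [∀ x, Fintype (io x)] [∀ x, DecidableEq (io x)]

/-- `⟨φ, M φ⟩ = Tr (|φ⟩⟨φ| M)` -/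
theorem bf_ex_eq_trace {n : Type} [Fintype n] (φ : n → ℂ) (M : Matrix n n ℂ) :
    bf_ex φ M = (pureOp φ * M).trace := by
  unfold bf_ex pureOp
  rw [vecMulVec_mul, trace_vecMulVec, dotProduct_mulVec, dotProduct_comm]

/-- `⟨ψ, (K ⊗ 1) ψ⟩ = Tr (ρ_A K)` -/
theorem bf_ex_emb (A : Finset s) (ψ : Cfg io → ℂ) (K : Matrix (CfgOn io A) (CfgOn io A) ℂ) :
    bf_ex ψ (emb A K) = (ptr A (pureOp ψ) * K).trace := by
  rw [bf_ex_eq_trace, ptr_eq_ptrE, emb_eq_embE, trace_mul_embE]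

theorem bf_ptr_pure_posSemidef (A : Finset s) (ψ : Cfg io → ℂ) :
    (ptr A (pureOp ψ)).PosSemidef := by
  rw [ptr_eq_ptrE]
  exact ptrE_posSemidef _ (pureOp_posSemidef ψ)

theorem bf_ptr_pure_trace (A : Finset s) (ψ : Cfg io → ℂ) :
    (ptr A (pureOp ψ)).trace = (bf_nsq ψ : ℂ) := by
  rw [ptr_eq_ptrE, trace_ptrE, pureOp, trace_vecMulVec, dotProduct_comm, bf_nsq,
    tl_star_dot_self, Complex.ofReal_re]

/-- expectation values under a reindexing -/
theorem bf_ex_submatrix {n m : Type} [Fintype n] [Fintype m] (f : n ≃ m) (ψ : n → ℂ)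
    (N : Matrix m m ℂ) : bf_ex ψ (N.submatrix f f) = bf_ex (ψ ∘ f.symm) N := by
  unfold bf_ex
  simp only [dotProduct, mulVec, submatrix_apply, Pi.star_apply, Function.comp]
  rw [← f.symm.sum_comp]
  refine Finset.sum_congr rfl fun x _ => ?_
  rw [← f.symm.sum_comp]
  simp

theorem bf_embOff_eq_kronecker (A : Finset s) (K : Matrix (CfgOff io A) (CfgOff io A) ℂ) :
    embOff A K = ((1 : Matrix (CfgOn io A) (CfgOn io A) ℂ) ⊗ₖ K).submatrix
      (cfgSplit A) (cfgSplit A) := by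
  ext σ τ
  simp only [embOff, Matrix.of_apply, submatrix_apply, kroneckerMap_apply, cfgSplit,
    Equiv.coe_fn_mk, Matrix.one_apply, ite_mul, one_mul, zero_mul]

/-- the single cut energy estimate at the cut `A | Aᶜ` -/
theorem bf_cut_energy (A : Finset s) (ψ : Cfg io → ℂ)
    {U : Matrix (CfgOn io A) (CfgOn io A) ℂ} (hU : Uᴴ * U = 1) (hU' : U * Uᴴ = 1)
    (p l : CfgOn io A → ℝ) (hρ : ptr A (pureOp ψ) = U * diagonal (fun i => (p i : ℂ)) * Uᴴ)
    (hl : ∀ i, 0 < l i) {κ : ℝ}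
    (hκ : ∀ i k, 0 < p i → 0 < p k →
      Real.sqrt (p i * p k) * |(l i / l k + l k / l i) / 2 - 1| ≤ κ * (p i + p k))
    (c : Matrix (CfgOn io A) (CfgOn io A) ℂ) (e : Matrix (CfgOff io A) (CfgOff io A) ℂ) :
    ‖(bf_ex ψ (emb A (U * diagonal (fun i => (l i : ℂ)) * Uᴴ) * (emb A c * embOff A e) *
            emb A (U * diagonal (fun i => ((l i)⁻¹ : ℂ)) * Uᴴ)) +
        bf_ex ψ (emb A (U * diagonal (fun i => ((l i)⁻¹ : ℂ)) * Uᴴ) * (emb A c * embOff A e) *
            emb A (U * diagonal (fun i => (l i : ℂ)) * Uᴴ))) / 2 -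
        bf_ex ψ (emb A c * embOff A e)‖ ≤
      2 * κ * ‖c‖ * ‖e‖ * bf_nsq ψ := by
  set φ : CfgOn io A × CfgOff io A → ℂ := ψ ∘ (cfgSplit A).symm with hφ
  have hρ' : ptrFst (pureOp φ) = U * diagonal (fun i => (p i : ℂ)) * Uᴴ := by
    rw [← hρ]
    ext x y
    simp only [ptrFst_apply, pureOp_apply, ptr, Matrix.of_apply, hφ, Function.comp,
      tl_cfgSplit_symm]
  have h1 : emb A c * embOff A e = (c ⊗ₖ e).submatrix (cfgSplit A) (cfgSplit A) := by
    rw [emb_eq_kronecker, bf_embOff_eq_kronecker, submatrix_mul_equiv]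
    congr 1
    exact (by rw [← mul_kronecker_mul, Matrix.mul_one, Matrix.one_mul] :
      (c ⊗ₖ (1 : Matrix (CfgOff io A) (CfgOff io A) ℂ)) * ((1 : Matrix (CfgOn io A) (CfgOn io A) ℂ) ⊗ₖ e) = c ⊗ₖ e)
  have h2 : ∀ L L' : Matrix (CfgOn io A) (CfgOn io A) ℂ,
      emb A L * (emb A c * embOff A e) * emb A L' =
        ((L * c * L') ⊗ₖ e).submatrix (cfgSplit A) (cfgSplit A) := by
    intro L L'
    rw [h1, emb_eq_kronecker, emb_eq_kronecker, submatrix_mul_equiv, submatrix_mul_equiv]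
    congr 1
    exact (by rw [← mul_kronecker_mul, ← mul_kronecker_mul, Matrix.mul_one, Matrix.one_mul] :
      (L ⊗ₖ (1 : Matrix (CfgOff io A) (CfgOff io A) ℂ)) * (c ⊗ₖ e) * (L' ⊗ₖ (1 : Matrix (CfgOff io A) (CfgOff io A) ℂ)) = (L * c * L') ⊗ₖ e)
  have hsum : ∑ i, p i = bf_nsq ψ := by
    have h := bf_ptr_pure_trace A ψ
    rw [hρ, Matrix.trace_mul_comm, ← Matrix.mul_assoc, hU, Matrix.one_mul, trace_diagonal] at h
    exact_mod_cast h
  rw [h2, h2, h1, bf_ex_submatrix, bf_ex_submatrix, bf_ex_submatrix, ← hsum]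
  exact bf_bip_energy φ hU hU' p l hρ' hl hκ c e

end Sites

end Claimed.Agent.R296
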