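import Mathlib

/-!
# Row 296, P1 Lemma 2.2: scalar leaves of the abstract buffer lemma (prefix `bf_`)
Owner: helper101.
-/

set_option autoImplicit false

namespace Claimed.Agent.R296

/-- `cosh (a z) - 1 ≤ a² (cosh z - 1)` for `|a| ≤ 1` (termwise comparison of the power series). -/
theorem bf_cosh_scale (a z : ℝ) (ha : |a| ≤ 1) :
    Real.cosh (a * z) - 1 ≤ a ^ 2 * (Real.cosh z - 1) := by
  have h1 := Real.hasSum_cosh (a * z)
  have h2 := Real.hasSum_cosh z
  have ha2 : a ^ 2 ≤ 1 := by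
    have := sq_le_one_iff_abs_le_one a
    exact this.2 ha
  -- the series of the right-hand side
  have h3 : HasSum (fun n : ℕ => a ^ 2 * (z ^ (2 * n) / ((2 * n).factorial : ℝ)) +
      (if n = 0 then 1 - a ^ 2 else 0)) (a ^ 2 * Real.cosh z + (1 - a ^ 2)) :=
    (h2.mul_left (a ^ 2)).add (hasSum_ite_eq 0 (1 - a ^ 2))
  have h4 : Real.cosh (a * z) ≤ a ^ 2 * Real.cosh z + (1 - a ^ 2) := by
    refine hasSum_le (fun n => ?_) h1 h3
    rcases Nat.eq_zero_or_pos n with rfl | hn
    · simp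
    · rw [if_neg hn.ne', add_zero, mul_pow, mul_div_assoc]
      have hz : 0 ≤ z ^ (2 * n) / ((2 * n).factorial : ℝ) := by
        have : 0 ≤ z ^ (2 * n) := by rw [pow_mul]; positivity
        positivity
      refine mul_le_mul_of_nonneg_right ?_ hz
      rw [pow_mul]
      calc (a ^ 2) ^ n ≤ (a ^ 2) ^ 1 :=
            pow_le_pow_of_le_one (sq_nonneg a) ha2 hn
        _ = a ^ 2 := pow_one _
  linarith

theorem bf_cosh_le_of_abs_le {y w : ℝ} (h : |y| ≤ |w|) : Real.cosh y ≤ Real.cosh w :=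
  Real.cosh_le_cosh.2 h

/-- the weights of the energy estimate -/
theorem bf_weight {a p p' x x' : ℝ} (ha0 : 0 ≤ a) (ha1 : a ≤ 1) (hp : 0 < p) (hp' : 0 < p')
    (hx : 0 < x) (hx' : 0 < x') (h : |Real.log (x / x')| ≤ |Real.log (p / p')|) :
    0 ≤ ((x / x') ^ (a / 2) + (x' / x) ^ (a / 2)) / 2 - 1 ∧
    Real.sqrt (p * p') * (((x / x') ^ (a / 2) + (x' / x) ^ (a / 2)) / 2 - 1) ≤
      a ^ 2 / 2 * (p + p') := by
  set y : ℝ := a / 2 * Real.log (x / x') with hy
  set z : ℝ := Real.log (p / p') / 2 with hz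
  have hxx : 0 < x / x' := div_pos hx hx'
  have h1 : (x / x') ^ (a / 2) = Real.exp y := by
    rw [Real.rpow_def_of_pos hxx, hy, mul_comm]
  have h2 : (x' / x) ^ (a / 2) = Real.exp (-y) := by
    rw [Real.rpow_def_of_pos (div_pos hx' hx), hy]
    congr 1
    rw [← inv_div x x', Real.log_inv]; ring
  have h3 : ((x / x') ^ (a / 2) + (x' / x) ^ (a / 2)) / 2 = Real.cosh y := by
    rw [h1, h2, Real.cosh_eq]
  rw [h3]
  refine ⟨by linarith [Real.one_le_cosh y], ?_⟩
  have h4 : |y| ≤ |a * z| := by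
    rw [hy, hz, abs_mul, abs_mul, abs_div, abs_div, abs_of_nonneg ha0]
    simp only [Nat.abs_ofNat]
    calc a / 2 * |Real.log (x / x')| ≤ a / 2 * |Real.log (p / p')| :=
          mul_le_mul_of_nonneg_left h (by positivity)
      _ = a * (|Real.log (p / p')| / 2) := by ring
  have h5 : Real.cosh y - 1 ≤ a ^ 2 * (Real.cosh z - 1) :=
    (sub_le_sub_right (bf_cosh_le_of_abs_le h4) 1).trans
      (bf_cosh_scale a z (by rw [abs_of_nonneg ha0]; exact ha1))
  have hs : 0 ≤ Real.sqrt (p * p') := Real.sqrt_nonneg _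
  -- `sqrt (p p') cosh z = (p + p') / 2`
  have h6 : Real.sqrt (p * p') * Real.cosh z = (p + p') / 2 := by
    have e1 : Real.exp z = Real.sqrt (p / p') := by
      rw [Real.sqrt_eq_rpow, Real.rpow_def_of_pos (div_pos hp hp'), hz]; congr 1; ring
    have e2 : Real.exp (-z) = Real.sqrt (p' / p) := by
      rw [Real.sqrt_eq_rpow, Real.rpow_def_of_pos (div_pos hp' hp), hz]; congr 1
      rw [← inv_div p p', Real.log_inv]; ring
    rw [Real.cosh_eq, e1, e2, mul_div_assoc', mul_add, ← Real.sqrt_mul (by positivity),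
      ← Real.sqrt_mul (by positivity)]
    have e3 : p * p' * (p / p') = p ^ 2 := by field_simp
    have e4 : p * p' * (p' / p) = p' ^ 2 := by field_simp
    rw [e3, e4, Real.sqrt_sq hp.le, Real.sqrt_sq hp'.le]
  calc Real.sqrt (p * p') * (Real.cosh y - 1)
      ≤ Real.sqrt (p * p') * (a ^ 2 * (Real.cosh z - 1)) := mul_le_mul_of_nonneg_left h5 hs
    _ = a ^ 2 * (Real.sqrt (p * p') * Real.cosh z - Real.sqrt (p * p')) := by ring
    _ = a ^ 2 * ((p + p') / 2 - Real.sqrt (p * p')) := by rw [h6]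
    _ ≤ a ^ 2 * ((p + p') / 2) := by
        apply mul_le_mul_of_nonneg_left _ (sq_nonneg a); linarith
    _ = a ^ 2 / 2 * (p + p') := by ring

/-- from the two-coordinate KKT inequalities to the clipping estimate
(eq:initial-filter-clipping) -/
theorem bf_kkt_log {η p p' x x' : ℝ} (hη : 0 < η) (hp : 0 < p) (hp' : 0 < p')
    (hx : η ≤ x) (hx' : η ≤ x') (h1 : η < x' → p * x' ≤ p' * x) (h2 : η < x → p' * x ≤ p * x') :
    |Real.log (x / x')| ≤ |Real.log (p / p')| := by
  have hx0 : 0 < x := lt_of_lt_of_le hη hx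
  have hx0' : 0 < x' := lt_of_lt_of_le hη hx'
  rcases hx.eq_or_lt with e | f
  · rcases hx'.eq_or_lt with e' | f'
    · rw [← e, ← e', div_self hη.ne', Real.log_one, abs_zero]; exact abs_nonneg _
    · -- `x = η < x'`
      have h := h1 f'
      have h3 : x' / x ≤ p' / p := by
        rw [div_le_div_iff₀ hx0 hp]; linarith
      have h4 : 1 ≤ x' / x := by rw [one_le_div hx0]; rw [← e]; exact f'.le
      have h5 : Real.log (x' / x) ≤ Real.log (p' / p) :=
        Real.log_le_log (by positivity) h3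
      have h6 : 0 ≤ Real.log (x' / x) := Real.log_nonneg h4
      rw [← inv_div x' x, ← inv_div p' p, Real.log_inv, Real.log_inv, abs_neg, abs_neg,
        abs_of_nonneg h6]
      exact h5.trans (le_abs_self _)
  · rcases hx'.eq_or_lt with e' | f'
    · have h := h2 f
      have h3 : x / x' ≤ p / p' := by
        rw [div_le_div_iff₀ hx0' hp']; linarith
      have h4 : 1 ≤ x / x' := by rw [one_le_div hx0']; rw [← e']; exact f.le
      have h5 : Real.log (x / x') ≤ Real.log (p / p') :=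
        Real.log_le_log (by positivity) h3
      have h6 : 0 ≤ Real.log (x / x') := Real.log_nonneg h4
      rw [abs_of_nonneg h6]
      exact h5.trans (le_abs_self _)
    · have h := le_antisymm (h1 f') (h2 f)
      have : x / x' = p / p' := by
        rw [div_eq_div_iff hx0'.ne' hp'.ne']; linarith
      rw [this]

/-- one-sided first order condition -/
theorem bf_deriv_nonpos {g : ℝ → ℝ} {g' δ : ℝ} (hδ : 0 < δ) (hg : HasDerivAt g g' 0)
    (hmax : ∀ t, 0 ≤ t → t < δ → g t ≤ g 0) : g' ≤ 0 := by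
  by_contra hpos
  rw [not_le] at hpos
  have h1 := hg.tendsto_slope_zero_right
  have h2 : ∀ᶠ t in nhdsWithin (0 : ℝ) (Set.Ioi 0), 0 < t⁻¹ • (g (0 + t) - g 0) :=
    h1.eventually (lt_mem_nhds hpos)
  have h3 : ∀ᶠ t in nhdsWithin (0 : ℝ) (Set.Ioi 0), t < δ :=
    (nhdsWithin_le_nhds) (Iio_mem_nhds hδ)
  have h4 : ∀ᶠ t in nhdsWithin (0 : ℝ) (Set.Ioi 0), (0 : ℝ) < t := self_mem_nhdsWithin
  obtain ⟨t, ht1, ht2, ht3⟩ := (h2.and (h3.and h4)).exists
  have h5 := hmax t ht3.le ht2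
  rw [zero_add, smul_eq_mul] at ht1
  have h6 : t⁻¹ * (g t - g 0) ≤ 0 :=
    mul_nonpos_of_nonneg_of_nonpos (inv_nonneg.2 ht3.le) (by linarith)
  linarith

end Claimed.Agent.R296
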