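import Claimed.Agent.R296.BufDiag
import Claimed.Agent.R296.BufBip
import Claimed.Agent.R296.BufScalar
import Claimed.Agent.R296.Strip
import Claimed.Agent.R296.BufBasic
import Claimed.Agent.R296.MatPowAn

/-!
# Row 296, P1 Lemma 2.2: the three lines argument for nested trial filters (prefix `bf_`)

(eq:initial-trial-norm) in unnormalised form.  `f(z) = ⟨ξ, τ_{m-1}^{z a/2} ⋯ τ_0^{z a/2} ξ⟩` is entire
and bounded on the strip `0 ≤ re z ≤ 1`; `|f(iy)| ≤ ‖ξ‖²`; on `re z = 1` the unitaries are moved to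
the left, `M_{m-1}^{1+iy} ⋯ M_0^{1+iy} = V · M'_{m-1} ⋯ M'_0` with `M'_j` feasible again, so
`|f(1+iy)| ≤ ‖ξ‖ √B`; then `re f(x) ≤ p (B/p)^{x/2}` with equality at `x = 0`; differentiate.
Owner: helper101.  Proofs: helper142.
NOTE: `bf_lines_deriv` needs `(τ j).PosSemidef` (with a negative eigenvalue `x`, `hpow` is constant
on that eigenspace while `mlog` contributes `log |x|`), so that hypothesis was strengthened.
-/

set_option autoImplicit false
set_option linter.unusedVariables false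

namespace Claimed.Agent.R296

open Matrix
open scoped MatrixOrder Matrix.Norms.L2Operator ComplexOrder

variable {s : Type} [DecidableEq s] [Fintype s] {io : s → Type}
  [∀ x, Fintype (io x)] [∀ x, DecidableEq (io x)]

/-- strengthened induction for `bf_move_unitaries` (all local dimensions positive) -/
theorem bf_lines_move_aux [∀ x, Nonempty (io x)] {T : ℕ → Finset s} (hT : Monotone T)
    (a : ℕ → ℝ) {η : ℝ} (t : ℕ → ℝ)
    (τ : bf_Tup io T) (hτ : ∀ j, τ j ∈ bf_Den η (t j)) (y : ℝ) (m : ℕ) :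
    ∃ (V : Matrix (Cfg io) (Cfg io) ℂ) (τ' : bf_Tup io T), Vᴴ * V = 1 ∧ V * Vᴴ = 1 ∧
      SuppIn (T m) V ∧ (∀ j, τ' j ∈ bf_Den η (t j)) ∧
      bf_prod (bf_Fz T a τ (1 + (y : ℂ) * Complex.I)) m = V * bf_prod (bf_F T a τ') m := by
  induction m with
  | zero =>
    exact ⟨1, τ, by simp, by simp, SuppIn.one _, hτ, by simp⟩
  | succ m ih =>
    obtain ⟨V, τ', hV1, hV2, ⟨v, rfl⟩, hτ', hprod⟩ := ih
    have hv1 : vᴴ * v = 1 := by
      apply emb_injective (io := io) (T m)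
      rw [emb_mul, emb_conjTranspose, hV1, emb_one]
    have hv2 : v * vᴴ = 1 := by
      apply emb_injective (io := io) (T m)
      rw [emb_mul, emb_conjTranspose, hV2, emb_one]
    obtain ⟨c, hc⟩ : ∃ c : ℂ, c = ((a m / 2 : ℝ) : ℂ) := ⟨_, rfl⟩
    obtain ⟨u, hu⟩ : ∃ u, u = hpow (τ m) ((y : ℂ) * Complex.I * c) := ⟨_, rfl⟩
    have hre : ((y : ℂ) * Complex.I * c).re = 0 := by
      rw [hc]; simp
    have hu12 := hpow_unitary (hτ m).1 hre
    rw [← hu] at hu12
    obtain ⟨σ, hσ⟩ : ∃ σ, σ = vᴴ * τ m * v := ⟨_, rfl⟩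
    have hσden : σ ∈ bf_Den η (t m) := by
      have := bf_den_conj (W := vᴴ) (by rw [conjTranspose_conjTranspose]; exact hv2)
        (by rw [conjTranspose_conjTranspose]; exact hv1) (hτ m)
      rw [conjTranspose_conjTranspose] at this
      rw [hσ]; exact this
    have hσpow : hpow σ c = vᴴ * hpow (τ m) c * v := by
      have := hpow_unitary_conj vᴴ (by rw [conjTranspose_conjTranspose]; exact hv2)
        (by rw [conjTranspose_conjTranspose]; exact hv1) (τ m) c
      rw [conjTranspose_conjTranspose] at this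
      rw [hσ]; exact this
    refine ⟨emb (T m) (u * v), Function.update τ' m σ, ?_, ?_, ?_, ?_, ?_⟩
    · rw [← emb_conjTranspose, ← emb_mul, conjTranspose_mul, Matrix.mul_assoc,
        ← Matrix.mul_assoc uᴴ, hu12.1, Matrix.one_mul, hv1, emb_one]
    · rw [← emb_conjTranspose, ← emb_mul, conjTranspose_mul, Matrix.mul_assoc,
        ← Matrix.mul_assoc v, hv2, Matrix.one_mul, hu12.2, emb_one]
    · exact SuppIn.mono (hT (Nat.le_succ m)) ⟨_, rfl⟩
    · intro j
      by_cases hj : j = m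
      · subst hj; rw [Function.update_self]; exact hσden
      · rw [Function.update_of_ne hj]; exact hτ' j
    · rw [bf_prod_succ, bf_prod_succ, hprod]
      have h1 : bf_prod (bf_F T a (Function.update τ' m σ)) m = bf_prod (bf_F T a τ') m := by
        apply bf_prod_congr
        intro k hk
        exact bf_Fz_update T a τ' 1 m σ (Nat.ne_of_lt hk)
      have h2 : bf_F T a (Function.update τ' m σ) m = emb (T m) (hpow σ c) := by
        unfold bf_F
        rw [bf_Fz_update_self, one_mul, hc]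
      have h3 : bf_Fz T a τ (1 + (y : ℂ) * Complex.I) m = emb (T m) (u * hpow (τ m) c) := by
        unfold bf_Fz
        rw [← hc, add_mul, one_mul, add_comm, hpow_add, hu]
      have h4 : u * hpow (τ m) c * v = u * v * hpow σ c := by
        rw [hσpow, Matrix.mul_assoc u v, ← Matrix.mul_assoc v, ← Matrix.mul_assoc v, hv2,
          Matrix.one_mul, Matrix.mul_assoc]
      rw [h1, h2, h3, ← Matrix.mul_assoc, ← Matrix.mul_assoc, ← emb_mul, ← emb_mul, h4]

/-- moving the unitaries to the left: for every real `y` the product of the `(1+iy)`-th powers is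
a unitary times a product of feasible filters. -/
theorem bf_move_unitaries {T : ℕ → Finset s} (hT : Monotone T) (a : ℕ → ℝ) {η : ℝ} (t : ℕ → ℝ)
    (τ : bf_Tup io T) (hτ : ∀ j, τ j ∈ bf_Den η (t j)) (y : ℝ) (m : ℕ) :
    ∃ (V : Matrix (Cfg io) (Cfg io) ℂ) (τ' : bf_Tup io T), Vᴴ * V = 1 ∧
      (∀ j, τ' j ∈ bf_Den η (t j)) ∧
      bf_prod (bf_Fz T a τ (1 + (y : ℂ) * Complex.I)) m = V * bf_prod (bf_F T a τ') m := by
  by_cases h : ∀ x, Nonempty (io x)
  · have := h
    obtain ⟨V, τ', h1, -, -, h2, h3⟩ := bf_lines_move_aux hT a t τ hτ y m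
    exact ⟨V, τ', h1, h2, h3⟩
  · have hE : IsEmpty (Cfg io) := by
      rw [not_forall] at h
      obtain ⟨x, hx⟩ := h
      rw [not_nonempty_iff] at hx
      exact ⟨fun σ => hx.elim (σ x)⟩
    exact ⟨1, τ, Subsingleton.elim _ _, hτ, Subsingleton.elim _ _⟩

/-- the operator product of the three lines argument is entire and bounded on strips -/
theorem bf_lines_nice_op (T : ℕ → Finset s) (a : ℕ → ℝ) (τ : bf_Tup io T) (m : ℕ) :
    StripNice (fun z : ℂ => bf_prod (bf_Fz T a τ z) m) := by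
  induction m with
  | zero => simpa using StripNice.const (1 : Matrix (Cfg io) (Cfg io) ℂ)
  | succ m ih =>
    simp only [bf_prod_succ]
    refine StripNice.matMul ?_ ih
    have h1 := (stripNice_hpow (τ m)).comp_affine (a m / 2) 0
    have h2 := h1.lin (embHom (io := io) (T m)).toAlgHom.toLinearMap
    have h3 : (fun z : ℂ => bf_Fz T a τ z m) = fun z : ℂ =>
        (embHom (io := io) (T m)).toAlgHom.toLinearMap
          (hpow (τ m) (((a m / 2 : ℝ) : ℂ) * z + 0)) := by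
      funext z
      unfold bf_Fz
      rw [add_zero, mul_comm]
      rfl
    rw [h3]
    exact h2

/-- the scalar function of the three lines argument is entire and bounded on strips -/
theorem bf_lines_nice (T : ℕ → Finset s) (a : ℕ → ℝ) (τ : bf_Tup io T)
    (hτ : ∀ j, (τ j).IsHermitian) (ξ : Cfg io → ℂ) (m : ℕ) :
    StripNice (fun z : ℂ => bf_ex ξ (bf_prod (bf_Fz T a τ z) m)) :=
  (bf_lines_nice_op T a τ m).quad (star ξ) ξ

/-- `mlog A * supp A = mlog A` for positive semidefinite `A` -/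
theorem bf_lines_mlog_mul_supp {n : Type} [Fintype n] [DecidableEq n] {A : Matrix n n ℂ}
    (hA : A.PosSemidef) : mlog A * supp A = mlog A := by
  unfold mlog supp
  rw [← mfun_mul]
  refine mfun_congr hA.1 fun i => ?_
  rcases (hA.eigenvalues_nonneg i).lt_or_eq with h | h
  · simp [suppS, h]
  · rw [← h]; simp

/-- at `z = 0` all factors are the identity -/
theorem bf_lines_prod_zero (T : ℕ → Finset s) (a : ℕ → ℝ) (τ : bf_Tup io T)
    (hτ : ∀ j, (τ j).IsHermitian) (m : ℕ) : bf_prod (bf_Fz T a τ 0) m = 1 := by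
  induction m with
  | zero => rfl
  | succ m ih =>
    rw [bf_prod_succ, ih, Matrix.mul_one]
    unfold bf_Fz
    rw [zero_mul, hpow_zero (hτ m), emb_one]

/-- complex derivative of one factor at `0` -/
theorem bf_lines_Fz_hasDerivAt (T : ℕ → Finset s) (a : ℕ → ℝ) (τ : bf_Tup io T)
    (hτ : ∀ j, (τ j).PosSemidef) (j : ℕ) :
    HasDerivAt (fun z : ℂ => bf_Fz T a τ z j)
      (((a j / 2 : ℝ) : ℂ) • emb (T j) (mlog (τ j))) 0 := by
  have h1 : HasDerivAt (fun z : ℂ => z * ((a j / 2 : ℝ) : ℂ)) ((a j / 2 : ℝ) : ℂ) 0 := by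
    simpa using (hasDerivAt_id (0 : ℂ)).mul_const ((a j / 2 : ℝ) : ℂ)
  have h2 : HasDerivAt (fun z => hpow (τ j) z) (mlog (τ j)) ((0 : ℂ) * ((a j / 2 : ℝ) : ℂ)) := by
    have := hasDerivAt_hpow (τ j) ((0 : ℂ) * ((a j / 2 : ℝ) : ℂ))
    rwa [zero_mul, spow_zero, bf_lines_mlog_mul_supp (hτ j), ← zero_mul ((a j / 2 : ℝ) : ℂ)] at this
  have h3 := h2.scomp (0 : ℂ) h1
  have h4 := ((LinearMap.toContinuousLinearMap
    (embHom (io := io) (T j)).toAlgHom.toLinearMap).hasFDerivAt).comp_hasDerivAt (0 : ℂ) h3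
  have h5 : (LinearMap.toContinuousLinearMap (embHom (io := io) (T j)).toAlgHom.toLinearMap)
      (((a j / 2 : ℝ) : ℂ) • mlog (τ j)) = ((a j / 2 : ℝ) : ℂ) • emb (T j) (mlog (τ j)) := by
    rw [map_smul]; rfl
  rw [h5] at h4
  exact h4

/-- complex derivative of the operator product at `0` -/
theorem bf_lines_prod_hasDerivAt (T : ℕ → Finset s) (a : ℕ → ℝ) (τ : bf_Tup io T)
    (hτ : ∀ j, (τ j).PosSemidef) (m : ℕ) :
    HasDerivAt (fun z : ℂ => bf_prod (bf_Fz T a τ z) m)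
      (∑ j ∈ Finset.range m, ((a j / 2 : ℝ) : ℂ) • emb (T j) (mlog (τ j))) 0 := by
  induction m with
  | zero => simpa using hasDerivAt_const (0 : ℂ) (1 : Matrix (Cfg io) (Cfg io) ℂ)
  | succ m ih =>
    have h := (bf_lines_Fz_hasDerivAt T a τ hτ m).mul ih
    have e1 : bf_Fz T a τ 0 m = 1 := by
      have := bf_lines_prod_zero T a τ (fun j => (hτ j).1) (m + 1)
      rwa [bf_prod_succ, bf_lines_prod_zero T a τ (fun j => (hτ j).1) m, Matrix.mul_one] at this
    rw [bf_lines_prod_zero T a τ (fun j => (hτ j).1) m, e1, mul_one, one_mul, add_comm,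
      ← Finset.sum_range_succ] at h
    exact h

/-- `bf_ex ξ` as a linear functional -/
def bf_lines_exL {n : Type} [Fintype n] [DecidableEq n] (ξ : n → ℂ) : Matrix n n ℂ →ₗ[ℂ] ℂ where
  toFun M := bf_ex ξ M
  map_add' M N := bf_ex_add ξ M N
  map_smul' c M := bf_ex_smul ξ c M

/-- derivative at `0` along the real axis -/
theorem bf_lines_deriv (T : ℕ → Finset s) (a : ℕ → ℝ) (τ : bf_Tup io T)
    (hτ : ∀ j, (τ j).PosSemidef) (ξ : Cfg io → ℂ) (m : ℕ) :
    HasDerivAt (fun x : ℝ => (bf_ex ξ (bf_prod (bf_Fz T a τ (x : ℂ)) m)).re)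
      (∑ j ∈ Finset.range m, a j / 2 * (bf_ex ξ (emb (T j) (mlog (τ j)))).re) 0 := by
  have h1 := ((LinearMap.toContinuousLinearMap (bf_lines_exL ξ)).hasFDerivAt).comp_hasDerivAt (0 : ℂ)
    (bf_lines_prod_hasDerivAt T a τ hτ m)
  have h2 : HasDerivAt (fun z : ℂ => bf_ex ξ (bf_prod (bf_Fz T a τ z) m))
      (bf_ex ξ (∑ j ∈ Finset.range m, ((a j / 2 : ℝ) : ℂ) • emb (T j) (mlog (τ j))))
      ((0 : ℝ) : ℂ) := by
    rw [Complex.ofReal_zero]; exact h1
  have h3 := h2.real_of_complex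
  have h4 : (bf_ex ξ (∑ j ∈ Finset.range m, ((a j / 2 : ℝ) : ℂ) • emb (T j) (mlog (τ j)))).re =
      ∑ j ∈ Finset.range m, a j / 2 * (bf_ex ξ (emb (T j) (mlog (τ j)))).re := by
    rw [bf_ex_sum, Complex.re_sum]
    refine Finset.sum_congr rfl fun j _ => ?_
    rw [bf_ex_smul, Complex.re_ofReal_mul]
  rw [h4] at h3
  exact h3

/-- on the imaginary axis the operator product is an isometry -/
theorem bf_lines_prod_isometry (T : ℕ → Finset s) (a : ℕ → ℝ) (τ : bf_Tup io T)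
    (hτ : ∀ j, (τ j).IsHermitian) (m : ℕ) {z : ℂ} (hz : z.re = 0) :
    (bf_prod (bf_Fz T a τ z) m)ᴴ * bf_prod (bf_Fz T a τ z) m = 1 := by
  induction m with
  | zero => simp
  | succ m ih =>
    have h1 : (bf_Fz T a τ z m)ᴴ * bf_Fz T a τ z m = 1 := by
      unfold bf_Fz
      rw [← emb_conjTranspose, ← emb_mul, (hpow_unitary (hτ m) (by simp [hz])).1, emb_one]
    rw [bf_prod_succ, conjTranspose_mul, Matrix.mul_assoc, ← Matrix.mul_assoc _ (bf_Fz T a τ z m),
      h1, Matrix.one_mul, ih]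

/-- on the imaginary axis all factors are unitary -/
theorem bf_lines_left (T : ℕ → Finset s) (a : ℕ → ℝ) (τ : bf_Tup io T)
    (hτ : ∀ j, (τ j).IsHermitian) (ξ : Cfg io → ℂ) (m : ℕ) {z : ℂ} (hz : z.re = 0) :
    ‖bf_ex ξ (bf_prod (bf_Fz T a τ z) m)‖ ≤ bf_nsq ξ := by
  have h := bf_cauchy ξ (bf_prod (bf_Fz T a τ z) m *ᵥ ξ)
  rw [bf_nsq_isometry (bf_lines_prod_isometry T a τ hτ m hz), ← sq] at h
  exact (pow_le_pow_iff_left₀ (norm_nonneg _) (bf_nsq_nonneg ξ) two_ne_zero).1 h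

/-- elements of `bf_Den η t`, `η ≥ 0`, are positive semidefinite -/
theorem bf_lines_den_posSemidef {n : Type} [Fintype n] [DecidableEq n] {η t : ℝ} (hη : 0 ≤ η)
    {σ : Matrix n n ℂ} (hσ : σ ∈ bf_Den η t) : σ.PosSemidef := by
  have h1 : ((η : ℂ) • (1 : Matrix n n ℂ)).PosSemidef :=
    PosSemidef.one.smul (by exact_mod_cast hη)
  have h2 := hσ.2.1.add h1
  rwa [sub_add_cancel] at h2

/-- the filters are invertible, so the filtered vector does not vanish -/
theorem bf_lines_nsq_pos (T : ℕ → Finset s) (a : ℕ → ℝ) (τ : bf_Tup io T)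
    (hτ : ∀ j, (τ j).IsHermitian) (ξ : Cfg io → ℂ) (hξ : 0 < bf_nsq ξ) (m : ℕ) :
    0 < bf_nsq (bf_prod (bf_F T a τ) m *ᵥ ξ) := by
  refine lt_of_le_of_ne (bf_nsq_nonneg _) fun h0 => ?_
  have h1 := (bf_nsq_eq_zero_iff _).1 h0.symm
  have h2 : bf_ges (bf_Fz T a τ (-1)) 0 m * bf_prod (bf_F T a τ) m = 1 := by
    rw [bf_prod_eq_seg]
    exact bf_ges_mul_seg (fun k => bf_Fz_neg_mul T a τ hτ 1 k) 0 m
  have h3 : ξ = 0 := by
    have := congrArg (fun w => bf_ges (bf_Fz T a τ (-1)) 0 m *ᵥ w) h1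
    simpa [mulVec_mulVec, h2] using this
  rw [h3, bf_nsq_zero] at hξ
  exact lt_irrefl _ hξ

/-- **the trial bound** (eq:initial-trial-norm), unnormalised -/
theorem bf_three_lines {T : ℕ → Finset s} (hT : Monotone T) {a : ℕ → ℝ} (ha : ∀ j, 0 < a j)
    {η : ℝ} (hη : 0 < η) (t : ℕ → ℝ) (ξ : Cfg io → ℂ) (hξ : 0 < bf_nsq ξ)
    (m : ℕ) {B : ℝ}
    (hB : ∀ τ' : bf_Tup io T, (∀ j, τ' j ∈ bf_Den η (t j)) →
      bf_nsq (bf_prod (bf_F T a τ') m *ᵥ ξ) ≤ B)
    (τ : bf_Tup io T) (hτ : ∀ j, τ j ∈ bf_Den η (t j)) :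
    ∑ j ∈ Finset.range m, a j * (bf_ex ξ (emb (T j) (mlog (τ j)))).re ≤
      bf_nsq ξ * Real.log (B / bf_nsq ξ) := by
  obtain ⟨p, hp⟩ : ∃ p, p = bf_nsq ξ := ⟨_, rfl⟩
  rw [← hp] at hξ ⊢
  have hherm : ∀ j, (τ j).IsHermitian := fun j => (hτ j).1
  have hpsd : ∀ j, (τ j).PosSemidef := fun j => bf_lines_den_posSemidef hη.le (hτ j)
  have hBpos : 0 < B :=
    lt_of_lt_of_le (bf_lines_nsq_pos T a τ hherm ξ (hp ▸ hξ) m) (hB τ hτ)
  obtain ⟨f, hf⟩ : ∃ f : ℂ → ℂ, f = fun z : ℂ => bf_ex ξ (bf_prod (bf_Fz T a τ z) m) := ⟨_, rfl⟩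
  have hnice : StripNice f := hf ▸ bf_lines_nice T a τ hherm ξ m
  have hleft : ∀ z : ℂ, z.re = 0 → ‖f z‖ ≤ p := by
    intro z hz
    rw [hf, hp]
    exact bf_lines_left T a τ hherm ξ m hz
  have hright : ∀ z : ℂ, z.re = 1 → ‖f z‖ ≤ Real.sqrt (p * B) := by
    intro z hz
    have hz' : z = 1 + (z.im : ℂ) * Complex.I := by
      apply Complex.ext <;> simp [hz]
    obtain ⟨V, τ', hV, hτ', hprod⟩ := bf_move_unitaries hT a t τ hτ z.im m
    rw [← hz'] at hprod
    have h1 := bf_cauchy ξ (bf_prod (bf_Fz T a τ z) m *ᵥ ξ)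
    rw [hprod, ← mulVec_mulVec, bf_nsq_isometry hV, mulVec_mulVec, ← hprod, ← hp] at h1
    apply Real.le_sqrt_of_sq_le
    rw [hf]
    exact h1.trans (mul_le_mul_of_nonneg_left (hB τ' hτ') hξ.le)
  obtain ⟨c, hc⟩ : ∃ c, c = Real.log (B / p) / 2 := ⟨_, rfl⟩
  have hinterp : ∀ x : ℝ, p ^ (1 - x) * Real.sqrt (p * B) ^ x = p * Real.exp (c * x) := by
    intro x
    rw [Real.rpow_def_of_pos hξ, Real.rpow_def_of_pos (Real.sqrt_pos.2 (mul_pos hξ hBpos)),
      Real.log_sqrt (mul_pos hξ hBpos).le, Real.log_mul hξ.ne' hBpos.ne', ← Real.exp_add, hc,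
      Real.log_div hBpos.ne' hξ.ne']
    conv_rhs => rw [← Real.exp_log hξ, ← Real.exp_add, Real.exp_log hξ]
    congr 1
    ring
  have hbound : ∀ x : ℝ, 0 ≤ x → x < 1 → (f (x : ℂ)).re ≤ p * Real.exp (c * x) := by
    intro x hx0 hx1
    have h := hnice.three_lines (l := 0) (u := 1) zero_lt_one hleft hright (z := (x : ℂ))
      (by simpa using hx0) (by simpa using hx1.le)
    simp only [Complex.ofReal_re, sub_zero, div_one] at h
    rw [hinterp] at h
    exact (Complex.re_le_norm _).trans h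
  have hf0 : (f ((0 : ℝ) : ℂ)).re = p := by
    rw [hf, Complex.ofReal_zero]
    simp only
    rw [bf_lines_prod_zero T a τ hherm m, bf_ex_one, ← hp, Complex.ofReal_re]
  have hd1 : HasDerivAt (fun x : ℝ => (f (x : ℂ)).re)
      (∑ j ∈ Finset.range m, a j / 2 * (bf_ex ξ (emb (T j) (mlog (τ j)))).re) 0 := by
    rw [hf]; exact bf_lines_deriv T a τ hpsd ξ m
  have hd2 : HasDerivAt (fun x : ℝ => p * Real.exp (c * x)) (p * c) 0 := by
    have h := (((hasDerivAt_id (0 : ℝ)).const_mul c).exp).const_mul p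
    simpa using h
  have hmain := bf_deriv_nonpos (g := fun x : ℝ => (f (x : ℂ)).re - p * Real.exp (c * x))
    zero_lt_one (hd1.sub hd2) (by
      intro x hx0 hx1
      rw [hf0]
      have := hbound x hx0 hx1
      simp only [mul_zero, Real.exp_zero, mul_one, sub_self]
      linarith)
  have hsum : ∑ j ∈ Finset.range m, a j * (bf_ex ξ (emb (T j) (mlog (τ j)))).re =
      2 * ∑ j ∈ Finset.range m, a j / 2 * (bf_ex ξ (emb (T j) (mlog (τ j)))).re := by
    rw [Finset.mul_sum]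
    refine Finset.sum_congr rfl fun j _ => by ring
  rw [hsum]
  rw [hc] at hmain
  linarith

end Claimed.Agent.R296
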