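import Claimed.Agent.R296.LocEmb

/-!
# Row 296: locality calculus, part B (conditional expectation `cexp`: algebraic properties)

`cexp A` : the normalised conditional expectation onto `A` (subtype-free definition,
bridge `cexp_eq_emb_ptr`), linearity, tower property, bimodule property, integrals.
-/

set_option autoImplicit false
set_option linter.unusedSectionVars false

namespace Claimed.Agent.R296

open Matrix
open scoped MatrixOrder Matrix.Norms.L2Operator ComplexOrder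

variable {s : Type} [DecidableEq s] [Fintype s] {io : s → Type}
  [∀ x, Fintype (io x)] [∀ x, DecidableEq (io x)]

/-! ### conditional expectation -/

/-- normalised conditional expectation onto `A`:
`(cexp A M) σ τ = [σ = τ off A] · 𝔼_ρ M (σ_A ρ_{Aᶜ}) (τ_A ρ_{Aᶜ})` -/
noncomputable def cexp (A : Finset s) (M : Matrix (Cfg io) (Cfg io) ℂ) :
    Matrix (Cfg io) (Cfg io) ℂ :=
  Matrix.of fun σ τ => if ∀ x, x ∉ A → σ x = τ x then
    (Fintype.card (Cfg io) : ℂ)⁻¹ * ∑ ρ : Cfg io, M (cmix A σ ρ) (cmix A τ ρ) else 0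

theorem cmix_cglue (A : Finset s) (σ : Cfg io) (a : CfgOn io A) (b : CfgOff io A) :
    cmix A σ (cglue A a b) = cglue A (crOn A σ) b := by
  funext x
  by_cases hx : x ∈ A <;> simp [cmix, cglue, crOn, hx]

theorem card_cfg_eq (A : Finset s) :
    Fintype.card (Cfg io) = Fintype.card (CfgOn io A) * Fintype.card (CfgOff io A) := by
  rw [← Fintype.card_prod]
  exact Fintype.card_congr (cfgSplit A)

theorem cexp_eq_emb_ptr (A : Finset s) (M : Matrix (Cfg io) (Cfg io) ℂ) :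
    cexp A M = (Fintype.card (CfgOff io A) : ℂ)⁻¹ • emb A (ptr A M) := by
  ext σ τ
  simp only [cexp, emb, ptr, Matrix.of_apply, Matrix.smul_apply, smul_eq_mul, br_crOff_eq_iff]
  by_cases h : ∀ x, x ∉ A → σ x = τ x
  · rw [if_pos h, if_pos h, sp_sum_cfg A]
    simp only [cmix_cglue, Finset.sum_const, Finset.card_univ, nsmul_eq_mul]
    have h1 : (Fintype.card (CfgOn io A) : ℂ) ≠ 0 := by
      have : Nonempty (CfgOn io A) := ⟨crOn A σ⟩
      exact_mod_cast Fintype.card_ne_zero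
    rw [card_cfg_eq A, Nat.cast_mul, mul_inv, ← mul_assoc, mul_assoc _ _ (Fintype.card _ : ℂ),
      mul_comm _ (Fintype.card (CfgOn io A) : ℂ), ← mul_assoc, inv_mul_cancel₀ h1, one_mul]
  · rw [if_neg h, if_neg h, mul_zero]

theorem suppIn_cexp (A : Finset s) (M : Matrix (Cfg io) (Cfg io) ℂ) : SuppIn A (cexp A M) := by
  rw [cexp_eq_emb_ptr]
  exact SuppIn.smul _ ⟨_, rfl⟩

theorem cexp_add (A : Finset s) (M N : Matrix (Cfg io) (Cfg io) ℂ) :
    cexp A (M + N) = cexp A M + cexp A N := by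
  ext σ τ
  simp only [cexp, Matrix.of_apply, Matrix.add_apply, Finset.sum_add_distrib, mul_add]
  split_ifs <;> simp

theorem cexp_smul (A : Finset s) (c : ℂ) (M : Matrix (Cfg io) (Cfg io) ℂ) :
    cexp A (c • M) = c • cexp A M := by
  ext σ τ
  simp only [cexp, Matrix.of_apply, Matrix.smul_apply, smul_eq_mul, ← Finset.mul_sum]
  split_ifs
  · ring
  · simp

/-- `cexp A` as a linear map -/
noncomputable def cexpL (A : Finset s) :
    Matrix (Cfg io) (Cfg io) ℂ →ₗ[ℂ] Matrix (Cfg io) (Cfg io) ℂ where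
  toFun := cexp A
  map_add' := cexp_add A
  map_smul' := cexp_smul A

theorem cexp_sub (A : Finset s) (M N : Matrix (Cfg io) (Cfg io) ℂ) :
    cexp A (M - N) = cexp A M - cexp A N := map_sub (cexpL A) M N

theorem cexp_sum {ι : Type*} (A : Finset s) (S : Finset ι)
    (M : ι → Matrix (Cfg io) (Cfg io) ℂ) : cexp A (∑ i ∈ S, M i) = ∑ i ∈ S, cexp A (M i) :=
  map_sum (cexpL A) M S

theorem cexp_conjTranspose (A : Finset s) (M : Matrix (Cfg io) (Cfg io) ℂ) :
    cexp A Mᴴ = (cexp A M)ᴴ := by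
  ext σ τ
  simp only [cexp, Matrix.of_apply, conjTranspose_apply]
  by_cases h : ∀ x, x ∉ A → σ x = τ x
  · rw [if_pos h, if_pos fun x hx => (h x hx).symm, star_mul', star_sum, star_inv₀]
    simp
  · rw [if_neg h, if_neg fun h' => h fun x hx => (h' x hx).symm, star_zero]

theorem cexp_of_suppIn [∀ x, Nonempty (io x)] {A : Finset s} {M : Matrix (Cfg io) (Cfg io) ℂ}
    (hM : SuppIn A M) : cexp A M = M := by
  obtain ⟨K, rfl⟩ := hM
  have h2 : (Fintype.card (CfgOff io A) : ℂ) ≠ 0 := by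
    exact_mod_cast Fintype.card_ne_zero
  rw [cexp_eq_emb_ptr, ptr_emb, emb_smul, smul_smul, inv_mul_cancel₀ h2, one_smul]

theorem cexp_one [∀ x, Nonempty (io x)] (A : Finset s) :
    cexp A (1 : Matrix (Cfg io) (Cfg io) ℂ) = 1 := cexp_of_suppIn (SuppIn.one A)

theorem cexp_univ [∀ x, Nonempty (io x)] (M : Matrix (Cfg io) (Cfg io) ℂ) :
    cexp Finset.univ M = M := cexp_of_suppIn (SuppIn.univ M)

theorem cmix_cmix_swap (B : Finset s) (ρ ρ' : Cfg io) :
    cmix B (cmix B ρ ρ') (cmix B ρ' ρ) = ρ := by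
  funext x
  by_cases hx : x ∈ B <;> simp [cmix, hx]

/-- the involution `(ρ, ρ') ↦ (ρ_B ρ'_{Bᶜ}, ρ'_B ρ_{Bᶜ})` -/
def cmixSwap (B : Finset s) : Cfg io × Cfg io ≃ Cfg io × Cfg io where
  toFun p := (cmix B p.1 p.2, cmix B p.2 p.1)
  invFun p := (cmix B p.1 p.2, cmix B p.2 p.1)
  left_inv p := Prod.ext (cmix_cmix_swap B p.1 p.2) (cmix_cmix_swap B p.2 p.1)
  right_inv p := Prod.ext (cmix_cmix_swap B p.1 p.2) (cmix_cmix_swap B p.2 p.1)

theorem sum_sum_cmix (B : Finset s) (F : Cfg io → ℂ) :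
    ∑ ρ : Cfg io, ∑ ρ' : Cfg io, F (cmix B ρ ρ') = (Fintype.card (Cfg io) : ℂ) * ∑ υ, F υ := by
  rw [← Fintype.sum_prod_type' (f := fun ρ ρ' => F (cmix B ρ ρ'))]
  rw [Fintype.sum_equiv (cmixSwap B) (fun p : Cfg io × Cfg io => F (cmix B p.1 p.2))
    (fun p => F p.1) (fun p => rfl)]
  rw [Fintype.sum_prod_type]
  simp only [Finset.sum_const, Finset.card_univ, nsmul_eq_mul, Finset.mul_sum]

theorem cmix_cmix_inter (A B : Finset s) (σ ρ ρ' : Cfg io) :
    cmix B (cmix A σ ρ) ρ' = cmix (A ∩ B) σ (cmix B ρ ρ') := by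
  funext x
  by_cases hA : x ∈ A <;> by_cases hB : x ∈ B <;> simp [cmix, hA, hB]

/-- tower property -/
theorem cexp_cexp [∀ x, Nonempty (io x)] (A B : Finset s) (M : Matrix (Cfg io) (Cfg io) ℂ) :
    cexp A (cexp B M) = cexp (A ∩ B) M := by
  ext σ τ
  have hc : (Fintype.card (Cfg io) : ℂ) ≠ 0 := by
    exact_mod_cast Fintype.card_ne_zero
  simp only [cexp, Matrix.of_apply]
  by_cases h : ∀ x, x ∉ A ∩ B → σ x = τ x
  · have h1 : ∀ x, x ∉ A → σ x = τ x := fun x hx => h x fun hx' => hx (Finset.mem_inter.1 hx').1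
    have h2 : ∀ ρ : Cfg io, ∀ x, x ∉ B → cmix A σ ρ x = cmix A τ ρ x := by
      intro ρ x hx
      by_cases hA : x ∈ A
      · simp only [cmix, if_pos hA]
        exact h x fun hx' => hx (Finset.mem_inter.1 hx').2
      · simp only [cmix, if_neg hA]
    rw [if_pos h, if_pos h1]
    have h3 : ∀ ρ : Cfg io, (if ∀ x, x ∉ B → cmix A σ ρ x = cmix A τ ρ x then
        (Fintype.card (Cfg io) : ℂ)⁻¹ *
          ∑ ρ' : Cfg io, M (cmix B (cmix A σ ρ) ρ') (cmix B (cmix A τ ρ) ρ') else 0)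
        = (Fintype.card (Cfg io) : ℂ)⁻¹ *
          ∑ ρ' : Cfg io, M (cmix (A ∩ B) σ (cmix B ρ ρ')) (cmix (A ∩ B) τ (cmix B ρ ρ')) := by
      intro ρ
      rw [if_pos (h2 ρ)]
      simp only [cmix_cmix_inter]
    rw [Finset.sum_congr rfl fun ρ _ => h3 ρ, ← Finset.mul_sum,
      sum_sum_cmix B (fun υ => M (cmix (A ∩ B) σ υ) (cmix (A ∩ B) τ υ)), ← mul_assoc, ← mul_assoc,
      mul_assoc _ _ (Fintype.card (Cfg io) : ℂ), inv_mul_cancel₀ hc, mul_one]
  · rw [if_neg h]
    by_cases h1 : ∀ x, x ∉ A → σ x = τ x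
    · rw [if_pos h1]
      have h2 : ∀ ρ : Cfg io, ¬ ∀ x, x ∉ B → cmix A σ ρ x = cmix A τ ρ x := by
        intro ρ h2
        apply h
        intro x hx
        by_cases hA : x ∈ A
        · have hB : x ∉ B := fun hB => hx (Finset.mem_inter.2 ⟨hA, hB⟩)
          have := h2 x hB
          simpa only [cmix, if_pos hA] using this
        · exact h1 x hA
      simp only [h2, if_false, Finset.sum_const_zero, mul_zero]
    · rw [if_neg h1]

theorem ptr_conjTranspose' (A : Finset s) (M : Matrix (Cfg io) (Cfg io) ℂ) :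
    ptr A Mᴴ = (ptr A M)ᴴ := by
  ext a a'
  simp only [ptr, Matrix.of_apply, conjTranspose_apply, star_sum]

theorem emb_mul_apply (A : Finset s) (K : Matrix (CfgOn io A) (CfgOn io A) ℂ)
    (M : Matrix (Cfg io) (Cfg io) ℂ) (σ τ : Cfg io) :
    (emb A K * M) σ τ = ∑ a', K (crOn A σ) a' * M (cglue A a' (crOff A σ)) τ :=
  sp_emb_mulVec A K (fun υ => M υ τ) σ

theorem ptr_emb_mul (A : Finset s) (K : Matrix (CfgOn io A) (CfgOn io A) ℂ)
    (M : Matrix (Cfg io) (Cfg io) ℂ) : ptr A (emb A K * M) = K * ptr A M := by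
  ext a a''
  simp only [ptr, Matrix.of_apply, emb_mul_apply, sp_crOn_cglue, sp_crOff_cglue]
  rw [Finset.sum_comm, Matrix.mul_apply]
  simp only [Matrix.of_apply, Finset.mul_sum]

theorem ptr_mul_emb (A : Finset s) (K : Matrix (CfgOn io A) (CfgOn io A) ℂ)
    (M : Matrix (Cfg io) (Cfg io) ℂ) : ptr A (M * emb A K) = ptr A M * K := by
  have h := ptr_emb_mul A Kᴴ Mᴴ
  rw [emb_conjTranspose, ← conjTranspose_mul, ptr_conjTranspose', ptr_conjTranspose',
    ← conjTranspose_mul] at h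
  exact conjTranspose_injective h

/-- bimodule property -/
theorem cexp_mul_mul [∀ x, Nonempty (io x)] {A : Finset s} {L N : Matrix (Cfg io) (Cfg io) ℂ}
    (hL : SuppIn A L) (hN : SuppIn A N) (M : Matrix (Cfg io) (Cfg io) ℂ) :
    cexp A (L * M * N) = L * cexp A M * N := by
  obtain ⟨K, rfl⟩ := hL
  obtain ⟨K', rfl⟩ := hN
  rw [cexp_eq_emb_ptr, cexp_eq_emb_ptr, ptr_mul_emb, ptr_emb_mul, emb_mul, emb_mul,
    Matrix.mul_smul, Matrix.smul_mul]

/-- an operator supported off `A` is sent to a scalar; more generally `cexp A` maps operators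
supported in `B` to operators supported in `A ∩ B` -/
theorem SuppIn.cexp [∀ x, Nonempty (io x)] {B : Finset s} {M : Matrix (Cfg io) (Cfg io) ℂ}
    (hM : SuppIn B M) (A : Finset s) : SuppIn (A ∩ B) (cexp A M) := by
  rw [← cexp_of_suppIn hM, cexp_cexp]
  exact suppIn_cexp _ _

/-- `cexp A` as a continuous linear map (for integrals) -/
noncomputable def cexpCLM (A : Finset s) :
    Matrix (Cfg io) (Cfg io) ℂ →L[ℂ] Matrix (Cfg io) (Cfg io) ℂ :=
  LinearMap.toContinuousLinearMap (cexpL A)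

theorem cexp_integral {X : Type*} [MeasurableSpace X] (μ : MeasureTheory.Measure X)
    (A : Finset s) {F : X → Matrix (Cfg io) (Cfg io) ℂ} (hF : MeasureTheory.Integrable F μ) :
    cexp A (∫ x, F x ∂μ) = ∫ x, cexp A (F x) ∂μ := by
  exact ((cexpCLM A).integral_comp_comm hF).symm

theorem SuppIn.integral [∀ x, Nonempty (io x)] {X : Type*} [MeasurableSpace X]
    (μ : MeasureTheory.Measure X) {A : Finset s} {F : X → Matrix (Cfg io) (Cfg io) ℂ}
    (hF : ∀ x, SuppIn A (F x)) : SuppIn A (∫ x, F x ∂μ) := by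
  by_cases hI : MeasureTheory.Integrable F μ
  · have h : ∫ x, F x ∂μ = Claimed.Agent.R296.cexp A (∫ x, F x ∂μ) := by
      rw [cexp_integral μ A hI]
      exact MeasureTheory.integral_congr_ae (Filter.Eventually.of_forall fun x =>
        (cexp_of_suppIn (hF x)).symm)
    rw [h]
    exact suppIn_cexp _ _
  · rw [MeasureTheory.integral_undef hI]
    exact SuppIn.zero A

end Claimed.Agent.R296
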