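import Claimed.Agent.R296.BufDiag
import Claimed.Agent.R296.BufBip
import Claimed.Agent.R296.EntSite
import Claimed.Agent.R296.LocCexp
import Claimed.Agent.R296.BufBasic

/-!
# Row 296, P1 Lemma 2.2: Schmidt pinning (prefix `bf_`)

For a rank one projection `P` on `X ⊆ Y_j` and densities `τ_j ≥ η` on `T_j = Y_j \ X` with
`Tr τ_j = t_j = 1 - η (d_X - 1) d_{T_j}`, the operator `P ⊗ τ_j + η (1 - P) ⊗ 1` is a feasible
density on `Y_j`, its powers are `P ⊗ τ_j^z + η^z (1 - P) ⊗ 1`, and the filtered vector dominates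
the filtered pinned vector.
Owner: helper101.
-/

set_option autoImplicit false
set_option linter.unusedSectionVars false
set_option linter.unusedVariables false

namespace Claimed.Agent.R296

open Matrix
open scoped MatrixOrder Matrix.Norms.L2Operator ComplexOrder

variable {s : Type} [DecidableEq s] [Fintype s] {io : s → Type}
  [∀ x, Fintype (io x)] [∀ x, DecidableEq (io x)]

/-- the trace normalisation of the trial densities -/
noncomputable def bf_t (io : s → Type) [∀ x, Fintype (io x)] [∀ x, DecidableEq (io x)]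
    (X : Finset s) (Y : ℕ → Finset s) (η : ℝ) (j : ℕ) : ℝ :=
  1 - η * ((Fintype.card (CfgOn io X) : ℝ) - 1) * (Fintype.card (CfgOn io (Y j \ X)) : ℝ)

/-- functional calculus of `P M + η (1 - P)` for a projection `P` commuting with `M` -/
theorem bf_mfun_pinned {n : Type} [Fintype n] [DecidableEq n] {P M : Matrix n n ℂ}
    (hP : P.IsHermitian) (hPP : P * P = P) (hM : M.IsHermitian) (hPM : Commute P M) (η : ℝ)
    (f : ℝ → ℂ) :
    mfun f (P * M + (η : ℂ) • (1 - P)) = P * mfun f M + f η • (1 - P) := by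
  obtain ⟨U, p, m, hU, hU', hPd, hMd⟩ := bf_simul_diag P M hP hM hPM
  have hmul : ∀ D1 D2 : Matrix n n ℂ, U * D1 * Uᴴ * (U * D2 * Uᴴ) = U * (D1 * D2) * Uᴴ := by
    intro D1 D2
    calc U * D1 * Uᴴ * (U * D2 * Uᴴ) = U * D1 * (Uᴴ * U) * D2 * Uᴴ := by
          simp only [Matrix.mul_assoc]
      _ = _ := by rw [hU]; simp only [Matrix.mul_assoc, Matrix.mul_one]
  have hinj : ∀ D1 D2 : Matrix n n ℂ, U * D1 * Uᴴ = U * D2 * Uᴴ → D1 = D2 := by
    intro D1 D2 h
    calc D1 = (Uᴴ * U) * D1 * (Uᴴ * U) := by rw [hU, Matrix.one_mul, Matrix.mul_one]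
      _ = Uᴴ * (U * D1 * Uᴴ) * U := by simp only [Matrix.mul_assoc]
      _ = Uᴴ * (U * D2 * Uᴴ) * U := by rw [h]
      _ = (Uᴴ * U) * D2 * (Uᴴ * U) := by simp only [Matrix.mul_assoc]
      _ = D2 := by rw [hU, Matrix.one_mul, Matrix.mul_one]
  have hp : ∀ i, p i = 0 ∨ p i = 1 := by
    intro i
    have h1 := hPP
    rw [hPd, hmul, diagonal_mul_diagonal] at h1
    have h2 := congrFun (diagonal_injective (hinj _ _ h1)) i
    have h3 : p i * p i = p i := by exact_mod_cast h2
    have h4 : p i * (p i - 1) = 0 := by linarith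
    rcases mul_eq_zero.1 h4 with h | h
    · exact Or.inl h
    · exact Or.inr (by linarith)
  have h1 : (1 : Matrix n n ℂ) = U * 1 * Uᴴ := by rw [Matrix.mul_one, hU']
  have hX : P * M + (η : ℂ) • (1 - P) =
      U * diagonal (fun i => ((p i * m i + η * (1 - p i) : ℝ) : ℂ)) * Uᴴ := by
    conv_lhs => rw [hPd, hMd, hmul, diagonal_mul_diagonal, h1, ← Matrix.sub_mul, ← Matrix.mul_sub,
      ← Matrix.smul_mul, ← Matrix.mul_smul, ← Matrix.add_mul, ← Matrix.mul_add, ← diagonal_one,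
      diagonal_sub, ← diagonal_smul, diagonal_add]
    congr 3
    funext i
    simp
  have hfM : mfun f M = U * diagonal (fun i => f (m i)) * Uᴴ := by
    rw [hMd]; exact mfun_of_decomp f U hU hU' m
  rw [hX, mfun_of_decomp f U hU hU', hfM]
  conv_rhs => rw [hPd, hmul, diagonal_mul_diagonal, h1, ← Matrix.sub_mul, ← Matrix.mul_sub,
      ← Matrix.smul_mul, ← Matrix.mul_smul, ← Matrix.add_mul, ← Matrix.mul_add, ← diagonal_one,
      diagonal_sub, ← diagonal_smul, diagonal_add]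
  congr 3
  funext i
  rcases hp i with h | h <;> simp [h]

theorem bf_trace_emb (A : Finset s) (K : Matrix (CfgOn io A) (CfgOn io A) ℂ) :
    (emb A K).trace = K.trace * (Fintype.card (CfgOff io A) : ℂ) := by
  rw [emb_eq_embE, trace_embE, mul_comm]

theorem bf_card_on (A : Finset s) :
    Fintype.card (CfgOn io A) = ∏ x ∈ A, Fintype.card (io x) := by
  rw [Fintype.card_pi]
  exact Finset.prod_coe_sort A fun x => Fintype.card (io x)

theorem bf_card_union {A B : Finset s} (hAB : Disjoint A B) :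
    Fintype.card (CfgOn io (A ∪ B)) = Fintype.card (CfgOn io A) * Fintype.card (CfgOn io B) := by
  rw [bf_card_on, bf_card_on, bf_card_on, Finset.prod_union hAB]

theorem bf_card_on_off (A : Finset s) :
    Fintype.card (Cfg io) = Fintype.card (CfgOn io A) * Fintype.card (CfgOff io A) :=
  card_cfg_eq A

/-- diagonal entries of a product of operators with disjoint supports -/
theorem bf_diag_disjoint {A B : Finset s} (hAB : Disjoint A B)
    (K : Matrix (CfgOn io A) (CfgOn io A) ℂ) (K' : Matrix (CfgOn io B) (CfgOn io B) ℂ)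
    (σ : Cfg io) :
    (emb A K * emb B K') σ σ = K (crOn A σ) (crOn A σ) * K' (crOn B σ) (crOn B σ) := by
  rw [emb_mul_apply, Finset.sum_eq_single (crOn A σ)]
  · have h : cglue A (crOn A σ) (crOff A σ) = σ := (cfgSplit A).left_inv σ
    rw [h]
    simp [emb]
  · intro a _ ha
    have h : crOff B (cglue A a (crOff A σ)) ≠ crOff B σ := by
      intro h
      apply ha
      rw [br_crOff_eq_iff] at h
      funext x
      have hx : (x : s) ∉ B := fun hB => Finset.disjoint_left.mp hAB x.2 hB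
      have := h x hx
      simpa [cglue, crOn, x.2] using this
    simp [emb, h]
  · intro h; exact absurd (Finset.mem_univ _) h

/-- trace of a product of operators with disjoint supports -/
theorem bf_trace_disjoint [∀ x, Nonempty (io x)] {A B : Finset s} (hAB : Disjoint A B)
    (K : Matrix (CfgOn io A) (CfgOn io A) ℂ) (K' : Matrix (CfgOn io B) (CfgOn io B) ℂ) :
    (emb A K * emb B K').trace =
      K.trace * K'.trace * (Fintype.card (CfgOff io (A ∪ B)) : ℂ) := by
  simp only [Matrix.trace, Matrix.diag_apply, bf_diag_disjoint hAB]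
  rw [← (cfgSplit2 A B hAB).symm.sum_comp, Fintype.sum_prod_type, Fintype.sum_prod_type]
  have h : ∀ (a : CfgOn io A) (b : CfgOn io B) (c : CfgOff io (A ∪ B)),
      crOn A ((cfgSplit2 A B hAB).symm ((a, b), c)) = a ∧
      crOn B ((cfgSplit2 A B hAB).symm ((a, b), c)) = b := by
    intro a b c
    have := (cfgSplit2 A B hAB).right_inv ((a, b), c)
    have h1 := congrArg (fun p => p.1.1) this
    have h2 := congrArg (fun p => p.1.2) this
    exact ⟨h1, h2⟩
  simp only [(h _ _ _).1, (h _ _ _).2, Finset.sum_const, Finset.card_univ, nsmul_eq_mul]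
  rw [Finset.sum_mul_sum, Finset.sum_mul]
  refine Finset.sum_congr rfl fun a _ => ?_
  rw [Finset.sum_mul]
  refine Finset.sum_congr rfl fun b _ => ?_
  ring

theorem bf_emb_sub_smul (A : Finset s) (K : Matrix (CfgOn io A) (CfgOn io A) ℂ) (c : ℂ) :
    emb A K - c • (1 : Matrix (Cfg io) (Cfg io) ℂ) = emb A (K - c • 1) := by
  have h := map_sub (embHom A) K (c • (1 : Matrix (CfgOn io A) (CfgOn io A) ℂ))
  simp only [embHom_apply, emb_smul, emb_one] at h
  exact h.symm

/-- a global operator supported in `A` with the global properties of a density is `emb A` of an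
element of `bf_Den` -/
theorem bf_den_of_global [∀ x, Nonempty (io x)] (A : Finset s) {S : Matrix (Cfg io) (Cfg io) ℂ}
    (hS : SuppIn A S) (hH : S.IsHermitian) {η t : ℝ}
    (hpos : (S - (η : ℂ) • (1 : Matrix (Cfg io) (Cfg io) ℂ)).PosSemidef)
    (htr : S.trace = (t : ℂ) * (Fintype.card (CfgOff io A) : ℂ)) :
    ∃ σ ∈ (bf_Den η t : Set (Matrix (CfgOn io A) (CfgOn io A) ℂ)), S = emb A σ := by
  obtain ⟨σ, rfl⟩ := hS
  have hc0 : 0 < Fintype.card (CfgOff io A) := Fintype.card_pos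
  have hc : (Fintype.card (CfgOff io A) : ℂ) ≠ 0 := by exact_mod_cast hc0.ne'
  refine ⟨σ, ⟨?_, ?_, ?_⟩, rfl⟩
  · apply emb_injective A
    rw [emb_conjTranspose]
    exact hH
  · rw [bf_emb_sub_smul] at hpos
    have h2 := ptrE_posSemidef (cfgSplit A) hpos
    rw [emb_eq_embE, ptrE_embE] at h2
    have h3 : (0 : ℂ) ≤ (Fintype.card (CfgOff io A) : ℂ)⁻¹ := by
      rw [← Complex.ofReal_natCast, ← Complex.ofReal_inv, Complex.zero_le_real]
      positivity
    have h4 := h2.smul h3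
    rwa [smul_smul, inv_mul_cancel₀ hc, one_smul] at h4
  · rw [bf_trace_emb] at htr
    exact mul_right_cancel₀ hc htr

/-- the global pinned operator has all the properties of a density on `Y` -/
theorem bf_pin_global [∀ x, Nonempty (io x)] {X Y : Finset s} (hX : X ⊆ Y)
    {P : Matrix (CfgOn io X) (CfgOn io X) ℂ} (hP : P.IsHermitian) (hPP : P * P = P)
    (hP1 : P.trace = 1) {η : ℝ} {τ : Matrix (CfgOn io (Y \ X)) (CfgOn io (Y \ X)) ℂ}
    (hτ : τ ∈ bf_Den η (1 - η * ((Fintype.card (CfgOn io X) : ℝ) - 1) *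
      (Fintype.card (CfgOn io (Y \ X)) : ℝ))) :
    ∃ σ ∈ (bf_Den η 1 : Set (Matrix (CfgOn io Y) (CfgOn io Y) ℂ)),
      emb X P * emb (Y \ X) τ + (η : ℂ) • (1 - emb X P) = emb Y σ := by
  obtain ⟨hτH, hτP, hτT⟩ := hτ
  have hP' : (emb X P).IsHermitian := by rw [IsHermitian, ← emb_conjTranspose, hP.eq]
  have hPP' : emb X P * emb X P = emb X P := by rw [← emb_mul, hPP]
  have hM : (emb (Y \ X) τ).IsHermitian := by rw [IsHermitian, ← emb_conjTranspose, hτH.eq]
  have hdis : Disjoint X (Y \ X) := Finset.disjoint_sdiff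
  have hcomm : emb X P * emb (Y \ X) τ = emb (Y \ X) τ * emb X P :=
    (SuppIn.commute hdis ⟨P, rfl⟩ ⟨τ, rfl⟩).eq
  have hsP : SuppIn Y (emb X P) := SuppIn.mono hX ⟨P, rfl⟩
  have hsM : SuppIn Y (emb (Y \ X) τ) := SuppIn.mono Finset.sdiff_subset ⟨τ, rfl⟩
  refine bf_den_of_global Y ((hsP.mul hsM).add (((SuppIn.one Y).sub hsP).smul _)) ?_ ?_ ?_
  · rw [IsHermitian, conjTranspose_add, conjTranspose_mul, conjTranspose_smul, conjTranspose_sub,
      conjTranspose_one, hP'.eq, hM.eq, ← hcomm]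
    simp
  · have h1 : emb X P * emb (Y \ X) τ + (η : ℂ) • (1 - emb X P) - (η : ℂ) • 1 =
        (emb X P)ᴴ * (emb (Y \ X) τ - (η : ℂ) • 1) * emb X P := by
      rw [hP'.eq, Matrix.mul_sub, Matrix.sub_mul, Matrix.mul_smul, Matrix.mul_one, Matrix.smul_mul,
        hPP', Matrix.mul_assoc, ← hcomm, ← Matrix.mul_assoc, hPP', smul_sub]
      abel
    rw [h1]
    apply PosSemidef.conjTranspose_mul_mul_same
    rw [bf_emb_sub_smul, emb_eq_embE]
    exact embE_posSemidef _ hτP
  · have hu : X ∪ Y \ X = Y := Finset.union_sdiff_of_subset hX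
    have hdX : 0 < Fintype.card (CfgOn io X) := Fintype.card_pos
    have e1 : Fintype.card (CfgOn io Y) =
        Fintype.card (CfgOn io X) * Fintype.card (CfgOn io (Y \ X)) := by
      rw [← bf_card_union hdis, hu]
    have e2 := bf_card_on_off (io := io) Y
    have e3 := bf_card_on_off (io := io) X
    have e4 : Fintype.card (CfgOff io X) =
        Fintype.card (CfgOn io (Y \ X)) * Fintype.card (CfgOff io Y) := by
      apply Nat.eq_of_mul_eq_mul_left hdX
      rw [← e3, e2, e1, Nat.mul_assoc]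
    rw [trace_add, trace_smul, trace_sub, trace_one, bf_trace_disjoint hdis, bf_trace_emb, hP1, hτT,
      hu, e2, e1, e4]
    push_cast
    ring

/-- the pinned tuple -/
theorem bf_pin [∀ x, Nonempty (io x)] (X : Finset s) (Y : ℕ → Finset s) (hX : ∀ j, X ⊆ Y j)
    {P : Matrix (CfgOn io X) (CfgOn io X) ℂ} (hP : P.IsHermitian) (hPP : P * P = P)
    (hP1 : P.trace = 1) {η : ℝ} (hη : 0 < η) (τ : bf_Tup io (fun j => Y j \ X))
    (hτ : ∀ j, τ j ∈ bf_Den η (bf_t io X Y η j)) :
    ∃ σ : bf_Tup io Y, (∀ j, σ j ∈ bf_Den η 1) ∧ ∀ j z,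
      emb (Y j) (hpow (σ j) z) =
        emb X P * emb (Y j \ X) (hpow (τ j) z) + hpowS z η • (1 - emb X P) := by
  have h := fun j => bf_pin_global (hX j) hP hPP hP1 (hτ j)
  choose σ hσ hσe using h
  refine ⟨σ, hσ, fun j z => ?_⟩
  have hP' : (emb X P).IsHermitian := by rw [IsHermitian, ← emb_conjTranspose, hP.eq]
  have hPP' : emb X P * emb X P = emb X P := by rw [← emb_mul, hPP]
  have hM : (emb (Y j \ X) (τ j)).IsHermitian := by
    rw [IsHermitian, ← emb_conjTranspose, (hτ j).1.eq]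
  have hcomm : Commute (emb X P) (emb (Y j \ X) (τ j)) :=
    SuppIn.commute Finset.disjoint_sdiff ⟨P, rfl⟩ ⟨τ j, rfl⟩
  unfold hpow
  rw [emb_eq_embE (Y j), ← mfun_embE _ _ (hσ j).1, ← emb_eq_embE, ← hσe j,
    bf_mfun_pinned hP' hPP' hM hcomm, emb_eq_embE (Y j \ X), emb_eq_embE (Y j \ X),
    mfun_embE _ _ (hτ j).1]

/-- a Hermitian projection is a contraction -/
theorem bf_nsq_proj_le {n : Type} [Fintype n] [DecidableEq n] {Q : Matrix n n ℂ}
    (hQ : Q.IsHermitian) (hQQ : Q * Q = Q) (v : n → ℂ) : bf_nsq (Q *ᵥ v) ≤ bf_nsq v := by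
  have h1 : bf_nsq (Q *ᵥ v) = (bf_ex v Q).re := by rw [bf_nsq_mulVec, hQ.eq, hQQ]
  have h2 : bf_nsq ((1 - Q) *ᵥ v) = (bf_ex v (1 - Q)).re := by
    rw [bf_nsq_mulVec, conjTranspose_sub, conjTranspose_one, hQ.eq]
    congr 2
    rw [Matrix.mul_sub, Matrix.sub_mul, Matrix.sub_mul, hQQ]
    simp
  have h3 := bf_nsq_nonneg ((1 - Q) *ᵥ v)
  rw [h2, bf_ex_sub, bf_ex_one, Complex.sub_re, Complex.ofReal_re, ← h1] at h3
  linarith

/-- the filtered vector dominates the filtered pinned vector -/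
theorem bf_pin_nsq [∀ x, Nonempty (io x)] (X : Finset s) (Y : ℕ → Finset s) (hX : ∀ j, X ⊆ Y j)
    {P : Matrix (CfgOn io X) (CfgOn io X) ℂ} (hP : P.IsHermitian) (hPP : P * P = P)
    (hP1 : P.trace = 1) {η : ℝ} (hη : 0 < η) (τ : bf_Tup io (fun j => Y j \ X))
    (hτ : ∀ j, τ j ∈ bf_Den η (bf_t io X Y η j)) :
    ∃ σ : bf_Tup io Y, (∀ j, σ j ∈ bf_Den η 1) ∧ ∀ (a : ℕ → ℝ) (Ω : Cfg io → ℂ) (m : ℕ),
      bf_nsq (bf_prod (bf_F (fun j => Y j \ X) a τ) m *ᵥ (emb X P *ᵥ Ω)) ≤
        bf_nsq (bf_prod (bf_F Y a σ) m *ᵥ Ω) := by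
  obtain ⟨σ, hσ, hσe⟩ := bf_pin X Y hX hP hPP hP1 hη τ hτ
  refine ⟨σ, hσ, fun a Ω m => ?_⟩
  have hP' : (emb X P).IsHermitian := by rw [IsHermitian, ← emb_conjTranspose, hP.eq]
  have hPP' : emb X P * emb X P = emb X P := by rw [← emb_mul, hPP]
  have hcomm : ∀ j, emb X P * bf_F (fun j => Y j \ X) a τ j =
      bf_F (fun j => Y j \ X) a τ j * emb X P := fun j =>
    (SuppIn.commute Finset.disjoint_sdiff ⟨P, rfl⟩ ⟨_, rfl⟩).eq
  have hPF : ∀ j, emb X P * bf_F Y a σ j = emb X P * bf_F (fun j => Y j \ X) a τ j := by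
    intro j
    have h1 : bf_F Y a σ j = emb X P * bf_F (fun j => Y j \ X) a τ j +
        hpowS (1 * ((a j / 2 : ℝ) : ℂ)) η • (1 - emb X P) := hσe j _
    rw [h1, Matrix.mul_add, ← Matrix.mul_assoc, hPP', Matrix.mul_smul, Matrix.mul_sub,
      Matrix.mul_one, hPP', sub_self, smul_zero, add_zero]
  have hprod : ∀ m, emb X P * bf_prod (bf_F Y a σ) m =
      bf_prod (bf_F (fun j => Y j \ X) a τ) m * emb X P := by
    intro m
    induction m with
    | zero => simp
    | succ m ih =>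
      rw [bf_prod_succ, bf_prod_succ, ← Matrix.mul_assoc, hPF, hcomm, Matrix.mul_assoc, ih,
        Matrix.mul_assoc]
  rw [mulVec_mulVec, ← hprod, ← mulVec_mulVec]
  exact bf_nsq_proj_le hP' hPP' _

end Claimed.Agent.R296
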