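import Claimed.Agent.R296.BufFirst
import Claimed.Agent.R296.BufLines
import Claimed.Agent.R296.BufPin

/-!
# Row 296, P1 Lemma 2.2: the abstract buffer lemma (prefix `bf_`)

`bf_buffer`:  `∑_j a_j (S(Y_j) - S(Y_j \ X)) ≤ S(X) + ∑_j (κ_j + log (4/3) + a_j log (8/3))`,
where `κ_j` is the error of the Renyi bound supplied by lem:tail.
Owner: helper101.
-/

set_option autoImplicit false
set_option linter.unusedSectionVars false
set_option linter.unusedDecidableInType false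
set_option linter.unusedVariables false

namespace Claimed.Agent.R296

open Matrix
open scoped MatrixOrder Matrix.Norms.L2Operator ComplexOrder

section Gen
variable {n : Type} [Fintype n] [DecidableEq n]

noncomputable def bf_trialDen (t : ℝ) (ρ : Matrix n n ℂ) : Matrix n n ℂ :=
  ((t / 2 : ℝ) : ℂ) • (ρ + ((Fintype.card n : ℝ)⁻¹ : ℂ) • (1 : Matrix n n ℂ))

theorem bf_density_diag {ρ : Matrix n n ℂ} (hρ : IsDensity ρ) :
    ∃ (U : Matrix n n ℂ) (r : n → ℝ), Uᴴ * U = 1 ∧ U * Uᴴ = 1 ∧ (∀ i, 0 ≤ r i) ∧ ∑ i, r i = 1 ∧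
      ρ = U * diagonal (fun i => (r i : ℂ)) * Uᴴ := by
  have h : ρ ∈ bf_Den 0 1 := ⟨hρ.1.1, by simpa using hρ.1, by simpa using hρ.2⟩
  exact bf_den_exists_diag h

theorem bf_trialDen_diag {U : Matrix n n ℂ} (hU' : U * Uᴴ = 1) (r : n → ℝ) (t : ℝ) :
    bf_trialDen t (U * diagonal (fun i => (r i : ℂ)) * Uᴴ) =
      U * diagonal (fun i => ((t / 2 * (r i + (Fintype.card n : ℝ)⁻¹) : ℝ) : ℂ)) * Uᴴ := by
  unfold bf_trialDen
  have h1 : (1 : Matrix n n ℂ) = U * diagonal (fun _ => (1 : ℂ)) * Uᴴ := by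
    rw [diagonal_one, Matrix.mul_one, hU']
  conv_lhs => rw [h1]
  rw [← Matrix.smul_mul, ← Matrix.mul_smul, ← Matrix.add_mul, ← Matrix.mul_add,
    ← Matrix.smul_mul, ← Matrix.mul_smul]
  congr 2
  ext i j
  by_cases hij : i = j
  · subst hij; simp [diagonal_apply_eq]
  · simp [diagonal_apply_ne _ hij, Matrix.one_apply_ne hij]

theorem bf_trialDen_mem [Nonempty n] {ρ : Matrix n n ℂ} (hρ : IsDensity ρ) {η t : ℝ}
    (hη : 0 ≤ η) (h : η * (Fintype.card n : ℝ) ≤ t / 2) : bf_trialDen t ρ ∈ bf_Den η t := by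
  obtain ⟨U, r, hU, hU', hr, hr1, rfl⟩ := bf_density_diag hρ
  rw [bf_trialDen_diag hU', bf_den_diag_iff hU hU']
  have hd : (0 : ℝ) < Fintype.card n := by exact_mod_cast Fintype.card_pos
  have ht : 0 ≤ t / 2 := le_trans (mul_nonneg hη hd.le) h
  constructor
  · intro i
    have h1 : η ≤ t / 2 * (Fintype.card n : ℝ)⁻¹ := by
      rw [← div_eq_mul_inv, le_div_iff₀ hd]; exact h
    have h2 : t / 2 * (Fintype.card n : ℝ)⁻¹ ≤ t / 2 * (r i + (Fintype.card n : ℝ)⁻¹) :=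
      mul_le_mul_of_nonneg_left (by linarith [hr i]) ht
    linarith
  · rw [← Finset.mul_sum, Finset.sum_add_distrib, hr1, Finset.sum_const, Finset.card_univ,
      nsmul_eq_mul, mul_inv_cancel₀ hd.ne']
    ring

theorem bf_trialDen_log [Nonempty n] {ρ : Matrix n n ℂ} (hρ : IsDensity ρ) {t : ℝ} (ht : 0 < t) :
    -vnEnt ρ + Real.log (t / 2) ≤ (ρ * mlog (bf_trialDen t ρ)).trace.re := by
  obtain ⟨U, r, hU, hU', hr, hr1, rfl⟩ := bf_density_diag hρ
  have hd : (0 : ℝ) < Fintype.card n := by exact_mod_cast Fintype.card_pos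
  rw [bf_trialDen_diag hU', bf_mlog_diag hU hU', bf_diag_mul hU, bf_diag_trace hU,
    vnEnt_of_diag (U := U) (d := r) (by rw [star_eq_conjTranspose]; exact hU')
      (by rw [star_eq_conjTranspose])]
  have h1 : (∑ i, (r i : ℂ) * (Real.log (t / 2 * (r i + (Fintype.card n : ℝ)⁻¹)) : ℂ)).re =
      ∑ i, r i * Real.log (t / 2 * (r i + (Fintype.card n : ℝ)⁻¹)) := by
    rw [Complex.re_sum]
    refine Finset.sum_congr rfl fun i _ => ?_
    rw [← Complex.ofReal_mul, Complex.ofReal_re]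
  rw [h1]
  have h2 : -∑ i, Real.negMulLog (r i) + Real.log (t / 2) =
      ∑ i, (r i * Real.log (r i) + r i * Real.log (t / 2)) := by
    rw [Finset.sum_add_distrib, ← Finset.sum_mul, hr1, one_mul, ← Finset.sum_neg_distrib]
    congr 1
    refine Finset.sum_congr rfl fun i _ => ?_
    rw [Real.negMulLog]; ring
  rw [h2]
  refine Finset.sum_le_sum fun i _ => ?_
  rcases (hr i).eq_or_lt with h0 | h0
  · rw [← h0]; simp
  · have h3 : Real.log (t / 2 * (r i + (Fintype.card n : ℝ)⁻¹)) =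
        Real.log (t / 2) + Real.log (r i + (Fintype.card n : ℝ)⁻¹) :=
      Real.log_mul (by positivity) (by positivity)
    have h4 : Real.log (r i) ≤ Real.log (r i + (Fintype.card n : ℝ)⁻¹) :=
      Real.log_le_log h0 (by linarith [inv_pos.2 hd])
    rw [h3]
    nlinarith

end Gen

variable {s : Type} [DecidableEq s] [Fintype s] {io : s → Type}
  [∀ x, Fintype (io x)] [∀ x, DecidableEq (io x)]

theorem bf_isDensity_ptr (A : Finset s) {Ω : Cfg io → ℂ} (hΩ : star Ω ⬝ᵥ Ω = 1) :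
    IsDensity (ptr A (pureOp Ω)) := by
  refine ⟨bf_ptr_pure_posSemidef A Ω, ?_⟩
  rw [bf_ptr_pure_trace, bf_nsq, hΩ]; simp

theorem bf_card_on_le [∀ x, Nonempty (io x)] (A : Finset s) :
    (Fintype.card (CfgOn io A) : ℝ) ≤ (Fintype.card (Cfg io) : ℝ) := by
  rw [bf_card_on_off A]
  have h : 1 ≤ Fintype.card (CfgOff io A) := Fintype.card_pos
  push_cast
  have h' : (1 : ℝ) ≤ (Fintype.card (CfgOff io A) : ℝ) := by exact_mod_cast h
  nlinarith [(Nat.cast_nonneg (Fintype.card (CfgOn io A)) : (0 : ℝ) ≤ _)]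

/-- the eigenprojections -/
theorem bf_proj_props {n : Type} [Fintype n] [DecidableEq n] {U : Matrix n n ℂ} (hU : Uᴴ * U = 1)
    (hU' : U * Uᴴ = 1) (i : n) :
    (U * diagonal (Pi.single i (1 : ℂ)) * Uᴴ).IsHermitian ∧
    (U * diagonal (Pi.single i (1 : ℂ)) * Uᴴ) * (U * diagonal (Pi.single i (1 : ℂ)) * Uᴴ) =
      U * diagonal (Pi.single i (1 : ℂ)) * Uᴴ ∧
    (U * diagonal (Pi.single i (1 : ℂ)) * Uᴴ).trace = 1 := by
  refine ⟨?_, ?_, ?_⟩
  · have h : (diagonal (Pi.single i (1 : ℂ)) : Matrix n n ℂ).IsHermitian := by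
      rw [IsHermitian, diagonal_conjTranspose]
      congr 1
      ext l
      by_cases hl : l = i
      · subst hl; simp
      · simp [Pi.single_eq_of_ne hl]
    exact isHermitian_isometry_conj U h
  · rw [bf_diag_mul hU]
    have : (fun l => (Pi.single i (1 : ℂ) : n → ℂ) l * (Pi.single i (1 : ℂ) : n → ℂ) l) =
        Pi.single i (1 : ℂ) := by
      funext l
      by_cases hl : l = i
      · subst hl; simp
      · simp [Pi.single_eq_of_ne hl]
    rw [this]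
  · rw [bf_diag_trace hU]; simp

theorem bf_proj_sum {n : Type} [Fintype n] [DecidableEq n] {U : Matrix n n ℂ}
    (hU' : U * Uᴴ = 1) : ∑ i, U * diagonal (Pi.single i (1 : ℂ)) * Uᴴ = 1 := by
  rw [← Finset.sum_mul, ← Finset.mul_sum]
  have : ∑ i, (diagonal (Pi.single i (1 : ℂ)) : Matrix n n ℂ) = 1 := by
    ext l k
    rw [Matrix.sum_apply]
    by_cases hlk : l = k
    · subst hlk
      simp [diagonal_apply_eq, Pi.single_apply]
    · simp [diagonal_apply_ne _ hlk, Matrix.one_apply_ne hlk]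
  rw [this, Matrix.mul_one, hU']

theorem bf_pinch (X : Finset s) (Ω : Cfg io → ℂ) {U : Matrix (CfgOn io X) (CfgOn io X) ℂ}
    (hU : Uᴴ * U = 1) (hU' : U * Uᴴ = 1) (p : CfgOn io X → ℝ)
    (hρ : ptr X (pureOp Ω) = U * diagonal (fun i => (p i : ℂ)) * Uᴴ) :
    (∀ i, bf_nsq (emb X (U * diagonal (Pi.single i (1 : ℂ)) * Uᴴ) *ᵥ Ω) = p i) ∧
    ∀ (B : Finset s) (_ : Disjoint X B) (K : Matrix (CfgOn io B) (CfgOn io B) ℂ),
      ∑ i, bf_ex (emb X (U * diagonal (Pi.single i (1 : ℂ)) * Uᴴ) *ᵥ Ω) (emb B K) =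
        bf_ex Ω (emb B K) := by
  constructor
  · intro i
    obtain ⟨h1, h2, -⟩ := bf_proj_props hU hU' i
    rw [bf_nsq_mulVec, ← emb_conjTranspose, h1.eq, ← emb_mul, h2, bf_ex_emb, hρ, bf_diag_mul hU,
      bf_diag_trace hU]
    simp [Pi.single_apply]
  · intro B hB K
    have h0 : ∀ i, bf_ex (emb X (U * diagonal (Pi.single i (1 : ℂ)) * Uᴴ) *ᵥ Ω) (emb B K) =
        bf_ex Ω (emb B K * emb X (U * diagonal (Pi.single i (1 : ℂ)) * Uᴴ)) := by
      intro i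
      obtain ⟨h1, h2, -⟩ := bf_proj_props hU hU' i
      have hc : Commute (emb X (U * diagonal (Pi.single i (1 : ℂ)) * Uᴴ)) (emb B K) :=
        SuppIn.commute hB ⟨_, rfl⟩ ⟨_, rfl⟩
      rw [bf_ex_mulVec, ← emb_conjTranspose, h1.eq, hc.eq, Matrix.mul_assoc, ← emb_mul, h2]
    simp only [h0]
    rw [← bf_ex_sum, ← Finset.mul_sum]
    have : ∑ i, emb X (U * diagonal (Pi.single i (1 : ℂ)) * Uᴴ) = 1 := by
      have := map_sum (embHom (io := io) X) (fun i => U * diagonal (Pi.single i (1 : ℂ)) * Uᴴ)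
        Finset.univ
      simp only [embHom_apply] at this
      rw [← this, bf_proj_sum hU', emb_one]
    rw [this, Matrix.mul_one]

/-- products of filters are injective -/
theorem bf_nsq_prod_pos (Y : ℕ → Finset s) (a : ℕ → ℝ) (σ : bf_Tup io Y)
    (hσ : ∀ k, (σ k).IsHermitian) (m : ℕ) {v : Cfg io → ℂ} (hv : 0 < bf_nsq v) :
    0 < bf_nsq (bf_prod (bf_F Y a σ) m *ᵥ v) := by
  rcases (bf_nsq_nonneg (bf_prod (bf_F Y a σ) m *ᵥ v)).eq_or_lt with h | h
  · exfalso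
    have h1 := (bf_nsq_eq_zero_iff _).1 h.symm
    have h2 : v = bf_ges (bf_Fz Y a σ (-1)) 0 m *ᵥ (bf_prod (bf_F Y a σ) m *ᵥ v) := by
      rw [bf_prod_eq_seg, bf_F_eq, mulVec_mulVec,
        bf_ges_mul_seg (fun k => bf_Fz_neg_mul Y a σ hσ 1 k), one_mulVec]
    rw [h1, mulVec_zero] at h2
    rw [h2, bf_nsq_zero] at hv
    exact lt_irrefl _ hv
  · exact h

theorem bf_second [∀ x, Nonempty (io x)] {Ω : Cfg io → ℂ} (hΩ : star Ω ⬝ᵥ Ω = 1)
    {Y : ℕ → Finset s} (hY : Monotone Y) {a : ℕ → ℝ} (ha : ∀ j, 0 < a j) (m : ℕ)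
    (X : Finset s) (hX : ∀ j, X ⊆ Y j) {η : ℝ} (hη : 0 < η)
    (hη' : η * (Fintype.card (Cfg io) : ℝ) ≤ 1 / 4) {B : ℝ}
    (hB : ∀ σ : bf_Tup io Y, (∀ j, σ j ∈ bf_Den η 1) →
      bf_nsq (bf_prod (bf_F Y a σ) m *ᵥ Ω) ≤ B) :
    -∑ j ∈ Finset.range m, a j * (ent (pureOp Ω) (Y j \ X) + Real.log (8 / 3)) ≤
      Real.log B + ent (pureOp Ω) X := by
  have hT : Monotone (fun j => Y j \ X) := fun j k hjk => Finset.sdiff_subset_sdiff (hY hjk) le_rfl
  -- cardinalities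
  have hdX : (1 : ℝ) ≤ (Fintype.card (CfgOn io X) : ℝ) := by
    exact_mod_cast (Fintype.card_pos : 0 < Fintype.card (CfgOn io X))
  have hdT : ∀ j, (0 : ℝ) ≤ (Fintype.card (CfgOn io (Y j \ X)) : ℝ) := fun j => Nat.cast_nonneg _
  have hprod : ∀ j, η * ((Fintype.card (CfgOn io X) : ℝ) *
      (Fintype.card (CfgOn io (Y j \ X)) : ℝ)) ≤ 1 / 4 := by
    intro j
    have h1 : Fintype.card (CfgOn io (X ∪ Y j \ X)) =
        Fintype.card (CfgOn io X) * Fintype.card (CfgOn io (Y j \ X)) :=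
      bf_card_union Finset.disjoint_sdiff
    have h2 := bf_card_on_le (io := io) (X ∪ Y j \ X)
    rw [h1] at h2
    push_cast at h2
    exact (mul_le_mul_of_nonneg_left h2 hη.le).trans hη'
  have ht34 : ∀ j, 3 / 4 ≤ bf_t io X Y η j := by
    intro j
    unfold bf_t
    have := hprod j
    nlinarith [hdT j, mul_nonneg hη.le (hdT j)]
  have htmem : ∀ j, η * (Fintype.card (CfgOn io (Y j \ X)) : ℝ) ≤ bf_t io X Y η j / 2 := by
    intro j
    have h1 := hprod j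
    have h2 := ht34 j
    have h3 : η * (Fintype.card (CfgOn io (Y j \ X)) : ℝ) ≤
        η * ((Fintype.card (CfgOn io X) : ℝ) * (Fintype.card (CfgOn io (Y j \ X)) : ℝ)) := by
      apply mul_le_mul_of_nonneg_left _ hη.le
      nlinarith [hdT j]
    linarith
  -- the trial densities
  let τ : bf_Tup io (fun j => Y j \ X) :=
    fun j => bf_trialDen (bf_t io X Y η j) (ptr (Y j \ X) (pureOp Ω))
  have hτ : ∀ j, τ j ∈ bf_Den η (bf_t io X Y η j) := fun j =>
    bf_trialDen_mem (bf_isDensity_ptr _ hΩ) hη.le (htmem j)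
  -- Schmidt data at `X`
  obtain ⟨U, p, hU, hU', hp0, hp1, hρ⟩ := bf_density_diag (bf_isDensity_ptr X hΩ)
  obtain ⟨hnsq, hsum⟩ := bf_pinch X Ω hU hU' p hρ
  have hSX : ent (pureOp Ω) X = ∑ i, Real.negMulLog (p i) := by
    unfold ent
    exact vnEnt_of_diag (U := U) (d := p) (by rw [star_eq_conjTranspose]; exact hU')
      (by rw [star_eq_conjTranspose]; exact hρ)
  -- bound for the pinned vectors
  have hB' : ∀ i, ∀ τ' : bf_Tup io (fun j => Y j \ X), (∀ j, τ' j ∈ bf_Den η (bf_t io X Y η j)) →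
      bf_nsq (bf_prod (bf_F (fun j => Y j \ X) a τ') m *ᵥ
        (emb X (U * diagonal (Pi.single i (1 : ℂ)) * Uᴴ) *ᵥ Ω)) ≤ B := by
    intro i τ' hτ'
    obtain ⟨h1, h2, h3⟩ := bf_proj_props hU hU' i
    obtain ⟨σ, hσ1, hσ2⟩ := bf_pin_nsq X Y hX h1 h2 h3 hη τ' hτ'
    exact (hσ2 a Ω m).trans (hB σ hσ1)
  -- the estimate for one Schmidt index
  have hone : ∀ i, ∑ j ∈ Finset.range m, a j *
      (bf_ex (emb X (U * diagonal (Pi.single i (1 : ℂ)) * Uᴴ) *ᵥ Ω)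
        (emb (Y j \ X) (mlog (τ j)))).re ≤ p i * Real.log B + Real.negMulLog (p i) := by
    intro i
    rcases (hp0 i).eq_or_lt with h0 | h0
    · have hz : emb X (U * diagonal (Pi.single i (1 : ℂ)) * Uᴴ) *ᵥ Ω = 0 := by
        rw [← bf_nsq_eq_zero_iff, hnsq i, ← h0]
      rw [hz, ← h0]
      simp [bf_ex]
    · have hξ : 0 < bf_nsq (emb X (U * diagonal (Pi.single i (1 : ℂ)) * Uᴴ) *ᵥ Ω) := by
        rw [hnsq i]; exact h0
      have h1 := bf_three_lines hT ha hη (bf_t io X Y η) _ hξ m (hB' i) τ hτ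
      have hBpos : 0 < B :=
        lt_of_lt_of_le (bf_nsq_prod_pos _ a τ (fun k => (hτ k).1) m hξ) (hB' i τ hτ)
      rw [hnsq i, Real.log_div hBpos.ne' h0.ne'] at h1
      refine h1.trans (le_of_eq ?_)
      rw [Real.negMulLog]; ring
  -- sum over the Schmidt index
  have hall : ∑ j ∈ Finset.range m, a j * (bf_ex Ω (emb (Y j \ X) (mlog (τ j)))).re ≤
      Real.log B + ent (pureOp Ω) X := by
    have h1 := Finset.sum_le_sum fun i (_ : i ∈ Finset.univ) => hone i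
    rw [Finset.sum_comm, Finset.sum_add_distrib, ← Finset.sum_mul, hp1, one_mul, ← hSX] at h1
    refine le_trans (le_of_eq ?_) h1
    refine Finset.sum_congr rfl fun j _ => ?_
    rw [← Finset.mul_sum, ← Complex.re_sum, hsum (Y j \ X) Finset.disjoint_sdiff]
  refine le_trans ?_ hall
  rw [← Finset.sum_neg_distrib]
  refine Finset.sum_le_sum fun j _ => ?_
  have h1 := bf_trialDen_log (bf_isDensity_ptr (Y j \ X) hΩ)
    (t := bf_t io X Y η j) (by linarith [ht34 j])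
  have h2 : -Real.log (8 / 3) ≤ Real.log (bf_t io X Y η j / 2) := by
    rw [← Real.log_inv]
    exact Real.log_le_log (by norm_num) (by linarith [ht34 j])
  have h3 : -(ent (pureOp Ω) (Y j \ X) + Real.log (8 / 3)) ≤
      (bf_ex Ω (emb (Y j \ X) (mlog (τ j)))).re := by
    rw [bf_ex_emb]
    unfold ent
    linarith
  have := mul_le_mul_of_nonneg_left h3 (ha j).le
  linarith

theorem bf_renyi_pos {n : Type} [Fintype n] [DecidableEq n] {ρ : Matrix n n ℂ} (hρ : IsDensity ρ)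
    {q : ℝ} (hq : q ≠ 0) : 0 < (spow ρ (q : ℂ)).trace.re := by
  rw [tb_trace_spow_re hρ.1 hq]
  have h1 : ∑ i, hρ.1.1.eigenvalues i = 1 := hρ.sum_eigenvalues
  have h2 : ∃ i, 0 < hρ.1.1.eigenvalues i := by
    by_contra hcon
    push Not at hcon
    have : ∑ i, hρ.1.1.eigenvalues i ≤ 0 := Finset.sum_nonpos fun i _ => hcon i
    linarith
  obtain ⟨i, hi⟩ := h2
  exact Finset.sum_pos' (fun k _ => Real.rpow_nonneg (hρ.eigenvalues_nonneg k) q)
    ⟨i, Finset.mem_univ i, Real.rpow_pos_of_pos hi q⟩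

/-- **the abstract buffer lemma** -/
theorem bf_buffer [∀ x, Nonempty (io x)] {I : Type} [Fintype I]
    {h : I → Matrix (Cfg io) (Cfg io) ℂ} {E₀ Δ : ℝ}
    {Ω : Cfg io → ℂ} {Y : ℕ → Finset s} {a : ℕ → ℝ} {γ : I → ℕ → ℝ} {m : ℕ}
    (H : bf_Hyp h E₀ Δ Ω Y a γ m) (ha' : ∀ j, a j < 1) (X : Finset s) (hX : ∀ j, X ⊆ Y j)
    (κ : ℕ → ℝ)
    (hR : ∀ j, j < m → (1 - a j) *
        Real.log ((spow (ptr (Y j) (pureOp Ω)) ((1 / (1 - a j) : ℝ) : ℂ)).trace.re) ≤
      -(a j * ent (pureOp Ω) (Y j)) + κ j) :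
    ∑ j ∈ Finset.range m, a j * (ent (pureOp Ω) (Y j) - ent (pureOp Ω) (Y j \ X)) ≤
      ent (pureOp Ω) X +
        ∑ j ∈ Finset.range m, (κ j + Real.log (4 / 3) + a j * Real.log (8 / 3)) := by
  have hN : (0 : ℝ) < (Fintype.card (Cfg io) : ℝ) := by
    exact_mod_cast (Fintype.card_pos : 0 < Fintype.card (Cfg io))
  set η : ℝ := 1 / (4 * (Fintype.card (Cfg io) : ℝ)) with hηdef
  have hη : 0 < η := by positivity
  have hη' : η * (Fintype.card (Cfg io) : ℝ) ≤ 1 / 4 := by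
    rw [hηdef]; apply le_of_eq; field_simp
  have hη1 : ∀ j, η * (Fintype.card (CfgOn io (Y j)) : ℝ) ≤ 1 := fun j =>
    ((mul_le_mul_of_nonneg_left (bf_card_on_le (Y j)) hη.le).trans hη').trans (by norm_num)
  set R : ℕ → ℝ := fun j =>
    ((spow (ptr (Y j) (pureOp Ω)) ((1 / (1 - a j) : ℝ) : ℂ)).trace.re) ^ (1 - a j) with hRdef
  have hR' : ∀ j, j < m → ∀ τ ∈ (bf_Den η 1 : Set (Matrix (CfgOn io (Y j)) (CfgOn io (Y j)) ℂ)),
      bf_nsq (emb (Y j) (hpow τ ((a j / 2 : ℝ) : ℂ)) *ᵥ Ω) ≤ R j := by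
    intro j _ τ hτ
    rw [bf_nsq_filter (Y j) Ω hτ.1]
    exact bf_holder (bf_ptr_pure_posSemidef _ _) hη hτ (H.ha0 j) (ha' j)
  have hB := bf_first H hη hη1 R hR'
  have h2 := bf_second H.hΩ H.mono H.ha0 m X hX hη hη' hB
  have hpos : ∀ j, 0 < (spow (ptr (Y j) (pureOp Ω)) ((1 / (1 - a j) : ℝ) : ℂ)).trace.re := fun j =>
    bf_renyi_pos (bf_isDensity_ptr (Y j) H.hΩ)
      (one_div_ne_zero (sub_pos.2 (ha' j)).ne')
  have hRpos : ∀ j, 0 < R j := fun j => Real.rpow_pos_of_pos (hpos j) _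
  have hlog : Real.log (∏ j ∈ Finset.range m, (4 / 3 * R j)) =
      ∑ j ∈ Finset.range m, (Real.log (4 / 3) + (1 - a j) *
        Real.log ((spow (ptr (Y j) (pureOp Ω)) ((1 / (1 - a j) : ℝ) : ℂ)).trace.re)) := by
    rw [Real.log_prod (fun j _ => (mul_pos (by norm_num) (hRpos j)).ne')]
    refine Finset.sum_congr rfl fun j _ => ?_
    rw [Real.log_mul (by norm_num) (hRpos j).ne', hRdef, Real.log_rpow (hpos j)]
  rw [hlog] at h2
  have h3 : ∑ j ∈ Finset.range m, (Real.log (4 / 3) + (1 - a j) *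
        Real.log ((spow (ptr (Y j) (pureOp Ω)) ((1 / (1 - a j) : ℝ) : ℂ)).trace.re)) ≤
      ∑ j ∈ Finset.range m, (Real.log (4 / 3) + (-(a j * ent (pureOp Ω) (Y j)) + κ j)) :=
    Finset.sum_le_sum fun j hj => by
      have := hR j (Finset.mem_range.1 hj)
      linarith
  have h4 : ∑ j ∈ Finset.range m, a j * (ent (pureOp Ω) (Y j) - ent (pureOp Ω) (Y j \ X)) =
      -∑ j ∈ Finset.range m, (Real.log (4 / 3) + (-(a j * ent (pureOp Ω) (Y j)) + κ j)) +
      -∑ j ∈ Finset.range m, a j * (ent (pureOp Ω) (Y j \ X) + Real.log (8 / 3)) +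
      ∑ j ∈ Finset.range m, (κ j + Real.log (4 / 3) + a j * Real.log (8 / 3)) := by
    rw [← Finset.sum_neg_distrib, ← Finset.sum_neg_distrib, ← Finset.sum_add_distrib,
      ← Finset.sum_add_distrib]
    refine Finset.sum_congr rfl fun j _ => ?_
    ring
  rw [h4]
  linarith

end Claimed.Agent.R296
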