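import Mathlib
import Claimed.Agent.R296.BufMain
import Claimed.Agent.R296.TailSites
import Claimed.Agent.R296.BoxGeo

/-!
# Row 296: assembly of Lemma 2.2 (P1): `BufferStmt` from the abstract buffer lemma `bf_buffer`,
the tail lemma `tl_tail_mgf` and the geometry of safe rectangles; then Proposition 2.3.

Contours: `Y j = A ∩ Q₀^{+(j+1)D}`, `D = R + 1`, `j < m = (2^N - 1) r`; weights
`a j = 2 / (Z w j)`, `w j = r + 2 (j+1) D`, `Z = ∑_{j<m} 1 / w j ≥ N / (2 (2D+1))`.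
Prefix `ba_`.
-/

set_option autoImplicit false
set_option linter.unusedSectionVars false

namespace Claimed.Agent.R296

open Finset

/-! ### (G4) harmonic weights -/

theorem ba_block (n : ℕ) (hn : 1 ≤ n) : (1 / 2 : ℝ) ≤ ∑ i ∈ Ico n (2 * n), (1 : ℝ) / i := by
  have h1 : ∑ _i ∈ Ico n (2 * n), (1 : ℝ) / (2 * n) ≤ ∑ i ∈ Ico n (2 * n), (1 : ℝ) / i := by
    apply Finset.sum_le_sum
    intro i hi
    rw [mem_Ico] at hi
    have hi0 : (0 : ℝ) < i := by
      have : 0 < i := by omega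
      exact_mod_cast this
    apply one_div_le_one_div_of_le hi0
    have : i ≤ 2 * n := by omega
    exact_mod_cast this
  have h2 : ∑ _i ∈ Ico n (2 * n), (1 : ℝ) / (2 * n) = 1 / 2 := by
    rw [Finset.sum_const, Nat.card_Ico, nsmul_eq_mul]
    have : 2 * n - n = n := by omega
    rw [this]
    have hn0 : (n : ℝ) ≠ 0 := by
      have : 0 < n := by omega
      positivity
    field_simp
  linarith

theorem ba_harm (r : ℕ) (hr : 1 ≤ r) (N : ℕ) :
    (N : ℝ) / 2 ≤ ∑ i ∈ Ico r (2 ^ N * r), (1 : ℝ) / i := by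
  induction N with
  | zero => simp
  | succ N ih =>
    have hle1 : r ≤ 2 ^ N * r := Nat.le_mul_of_pos_left r (by positivity)
    have hle2 : 2 ^ N * r ≤ 2 ^ (N + 1) * r := by
      rw [pow_succ]
      nlinarith [Nat.zero_le (2 ^ N * r)]
    rw [← Finset.sum_Ico_consecutive _ hle1 hle2]
    have hb := ba_block (2 ^ N * r) (le_trans hr hle1)
    have e : 2 * (2 ^ N * r) = 2 ^ (N + 1) * r := by rw [pow_succ]; ring
    rw [e] at hb
    push_cast
    linarith

/-- the perimeter weight of the contour `j` -/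
def baW (D r j : ℕ) : ℝ := (r : ℝ) + 2 * ((j : ℝ) + 1) * D

theorem ba_W_ge_one {D r : ℕ} (hr : 1 ≤ r) (j : ℕ) : 1 ≤ baW D r j := by
  unfold baW
  have h1 : (1 : ℝ) ≤ r := by exact_mod_cast hr
  have h2 : (0 : ℝ) ≤ 2 * ((j : ℝ) + 1) * D := by positivity
  linarith

theorem ba_Z_lower (D r : ℕ) (hr : 1 ≤ r) (N : ℕ) :
    (N : ℝ) / (2 * (2 * D + 1)) ≤ ∑ j ∈ range ((2 ^ N - 1) * r), 1 / baW D r j := by
  have h := ba_harm r hr N
  have hm : 2 ^ N * r = r + (2 ^ N - 1) * r := by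
    have : 1 ≤ 2 ^ N := Nat.one_le_two_pow
    obtain ⟨t, ht⟩ := Nat.exists_eq_add_of_le this
    rw [ht]
    simp
    ring
  rw [hm, Finset.sum_Ico_eq_sum_range] at h
  simp only [Nat.add_sub_cancel_left] at h
  have hD : (0 : ℝ) < 2 * D + 1 := by positivity
  have hterm : ∀ j ∈ range ((2 ^ N - 1) * r),
      (1 : ℝ) / ((r + j : ℕ) : ℝ) / (2 * D + 1) ≤ 1 / baW D r j := by
    intro j _
    have hrj : (0 : ℝ) < ((r + j : ℕ) : ℝ) := by
      have : 0 < r + j := by omega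
      exact_mod_cast this
    rw [div_div]
    apply one_div_le_one_div_of_le (by linarith [ba_W_ge_one (D := D) hr j])
    unfold baW
    push_cast
    have h1 : (1 : ℝ) ≤ r := by exact_mod_cast hr
    have h2 : (0 : ℝ) ≤ j := Nat.cast_nonneg j
    have h3 : (0 : ℝ) ≤ D := Nat.cast_nonneg D
    nlinarith
  have hsum := Finset.sum_le_sum hterm
  rw [← Finset.sum_div] at hsum
  calc (N : ℝ) / (2 * (2 * D + 1)) = (N : ℝ) / 2 / (2 * D + 1) := by rw [div_div]
    _ ≤ (∑ j ∈ range ((2 ^ N - 1) * r), (1 : ℝ) / ((r + j : ℕ) : ℝ)) / (2 * D + 1) := by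
        gcongr
    _ ≤ _ := hsum

/-- **(G4)** existence of the weights -/
theorem ba_weights (D : ℕ) {ε : ℝ} (hε : 0 < ε) : ∃ N : ℕ, ∀ r : ℕ, 1 ≤ r →
    ∃ a : ℕ → ℝ, (∀ j, 0 < a j) ∧ (∀ j, a j * baW D r j ≤ ε) ∧
      ∑ j ∈ range ((2 ^ N - 1) * r), a j = 2 := by
  obtain ⟨N, hN⟩ := exists_nat_gt (2 * (2 * (D : ℝ) + 1) * (2 / ε))
  refine ⟨N, fun r hr => ?_⟩
  set Z : ℝ := ∑ j ∈ range ((2 ^ N - 1) * r), 1 / baW D r j with hZ
  have hD : (0 : ℝ) < 2 * (2 * (D : ℝ) + 1) := by positivity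
  have hZ1 : 2 / ε < Z := by
    have h1 := ba_Z_lower D r hr N
    have h2 : 2 / ε < (N : ℝ) / (2 * (2 * D + 1)) := by
      rw [lt_div_iff₀ hD]
      linarith
    linarith
  have hZ0 : 0 < Z := lt_trans (by positivity) hZ1
  have hw : ∀ j, 0 < baW D r j := fun j => by linarith [ba_W_ge_one (D := D) hr j]
  refine ⟨fun j => 2 / (Z * baW D r j), fun j => by have := hw j; positivity, fun j => ?_, ?_⟩
  · have := hw j
    have e : 2 / (Z * baW D r j) * baW D r j = 2 / Z := by field_simp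
    rw [e, div_le_iff₀ hZ0]
    rw [div_lt_iff₀ hε] at hZ1
    linarith
  · have e : ∀ j ∈ range ((2 ^ N - 1) * r), 2 / (Z * baW D r j) = (2 / Z) * (1 / baW D r j) := by
      intro j _
      have := hw j
      field_simp
    rw [Finset.sum_congr rfl e, ← Finset.mul_sum, ← hZ]
    field_simp

/-! ### the Renyi bound from the tail lemma -/

section Renyi

open Matrix

variable {n : Type} [Fintype n] [DecidableEq n]

theorem ba_spowS_real (t x : ℝ) : spowS (t : ℂ) x = ((tlPw x t : ℝ) : ℂ) := by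
  unfold spowS tlPw
  split_ifs with h
  · rw [Real.rpow_def_of_pos h, mul_comm, ← Complex.ofReal_mul, ← Complex.ofReal_exp]
  · simp

theorem ba_trace_spow {ρ : Matrix n n ℂ} (hρ : ρ.IsHermitian) (t : ℝ) :
    (spow ρ (t : ℂ)).trace.re = tlRenyi ρ t := by
  have h1 : tlRenyi ρ t = tlM hρ.eigenvalues (1 - t) := by
    have := tlRenyi_eq hρ (1 - t)
    rwa [sub_sub_cancel] at this
  rw [h1]
  unfold spow tlM
  rw [trace_mfun hρ]
  simp only [ba_spowS_real, sub_sub_cancel]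
  rw [← Complex.ofReal_sum, Complex.ofReal_re]

theorem ba_tail_to_R {ρ : Matrix n n ℂ} (hρ : ρ.IsHermitian) {κ u₀ a : ℝ} (h : TlMgf ρ κ u₀)
    (ha0 : 0 < a) (ha1 : a < 1) (hu : a / (1 - a) ≤ u₀) :
    (1 - a) * Real.log ((spow ρ ((1 / (1 - a) : ℝ) : ℂ)).trace.re)
      ≤ -(a * vnEnt ρ) + κ * a ^ 2 / (1 - a) := by
  have h1a : 0 < 1 - a := by linarith
  rw [ba_trace_spow hρ]
  have hu' : |(-(a / (1 - a)))| ≤ u₀ := by
    rw [abs_neg, abs_of_nonneg (by positivity)]
    exact hu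
  have h2 := h (-(a / (1 - a))) hu'
  have e : 1 - -(a / (1 - a)) = 1 / (1 - a) := by field_simp; ring
  rw [e] at h2
  have h3 := mul_le_mul_of_nonneg_left h2 h1a.le
  refine h3.trans (le_of_eq ?_)
  field_simp

end Renyi

/-! ### split terms -/

section Split

open Matrix
open scoped MatrixOrder Matrix.Norms.L2Operator ComplexOrder Kronecker

variable {s : Type} [DecidableEq s] [Fintype s] {io : s → Type}
  [∀ x, Fintype (io x)] [∀ x, DecidableEq (io x)]

theorem ba_emb_mul_embOff_apply (A : Finset s) (c : Matrix (CfgOn io A) (CfgOn io A) ℂ)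
    (e : Matrix (CfgOff io A) (CfgOff io A) ℂ) (σ τ : Cfg io) :
    (emb A c * embOff A e) σ τ = c (crOn A σ) (crOn A τ) * e (crOff A σ) (crOff A τ) := by
  rw [Matrix.mul_apply, sp_sum_cfg A]
  simp only [emb, embOff, Matrix.of_apply, sp_crOn_cglue, sp_crOff_cglue, ite_mul, zero_mul,
    mul_ite, mul_zero]
  rw [Finset.sum_eq_single (crOn A τ)]
  · rw [Finset.sum_eq_single (crOff A σ)]
    · simp
    · intro b _ hb
      have hb' : ¬ crOff A σ = b := fun h => hb h.symm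
      simp [hb']
    · simp
  · intro a _ ha
    apply Finset.sum_eq_zero
    intro b _
    simp [ha]
  · simp

/-- a term supported in `D` of norm `≤ c₀` is split by any cut `B` with cost
`c₀ (dim H_{D ∩ B})²` -/
theorem ba_split [Nonempty (Cfg io)] {D : Finset s} (B : Finset s)
    {h : Matrix (Cfg io) (Cfg io) ℂ} (hh : SuppIn D h) {c₀ : ℝ} (hn : ‖h‖ ≤ c₀) :
    bf_Split B h (c₀ * (Fintype.card (CfgOn io (D ∩ B)) : ℝ) ^ 2) := by
  obtain ⟨N, c, e, hN, hce, hsum⟩ := tl_form_cross B hh hn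
  have hc₀ : 0 ≤ c₀ := (norm_nonneg _).trans hn
  refine ⟨Fin N, inferInstance, c, e, ?_, ?_⟩
  · ext σ τ
    have h1 := congrFun (congrFun hsum (cfgSplit B σ)) (cfgSplit B τ)
    simp only [Matrix.submatrix_apply, Equiv.symm_apply_apply] at h1
    rw [h1, Matrix.sum_apply, Matrix.sum_apply]
    refine Finset.sum_congr rfl fun a _ => ?_
    rw [ba_emb_mul_embOff_apply]
    rfl
  · calc ∑ α, ‖c α‖ * ‖e α‖ ≤ ∑ _α : Fin N, c₀ := Finset.sum_le_sum fun a _ => hce a
      _ = N * c₀ := by simp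
      _ ≤ (Fintype.card (CfgOn io (D ∩ B)) : ℝ) ^ 2 * c₀ := mul_le_mul_of_nonneg_right hN hc₀
      _ = _ := mul_comm _ _

theorem bf_Split.ba_mono {B : Finset s} {h : Matrix (Cfg io) (Cfg io) ℂ} {γ γ' : ℝ}
    (hs : bf_Split B h γ) (hγ : γ ≤ γ') : bf_Split B h γ' := by
  obtain ⟨ι, hι, c, e, h1, h2⟩ := hs
  exact ⟨ι, hι, c, e, h1, h2.trans hγ⟩

end Split

/-! ### counting on the lattice -/

section Lattice

open Matrix Claims.C0473
open scoped MatrixOrder Matrix.Norms.L2Operator ComplexOrder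

variable {q R : ℕ} [NeZero q] {Λ : Finset (ℤ × ℤ)}

/-- `v_R`: bound for the cardinality of a support -/
def baV (R : ℕ) : ℕ := (2 * R + 1) ^ 2

/-- number of split terms per boundary edge -/
def baC (R : ℕ) : ℕ := (2 * R + 1) ^ 2 * 2 ^ ((2 * R + 1) ^ 2)

open Classical in
theorem ba_split_count (Y : Finset Λ) :
    ((univ.filter fun i : SysI Λ R => IsSplit Y (sysX i)).card : ℝ)
      ≤ (edgeBoundary Λ Y : ℝ) * baC R := by
  have := sys_split_count (R := R) Y
  unfold baC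
  exact_mod_cast this

theorem ba_isSplit_iff (Y X : Finset Λ) : IsSplit Y X ↔ ¬ X ⊆ Y ∧ ¬ Disjoint X Y := by
  unfold IsSplit
  rw [Finset.not_subset, Finset.not_disjoint_iff]
  tauto

/-- the cut parameter of Lemma 2.1 for the lattice system -/
theorem ba_cutParam (Y : Finset Λ) :
    tlCutParam (fun _ : Λ => Fin q) (sysX (R := R)) Y
      ≤ 1 + (edgeBoundary Λ Y : ℝ) * baC R * (1 + (baV R : ℝ) * Real.log q) ^ 2 := by
  classical
  unfold tlCutParam
  have hlog : 0 ≤ Real.log q := Real.log_natCast_nonneg q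
  have hterm : ∀ i ∈ tlCrossing (sysX (R := R)) Y,
      (1 + ∑ x ∈ sysX i, Real.log (Fintype.card (Fin q))) ^ 2
        ≤ (1 + (baV R : ℝ) * Real.log q) ^ 2 := by
    intro i _
    rw [Finset.sum_const, nsmul_eq_mul, Fintype.card_fin]
    have hc : ((sysX i).card : ℝ) ≤ baV R := by
      unfold baV
      exact_mod_cast sys_card_le i
    have h1 : ((sysX i).card : ℝ) * Real.log q ≤ (baV R : ℝ) * Real.log q :=
      mul_le_mul_of_nonneg_right hc hlog
    have h0 : 0 ≤ ((sysX i).card : ℝ) * Real.log q := by positivity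
    exact pow_le_pow_left₀ (by linarith) (by linarith) 2
  have hsum := Finset.sum_le_sum hterm
  rw [Finset.sum_const, nsmul_eq_mul] at hsum
  have hcard : ((tlCrossing (sysX (R := R)) Y).card : ℝ) ≤ (edgeBoundary Λ Y : ℝ) * baC R := by
    refine le_trans ?_ (ba_split_count (R := R) Y)
    have : tlCrossing (sysX (R := R)) Y = univ.filter fun i : SysI Λ R => IsSplit Y (sysX i) := by
      unfold tlCrossing
      ext i
      simp only [mem_filter, mem_univ, true_and, ba_isSplit_iff]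
    rw [this]
  have h2 : ((tlCrossing (sysX (R := R)) Y).card : ℝ) * (1 + (baV R : ℝ) * Real.log q) ^ 2
      ≤ (edgeBoundary Λ Y : ℝ) * baC R * (1 + (baV R : ℝ) * Real.log q) ^ 2 :=
    mul_le_mul_of_nonneg_right hcard (sq_nonneg _)
  linarith

/-- the boundary of a contour -/
theorem ba_contour_boundary {A : Finset Λ} {D0 : ℕ} {Q Q₀ : BxRect}
    (hsafe : SafeRect D0 (cutEnds Λ A) Q) {r d : ℕ} (hs : Q₀.size ≤ r)
    (hsub : (Q₀.pad (d : ℤ)).fs ⊆ Q.fs) :
    (edgeBoundary Λ (tplX A (Q₀.pad (d : ℤ)).fs) : ℝ) ≤ 4 * ((r : ℝ) + 2 * d) := by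
  have h := bg_boundary hsafe hsub
  have s1 : Q₀.b₁ - Q₀.a₁ ≤ r := (le_max_left _ _).trans hs
  have s2 : Q₀.b₂ - Q₀.a₂ ≤ r := (le_max_right _ _).trans hs
  simp only [BxRect.pad] at h
  have e1 : (Q₀.b₁ + d - (Q₀.a₁ - d)).toNat ≤ r + 2 * d := by omega
  have e2 : (Q₀.b₂ + d - (Q₀.a₂ - d)).toNat ≤ r + 2 * d := by omega
  have h' : edgeBoundary Λ (tplX A (Q₀.pad (d : ℤ)).fs) ≤ 4 * (r + 2 * d) := by
    simp only [BxRect.pad]
    omega
  exact_mod_cast h'

/-- dimension of a part of a support -/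
theorem ba_card_cfgOn (i : SysI Λ R) (Y : Finset Λ) :
    (Fintype.card (CfgOn (fun _ : Λ => Fin q) (sysX i ∩ Y)) : ℝ) ≤ (q : ℝ) ^ baV R := by
  have h1 : Fintype.card (CfgOn (fun _ : Λ => Fin q) (sysX i ∩ Y)) = q ^ (sysX i ∩ Y).card := by
    rw [Fintype.card_pi]
    simp only [Fintype.card_fin, Finset.prod_const, Finset.card_univ, Fintype.card_coe]
  rw [h1]
  push_cast
  have hq : (1 : ℝ) ≤ q := by
    have : 1 ≤ q := Nat.one_le_iff_ne_zero.mpr (NeZero.ne q)
    exact_mod_cast this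
  apply pow_le_pow_right₀ hq
  unfold baV
  exact (Finset.card_le_card Finset.inter_subset_left).trans (sys_card_le i)

end Lattice

/-! ### the assembly -/

section Main

open Matrix Claims.C0473
open scoped MatrixOrder Matrix.Norms.L2Operator ComplexOrder

variable {q R : ℕ} [NeZero q]

/-- cost of one split term -/
noncomputable def baGam (q R : ℕ) (J : ℝ) : ℝ := J * ((q : ℝ) ^ baV R) ^ 2

/-- energy budget per unit of perimeter -/
noncomputable def baG (q R : ℕ) (J : ℝ) : ℝ := 4 * baC R * baGam q R J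

/-- cut parameter per unit of perimeter -/
noncomputable def baC3 (q R : ℕ) : ℝ := 1 + 4 * baC R * (1 + (baV R : ℝ) * Real.log q) ^ 2

noncomputable def baC4 (q R : ℕ) (J Δ : ℝ) : ℝ := (1 + J / Δ) * baC3 q R

/-- the smallness parameter of the weights -/
noncomputable def baEps (q R : ℕ) (J Δ : ℝ) : ℝ :=
  min (1 / 2) (min (Δ / (8 * baG q R J)) (1 / (64 * Real.sqrt (baC4 q R J Δ))))

/-- the constant error of the Renyi bounds -/
noncomputable def baK1 (q R : ℕ) (J Δ : ℝ) : ℝ :=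
  4 * (512 * Real.exp 1 * (J / Δ) * baC3 q R) * baEps q R J Δ

theorem ba_G_pos (q R : ℕ) [NeZero q] {J : ℝ} (hJ : 0 < J) : 0 < baG q R J := by
  unfold baG baGam baC
  have hq : (0 : ℝ) < q := by
    have : 0 < q := Nat.pos_of_ne_zero (NeZero.ne q)
    exact_mod_cast this
  positivity

theorem ba_C3_ge_one (q R : ℕ) : 1 ≤ baC3 q R := by
  unfold baC3
  have : 0 ≤ 4 * (baC R : ℝ) * (1 + (baV R : ℝ) * Real.log q) ^ 2 := by positivity
  linarith

theorem ba_C4_pos (q R : ℕ) {J Δ : ℝ} (hJ : 0 < J) (hΔ : 0 < Δ) : 0 < baC4 q R J Δ := by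
  unfold baC4
  have := ba_C3_ge_one q R
  have h2 : 0 < J / Δ := div_pos hJ hΔ
  positivity

theorem ba_eps_pos (q R : ℕ) [NeZero q] {J Δ : ℝ} (hJ : 0 < J) (hΔ : 0 < Δ) :
    0 < baEps q R J Δ := by
  unfold baEps
  have h1 := ba_G_pos q R hJ
  have h2 := Real.sqrt_pos.mpr (ba_C4_pos q R hJ hΔ)
  refine lt_min (by norm_num) (lt_min (by positivity) (by positivity))

theorem bg_tplX_mono {Λ : Finset (ℤ × ℤ)} (A : Finset Λ) {P P' : Finset (ℤ × ℤ)} (h : P ⊆ P') :
    tplX A P ⊆ tplX A P' := by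
  intro x hx
  rw [bg_mem_tplX] at hx ⊢
  exact ⟨hx.1, h hx.2⟩

theorem ba_core (hEnt : EntApiStmt) {J Δ : ℝ} (hJ : 0 < J) (hΔ : 0 < Δ) {D0 : ℕ} (hR : R ≤ D0)
    {Λ : Finset (ℤ × ℤ)} {k : Finset Λ → Matrix (Λ → Fin q) (Λ → Fin q) ℂ}
    (hk : AdmInt q R J Λ k) {E₀ : ℝ} {Ω : (Λ → Fin q) → ℂ} (hG : GapState q R Δ Λ k E₀ Ω)
    {A : Finset Λ} {Q Q₀ : BxRect} {r : ℕ} (hr : 1 ≤ r)
    (hsafe : SafeRect D0 (cutEnds Λ A) Q) (hs : Q₀.size ≤ r) (N : ℕ)
    (hpad : (Q₀.pad ((2 ^ N * (R + 1) * r : ℕ) : ℤ)).fs ⊆ Q.fs)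
    (a : ℕ → ℝ) (ha0 : ∀ j, 0 < a j) (haw : ∀ j, a j * baW (R + 1) r j ≤ baEps q R J Δ)
    (hsum : ∑ j ∈ range ((2 ^ N - 1) * r), a j = 2) :
    2 * (ent (io := fun _ : Λ => Fin q) (pureOp Ω)
          (tplX A (Q₀.pad ((2 ^ N * (R + 1) * r : ℕ) : ℤ)).fs)
        - ent (io := fun _ : Λ => Fin q) (pureOp Ω)
          (tplX A (Q₀.pad ((2 ^ N * (R + 1) * r : ℕ) : ℤ)).fs \ tplX A Q₀.fs))
      ≤ ent (io := fun _ : Λ => Fin q) (pureOp Ω) (tplX A Q₀.fs)
        + (baK1 q R J Δ + ((2 ^ N - 1) * r : ℕ) * Real.log (4 / 3) + 2 * Real.log (8 / 3)) := by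
  classical
  set D : ℕ := R + 1 with hD
  set m : ℕ := (2 ^ N - 1) * r with hm
  set ε : ℝ := baEps q R J Δ with hε
  set S : Finset Λ → ℝ := fun X => ent (io := fun _ : Λ => Fin q) (pureOp Ω) X with hS
  set Y : ℕ → Finset Λ := fun j => tplX A (Q₀.pad (((j + 1) * D : ℕ) : ℤ)).fs with hY
  set X : Finset Λ := tplX A Q₀.fs with hX
  set P : Finset Λ := tplX A (Q₀.pad ((2 ^ N * D * r : ℕ) : ℤ)).fs with hP
  have hεpos : 0 < ε := ba_eps_pos q R hJ hΔ
  have hε1 : ε ≤ 1 / 2 := min_le_left _ _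
  have hε2 : ε ≤ Δ / (8 * baG q R J) := (min_le_right _ _).trans (min_le_left _ _)
  have hε3 : ε ≤ 1 / (64 * Real.sqrt (baC4 q R J Δ)) :=
    (min_le_right _ _).trans (min_le_right _ _)
  have hw1 : ∀ j, 1 ≤ baW D r j := fun j => ba_W_ge_one hr j
  have haε : ∀ j, a j ≤ ε := fun j => by
    have h1 := haw j
    have h2 : a j * 1 ≤ a j * baW D r j := mul_le_mul_of_nonneg_left (hw1 j) (ha0 j).le
    linarith
  have hahalf : ∀ j, a j ≤ 1 / 2 := fun j => (haε j).trans hε1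
  -- geometry of the contours
  have hdle : ∀ j, j < m → (((j + 1) * D : ℕ) : ℤ) ≤ ((2 ^ N * D * r : ℕ) : ℤ) := by
    intro j hj
    have h1 : j + 1 ≤ (2 ^ N - 1) * r := hj
    have h2 : (2 ^ N - 1) * r ≤ 2 ^ N * r := Nat.mul_le_mul_right r (Nat.sub_le _ _)
    have h3 : (j + 1) * D ≤ 2 ^ N * r * D := Nat.mul_le_mul_right D (h1.trans h2)
    have h4 : 2 ^ N * r * D = 2 ^ N * D * r := by ring
    exact_mod_cast h4 ▸ h3
  have hYsub : ∀ j, j < m → (Q₀.pad (((j + 1) * D : ℕ) : ℤ)).fs ⊆ Q.fs := fun j hj =>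
    (bg_pad_mono Q₀ (hdle j hj)).trans hpad
  have hYmono : Monotone Y := by
    intro i j hij
    apply bg_tplX_mono
    apply bg_pad_mono
    have : (i + 1) * D ≤ (j + 1) * D := Nat.mul_le_mul_right D (by omega)
    exact_mod_cast this
  have hpad0 : ∀ d : ℕ, Q₀.fs ⊆ (Q₀.pad (d : ℤ)).fs := by
    intro d x hx
    rw [BxRect.mem_fs] at hx ⊢
    simp only [BxRect.pad]
    have : (0 : ℤ) ≤ d := Int.natCast_nonneg d
    obtain ⟨x1, x2, x3, x4⟩ := hx
    exact ⟨by linarith, by linarith, by linarith, by linarith⟩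
  have hXY : ∀ j, X ⊆ Y j := fun j => bg_tplX_mono A (hpad0 _)
  have hXP : X ⊆ P := bg_tplX_mono A (hpad0 _)
  have hYP : ∀ j, j < m → Y j ⊆ P := fun j hj => bg_tplX_mono A (bg_pad_mono Q₀ (hdle j hj))
  have hbd : ∀ j, j < m → (edgeBoundary Λ (Y j) : ℝ) ≤ 4 * baW D r j := by
    intro j hj
    have h := ba_contour_boundary hsafe hs (hYsub j hj)
    refine h.trans (le_of_eq ?_)
    unfold baW
    push_cast
    ring
  have : Nonempty (Cfg (fun _ : Λ => Fin q)) := tl_nonempty_of_unit hG.1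
  have : ∀ _x : Λ, Nonempty (Fin q) := fun _ => ⟨0⟩
  -- the costs
  set γ : SysI Λ R → ℕ → ℝ := fun i j => if IsSplit (Y j) (sysX i) then baGam q R J else 0 with hγ
  have hGam0 : 0 ≤ baGam q R J := by unfold baGam; positivity
  have hγsum : ∀ j, j < m → ∑ i, γ i j ≤ baG q R J * baW D r j := by
    intro j hj
    have e : ∑ i, γ i j = ((univ.filter fun i : SysI Λ R => IsSplit (Y j) (sysX i)).card : ℝ)
        * baGam q R J := by
      rw [hγ, ← Finset.sum_filter, Finset.sum_const, nsmul_eq_mul]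
    rw [e]
    have h1 := ba_split_count (R := R) (Y j)
    have h2 := hbd j hj
    have h3 : (edgeBoundary Λ (Y j) : ℝ) * baC R ≤ 4 * baW D r j * baC R :=
      mul_le_mul_of_nonneg_right h2 (Nat.cast_nonneg _)
    calc _ ≤ (4 * baW D r j * baC R) * baGam q R J :=
          mul_le_mul_of_nonneg_right (h1.trans h3) hGam0
      _ = _ := by unfold baG; ring
  have hHyp : bf_Hyp (io := fun _ : Λ => Fin q) (sysH k) E₀ Δ Ω Y a γ m := by
    refine ⟨hG.1, sys_herm hk, sys_eig hG, hΔ, sys_gap hG, hYmono, ha0,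
      fun j => (hahalf j).trans (by norm_num), ?_, ?_, ?_⟩
    · intro i j
      rw [hγ]
      simp only
      split_ifs
      · exact hGam0
      · exact le_rfl
    · intro i j hj
      rcases bg_tri hsafe hR Q₀ (hYsub j hj) i.2 with h | h | ⟨h1, h2, _⟩
      · exact Or.inl ((sys_supp k i).sp_mono h)
      · exact Or.inr (Or.inl ((sys_supp k i).sp_off h))
      · refine Or.inr (Or.inr ⟨?_, fun _ => (sys_supp k i).sp_mono (h2.trans ?_)⟩)
        · refine (ba_split (Y j) (sys_supp k i) (sys_norm hJ.le hk i)).ba_mono ?_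
          have hg : γ i j = baGam q R J := by
            rw [hγ]
            exact if_pos h1
          rw [hg]
          unfold baGam
          have hc := ba_card_cfgOn (q := q) i (Y j)
          have hc0 : (0 : ℝ) ≤ (Fintype.card (CfgOn (fun _ : Λ => Fin q) (sysX i ∩ Y j)) : ℝ) :=
            Nat.cast_nonneg _
          exact mul_le_mul_of_nonneg_left (pow_le_pow_left₀ hc0 hc 2) hJ.le
        · apply bg_tplX_mono
          apply bg_pad_mono
          rw [hD]
          push_cast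
          nlinarith
    · rw [Finset.sum_comm]
      have h1 : ∀ j ∈ range m, ∑ i, γ i j * a j ^ 2 ≤ baG q R J * ε * a j := by
        intro j hj
        rw [← Finset.sum_mul]
        have h2 := hγsum j (mem_range.mp hj)
        have h3 : (∑ i, γ i j) * a j ^ 2 ≤ baG q R J * baW D r j * a j ^ 2 :=
          mul_le_mul_of_nonneg_right h2 (sq_nonneg _)
        have h4 : baG q R J * baW D r j * a j ^ 2 = baG q R J * (a j * baW D r j) * a j := by ring
        have h5 : baG q R J * (a j * baW D r j) * a j ≤ baG q R J * ε * a j :=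
          mul_le_mul_of_nonneg_right
            (mul_le_mul_of_nonneg_left (haw j) (ba_G_pos q R hJ).le) (ha0 j).le
        linarith
      refine (Finset.sum_le_sum h1).trans ?_
      rw [← Finset.mul_sum, hsum]
      have hGpos := ba_G_pos q R hJ
      have : baG q R J * ε ≤ baG q R J * (Δ / (8 * baG q R J)) :=
        mul_le_mul_of_nonneg_left hε2 hGpos.le
      have e : baG q R J * (Δ / (8 * baG q R J)) = Δ / 8 := by field_simp
      linarith
  -- the Renyi bounds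
  set κ₀ : ℝ := 512 * Real.exp 1 * (J / Δ) * baC3 q R with hκ₀
  have hθ : 0 < J / Δ := div_pos hJ hΔ
  have hC3 := ba_C3_ge_one q R
  have hκ₀pos : 0 ≤ κ₀ := by rw [hκ₀]; positivity
  set κ : ℕ → ℝ := fun j => κ₀ * baW D r j * a j ^ 2 / (1 - a j) with hκ
  have hRen : ∀ j, j < m → (1 - a j) *
        Real.log ((spow (ptr (io := fun _ : Λ => Fin q) (Y j) (pureOp Ω))
          ((1 / (1 - a j) : ℝ) : ℂ)).trace.re) ≤
      -(a j * ent (io := fun _ : Λ => Fin q) (pureOp Ω) (Y j)) + κ j := by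
    intro j hj
    have hw := hw1 j
    have hcut : tlCutParam (fun _ : Λ => Fin q) (sysX (R := R)) (Y j) ≤ baC3 q R * baW D r j := by
      refine (ba_cutParam (q := q) (R := R) (Y j)).trans ?_
      have h2 := hbd j hj
      have hL : 0 ≤ (baC R : ℝ) * (1 + (baV R : ℝ) * Real.log q) ^ 2 := by positivity
      have h3 : (edgeBoundary Λ (Y j) : ℝ) * baC R * (1 + (baV R : ℝ) * Real.log q) ^ 2
          ≤ 4 * baW D r j * ((baC R : ℝ) * (1 + (baV R : ℝ) * Real.log q) ^ 2) := by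
        rw [mul_assoc]
        exact mul_le_mul_of_nonneg_right h2 hL
      unfold baC3
      nlinarith
    have hmgf := tl_tail_mgf (io := fun _ : Λ => Fin q) (sysX (R := R)) (sysH k) Ω hG.1
      (sys_supp k) (sys_herm hk) hΔ (sys_norm hJ.le hk) hJ.le (sys_eig hG) (sys_gap hG) (Y j) hcut
    have hherm : (ptr (io := fun _ : Λ => Fin q) (Y j) (pureOp Ω)).IsHermitian :=
      (tl_ptr_pure_isDensity hG.1 (Y j)).1.1
    have ha1 : a j < 1 := lt_of_le_of_lt (hahalf j) (by norm_num)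
    have hu : a j / (1 - a j)
        ≤ 1 / (32 * Real.sqrt ((1 + J / Δ) * (baC3 q R * baW D r j))) := by
      have h1 : a j / (1 - a j) ≤ 2 * a j := by
        rw [div_le_iff₀ (by linarith)]
        nlinarith [ha0 j, hahalf j]
      have hsq : Real.sqrt ((1 + J / Δ) * (baC3 q R * baW D r j))
          ≤ Real.sqrt (baC4 q R J Δ) * baW D r j := by
        rw [← mul_assoc, Real.sqrt_mul (by positivity)]
        apply mul_le_mul_of_nonneg_left _ (Real.sqrt_nonneg _)
        rw [Real.sqrt_le_left (by linarith)]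
        nlinarith
      have hs4 := Real.sqrt_pos.mpr (ba_C4_pos q R hJ hΔ)
      have hpos : 0 < Real.sqrt ((1 + J / Δ) * (baC3 q R * baW D r j)) := by
        apply Real.sqrt_pos.mpr
        positivity
      rw [le_div_iff₀ (by positivity)]
      have h2 : a j * baW D r j ≤ 1 / (64 * Real.sqrt (baC4 q R J Δ)) := (haw j).trans hε3
      rw [le_div_iff₀ (by positivity)] at h2
      calc a j / (1 - a j) * (32 * Real.sqrt ((1 + J / Δ) * (baC3 q R * baW D r j)))
          ≤ 2 * a j * (32 * (Real.sqrt (baC4 q R J Δ) * baW D r j)) := by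
            apply mul_le_mul h1 _ (by positivity) (by have := ha0 j; positivity)
            linarith
        _ = a j * baW D r j * (64 * Real.sqrt (baC4 q R J Δ)) := by ring
        _ ≤ 1 := h2
    have := ba_tail_to_R hherm hmgf (ha0 j) ha1 hu
    refine this.trans (le_of_eq ?_)
    rw [hκ, hκ₀]
    unfold ent
    ring
  have hbuf := bf_buffer (io := fun _ : Λ => Fin q) hHyp
    (fun j => lt_of_le_of_lt (hahalf j) (by norm_num)) X hXY κ hRen
  -- strong subadditivity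
  obtain ⟨e0, e1, _, _, e4⟩ := hEnt Λ q Ω hG.1
  have hsub : BxSub S := ⟨e0, e1, e4⟩
  have hssa : ∀ j, j < m → S P - S (P \ X) ≤ S (Y j) - S (Y j \ X) := by
    intro j hj
    have h := hsub.bx_cond_mono (X := X) (T := Y j \ X) (V := P \ X)
      (Finset.sdiff_subset_sdiff (hYP j hj) (Finset.Subset.refl _)) Finset.disjoint_sdiff
    rwa [Finset.union_sdiff_of_subset hXP, Finset.union_sdiff_of_subset (hXY j)] at h
  have hlhs : 2 * (S P - S (P \ X)) ≤ ∑ j ∈ range m, a j * (S (Y j) - S (Y j \ X)) := by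
    rw [← hsum, Finset.sum_mul]
    exact Finset.sum_le_sum fun j hj =>
      mul_le_mul_of_nonneg_left (hssa j (mem_range.mp hj)) (ha0 j).le
  have hκsum : ∑ j ∈ range m, κ j ≤ baK1 q R J Δ := by
    have h1 : ∀ j ∈ range m, κ j ≤ 2 * κ₀ * ε * a j := by
      intro j _
      rw [hκ]
      simp only
      rw [div_le_iff₀ (by linarith [hahalf j])]
      have h2 : κ₀ * baW D r j * a j ^ 2 = κ₀ * (a j * baW D r j) * a j := by ring
      have h3 : κ₀ * (a j * baW D r j) * a j ≤ κ₀ * ε * a j :=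
        mul_le_mul_of_nonneg_right (mul_le_mul_of_nonneg_left (haw j) hκ₀pos) (ha0 j).le
      have h4 : 0 ≤ κ₀ * ε * a j := by have := ha0 j; positivity
      have h5 := hahalf j
      nlinarith
    refine (Finset.sum_le_sum h1).trans (le_of_eq ?_)
    rw [← Finset.mul_sum, hsum]
    unfold baK1
    ring
  have hrhs : ∑ j ∈ range m, (κ j + Real.log (4 / 3) + a j * Real.log (8 / 3))
      ≤ baK1 q R J Δ + (m : ℝ) * Real.log (4 / 3) + 2 * Real.log (8 / 3) := by
    rw [Finset.sum_add_distrib, Finset.sum_add_distrib, Finset.sum_const, card_range,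
      nsmul_eq_mul, ← Finset.sum_mul, hsum]
    linarith
  linarith

/-- **Lemma 2.2 of P1** (`lem:initial-buffer`). -/
theorem ba_bufferStmt (hEnt : EntApiStmt) (q R : ℕ) [NeZero q] (J Δ : ℝ) (hJ : 0 < J)
    (hΔ : 0 < Δ) (D0 : ℕ) (hR : R ≤ D0) : BufferStmt q R J Δ D0 := by
  obtain ⟨N, hN⟩ := ba_weights (R + 1) (ba_eps_pos q R hJ hΔ)
  refine ⟨2 ^ N * (R + 1),
    (baK1 q R J Δ + (2 : ℝ) ^ N * Real.log (4 / 3) + 2 * Real.log (8 / 3)) / 2,
    Nat.mul_pos (by positivity) (by omega), ?_⟩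
  intro Λ k hk E₀ Ω hG A Q Q₀ r hr hsafe _ _ hs hpad
  obtain ⟨a, ha0, haw, hsum⟩ := hN r hr
  have h := ba_core hEnt hJ hΔ hR hk hG hr hsafe hs N hpad a ha0 haw hsum
  have hr1 : (1 : ℝ) ≤ r := by exact_mod_cast hr
  have hK : 0 ≤ baK1 q R J Δ := by
    unfold baK1
    have h1 := (ba_eps_pos q R hJ hΔ).le
    have h2 := ba_C3_ge_one q R
    have h3 : 0 < J / Δ := div_pos hJ hΔ
    positivity
  have hl1 : 0 ≤ Real.log (4 / 3) := Real.log_nonneg (by norm_num)
  have hl2 : 0 ≤ Real.log (8 / 3) := Real.log_nonneg (by norm_num)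
  have hm : (((2 ^ N - 1) * r : ℕ) : ℝ) ≤ (2 : ℝ) ^ N * r := by
    have : (2 ^ N - 1) * r ≤ 2 ^ N * r := Nat.mul_le_mul_right r (Nat.sub_le _ _)
    exact_mod_cast this
  have h1 : baK1 q R J Δ ≤ baK1 q R J Δ * r := by nlinarith
  have h2 : (((2 ^ N - 1) * r : ℕ) : ℝ) * Real.log (4 / 3) ≤ (2 : ℝ) ^ N * Real.log (4 / 3) * r := by
    have := mul_le_mul_of_nonneg_right hm hl1
    linarith
  have h3 : 2 * Real.log (8 / 3) ≤ 2 * Real.log (8 / 3) * r := by nlinarith
  linarith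

/-- **Proposition 2.3 of P1** (`prop:initial-box`), unconditional form. -/
theorem ba_initBox (hEnt : EntApiStmt) (q R : ℕ) [NeZero q] (J Δ : ℝ) (hJ : 0 < J)
    (hΔ : 0 < Δ) (D0 : ℕ) (hR : R ≤ D0) :
    ∃ e₀ : ℝ, 0 < e₀ ∧ e₀ < 1 ∧ BoxStmt q R J Δ D0 e₀ :=
  bx_boxStmt hEnt q R J Δ D0 (ba_bufferStmt hEnt q R J Δ hJ hΔ D0 hR)

end Main

end Claimed.Agent.R296
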