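import Claimed.Agent.R296.LocEmb
import Claimed.Agent.R296.MatPow
import Claimed.Agent.R296.EntBasic

/-!
# Row 296, paper P1, Lemma 2.2 (lem:initial-buffer): the abstract buffer lemma, DEFINITIONS

Owner: helper101.  Prefix `bf_`.  Plan (differs from the paper in four harmless points):

* filters are parametrised by "densities": `L_j = σ_j ^ (a_j / 2)`, `σ_j ≥ η`, `Tr σ_j = 1`
  (`bf_Den η 1`), so the constraint set is a compact convex set of matrices;
* the floor `η > 0` is FIXED (no limit `η → 0`): the trial filter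
  `|u⟩⟨u| ⊗ τ + η (1 - |u⟩⟨u|) ⊗ 1` is exactly feasible when `Tr τ = t_j < 1`;
* the trial density on `T_j` is built from the marginal of `Ω` itself (not of the Schmidt
  vector), so concavity of the entropy is not needed, and no limit `δ → 0`;
* everything is unnormalised (`ψ = K Ω`, no division by the norm).
-/

set_option autoImplicit false

namespace Claimed.Agent.R296

open Matrix
open scoped MatrixOrder Matrix.Norms.L2Operator ComplexOrder

section Gen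

variable {n : Type} [Fintype n] [DecidableEq n]

/-- expectation value `⟨φ, M φ⟩` -/
def bf_ex (φ : n → ℂ) (M : Matrix n n ℂ) : ℂ := star φ ⬝ᵥ (M *ᵥ φ)

/-- squared Euclidean norm -/
def bf_nsq (v : n → ℂ) : ℝ := (star v ⬝ᵥ v).re

/-- feasible densities: Hermitian, `σ ≥ η`, `Tr σ = t` -/
def bf_Den (η t : ℝ) : Set (Matrix n n ℂ) :=
  {σ | σ.IsHermitian ∧ (σ - (η : ℂ) • (1 : Matrix n n ℂ)).PosSemidef ∧ σ.trace = (t : ℂ)}

/-- ordered product `L (m-1) * ... * L 1 * L 0` -/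
def bf_prod (L : ℕ → Matrix n n ℂ) : ℕ → Matrix n n ℂ
  | 0 => 1
  | m + 1 => L m * bf_prod L m

/-- ordered product of `r` factors starting at `j`: `L (j+r-1) * ... * L j` -/
def bf_seg (L : ℕ → Matrix n n ℂ) (j : ℕ) : ℕ → Matrix n n ℂ
  | 0 => 1
  | r + 1 => L (j + r) * bf_seg L j r

/-- reversed product of `r` factors starting at `j`: `L j * ... * L (j+r-1)` -/
def bf_ges (L : ℕ → Matrix n n ℂ) (j : ℕ) : ℕ → Matrix n n ℂ
  | 0 => 1
  | r + 1 => bf_ges L j r * L (j + r)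

end Gen

section Sites

variable {s : Type} [DecidableEq s] [Fintype s] {io : s → Type}
  [∀ x, Fintype (io x)] [∀ x, DecidableEq (io x)]

/-- tuples of local matrices along a chain of regions -/
abbrev bf_Tup (io : s → Type) (Y : ℕ → Finset s) : Type :=
  ∀ j : ℕ, Matrix (CfgOn io (Y j)) (CfgOn io (Y j)) ℂ

/-- the global operator `σ_j ^ (z a_j / 2)` on the region `Y j` -/
noncomputable def bf_Fz (Y : ℕ → Finset s) (a : ℕ → ℝ) (σ : bf_Tup io Y) (z : ℂ) (j : ℕ) :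
    Matrix (Cfg io) (Cfg io) ℂ :=
  emb (Y j) (hpow (σ j) (z * ((a j / 2 : ℝ) : ℂ)))

/-- the filter `L_j = σ_j ^ (a_j / 2)` -/
noncomputable def bf_F (Y : ℕ → Finset s) (a : ℕ → ℝ) (σ : bf_Tup io Y) (j : ℕ) :
    Matrix (Cfg io) (Cfg io) ℂ := bf_Fz Y a σ 1 j

/-- `h` is split by the cut `A | Aᶜ` with cost `γ` -/
def bf_Split (A : Finset s) (h : Matrix (Cfg io) (Cfg io) ℂ) (γ : ℝ) : Prop :=
  ∃ (ι : Type) (_ : Fintype ι) (c : ι → Matrix (CfgOn io A) (CfgOn io A) ℂ)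
    (e : ι → Matrix (CfgOff io A) (CfgOff io A) ℂ),
    h = ∑ α, emb A (c α) * embOff A (e α) ∧ ∑ α, ‖c α‖ * ‖e α‖ ≤ γ

/-- the standing hypotheses of the abstract buffer lemma, for the first `m` contours -/
structure bf_Hyp {I : Type} [Fintype I] (h : I → Matrix (Cfg io) (Cfg io) ℂ) (E₀ Δ : ℝ)
    (Ω : Cfg io → ℂ) (Y : ℕ → Finset s) (a : ℕ → ℝ) (γ : I → ℕ → ℝ) (m : ℕ) : Prop where
  hΩ : star Ω ⬝ᵥ Ω = 1
  herm : ∀ i, (h i).IsHermitian
  heig : (∑ i, h i) *ᵥ Ω = (E₀ : ℂ) • Ω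
  hΔ : 0 < Δ
  hgap : ((∑ i, h i) - (E₀ : ℂ) • (1 : Matrix (Cfg io) (Cfg io) ℂ) -
      (Δ : ℂ) • (1 - pureOp Ω)).PosSemidef
  mono : Monotone Y
  ha0 : ∀ j, 0 < a j
  ha1 : ∀ j, a j ≤ 1
  hγ : ∀ i j, 0 ≤ γ i j
  tri : ∀ i j, j < m → SuppIn (Y j) (h i) ∨ SuppOff (Y j) (h i) ∨
      (bf_Split (Y j) (h i) (γ i j) ∧ (j + 1 < m → SuppIn (Y (j + 1)) (h i)))
  budget : ∑ i, ∑ j ∈ Finset.range m, γ i j * (a j) ^ 2 ≤ Δ / 4

end Sites

end Claimed.Agent.R296
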