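import Claimed.Agent.R296.BufDefs

/-!
# Row 296, P1 Lemma 2.2: diagonalisation leaves (prefix `bf_`)

* `bf_simul_diag`: two commuting Hermitian matrices have a common unitary diagonalisation;
* `bf_Den` and `hpow` in a diagonalising basis, unitary invariance of `bf_Den`.
Owner: helper101.
-/

set_option autoImplicit false

namespace Claimed.Agent.R296

open Matrix
open scoped MatrixOrder Matrix.Norms.L2Operator ComplexOrder

variable {n : Type} [Fintype n] [DecidableEq n]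

/-- powers of a combination of orthogonal idempotents summing to one -/
theorem bf_resol_pow {ι : Type} [DecidableEq ι] (s : Finset ι) (R : ι → Matrix n n ℂ)
    (hR : ∀ i ∈ s, ∀ j ∈ s, R i * R j = if i = j then R i else 0) (h1 : ∑ i ∈ s, R i = 1)
    (c : ι → ℂ) (k : ℕ) : (∑ i ∈ s, c i • R i) ^ k = ∑ i ∈ s, c i ^ k • R i := by
  induction k with
  | zero => simp [h1]
  | succ k ih =>
    rw [pow_succ, ih, Finset.sum_mul]
    refine Finset.sum_congr rfl fun i hi => ?_
    rw [Finset.mul_sum, Finset.sum_eq_single i]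
    · rw [Matrix.smul_mul, Matrix.mul_smul, hR i hi i hi, if_pos rfl, smul_smul, pow_succ]
    · intro j hj hji
      rw [Matrix.smul_mul, Matrix.mul_smul, hR i hi j hj, if_neg (Ne.symm hji), smul_zero,
        smul_zero]
    · intro h; exact absurd hi h

theorem bf_resol_aeval {ι : Type} [DecidableEq ι] (s : Finset ι) (R : ι → Matrix n n ℂ)
    (hR : ∀ i ∈ s, ∀ j ∈ s, R i * R j = if i = j then R i else 0) (h1 : ∑ i ∈ s, R i = 1)
    (c : ι → ℂ) (p : Polynomial ℂ) :
    Polynomial.aeval (∑ i ∈ s, c i • R i) p = ∑ i ∈ s, p.eval (c i) • R i := by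
  rw [Polynomial.aeval_eq_sum_range]
  simp only [bf_resol_pow s R hR h1, Polynomial.eval_eq_sum_range, Finset.sum_smul,
    Finset.smul_sum, smul_smul]
  rw [Finset.sum_comm]

/-- the indicator symbol -/
noncomputable def bf_ind (a : ℝ) : ℝ → ℂ := fun x => if x = a then 1 else 0

theorem bf_ind_mul (A : Matrix n n ℂ) (a a' : ℝ) :
    mfun (bf_ind a) A * mfun (bf_ind a') A = if a = a' then mfun (bf_ind a) A else 0 := by
  rw [← mfun_mul]
  split_ifs with h
  · subst h
    congr 1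
    funext x
    simp only [bf_ind]
    split_ifs <;> simp
  · rw [← mfun_zero A]
    congr 1
    funext x
    simp only [bf_ind]
    by_cases h1 : x = a
    · have : ¬ x = a' := fun h2 => h (h1.symm.trans h2)
      simp [this]
    · simp [h1]

theorem bf_ind_sum {A : Matrix n n ℂ} (hA : A.IsHermitian) :
    ∑ a ∈ eigSet hA, mfun (bf_ind a) A = 1 := by
  rw [← mfun_sum, ← mfun_one hA]
  refine mfun_congr hA fun i => ?_
  simp only [bf_ind]
  rw [Finset.sum_ite_eq]
  simp [mem_eigSet hA i]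

theorem bf_ind_sum_smul {A : Matrix n n ℂ} (hA : A.IsHermitian) :
    ∑ a ∈ eigSet hA, (a : ℂ) • mfun (bf_ind a) A = A := by
  conv_rhs => rw [← mfun_id hA]
  simp only [← mfun_smul]
  rw [← mfun_sum]
  refine mfun_congr hA fun i => ?_
  simp only [bf_ind, mul_ite, mul_one, mul_zero]
  rw [Finset.sum_ite_eq]
  simp [mem_eigSet hA i]

theorem bf_ind_herm (A : Matrix n n ℂ) (a : ℝ) : (mfun (bf_ind a) A)ᴴ = mfun (bf_ind a) A := by
  rw [mfun_conjTranspose]
  congr 1
  funext x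
  simp only [bf_ind]
  split_ifs <;> simp

/-- a Hermitian matrix with a complex unitary diagonalisation has a real one -/
theorem bf_real_diag {A W : Matrix n n ℂ} (hA : A.IsHermitian) (hW : Wᴴ * W = 1) (z : n → ℂ)
    (h : A = W * diagonal z * Wᴴ) : A = W * diagonal (fun i => ((z i).re : ℂ)) * Wᴴ := by
  have h1 : diagonal z = Wᴴ * A * W := by
    rw [h]
    calc diagonal z = (Wᴴ * W) * diagonal z * (Wᴴ * W) := by rw [hW, Matrix.one_mul, Matrix.mul_one]
      _ = _ := by simp only [Matrix.mul_assoc]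
  have h2 : (diagonal z)ᴴ = diagonal z := by
    rw [h1, conjTranspose_mul, conjTranspose_mul, conjTranspose_conjTranspose, hA.eq,
      Matrix.mul_assoc]
  rw [diagonal_conjTranspose] at h2
  have h3 : ∀ i, ((z i).re : ℂ) = z i := fun i => by
    have := congrFun (diagonal_injective h2) i
    exact Complex.conj_eq_iff_re.1 this
  simp only [h3]
  exact h

/-- two commuting Hermitian matrices are simultaneously unitarily diagonalisable -/
theorem bf_simul_diag (A B : Matrix n n ℂ) (hA : A.IsHermitian) (hB : B.IsHermitian)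
    (hAB : Commute A B) :
    ∃ (U : Matrix n n ℂ) (d₁ d₂ : n → ℝ), Uᴴ * U = 1 ∧ U * Uᴴ = 1 ∧
      A = U * diagonal (fun i => (d₁ i : ℂ)) * Uᴴ ∧ B = U * diagonal (fun i => (d₂ i : ℂ)) * Uᴴ := by
  classical
  set s : Finset (ℝ × ℝ) := eigSet hA ×ˢ eigSet hB with hs
  set R : ℝ × ℝ → Matrix n n ℂ := fun x => mfun (bf_ind x.1) A * mfun (bf_ind x.2) B with hRdef
  have hcomm : ∀ a b, mfun (bf_ind a) A * mfun (bf_ind b) B = mfun (bf_ind b) B * mfun (bf_ind a) A :=
    fun a b => (mfun_commute_mfun _ _ hAB).eq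
  have hR : ∀ i ∈ s, ∀ j ∈ s, R i * R j = if i = j then R i else 0 := by
    intro i _ j _
    calc R i * R j = (mfun (bf_ind i.1) A * mfun (bf_ind j.1) A) *
          (mfun (bf_ind i.2) B * mfun (bf_ind j.2) B) := by
          simp only [hRdef, Matrix.mul_assoc]
          rw [← Matrix.mul_assoc (mfun (bf_ind i.2) B), ← hcomm, Matrix.mul_assoc]
      _ = if i = j then R i else 0 := by
          rw [bf_ind_mul, bf_ind_mul]
          by_cases h1 : i.1 = j.1
          · by_cases h2 : i.2 = j.2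
            · rw [if_pos h1, if_pos h2, if_pos (Prod.ext h1 h2)]
            · rw [if_neg h2, Matrix.mul_zero, if_neg fun h => h2 (congrArg Prod.snd h)]
          · rw [if_neg h1, Matrix.zero_mul, if_neg fun h => h1 (congrArg Prod.fst h)]
  have h1 : ∑ i ∈ s, R i = 1 := by
    rw [hs, Finset.sum_product]
    simp only [hRdef, ← Finset.mul_sum, bf_ind_sum hB, Matrix.mul_one, bf_ind_sum hA]
  have hAs : A = ∑ i ∈ s, (i.1 : ℂ) • R i := by
    rw [hs, Finset.sum_product]
    simp only [hRdef, ← Finset.mul_sum, ← Finset.smul_sum, bf_ind_sum hB, Matrix.mul_one,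
      bf_ind_sum_smul hA]
  have hBs : B = ∑ i ∈ s, (i.2 : ℂ) • R i := by
    rw [hs, Finset.sum_product_right]
    simp only [hRdef, hcomm, ← Finset.mul_sum, ← Finset.smul_sum, bf_ind_sum hA, Matrix.mul_one,
      bf_ind_sum_smul hB]
  -- an injective real labelling of the pairs
  obtain ⟨c, hc⟩ : ∃ c : ℝ × ℝ → ℝ, Set.InjOn c (s : Set (ℝ × ℝ)) := by
    refine ⟨fun x => if h : x ∈ s then ((s.equivFin ⟨x, h⟩ : ℕ) : ℝ) else 0, ?_⟩
    intro x hx y hy hxy
    have hx' : x ∈ s := hx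
    have hy' : y ∈ s := hy
    simp only [dif_pos hx', dif_pos hy', Nat.cast_inj] at hxy
    have := s.equivFin.injective (Fin.ext hxy)
    exact congrArg Subtype.val this
  have hcC : Set.InjOn (fun x => ((c x : ℝ) : ℂ)) (s : Set (ℝ × ℝ)) :=
    fun x hx y hy h => hc hx hy (Complex.ofReal_injective h)
  set C : Matrix n n ℂ := ∑ i ∈ s, ((c i : ℝ) : ℂ) • R i with hC
  have hCH : C.IsHermitian := by
    rw [IsHermitian, hC, conjTranspose_sum]
    refine Finset.sum_congr rfl fun i _ => ?_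
    rw [conjTranspose_smul, conjTranspose_mul, bf_ind_herm, bf_ind_herm, ← hcomm]
    simp [hRdef]
  have key : ∀ r : ℝ × ℝ → ℂ, ∃ z : n → ℂ, ∑ i ∈ s, r i • R i =
      (hCH.eigenvectorUnitary : Matrix n n ℂ) * diagonal z *
        (hCH.eigenvectorUnitary : Matrix n n ℂ)ᴴ := by
    intro r
    set p := Lagrange.interpolate s (fun x => ((c x : ℝ) : ℂ)) r with hp
    have h2 : ∑ i ∈ s, r i • R i = Polynomial.aeval C p := by
      rw [hC, bf_resol_aeval s R hR h1]
      refine Finset.sum_congr rfl fun i hi => ?_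
      rw [hp, Lagrange.eval_interpolate_at_node r hcC hi]
    rw [h2, ← mfun_eq_aeval hCH (fun y => p.eval (y : ℂ)) p (fun _ => rfl), mfun_eq hCH]
    exact ⟨_, rfl⟩
  obtain ⟨z₁, hz₁⟩ := key fun i => (i.1 : ℂ)
  obtain ⟨z₂, hz₂⟩ := key fun i => (i.2 : ℂ)
  rw [← hAs] at hz₁
  rw [← hBs] at hz₂
  exact ⟨_, fun i => (z₁ i).re, fun i => (z₂ i).re, eigU_conjTranspose_mul hCH,
    eigU_mul_conjTranspose hCH, bf_real_diag hA (eigU_conjTranspose_mul hCH) z₁ hz₁,
    bf_real_diag hB (eigU_conjTranspose_mul hCH) z₂ hz₂⟩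

theorem bf_conj_sub_smul {U : Matrix n n ℂ} (hU' : U * Uᴴ = 1) (M : Matrix n n ℂ) (η : ℂ) :
    U * M * Uᴴ - η • (1 : Matrix n n ℂ) = U * (M - η • (1 : Matrix n n ℂ)) * Uᴴ := by
  rw [Matrix.mul_sub, Matrix.sub_mul, Matrix.mul_smul, Matrix.smul_mul, Matrix.mul_one, hU']

theorem bf_trace_conj {U : Matrix n n ℂ} (hU : Uᴴ * U = 1) (M : Matrix n n ℂ) :
    (U * M * Uᴴ).trace = M.trace := by
  rw [Matrix.trace_mul_comm, ← Matrix.mul_assoc, hU, Matrix.one_mul]

theorem bf_den_diag_iff {U : Matrix n n ℂ} (hU : Uᴴ * U = 1) (hU' : U * Uᴴ = 1) (x : n → ℝ)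
    (η t : ℝ) :
    U * diagonal (fun i => (x i : ℂ)) * Uᴴ ∈ bf_Den η t ↔ (∀ i, η ≤ x i) ∧ ∑ i, x i = t := by
  have hd : diagonal (fun i => (x i : ℂ)) - (η : ℂ) • (1 : Matrix n n ℂ)
      = diagonal (fun i => ((x i - η : ℝ) : ℂ)) := by
    rw [← diagonal_one, ← diagonal_smul, diagonal_sub]
    congr 1
    funext i
    simp
  have hps : (diagonal (fun i => ((x i - η : ℝ) : ℂ)) : Matrix n n ℂ).PosSemidef ↔
      ∀ i, η ≤ x i := by
    rw [posSemidef_diagonal_iff]
    refine forall_congr' fun i => ?_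
    rw [Complex.zero_le_real, sub_nonneg]
  have htr : (U * diagonal (fun i => (x i : ℂ)) * Uᴴ).trace = ((∑ i, x i : ℝ) : ℂ) := by
    rw [bf_trace_conj hU, trace_diagonal]
    push_cast
    rfl
  constructor
  · rintro ⟨-, h2, h3⟩
    refine ⟨?_, ?_⟩
    · rw [← hps]
      rw [bf_conj_sub_smul hU', hd] at h2
      have h4 := h2.conjTranspose_mul_mul_same U
      have h5 : Uᴴ * (U * diagonal (fun i => ((x i - η : ℝ) : ℂ)) * Uᴴ) * U
          = diagonal (fun i => ((x i - η : ℝ) : ℂ)) := by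
        calc Uᴴ * (U * diagonal (fun i => ((x i - η : ℝ) : ℂ)) * Uᴴ) * U
            = (Uᴴ * U) * diagonal (fun i => ((x i - η : ℝ) : ℂ)) * (Uᴴ * U) := by
              simp only [Matrix.mul_assoc]
          _ = _ := by rw [hU, Matrix.one_mul, Matrix.mul_one]
      rwa [h5] at h4
    · rw [htr] at h3
      exact_mod_cast h3
  · rintro ⟨h1, h2⟩
    refine ⟨isHermitian_isometry_conj U (isHermitian_diagonal_ofReal x), ?_, ?_⟩
    · rw [bf_conj_sub_smul hU', hd]
      exact (hps.2 h1).mul_mul_conjTranspose_same U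
    · rw [htr, h2]

theorem bf_hpow_diag {U : Matrix n n ℂ} (hU : Uᴴ * U = 1) (hU' : U * Uᴴ = 1) (x : n → ℝ) (z : ℂ) :
    hpow (U * diagonal (fun i => (x i : ℂ)) * Uᴴ) z = U * diagonal (fun i => hpowS z (x i)) * Uᴴ :=
  mfun_of_decomp _ U hU hU' x

theorem bf_mlog_diag {U : Matrix n n ℂ} (hU : Uᴴ * U = 1) (hU' : U * Uᴴ = 1) (x : n → ℝ) :
    mlog (U * diagonal (fun i => (x i : ℂ)) * Uᴴ) =
      U * diagonal (fun i => (Real.log (x i) : ℂ)) * Uᴴ :=
  mfun_of_decomp _ U hU hU' x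

/-- `bf_Den` is invariant under unitary conjugation -/
theorem bf_den_conj {W : Matrix n n ℂ} (hW : Wᴴ * W = 1) (hW' : W * Wᴴ = 1) {η t : ℝ}
    {σ : Matrix n n ℂ} (hσ : σ ∈ bf_Den η t) : W * σ * Wᴴ ∈ bf_Den η t := by
  obtain ⟨h1, h2, h3⟩ := hσ
  refine ⟨isHermitian_isometry_conj W h1, ?_, ?_⟩
  · rw [bf_conj_sub_smul hW']
    exact h2.mul_mul_conjTranspose_same W
  · rw [bf_trace_conj hW, h3]

/-- every element of `bf_Den` has a diagonalisation -/
theorem bf_den_exists_diag {η t : ℝ} {σ : Matrix n n ℂ} (hσ : σ ∈ bf_Den η t) :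
    ∃ (U : Matrix n n ℂ) (x : n → ℝ), Uᴴ * U = 1 ∧ U * Uᴴ = 1 ∧ (∀ i, η ≤ x i) ∧ ∑ i, x i = t ∧
      σ = U * diagonal (fun i => (x i : ℂ)) * Uᴴ := by
  have h := hσ.1
  have hs := spectral_plain h
  have h2 := hσ
  rw [hs] at h2
  obtain ⟨h3, h4⟩ := (bf_den_diag_iff (eigU_conjTranspose_mul h) (eigU_mul_conjTranspose h) _ η t).1 h2
  exact ⟨_, _, eigU_conjTranspose_mul h, eigU_mul_conjTranspose h, h3, h4, hs⟩

end Claimed.Agent.R296
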