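import Claimed.Agent.R296.BufStat

/-!
# Row 296, P1 Lemma 2.2: the optimised vector has small excitation energy (prefix `bf_`)

`ψ = K Ω`, `K = L_{m-1} ⋯ L_0` optimal.  (eq:initial-product-energy) and the overlap bound.
Owner: helper101.
-/

set_option autoImplicit false
set_option linter.unusedSectionVars false
set_option linter.unusedDecidableInType false
set_option linter.unusedVariables false

namespace Claimed.Agent.R296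

open Matrix
open scoped MatrixOrder Matrix.Norms.L2Operator ComplexOrder

variable {s : Type} [DecidableEq s] [Fintype s] {io : s → Type}
  [∀ x, Fintype (io x)] [∀ x, DecidableEq (io x)]

theorem bf_ex_pureOp {n : Type} [Fintype n] [DecidableEq n] (Ω ψ : n → ℂ) :
    bf_ex ψ (pureOp Ω) = ((‖star Ω ⬝ᵥ ψ‖ ^ 2 : ℝ) : ℂ) := by
  unfold bf_ex pureOp
  rw [vecMulVec_mulVec, op_smul_eq_smul, dotProduct_smul, smul_eq_mul]
  have h : star ψ ⬝ᵥ Ω = star (star Ω ⬝ᵥ ψ) := by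
    rw [← star_dotProduct_star, star_star, dotProduct_comm]
  rw [h, mul_comm, Complex.star_def, ← Complex.normSq_eq_conj_mul_self, Complex.normSq_eq_norm_sq]

theorem bf_gap {n : Type} [Fintype n] [DecidableEq n] {Hm : Matrix n n ℂ} {E₀ Δ : ℝ} {Ω : n → ℂ}
    (hgap : (Hm - (E₀ : ℂ) • (1 : Matrix n n ℂ) - (Δ : ℂ) • (1 - pureOp Ω)).PosSemidef)
    (ψ : n → ℂ) :
    Δ * (bf_nsq ψ - ‖star Ω ⬝ᵥ ψ‖ ^ 2) ≤ (bf_ex ψ Hm).re - E₀ * bf_nsq ψ := by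
  have h1 := hgap.dotProduct_mulVec_nonneg ψ
  have h2 : star ψ ⬝ᵥ ((Hm - (E₀ : ℂ) • (1 : Matrix n n ℂ) - (Δ : ℂ) • (1 - pureOp Ω)) *ᵥ ψ) =
      bf_ex ψ Hm - (E₀ : ℂ) * (bf_nsq ψ : ℂ) -
        (Δ : ℂ) * ((bf_nsq ψ : ℂ) - ((‖star Ω ⬝ᵥ ψ‖ ^ 2 : ℝ) : ℂ)) := by
    rw [← bf_ex, bf_ex_sub, bf_ex_sub, bf_ex_smul, bf_ex_smul, bf_ex_sub, bf_ex_one, bf_ex_pureOp]
  rw [h2] at h1
  have h3 := (Complex.le_def.1 h1).1
  simp only [Complex.zero_re, Complex.sub_re, Complex.mul_re, Complex.ofReal_re, Complex.ofReal_im,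
    zero_mul, sub_zero] at h3
  linarith

theorem bf_opt_split {Y : ℕ → Finset s} (hY : Monotone Y) {a : ℕ → ℝ} (ha : ∀ j, 0 < a j)
    (ha1 : ∀ j, a j ≤ 1) {η : ℝ} (hη : 0 < η) (Ω : Cfg io → ℂ) (m : ℕ) (σ : bf_Tup io Y)
    (hopt : bf_IsOpt Y a η Ω m σ) (j : ℕ) (hj : j < m) {h : Matrix (Cfg io) (Cfg io) ℂ}
    (hh : h.IsHermitian) {γ : ℝ} (hs : bf_Split (Y j) h γ) :
    (bf_ex (bf_prod (bf_F Y a σ) m *ᵥ Ω) h).re -
      (bf_ex (bf_prod (bf_F Y a σ) m *ᵥ Ω) (bf_Fz Y a σ 1 j * h * bf_Fz Y a σ (-1) j)).re ≤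
      γ * (a j) ^ 2 * bf_nsq (bf_prod (bf_F Y a σ) m *ᵥ Ω) := by
  set ψ := bf_prod (bf_F Y a σ) m *ᵥ Ω with hψ
  have hcomm := bf_opt_commute hY ha hη Ω m σ hopt j hj
  rw [← hψ] at hcomm
  obtain ⟨U, x, p, hU, hU', hx, hp⟩ := bf_simul_diag (σ j) (ptr (Y j) (pureOp ψ)) (hopt.1 j).1
    (bf_ptr_pure_posSemidef _ _).1 hcomm
  have hden := hopt.1 j
  rw [hx, bf_den_diag_iff hU hU'] at hden
  obtain ⟨hxη, hxs⟩ := hden
  have hx0 : ∀ l, 0 < x l := fun l => lt_of_lt_of_le hη (hxη l)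
  set r : ℝ := a j / 2 with hr
  have hl0 : ∀ l, 0 < x l ^ r := fun l => Real.rpow_pos_of_pos (hx0 l) r
  have hkkt := fun i k => bf_opt_kkt hY ha hη Ω m σ hopt j hj hU hU' x p hx hp i k
  -- the weights
  have hκ : ∀ i k, 0 < p i → 0 < p k →
      Real.sqrt (p i * p k) * |(x i ^ r / x k ^ r + x k ^ r / x i ^ r) / 2 - 1| ≤
        (a j) ^ 2 / 2 * (p i + p k) := by
    intro i k hpi hpk
    have h1 := bf_kkt_log hη hpi hpk (hxη i) (hxη k) (hkkt i k) (hkkt k i)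
    obtain ⟨h2, h3⟩ := bf_weight (ha j).le (ha1 j) hpi hpk (hx0 i) (hx0 k) h1
    rw [Real.div_rpow (hx0 i).le (hx0 k).le, Real.div_rpow (hx0 k).le (hx0 i).le] at h2 h3
    rw [abs_of_nonneg h2]
    exact h3
  -- the filters in the common eigenbasis
  have hF : bf_Fz Y a σ 1 j = emb (Y j) (U * diagonal (fun i => ((x i ^ r : ℝ) : ℂ)) * Uᴴ) := by
    unfold bf_Fz
    rw [one_mul, hx, bf_hpow_diag hU hU']
    have : (fun l => hpowS ((a j / 2 : ℝ) : ℂ) (x l)) = fun l => ((x l ^ r : ℝ) : ℂ) :=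
      funext fun l => hpowS_ofReal (hx0 l) _
    rw [this]
  have hFi : bf_Fz Y a σ (-1) j =
      emb (Y j) (U * diagonal (fun i => (((x i ^ r : ℝ) : ℂ))⁻¹) * Uᴴ) := by
    unfold bf_Fz
    rw [hx, bf_hpow_diag hU hU']
    have : (fun l => hpowS (-1 * ((a j / 2 : ℝ) : ℂ)) (x l)) = fun l => (((x l ^ r : ℝ) : ℂ))⁻¹ :=
      funext fun l => by
        have e : (-1 * ((a j / 2 : ℝ) : ℂ)) = ((-r : ℝ) : ℂ) := by rw [hr]; push_cast; ring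
        rw [e, hpowS_ofReal (hx0 l), Real.rpow_neg (hx0 l).le, Complex.ofReal_inv]
    rw [this]
  obtain ⟨ι, _, c, e, hce, hγ⟩ := hs
  -- real part = symmetrised expression
  have hFH : (bf_Fz Y a σ 1 j)ᴴ = bf_Fz Y a σ 1 j := by rw [bf_Fz_conjTranspose]; simp
  have hFiH : (bf_Fz Y a σ (-1) j)ᴴ = bf_Fz Y a σ (-1) j := by rw [bf_Fz_conjTranspose]; simp
  have hsym : bf_ex ψ (bf_Fz Y a σ (-1) j * h * bf_Fz Y a σ 1 j) =
      star (bf_ex ψ (bf_Fz Y a σ 1 j * h * bf_Fz Y a σ (-1) j)) := by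
    rw [← bf_ex_conjTranspose, conjTranspose_mul, conjTranspose_mul, hFH, hFiH, hh.eq,
      Matrix.mul_assoc]
  have hre : (bf_ex ψ (bf_Fz Y a σ 1 j * h * bf_Fz Y a σ (-1) j)).re =
      ((bf_ex ψ (bf_Fz Y a σ 1 j * h * bf_Fz Y a σ (-1) j) +
        bf_ex ψ (bf_Fz Y a σ (-1) j * h * bf_Fz Y a σ 1 j)) / 2).re := by
    rw [hsym]
    simp
  -- decompose
  have hdec : (bf_ex ψ (bf_Fz Y a σ 1 j * h * bf_Fz Y a σ (-1) j) +
        bf_ex ψ (bf_Fz Y a σ (-1) j * h * bf_Fz Y a σ 1 j)) / 2 - bf_ex ψ h =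
      ∑ α, ((bf_ex ψ (bf_Fz Y a σ 1 j * (emb (Y j) (c α) * embOff (Y j) (e α)) *
            bf_Fz Y a σ (-1) j) +
          bf_ex ψ (bf_Fz Y a σ (-1) j * (emb (Y j) (c α) * embOff (Y j) (e α)) *
            bf_Fz Y a σ 1 j)) / 2 - bf_ex ψ (emb (Y j) (c α) * embOff (Y j) (e α))) := by
    rw [hce]
    simp only [Matrix.mul_sum, Matrix.sum_mul, bf_ex_sum, Finset.sum_sub_distrib,
      ← Finset.sum_add_distrib, Finset.sum_div]
  have hbound : ‖(bf_ex ψ (bf_Fz Y a σ 1 j * h * bf_Fz Y a σ (-1) j) +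
        bf_ex ψ (bf_Fz Y a σ (-1) j * h * bf_Fz Y a σ 1 j)) / 2 - bf_ex ψ h‖ ≤
      γ * (a j) ^ 2 * bf_nsq ψ := by
    rw [hdec]
    refine (norm_sum_le _ _).trans ?_
    have h1 : ∀ α, ‖(bf_ex ψ (bf_Fz Y a σ 1 j * (emb (Y j) (c α) * embOff (Y j) (e α)) *
            bf_Fz Y a σ (-1) j) +
          bf_ex ψ (bf_Fz Y a σ (-1) j * (emb (Y j) (c α) * embOff (Y j) (e α)) *
            bf_Fz Y a σ 1 j)) / 2 - bf_ex ψ (emb (Y j) (c α) * embOff (Y j) (e α))‖ ≤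
        (‖c α‖ * ‖e α‖) * ((a j) ^ 2 * bf_nsq ψ) := by
      intro α
      rw [hF, hFi]
      have := bf_cut_energy (Y j) ψ hU hU' p (fun i => x i ^ r) hp hl0 hκ (c α) (e α)
      refine this.trans (le_of_eq ?_)
      ring
    refine (Finset.sum_le_sum fun α _ => h1 α).trans ?_
    rw [← Finset.sum_mul]
    calc (∑ α, ‖c α‖ * ‖e α‖) * ((a j) ^ 2 * bf_nsq ψ) ≤ γ * ((a j) ^ 2 * bf_nsq ψ) :=
          mul_le_mul_of_nonneg_right hγ (mul_nonneg (sq_nonneg _) (bf_nsq_nonneg _))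
      _ = _ := by ring
  rw [hre]
  have h9 := (Complex.abs_re_le_norm _).trans hbound
  rw [Complex.sub_re] at h9
  have := (abs_le.1 h9).1
  linarith

theorem bf_commute_off {A : Finset s} {h : Matrix (Cfg io) (Cfg io) ℂ} (hh : SuppOff A h)
    (K : Matrix (CfgOn io A) (CfgOn io A) ℂ) : Commute h (emb A K) := by
  obtain ⟨K', rfl⟩ := hh
  apply Matrix.mulVec_injective
  funext v
  rw [← mulVec_mulVec, ← mulVec_mulVec, sp_comm_mulVec]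

/-- inner filters whose regions do not meet the support of `h` cancel -/
theorem bf_inner_removal (Y : ℕ → Finset s) (a : ℕ → ℝ) (σ : bf_Tup io Y)
    (hσ : ∀ k, (σ k).IsHermitian) {h : Matrix (Cfg io) (Cfg io) ℂ} {j₀ m : ℕ} (hj : j₀ ≤ m)
    (hoff : ∀ j, j < j₀ → SuppOff (Y j) h) :
    bf_seg (bf_Fz Y a σ 1) 0 m * h * bf_ges (bf_Fz Y a σ (-1)) 0 m =
      bf_seg (bf_Fz Y a σ 1) j₀ (m - j₀) * h * bf_ges (bf_Fz Y a σ (-1)) j₀ (m - j₀) := by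
  have hm : m = j₀ + (m - j₀) := by omega
  conv_lhs => rw [hm, bf_seg_add, bf_ges_add, zero_add]
  have hc : Commute h (bf_seg (bf_Fz Y a σ 1) 0 j₀) :=
    bf_seg_commute fun k _ h2 => bf_commute_off (hoff k (by omega)) _
  have h1 : bf_seg (bf_Fz Y a σ 1) 0 j₀ * h * bf_ges (bf_Fz Y a σ (-1)) 0 j₀ = h := by
    rw [← hc.eq, Matrix.mul_assoc, bf_seg_mul_ges (fun k => bf_Fz_mul_neg Y a σ hσ 1 k),
      Matrix.mul_one]
  calc bf_seg (bf_Fz Y a σ 1) j₀ (m - j₀) * bf_seg (bf_Fz Y a σ 1) 0 j₀ * h *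
        (bf_ges (bf_Fz Y a σ (-1)) 0 j₀ * bf_ges (bf_Fz Y a σ (-1)) j₀ (m - j₀))
      = bf_seg (bf_Fz Y a σ 1) j₀ (m - j₀) *
          (bf_seg (bf_Fz Y a σ 1) 0 j₀ * h * bf_ges (bf_Fz Y a σ (-1)) 0 j₀) *
          bf_ges (bf_Fz Y a σ (-1)) j₀ (m - j₀) := by simp only [Matrix.mul_assoc]
    _ = _ := by rw [h1]

theorem bf_opt_term {I : Type} [Fintype I] {h : I → Matrix (Cfg io) (Cfg io) ℂ} {E₀ Δ : ℝ}
    {Ω : Cfg io → ℂ} {Y : ℕ → Finset s} {a : ℕ → ℝ} {γ : I → ℕ → ℝ} {m : ℕ}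
    (H : bf_Hyp h E₀ Δ Ω Y a γ m) {η : ℝ} (hη : 0 < η) (σ : bf_Tup io Y)
    (hopt : bf_IsOpt Y a η Ω m σ) (i : I) :
    (bf_ex (bf_prod (bf_F Y a σ) m *ᵥ Ω) (h i)).re -
      (bf_ex (bf_prod (bf_F Y a σ) m *ᵥ Ω)
        (bf_seg (bf_Fz Y a σ 1) 0 m * h i * bf_ges (bf_Fz Y a σ (-1)) 0 m)).re ≤
      (∑ j ∈ Finset.range m, γ i j * (a j) ^ 2) * bf_nsq (bf_prod (bf_F Y a σ) m *ᵥ Ω) := by
  classical
  have hσ : ∀ k, (σ k).IsHermitian := fun k => (hopt.1 k).1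
  set ψ := bf_prod (bf_F Y a σ) m *ᵥ Ω with hψ
  have hcomm : ∀ k, k < m → Commute (σ k) (ptr (Y k) (pureOp ψ)) :=
    fun k hk => bf_opt_commute H.mono H.ha0 hη Ω m σ hopt k hk
  have hterm : ∀ j, 0 ≤ γ i j * (a j) ^ 2 := fun j => mul_nonneg (H.hγ i j) (sq_nonneg _)
  have hRHS : 0 ≤ (∑ j ∈ Finset.range m, γ i j * (a j) ^ 2) * bf_nsq ψ :=
    mul_nonneg (Finset.sum_nonneg fun j _ => hterm j) (bf_nsq_nonneg _)
  by_cases hall : ∀ j, j < m → SuppOff (Y j) (h i)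
  · rw [bf_inner_removal Y a σ hσ (le_refl m) hall]
    simpa using hRHS
  · push Not at hall
    have hex : ∃ j, j < m ∧ ¬ SuppOff (Y j) (h i) := hall
    set j₀ := Nat.find hex with hj₀
    obtain ⟨hj₀m, hj₀off⟩ := Nat.find_spec hex
    have hmin : ∀ j, j < j₀ → SuppOff (Y j) (h i) := by
      intro j hj
      by_contra hcon
      exact Nat.find_min hex hj ⟨by omega, hcon⟩
    rw [bf_inner_removal Y a σ hσ hj₀m.le hmin]
    rcases H.tri i j₀ hj₀m with hin | hoff | ⟨hsp, hnext⟩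
    · rw [bf_removal H.mono a σ hσ ψ j₀ (m - j₀) (fun k _ h2 => hcomm k (by omega)) hin]
      simpa using hRHS
    · exact absurd hoff hj₀off
    · have hm : m - j₀ = (m - j₀ - 1) + 1 := by omega
      have e1 : bf_seg (bf_Fz Y a σ 1) j₀ (m - j₀) * h i * bf_ges (bf_Fz Y a σ (-1)) j₀ (m - j₀) =
          bf_seg (bf_Fz Y a σ 1) (j₀ + 1) (m - j₀ - 1) *
            (bf_Fz Y a σ 1 j₀ * h i * bf_Fz Y a σ (-1) j₀) *
            bf_ges (bf_Fz Y a σ (-1)) (j₀ + 1) (m - j₀ - 1) := by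
        rw [hm, bf_seg_succ', bf_ges_succ']
        simp only [Matrix.mul_assoc, Nat.add_sub_cancel]
      have e2 : bf_ex ψ (bf_seg (bf_Fz Y a σ 1) (j₀ + 1) (m - j₀ - 1) *
            (bf_Fz Y a σ 1 j₀ * h i * bf_Fz Y a σ (-1) j₀) *
            bf_ges (bf_Fz Y a σ (-1)) (j₀ + 1) (m - j₀ - 1)) =
          bf_ex ψ (bf_Fz Y a σ 1 j₀ * h i * bf_Fz Y a σ (-1) j₀) := by
        by_cases hlast : j₀ + 1 < m
        · refine bf_removal H.mono a σ hσ ψ (j₀ + 1) (m - j₀ - 1)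
            (fun k _ h2 => hcomm k (by omega)) ?_
          exact (((bf_Fz_suppIn Y a σ 1 j₀).mono (H.mono (Nat.le_succ _))).mul (hnext hlast)).mul
            ((bf_Fz_suppIn Y a σ (-1) j₀).mono (H.mono (Nat.le_succ _)))
        · have : m - j₀ - 1 = 0 := by omega
          rw [this]; simp
      rw [e1, e2]
      refine (bf_opt_split H.mono H.ha0 H.ha1 hη Ω m σ hopt j₀ hj₀m (H.herm i) hsp).trans ?_
      refine mul_le_mul_of_nonneg_right ?_ (bf_nsq_nonneg _)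
      exact Finset.single_le_sum (f := fun j => γ i j * (a j) ^ 2) (fun j _ => hterm j)
        (Finset.mem_range.2 hj₀m)

theorem bf_opt_energy {I : Type} [Fintype I] {h : I → Matrix (Cfg io) (Cfg io) ℂ} {E₀ Δ : ℝ}
    {Ω : Cfg io → ℂ} {Y : ℕ → Finset s} {a : ℕ → ℝ} {γ : I → ℕ → ℝ} {m : ℕ}
    (H : bf_Hyp h E₀ Δ Ω Y a γ m) {η : ℝ} (hη : 0 < η) (σ : bf_Tup io Y)
    (hopt : bf_IsOpt Y a η Ω m σ) :
    (bf_ex (bf_prod (bf_F Y a σ) m *ᵥ Ω) (∑ i, h i)).re -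
      E₀ * bf_nsq (bf_prod (bf_F Y a σ) m *ᵥ Ω) ≤
      Δ / 4 * bf_nsq (bf_prod (bf_F Y a σ) m *ᵥ Ω) := by
  have hσ : ∀ k, (σ k).IsHermitian := fun k => (hopt.1 k).1
  set ψ := bf_prod (bf_F Y a σ) m *ᵥ Ω with hψ
  -- exact identity `K H K⁻¹ ψ = E₀ ψ`
  have h1 : bf_ex ψ (bf_seg (bf_Fz Y a σ 1) 0 m * (∑ i, h i) * bf_ges (bf_Fz Y a σ (-1)) 0 m) =
      (E₀ : ℂ) * (bf_nsq ψ : ℂ) := by
    have e1 : (bf_seg (bf_Fz Y a σ 1) 0 m * (∑ i, h i) * bf_ges (bf_Fz Y a σ (-1)) 0 m) *ᵥ ψ =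
        (E₀ : ℂ) • ψ := by
      rw [hψ, bf_prod_eq_seg, bf_F_eq, mulVec_mulVec, Matrix.mul_assoc,
        bf_ges_mul_seg (fun k => bf_Fz_neg_mul Y a σ hσ 1 k), Matrix.mul_one, ← mulVec_mulVec,
        H.heig, mulVec_smul]
    rw [bf_ex, e1, dotProduct_smul, bf_dot_self, smul_eq_mul]
  have h2 : (bf_ex ψ (∑ i, h i)).re - E₀ * bf_nsq ψ =
      ∑ i, ((bf_ex ψ (h i)).re - (bf_ex ψ
        (bf_seg (bf_Fz Y a σ 1) 0 m * h i * bf_ges (bf_Fz Y a σ (-1)) 0 m)).re) := by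
    have e2 := congrArg Complex.re h1
    rw [Matrix.mul_sum, Matrix.sum_mul, bf_ex_sum, Complex.re_sum] at e2
    rw [Finset.sum_sub_distrib, e2, bf_ex_sum, Complex.re_sum]
    simp
  rw [h2]
  refine (Finset.sum_le_sum fun i _ => bf_opt_term H hη σ hopt i).trans ?_
  rw [← Finset.sum_mul]
  exact mul_le_mul_of_nonneg_right H.budget (bf_nsq_nonneg _)

/-- the optimised vector has overlap at least `√(3/4)` with `Ω` -/
theorem bf_opt_overlap {I : Type} [Fintype I] {h : I → Matrix (Cfg io) (Cfg io) ℂ} {E₀ Δ : ℝ}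
    {Ω : Cfg io → ℂ} {Y : ℕ → Finset s} {a : ℕ → ℝ} {γ : I → ℕ → ℝ} {m : ℕ}
    (H : bf_Hyp h E₀ Δ Ω Y a γ m) {η : ℝ} (hη : 0 < η) (σ : bf_Tup io Y)
    (hopt : bf_IsOpt Y a η Ω m σ) :
    3 / 4 * bf_nsq (bf_prod (bf_F Y a σ) m *ᵥ Ω) ≤
      ‖star Ω ⬝ᵥ (bf_prod (bf_F Y a σ) m *ᵥ Ω)‖ ^ 2 := by
  have h1 := bf_opt_energy H hη σ hopt
  have h2 := bf_gap H.hgap (bf_prod (bf_F Y a σ) m *ᵥ Ω)
  have h3 := H.hΔ
  have h4 : Δ * (bf_nsq (bf_prod (bf_F Y a σ) m *ᵥ Ω) -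
      ‖star Ω ⬝ᵥ (bf_prod (bf_F Y a σ) m *ᵥ Ω)‖ ^ 2) ≤
      Δ * (1 / 4 * bf_nsq (bf_prod (bf_F Y a σ) m *ᵥ Ω)) := by
    refine (h2.trans h1).trans (le_of_eq ?_); ring
  have h5 := le_of_mul_le_mul_left h4 h3
  linarith

end Claimed.Agent.R296
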