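import Mathlib

/-!
# Row 296, ENT-REL file 2: the scalar resolvent integral
`∫_0^∞ (p²/(q+tp) - p/(1+t)) dt = p log p - p log q`  for `p ≥ 0`, `q > 0`.
Owner: helper19.
-/

set_option autoImplicit false

namespace Claimed.Agent.R296

open MeasureTheory Set Filter Topology

/-- the scalar integrand -/
noncomputable def relPhi (p q t : ℝ) : ℝ := p ^ 2 / (q + t * p) - p / (1 + t)

theorem relPhi_zero (q t : ℝ) : relPhi 0 q t = 0 := by simp [relPhi]

theorem relPhi_eq {p q t : ℝ} (hp : 0 ≤ p) (hq : 0 < q) (ht : 0 ≤ t) :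
    relPhi p q t = p * (p - q) / ((q + t * p) * (1 + t)) := by
  have h1 : q + t * p ≠ 0 := by positivity
  have h2 : 1 + t ≠ 0 := by positivity
  unfold relPhi
  field_simp
  ring

theorem relPhi_hasDerivAt {p q t : ℝ} (hp : 0 ≤ p) (hq : 0 < q) (ht : 0 ≤ t) :
    HasDerivAt (fun t : ℝ => p * (Real.log (q + t * p) - Real.log (1 + t))) (relPhi p q t) t := by
  have h1 : q + t * p ≠ 0 := by positivity
  have h2 : 1 + t ≠ 0 := by positivity
  have d1 : HasDerivAt (fun t : ℝ => q + t * p) p t := by
    simpa using ((hasDerivAt_id t).mul_const p).const_add q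
  have d2 : HasDerivAt (fun t : ℝ => 1 + t) 1 t := by
    simpa using (hasDerivAt_id t).const_add 1
  have d3 := ((d1.log h1).sub (d2.log h2)).const_mul p
  have h3 : relPhi p q t = p * (p / (q + t * p) - 1 / (1 + t)) := by
    unfold relPhi
    field_simp
  rw [h3]
  exact d3

theorem relPhi_tendsto {p q : ℝ} (hp : 0 < p) :
    Tendsto (fun t : ℝ => p * (Real.log (q + t * p) - Real.log (1 + t))) atTop
      (𝓝 (p * Real.log p)) := by
  have h1 : Tendsto (fun t : ℝ => p + (q - p) / (1 + t)) atTop (𝓝 (p + 0)) := by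
    refine tendsto_const_nhds.add (Tendsto.div_atTop tendsto_const_nhds ?_)
    exact tendsto_atTop_add_const_left _ _ tendsto_id
  rw [add_zero] at h1
  have h2 := (Real.continuousAt_log hp.ne').tendsto.comp h1
  refine (h2.const_mul p).congr' ?_
  filter_upwards [eventually_gt_atTop (max 0 (-q / p))] with t ht
  have ht0 : 0 < t := lt_of_le_of_lt (le_max_left _ _) ht
  have ht1 : -q / p < t := lt_of_le_of_lt (le_max_right _ _) ht
  have h3 : 0 < q + t * p := by
    rw [div_lt_iff₀ hp] at ht1; linarith
  have h4 : (0 : ℝ) < 1 + t := by linarith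
  simp only [Function.comp]
  rw [← Real.log_div h3.ne' h4.ne']
  congr 2
  field_simp
  ring

theorem relPhi_integrableOn {p q : ℝ} (hp : 0 ≤ p) (hq : 0 < q) :
    IntegrableOn (relPhi p q) (Ioi 0) := by
  rcases hp.eq_or_lt with rfl | hp'
  · have : relPhi 0 q = fun _ => 0 := by funext t; exact relPhi_zero q t
    rw [this]; exact integrableOn_zero
  · rcases le_total q p with h | h
    · refine integrableOn_Ioi_deriv_of_nonneg' (fun t ht => relPhi_hasDerivAt hp hq ht) ?_
        (relPhi_tendsto hp')
      intro t ht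
      rw [relPhi_eq hp hq (le_of_lt ht)]
      have : 0 < t := ht
      have h5 : 0 ≤ p - q := by linarith
      positivity
    · refine integrableOn_Ioi_deriv_of_nonpos' (fun t ht => relPhi_hasDerivAt hp hq ht) ?_
        (relPhi_tendsto hp')
      intro t ht
      rw [relPhi_eq hp hq (le_of_lt ht)]
      have ht' : 0 < t := ht
      have h5 : p - q ≤ 0 := by linarith
      have h6 : 0 < (q + t * p) * (1 + t) := by positivity
      exact div_nonpos_of_nonpos_of_nonneg (mul_nonpos_of_nonneg_of_nonpos hp h5) h6.le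

theorem relPhi_integral {p q : ℝ} (hp : 0 ≤ p) (hq : 0 < q) :
    ∫ t in Ioi 0, relPhi p q t = p * Real.log p - p * Real.log q := by
  rcases hp.eq_or_lt with rfl | hp'
  · simp [relPhi_zero]
  · rw [integral_Ioi_of_hasDerivAt_of_tendsto' (fun t ht => relPhi_hasDerivAt hp hq ht)
      (relPhi_integrableOn hp hq) (relPhi_tendsto hp')]
    simp

end Claimed.Agent.R296
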