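import Claimed.Agent.R296.EntPtrE
import Claimed.Agent.R296.EntRelScalar
import Claimed.Agent.R296.MatPow

/-!
# Row 296, ENT-REL file 3: the quadratic functional behind the relative entropy

For Hermitian `ρ σ` and `t ≥ 0` put `𝓛 Y = σ Y + t Y ρ` (`relL`), `Q(Z) = Re tr (Zᴴ 𝓛 Z)` (`relQ`),
`G(Y) = 2 Re tr (ρ Y) - Q(Y)` (`relG`).  If `𝓛 Y₀ = ρ` then `G(Y) = Re tr (ρ Y₀) - Q(Y - Y₀)`
(Pythagoras).  `relY t ρ σ` is the explicit solution `Y₀`, `relF t ρ σ = Re tr (ρ Y₀) = max G`.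
In the notation of P1 lem:conditional-phases: `relF v ρ σ = ⟨a₀,(A+v)⁻¹ a₀⟩`,
`(A+v)⁻¹ a₀ = relY v ρ σ * √ρ`.
Owner: helper19.
-/

set_option autoImplicit false
set_option linter.unusedSectionVars false
set_option linter.unusedDecidableInType false
set_option linter.unusedFintypeInType false

namespace Claimed.Agent.R296

open Matrix
open scoped ComplexOrder

section Core

variable {n : Type} [Fintype n] [DecidableEq n]

/-- relative entropy `D(ρ‖σ) = Re tr ρ (log ρ - log σ)` -/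
noncomputable def relEnt (ρ σ : Matrix n n ℂ) : ℝ := (ρ * (mlog ρ - mlog σ)).trace.re

/-- the superoperator `L_σ + t R_ρ` -/
def relL (t : ℝ) (ρ σ Y : Matrix n n ℂ) : Matrix n n ℂ := σ * Y + (t : ℂ) • (Y * ρ)

/-- the quadratic form `⟨Z,(L_σ + t R_ρ) Z⟩` -/
def relQ (t : ℝ) (ρ σ Z : Matrix n n ℂ) : ℝ := (Zᴴ * relL t ρ σ Z).trace.re

/-- the concave functional whose maximum is `relF` -/
def relG (t : ℝ) (ρ σ Y : Matrix n n ℂ) : ℝ := 2 * (ρ * Y).trace.re - relQ t ρ σ Y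

theorem relL_sub (t : ℝ) (ρ σ Y Z : Matrix n n ℂ) :
    relL t ρ σ (Y - Z) = relL t ρ σ Y - relL t ρ σ Z := by
  simp only [relL, Matrix.mul_sub, Matrix.sub_mul, smul_sub]
  abel

theorem relQ_eq (t : ℝ) (ρ σ Z : Matrix n n ℂ) :
    relQ t ρ σ Z = (Zᴴ * σ * Z).trace.re + t * (Z * ρ * Zᴴ).trace.re := by
  unfold relQ relL
  rw [Matrix.mul_add, Matrix.mul_smul, Matrix.trace_add, Matrix.trace_smul, Complex.add_re,
    smul_eq_mul, Complex.re_ofReal_mul, Matrix.trace_mul_cycle Z ρ Zᴴ, Matrix.mul_assoc,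
    Matrix.mul_assoc]

theorem relQ_nonneg {t : ℝ} (ht : 0 ≤ t) {ρ σ : Matrix n n ℂ} (hρ : ρ.PosSemidef)
    (hσ : σ.PosSemidef) (Z : Matrix n n ℂ) : 0 ≤ relQ t ρ σ Z := by
  rw [relQ_eq]
  have h1 : 0 ≤ (Zᴴ * σ * Z).trace.re :=
    (Complex.le_def.1 (hσ.conjTranspose_mul_mul_same Z).trace_nonneg).1
  have h2 : 0 ≤ (Z * ρ * Zᴴ).trace.re :=
    (Complex.le_def.1 (hρ.mul_mul_conjTranspose_same Z).trace_nonneg).1
  positivity

/-- `L_σ + t R_ρ` is self-adjoint for the Hilbert--Schmidt inner product -/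
theorem relL_selfAdjoint (t : ℝ) {ρ σ : Matrix n n ℂ} (hρ : ρ.IsHermitian) (hσ : σ.IsHermitian)
    (X Y : Matrix n n ℂ) :
    (Xᴴ * relL t ρ σ Y).trace = ((relL t ρ σ X)ᴴ * Y).trace := by
  unfold relL
  rw [conjTranspose_add, conjTranspose_smul, conjTranspose_mul, conjTranspose_mul, hρ.eq, hσ.eq,
    Matrix.mul_add, Matrix.add_mul, Matrix.trace_add, Matrix.trace_add, Matrix.mul_smul,
    Matrix.smul_mul, Matrix.trace_smul, Matrix.trace_smul, Matrix.mul_assoc Xᴴ σ Y]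
  congr 1
  rw [Matrix.trace_mul_cycle ρ Xᴴ Y, Matrix.trace_mul_comm (Y * ρ) Xᴴ]
  simp

theorem re_trace_conjTranspose_mul {ρ : Matrix n n ℂ} (hρ : ρ.IsHermitian) (Y : Matrix n n ℂ) :
    (Yᴴ * ρ).trace.re = (ρ * Y).trace.re := by
  have : Yᴴ * ρ = (ρ * Y)ᴴ := by rw [conjTranspose_mul, hρ.eq]
  rw [this, Matrix.trace_conjTranspose]
  simp

/-- **Pythagoras** for the quadratic functional. -/
theorem relG_eq_sub_relQ (t : ℝ) {ρ σ : Matrix n n ℂ} (hρ : ρ.IsHermitian) (hσ : σ.IsHermitian)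
    {Y₀ : Matrix n n ℂ} (h₀ : relL t ρ σ Y₀ = ρ) (Y : Matrix n n ℂ) :
    relG t ρ σ Y = (ρ * Y₀).trace.re - relQ t ρ σ (Y - Y₀) := by
  have e1 : relQ t ρ σ (Y - Y₀)
      = relQ t ρ σ Y - (Yᴴ * ρ).trace.re - (Y₀ᴴ * relL t ρ σ Y).trace.re + (Y₀ᴴ * ρ).trace.re := by
    unfold relQ
    rw [relL_sub, h₀, conjTranspose_sub]
    simp only [Matrix.sub_mul, Matrix.mul_sub, Matrix.trace_sub, Complex.sub_re]
    ring
  rw [e1, relL_selfAdjoint t hρ hσ, h₀, hρ.eq, re_trace_conjTranspose_mul hρ,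
    re_trace_conjTranspose_mul hρ]
  unfold relG
  ring

/-! ### the explicit solution -/

/-- real diagonal matrix -/
noncomputable abbrev dg (p : n → ℝ) : Matrix n n ℂ := diagonal fun i => ((p i : ℝ) : ℂ)

/-- the solution in the pair of eigenbases -/
noncomputable def relYc (p q : n → ℝ) (W : Matrix n n ℂ) (t : ℝ) : Matrix n n ℂ :=
  Matrix.of fun j i => (p i : ℂ) * star (W i j) / ((q j + t * p i : ℝ) : ℂ)

theorem relYc_eq (p q : n → ℝ) (W : Matrix n n ℂ) (t : ℝ) (h : ∀ i j, q j + t * p i ≠ 0) :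
    dg q * relYc p q W t + (t : ℂ) • (relYc p q W t * dg p) = Wᴴ * dg p := by
  ext j i
  have hh : ((q j + t * p i : ℝ) : ℂ) ≠ 0 := by exact_mod_cast h i j
  simp only [Matrix.add_apply, Matrix.smul_apply, diagonal_mul, mul_diagonal, relYc,
    Matrix.of_apply, conjTranspose_apply, smul_eq_mul]
  field_simp
  push_cast
  ring

theorem relL_decomp (U V : Matrix n n ℂ) (hU : Uᴴ * U = 1) (hV : Vᴴ * V = 1) (hV' : V * Vᴴ = 1)
    (p q : n → ℝ) (t : ℝ) (h : ∀ i j, q j + t * p i ≠ 0) :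
    relL t (U * dg p * Uᴴ) (V * dg q * Vᴴ) (V * relYc p q (Uᴴ * V) t * Uᴴ) = U * dg p * Uᴴ := by
  unfold relL
  set Y := relYc p q (Uᴴ * V) t with hY
  calc V * dg q * Vᴴ * (V * Y * Uᴴ) + (t : ℂ) • (V * Y * Uᴴ * (U * dg p * Uᴴ))
      = V * (dg q * (Vᴴ * V) * Y + (t : ℂ) • (Y * (Uᴴ * U) * dg p)) * Uᴴ := by
        simp only [Matrix.mul_add, Matrix.add_mul, Matrix.mul_smul, Matrix.smul_mul,
          Matrix.mul_assoc]
    _ = V * ((Uᴴ * V)ᴴ * dg p) * Uᴴ := by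
        rw [hU, hV, Matrix.mul_one, Matrix.mul_one, hY, relYc_eq p q _ t h]
    _ = (V * Vᴴ) * U * dg p * Uᴴ := by
        rw [conjTranspose_mul, conjTranspose_conjTranspose]
        simp only [Matrix.mul_assoc]
    _ = U * dg p * Uᴴ := by rw [hV', Matrix.one_mul]

theorem trace_decomp (U V : Matrix n n ℂ) (hU : Uᴴ * U = 1) (p q : n → ℝ) (t : ℝ) :
    ((U * dg p * Uᴴ) * (V * relYc p q (Uᴴ * V) t * Uᴴ)).trace
      = ∑ i, ∑ j, ((‖(Uᴴ * V) i j‖ ^ 2 * (p i ^ 2 / (q j + t * p i)) : ℝ) : ℂ) := by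
  set W := Uᴴ * V with hW
  set Y := relYc p q W t with hY
  have e1 : ((U * dg p * Uᴴ) * (V * Y * Uᴴ)).trace = (dg p * (W * Y)).trace := by
    calc ((U * dg p * Uᴴ) * (V * Y * Uᴴ)).trace = (U * (dg p * (Uᴴ * V) * Y * Uᴴ)).trace := by
          simp only [Matrix.mul_assoc]
      _ = ((dg p * (Uᴴ * V) * Y * Uᴴ) * U).trace := Matrix.trace_mul_comm _ _
      _ = (dg p * (W * Y) * (Uᴴ * U)).trace := by simp only [Matrix.mul_assoc, hW]
      _ = _ := by rw [hU, Matrix.mul_one]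
  rw [e1]
  simp only [Matrix.trace, Matrix.diag_apply, diagonal_mul]
  refine Finset.sum_congr rfl fun i _ => ?_
  rw [Matrix.mul_apply, Finset.mul_sum]
  refine Finset.sum_congr rfl fun j _ => ?_
  have h1 : W i j * star (W i j) = ((‖W i j‖ ^ 2 : ℝ) : ℂ) := by
    rw [RCLike.star_def, Complex.mul_conj, Complex.normSq_eq_norm_sq]
  simp only [hY, relYc, Matrix.of_apply]
  calc (p i : ℂ) * (W i j * ((p i : ℂ) * star (W i j) / ((q j + t * p i : ℝ) : ℂ)))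
      = (W i j * star (W i j)) * ((p i : ℂ) ^ 2 / ((q j + t * p i : ℝ) : ℂ)) := by ring
    _ = _ := by rw [h1]; push_cast; ring

/-- overlap matrix of the eigenbases of `ρ` and `σ` -/
noncomputable def ovl {ρ σ : Matrix n n ℂ} (hρ : ρ.IsHermitian) (hσ : σ.IsHermitian) :
    Matrix n n ℂ :=
  (hρ.eigenvectorUnitary : Matrix n n ℂ)ᴴ * (hσ.eigenvectorUnitary : Matrix n n ℂ)

/-- overlap weights `|⟨e_i,f_j⟩|²` (doubly stochastic) -/
noncomputable def ovw {ρ σ : Matrix n n ℂ} (hρ : ρ.IsHermitian) (hσ : σ.IsHermitian) (i j : n) :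
    ℝ := ‖ovl hρ hσ i j‖ ^ 2

theorem ovw_nonneg {ρ σ : Matrix n n ℂ} (hρ : ρ.IsHermitian) (hσ : σ.IsHermitian) (i j : n) :
    0 ≤ ovw hρ hσ i j := by unfold ovw; positivity

theorem ovl_mul_conjTranspose {ρ σ : Matrix n n ℂ} (hρ : ρ.IsHermitian) (hσ : σ.IsHermitian) :
    ovl hρ hσ * (ovl hρ hσ)ᴴ = 1 := by
  unfold ovl
  rw [conjTranspose_mul, conjTranspose_conjTranspose]
  calc _ = (hρ.eigenvectorUnitary : Matrix n n ℂ)ᴴ * ((hσ.eigenvectorUnitary : Matrix n n ℂ)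
        * (hσ.eigenvectorUnitary : Matrix n n ℂ)ᴴ) * (hρ.eigenvectorUnitary : Matrix n n ℂ) := by
        simp only [Matrix.mul_assoc]
    _ = 1 := by rw [eigU_mul_conjTranspose, Matrix.mul_one, eigU_conjTranspose_mul]

theorem ovl_conjTranspose_mul {ρ σ : Matrix n n ℂ} (hρ : ρ.IsHermitian) (hσ : σ.IsHermitian) :
    (ovl hρ hσ)ᴴ * ovl hρ hσ = 1 := by
  unfold ovl
  rw [conjTranspose_mul, conjTranspose_conjTranspose]
  calc _ = (hσ.eigenvectorUnitary : Matrix n n ℂ)ᴴ * ((hρ.eigenvectorUnitary : Matrix n n ℂ)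
        * (hρ.eigenvectorUnitary : Matrix n n ℂ)ᴴ) * (hσ.eigenvectorUnitary : Matrix n n ℂ) := by
        simp only [Matrix.mul_assoc]
    _ = 1 := by rw [eigU_mul_conjTranspose, Matrix.mul_one, eigU_conjTranspose_mul]

theorem sum_ovw_right {ρ σ : Matrix n n ℂ} (hρ : ρ.IsHermitian) (hσ : σ.IsHermitian) (i : n) :
    ∑ j, ovw hρ hσ i j = 1 := by
  have h := congrFun (congrFun (ovl_mul_conjTranspose hρ hσ) i) i
  rw [Matrix.mul_apply, Matrix.one_apply_eq] at h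
  have h2 : ((∑ j, ovw hρ hσ i j : ℝ) : ℂ) = 1 := by
    rw [← h, Complex.ofReal_sum]
    refine Finset.sum_congr rfl fun j _ => ?_
    rw [conjTranspose_apply, RCLike.star_def, Complex.mul_conj, Complex.normSq_eq_norm_sq]
    rfl
  exact_mod_cast h2

theorem sum_ovw_left {ρ σ : Matrix n n ℂ} (hρ : ρ.IsHermitian) (hσ : σ.IsHermitian) (j : n) :
    ∑ i, ovw hρ hσ i j = 1 := by
  have h := congrFun (congrFun (ovl_conjTranspose_mul hρ hσ) j) j
  rw [Matrix.mul_apply, Matrix.one_apply_eq] at h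
  have h2 : ((∑ i, ovw hρ hσ i j : ℝ) : ℂ) = 1 := by
    rw [← h, Complex.ofReal_sum]
    refine Finset.sum_congr rfl fun i _ => ?_
    rw [conjTranspose_apply, RCLike.star_def, mul_comm, Complex.mul_conj,
      Complex.normSq_eq_norm_sq]
    rfl
  exact_mod_cast h2

/-- `tr (f(ρ) g(σ)) = ∑ f(p_i) g(q_j) |⟨e_i,f_j⟩|²` -/
theorem trace_mfun_mul_mfun {ρ σ : Matrix n n ℂ} (hρ : ρ.IsHermitian) (hσ : σ.IsHermitian)
    (f g : ℝ → ℂ) :
    (mfun f ρ * mfun g σ).trace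
      = ∑ i, ∑ j, f (hρ.eigenvalues i) * g (hσ.eigenvalues j) * (ovw hρ hσ i j : ℂ) := by
  rw [mfun_eq hρ, mfun_eq hσ]
  set U := (hρ.eigenvectorUnitary : Matrix n n ℂ) with hU
  set V := (hσ.eigenvectorUnitary : Matrix n n ℂ) with hV
  set F : Matrix n n ℂ := diagonal fun i => f (hρ.eigenvalues i)
  set G : Matrix n n ℂ := diagonal fun i => g (hσ.eigenvalues i)
  have e1 : (U * F * Uᴴ * (V * G * Vᴴ)).trace = (F * (ovl hρ hσ * (G * (ovl hρ hσ)ᴴ))).trace := by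
    calc (U * F * Uᴴ * (V * G * Vᴴ)).trace = (U * (F * (Uᴴ * V) * G * Vᴴ)).trace := by
          simp only [Matrix.mul_assoc]
      _ = ((F * (Uᴴ * V) * G * Vᴴ) * U).trace := Matrix.trace_mul_comm _ _
      _ = _ := by
          unfold ovl
          rw [conjTranspose_mul, conjTranspose_conjTranspose]
          simp only [Matrix.mul_assoc, hU, hV]
  rw [e1]
  simp only [Matrix.trace, Matrix.diag_apply, F, G, diagonal_mul]
  refine Finset.sum_congr rfl fun i _ => ?_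
  rw [Matrix.mul_apply, Finset.mul_sum]
  refine Finset.sum_congr rfl fun j _ => ?_
  rw [diagonal_mul, conjTranspose_apply]
  have h1 : ovl hρ hσ i j * star (ovl hρ hσ i j) = (ovw hρ hσ i j : ℂ) := by
    rw [RCLike.star_def, Complex.mul_conj, Complex.normSq_eq_norm_sq]; rfl
  rw [← h1]
  ring

/-- the maximiser `Y₀ = (L_σ + t R_ρ)⁻¹ ρ` -/
noncomputable def relY (t : ℝ) (ρ σ : Matrix n n ℂ) : Matrix n n ℂ :=
  if h : ρ.IsHermitian ∧ σ.IsHermitian then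
    (h.2.eigenvectorUnitary : Matrix n n ℂ) * relYc h.1.eigenvalues h.2.eigenvalues (ovl h.1 h.2) t
      * (h.1.eigenvectorUnitary : Matrix n n ℂ)ᴴ
  else 0

/-- `F_t(ρ,σ) = ⟨ρ,(L_σ + t R_ρ)⁻¹ ρ⟩` -/
noncomputable def relF (t : ℝ) (ρ σ : Matrix n n ℂ) : ℝ := (ρ * relY t ρ σ).trace.re

theorem relY_eq (t : ℝ) {ρ σ : Matrix n n ℂ} (hρ : ρ.IsHermitian) (hσ : σ.IsHermitian) :
    relY t ρ σ = (hσ.eigenvectorUnitary : Matrix n n ℂ)
      * relYc hρ.eigenvalues hσ.eigenvalues (ovl hρ hσ) t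
      * (hρ.eigenvectorUnitary : Matrix n n ℂ)ᴴ := by
  rw [relY, dif_pos ⟨hρ, hσ⟩]

theorem denom_pos {t : ℝ} (ht : 0 ≤ t) {ρ σ : Matrix n n ℂ} (hρ : ρ.PosSemidef) (hσ : σ.PosDef)
    (i j : n) : 0 < hσ.isHermitian.eigenvalues j + t * hρ.isHermitian.eigenvalues i := by
  have h1 := hσ.eigenvalues_pos j
  have h2 := hρ.eigenvalues_nonneg i
  positivity

/-- the Sylvester equation `σ Y₀ + t Y₀ ρ = ρ` -/
theorem relL_relY {t : ℝ} (ht : 0 ≤ t) {ρ σ : Matrix n n ℂ} (hρ : ρ.PosSemidef) (hσ : σ.PosDef) :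
    relL t ρ σ (relY t ρ σ) = ρ := by
  have h := relL_decomp (hρ.isHermitian.eigenvectorUnitary : Matrix n n ℂ)
    (hσ.isHermitian.eigenvectorUnitary : Matrix n n ℂ) (eigU_conjTranspose_mul _)
    (eigU_conjTranspose_mul _) (eigU_mul_conjTranspose _) hρ.isHermitian.eigenvalues
    hσ.isHermitian.eigenvalues t (fun i j => (denom_pos ht hρ hσ i j).ne')
  rw [← spectral_plain hρ.isHermitian, ← spectral_plain hσ.isHermitian] at h
  rw [relY_eq t hρ.isHermitian hσ.isHermitian]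
  exact h

theorem relF_eq_sum (t : ℝ) {ρ σ : Matrix n n ℂ} (hρ : ρ.IsHermitian) (hσ : σ.IsHermitian) :
    relF t ρ σ = ∑ i, ∑ j, ovw hρ hσ i j *
      (hρ.eigenvalues i ^ 2 / (hσ.eigenvalues j + t * hρ.eigenvalues i)) := by
  have h := trace_decomp (hρ.eigenvectorUnitary : Matrix n n ℂ)
    (hσ.eigenvectorUnitary : Matrix n n ℂ) (eigU_conjTranspose_mul _) hρ.eigenvalues
    hσ.eigenvalues t
  rw [← spectral_plain hρ] at h
  unfold relF
  rw [relY_eq t hρ hσ]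
  unfold ovl
  rw [h]
  simp only [← Complex.ofReal_sum, Complex.ofReal_re]
  rfl

theorem relG_le_relF {t : ℝ} (ht : 0 ≤ t) {ρ σ : Matrix n n ℂ} (hρ : ρ.PosSemidef)
    (hσ : σ.PosDef) (Y : Matrix n n ℂ) : relG t ρ σ Y ≤ relF t ρ σ := by
  rw [relG_eq_sub_relQ t hρ.isHermitian hσ.isHermitian (relL_relY ht hρ hσ)]
  have := relQ_nonneg ht hρ hσ.posSemidef (Y - relY t ρ σ)
  unfold relF
  linarith

theorem relG_relY {t : ℝ} (ht : 0 ≤ t) {ρ σ : Matrix n n ℂ} (hρ : ρ.PosSemidef)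
    (hσ : σ.PosDef) : relG t ρ σ (relY t ρ σ) = relF t ρ σ := by
  rw [relG_eq_sub_relQ t hρ.isHermitian hσ.isHermitian (relL_relY ht hρ hσ), sub_self]
  simp [relQ, relF]

/-- exact defect formula: `F_t - G(Y) = Q(Y - Y₀)` -/
theorem relF_sub_relG {t : ℝ} (ht : 0 ≤ t) {ρ σ : Matrix n n ℂ} (hρ : ρ.PosSemidef)
    (hσ : σ.PosDef) (Y : Matrix n n ℂ) :
    relF t ρ σ - relG t ρ σ Y = relQ t ρ σ (Y - relY t ρ σ) := by
  rw [relG_eq_sub_relQ t hρ.isHermitian hσ.isHermitian (relL_relY ht hρ hσ)]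
  unfold relF
  ring

end Core

end Claimed.Agent.R296
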