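/-
Row 296, black-box chain INTERP, file 7: the two-eigenbasis expansion
`Tr f(A) g(B) = ∑_{ij} f(a_i) g(b_j) W_ij`, `W_ij = |⟨a_i|b_j⟩|²` doubly stochastic, and its consequences:
Hilbert-Schmidt distances, Hoelder's inequality for positive semidefinite matrices, convexity in the exponent.
(P1 Sec. 2 "Schatten Hoelder", Sec. 4 eq. conditional-log-moments, -overlap, -hellinger, -phase-hellinger;
P2 lem:fidelity.)
Statements fixed by helper57 (architect).  The owner of this file replaces the `sorry`s; do not change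
the statements without telling helper57 (adding lemmas is welcome).
Proofs: helper98 (auxiliary lemmas carry the prefix `tb_`).
-/
import Claimed.Agent.R296.HS
import Claimed.Agent.R296.EntRelCore

set_option autoImplicit false
set_option linter.unusedSectionVars false
set_option linter.unusedDecidableInType false

namespace Claimed.Agent.R296

open Matrix
open scoped Matrix.Norms.L2Operator ComplexOrder

variable {n : Type} [Fintype n] [DecidableEq n]

/-! The overlap weights `ovw hA hB i j = |⟨a_i|b_j⟩|²`, `sum_ovw_left`, `sum_ovw_right`, `ovw_nonneg` and the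
TWO-BASIS TRACE FORMULA `trace_mfun_mul_mfun` are in helper19's `EntRelCore.lean` (proved). -/

section
variable {A B : Matrix n n ℂ} (hA : A.IsHermitian) (hB : B.IsHermitian)

/-- unitary invariance of the squared Hilbert-Schmidt norm -/
theorem tb_hsSq_conj (U V M : Matrix n n ℂ) (hU : U * Uᴴ = 1) (hV : V * Vᴴ = 1) :
    hsSq (Uᴴ * M * V) = hsSq M := by
  rw [← hsn_sq, ← hsn_sq, hsn_mul_coisometry _ V hV,
    hsn_isometry_mul Uᴴ (by rw [conjTranspose_conjTranspose]; exact hU)]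

/-- conjugation by the two eigenbases -/
theorem tb_conj_sub_mul (f g h : ℝ → ℂ) :
    (hA.eigenvectorUnitary : Matrix n n ℂ)ᴴ * ((mfun f A - mfun g B) * mfun h B) *
        (hB.eigenvectorUnitary : Matrix n n ℂ) =
      of fun i j => (f (hA.eigenvalues i) - g (hB.eigenvalues j)) * h (hB.eigenvalues j) *
        ovl hA hB i j := by
  rw [mfun_eq hA, mfun_eq hB, mfun_eq hB]
  set U := (hA.eigenvectorUnitary : Matrix n n ℂ) with hU
  set V := (hB.eigenvectorUnitary : Matrix n n ℂ) with hV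
  set F : Matrix n n ℂ := diagonal fun i => f (hA.eigenvalues i) with hF
  set G : Matrix n n ℂ := diagonal fun i => g (hB.eigenvalues i) with hG
  set H : Matrix n n ℂ := diagonal fun i => h (hB.eigenvalues i) with hH
  have hUU : Uᴴ * U = 1 := eigU_conjTranspose_mul hA
  have hVV : Vᴴ * V = 1 := eigU_conjTranspose_mul hB
  have e1 : Uᴴ * ((U * F * Uᴴ - V * G * Vᴴ) * (V * H * Vᴴ)) * V
      = F * (Uᴴ * V) * H - (Uᴴ * V) * G * H := by
    calc Uᴴ * ((U * F * Uᴴ - V * G * Vᴴ) * (V * H * Vᴴ)) * V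
        = (Uᴴ * U) * F * (Uᴴ * V) * H * (Vᴴ * V) - (Uᴴ * V) * G * (Vᴴ * V) * H * (Vᴴ * V) := by
          simp only [Matrix.mul_assoc, Matrix.sub_mul, Matrix.mul_sub]
      _ = _ := by rw [hUU, hVV]; simp only [Matrix.one_mul, Matrix.mul_one]
  rw [e1]
  ext i j
  have hW : ovl hA hB = Uᴴ * V := rfl
  rw [hW, Matrix.sub_apply, hH, mul_diagonal, mul_diagonal, hG, mul_diagonal, hF, diagonal_mul, of_apply]
  ring

theorem hsSq_sub_mul_mfun (f g h : ℝ → ℂ) :
    hsSq ((mfun f A - mfun g B) * mfun h B) =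
      ∑ i, ∑ j, ‖f (hA.eigenvalues i) - g (hB.eigenvalues j)‖ ^ 2 * ‖h (hB.eigenvalues j)‖ ^ 2 *
        ovw hA hB i j := by
  rw [← tb_hsSq_conj (hA.eigenvectorUnitary : Matrix n n ℂ) (hB.eigenvectorUnitary : Matrix n n ℂ) _
    (eigU_mul_conjTranspose hA) (eigU_mul_conjTranspose hB), tb_conj_sub_mul hA hB]
  unfold hsSq ovw
  simp only [of_apply, norm_mul, mul_pow]

theorem hsSq_mfun_mul_mfun (f g : ℝ → ℂ) :
    hsSq (mfun f A * mfun g B) =
      ∑ i, ∑ j, ‖f (hA.eigenvalues i)‖ ^ 2 * ‖g (hB.eigenvalues j)‖ ^ 2 * ovw hA hB i j := by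
  have h := hsSq_sub_mul_mfun hA hB f (fun _ => 0) g
  simpa only [mfun_zero, sub_zero] using h

theorem hsSq_mfun_sub_mfun (f g : ℝ → ℂ) :
    hsSq (mfun f A - mfun g B) =
      ∑ i, ∑ j, ‖f (hA.eigenvalues i) - g (hB.eigenvalues j)‖ ^ 2 * ovw hA hB i j := by
  have h := hsSq_sub_mul_mfun hA hB f g (fun _ => 1)
  simpa only [mfun_one hB, Matrix.mul_one, norm_one, one_pow, mul_one] using h

/-- scalar Hoelder with doubly stochastic weights -/
theorem sum_ovw_holder {p q : ℝ} (hpq : p.HolderConjugate q) (x y : n → ℝ) (hx : ∀ i, 0 ≤ x i)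
    (hy : ∀ j, 0 ≤ y j) :
    ∑ i, ∑ j, x i * y j * ovw hA hB i j ≤ (∑ i, x i ^ p) ^ (1 / p) * (∑ j, y j ^ q) ^ (1 / q) := by
  have hW := ovw_nonneg hA hB
  have hp := hpq.pos
  have hq := hpq.symm.pos
  have key := Real.inner_le_Lp_mul_Lq_of_nonneg (Finset.univ : Finset (n × n)) hpq
    (f := fun ij => x ij.1 * ovw hA hB ij.1 ij.2 ^ (1 / p))
    (g := fun ij => y ij.2 * ovw hA hB ij.1 ij.2 ^ (1 / q))
    (fun ij _ => mul_nonneg (hx _) (Real.rpow_nonneg (hW _ _) _))
    (fun ij _ => mul_nonneg (hy _) (Real.rpow_nonneg (hW _ _) _))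
  have e0 : ∑ ij : n × n, (x ij.1 * ovw hA hB ij.1 ij.2 ^ (1 / p)) *
      (y ij.2 * ovw hA hB ij.1 ij.2 ^ (1 / q)) = ∑ i, ∑ j, x i * y j * ovw hA hB i j := by
    rw [Fintype.sum_prod_type]
    refine Finset.sum_congr rfl fun i _ => Finset.sum_congr rfl fun j _ => ?_
    have : ovw hA hB i j ^ (1 / p) * ovw hA hB i j ^ (1 / q) = ovw hA hB i j := by
      rcases (hW i j).lt_or_eq with h | h
      · rw [← Real.rpow_add h, hpq.one_div_add_one_div]; simp
      · rw [← h, Real.zero_rpow hpq.one_div_ne_zero, zero_mul]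
    calc _ = x i * y j * (ovw hA hB i j ^ (1 / p) * ovw hA hB i j ^ (1 / q)) := by ring
      _ = _ := by rw [this]
  have e1 : ∑ ij : n × n, (x ij.1 * ovw hA hB ij.1 ij.2 ^ (1 / p)) ^ p = ∑ i, x i ^ p := by
    rw [Fintype.sum_prod_type]
    refine Finset.sum_congr rfl fun i _ => ?_
    have : ∀ j, (x i * ovw hA hB i j ^ (1 / p)) ^ p = x i ^ p * ovw hA hB i j := fun j => by
      rw [Real.mul_rpow (hx i) (Real.rpow_nonneg (hW _ _) _), ← Real.rpow_mul (hW _ _),
        one_div_mul_cancel hp.ne', Real.rpow_one]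
    simp only [this]
    rw [← Finset.mul_sum, sum_ovw_right, mul_one]
  have e2 : ∑ ij : n × n, (y ij.2 * ovw hA hB ij.1 ij.2 ^ (1 / q)) ^ q = ∑ j, y j ^ q := by
    rw [Fintype.sum_prod_type_right]
    refine Finset.sum_congr rfl fun j _ => ?_
    have : ∀ i, (y j * ovw hA hB i j ^ (1 / q)) ^ q = y j ^ q * ovw hA hB i j := fun i => by
      rw [Real.mul_rpow (hy j) (Real.rpow_nonneg (hW _ _) _), ← Real.rpow_mul (hW _ _),
        one_div_mul_cancel hq.ne', Real.rpow_one]
    simp only [this]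
    rw [← Finset.mul_sum, sum_ovw_left, mul_one]
  rw [e0, e1, e2] at key
  exact key


/-- the two-basis trace formula for real symbols -/
theorem tb_trace_re (f g : ℝ → ℝ) :
    (mfun (fun x => (f x : ℂ)) A * mfun (fun x => (g x : ℂ)) B).trace.re =
      ∑ i, ∑ j, f (hA.eigenvalues i) * g (hB.eigenvalues j) * ovw hA hB i j := by
  rw [trace_mfun_mul_mfun hA hB]
  have : (∑ i, ∑ j, ((f (hA.eigenvalues i) : ℝ) : ℂ) * ((g (hB.eigenvalues j) : ℝ) : ℂ) *
      (ovw hA hB i j : ℂ)) =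
      ((∑ i, ∑ j, f (hA.eigenvalues i) * g (hB.eigenvalues j) * ovw hA hB i j : ℝ) : ℂ) := by
    push_cast; rfl
  rw [this, Complex.ofReal_re]

theorem tb_trace_spow_mul_spow_re (b c : ℝ) :
    (spow A (b : ℂ) * spow B (c : ℂ)).trace.re =
      ∑ i, ∑ j, rpowS b (hA.eigenvalues i) * rpowS c (hB.eigenvalues j) * ovw hA hB i j := by
  rw [spow_ofReal_eq, spow_ofReal_eq]; exact tb_trace_re hA hB _ _

end

theorem tb_trace_re_eq_sum {A : Matrix n n ℂ} (hA : A.IsHermitian) :
    A.trace.re = ∑ i, hA.eigenvalues i := by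
  rw [hA.trace_eq_sum_eigenvalues]; simp

theorem tb_rpowS_of_nonneg {x p : ℝ} (hx : 0 ≤ x) (hp : p ≠ 0) : rpowS p x = x ^ p := by
  rcases hx.lt_or_eq with h | h
  · simp [rpowS, h]
  · rw [← h, Real.zero_rpow hp]; simp [rpowS]

theorem tb_rpowS_le {x : ℝ} (hx : 0 ≤ x) (p : ℝ) : rpowS p x ≤ x ^ p := by
  rcases hx.lt_or_eq with h | h
  · simp [rpowS, h]
  · rw [← h]; simpa [rpowS] using Real.rpow_nonneg le_rfl p

theorem tb_trace_spow_re {A : Matrix n n ℂ} (hA : A.PosSemidef) {p : ℝ} (hp : p ≠ 0) :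
    (spow A (p : ℂ)).trace.re = ∑ i, hA.1.eigenvalues i ^ p := by
  rw [trace_spow hA.1]
  have : (∑ i, spowS (p : ℂ) (hA.1.eigenvalues i)) = ((∑ i, hA.1.eigenvalues i ^ p : ℝ) : ℂ) := by
    push_cast
    refine Finset.sum_congr rfl fun i _ => ?_
    rw [spowS_ofReal', tb_rpowS_of_nonneg (hA.eigenvalues_nonneg i) hp]
  rw [this, Complex.ofReal_re]

/-- HOELDER for positive semidefinite matrices -/
theorem trace_mul_le_holder {A B : Matrix n n ℂ} (hA : A.PosSemidef) (hB : B.PosSemidef) {p q : ℝ}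
    (hpq : p.HolderConjugate q) :
    (A * B).trace.re ≤
      ((spow A (p : ℂ)).trace.re) ^ (1 / p) * ((spow B (q : ℂ)).trace.re) ^ (1 / q) := by
  have h1 : (A * B).trace.re
      = ∑ i, ∑ j, hA.1.eigenvalues i * hB.1.eigenvalues j * ovw hA.1 hB.1 i j := by
    conv_lhs => rw [← mfun_id hA.1, ← mfun_id hB.1]
    exact tb_trace_re hA.1 hB.1 (fun x => x) (fun x => x)
  rw [h1, tb_trace_spow_re hA hpq.ne_zero, tb_trace_spow_re hB hpq.symm.ne_zero]
  exact sum_ovw_holder hA.1 hB.1 hpq _ _ hA.eigenvalues_nonneg hB.eigenvalues_nonneg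

/-- the form used in lem:movement (`Tr τ^{2a} K ≤ (Tr τ)^{2a} (Tr K^r)^{1/r}`, `s = 2a`, `r = 1/(1-s)`)
and in lem:initial-buffer (`Tr ρ L² ≤ ...`). -/
theorem trace_spow_mul_le {T K : Matrix n n ℂ} (hT : T.PosSemidef) (hK : K.PosSemidef) {s : ℝ}
    (hs0 : 0 < s) (hs1 : s < 1) :
    (spow T (s : ℂ) * K).trace.re ≤
      (T.trace.re) ^ s * ((spow K ((1 / (1 - s) : ℝ) : ℂ)).trace.re) ^ (1 - s) := by
  have hpq : (1 / s).HolderConjugate (1 / (1 - s)) :=
    Real.holderConjugate_one_div hs0 (sub_pos.2 hs1) (by ring)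
  have h := trace_mul_le_holder (spow_posSemidef hT.1 s) hK hpq
  rw [spow_spow hT.1 s] at h
  have e : (s : ℂ) * ((1 / s : ℝ) : ℂ) = 1 := by
    have : (s : ℂ) ≠ 0 := by exact_mod_cast hs0.ne'
    push_cast; field_simp
  rw [e, spow_one hT, one_div_one_div, one_div_one_div] at h
  exact h

/-- `Tr ρ^[b] ξ^[1-b] ≤ (Tr ρ)^b (Tr ξ)^(1-b)`, endpoints included (support powers) -/
theorem trace_spow_mul_spow_le {R X : Matrix n n ℂ} (hR : R.PosSemidef) (hX : X.PosSemidef) {b : ℝ}
    (hb0 : 0 ≤ b) (hb1 : b ≤ 1) (hR1 : R.trace.re ≤ 1) (hX1 : X.trace.re ≤ 1) :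
    (spow R (b : ℂ) * spow X ((1 - b : ℝ) : ℂ)).trace.re ≤ 1 := by
  rw [tb_trace_spow_mul_spow_re hR.1 hX.1]
  have hW := ovw_nonneg hR.1 hX.1
  have hterm : ∀ i j, rpowS b (hR.1.eigenvalues i) * rpowS (1 - b) (hX.1.eigenvalues j) ≤
      b * hR.1.eigenvalues i + (1 - b) * hX.1.eigenvalues j := fun i j => by
    have hr := hR.eigenvalues_nonneg i
    have hx := hX.eigenvalues_nonneg j
    calc _ ≤ hR.1.eigenvalues i ^ b * hX.1.eigenvalues j ^ (1 - b) :=
          mul_le_mul (tb_rpowS_le hr b) (tb_rpowS_le hx _) (rpowS_nonneg _ _)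
            (Real.rpow_nonneg hr _)
      _ ≤ _ := Real.geom_mean_le_arith_mean2_weighted hb0 (sub_nonneg.2 hb1) hr hx (by ring)
  calc ∑ i, ∑ j, rpowS b (hR.1.eigenvalues i) * rpowS (1 - b) (hX.1.eigenvalues j) * ovw hR.1 hX.1 i j
      ≤ ∑ i, ∑ j, (b * hR.1.eigenvalues i + (1 - b) * hX.1.eigenvalues j) * ovw hR.1 hX.1 i j :=
        Finset.sum_le_sum fun i _ => Finset.sum_le_sum fun j _ =>
          mul_le_mul_of_nonneg_right (hterm i j) (hW i j)
    _ = b * ∑ i, hR.1.eigenvalues i + (1 - b) * ∑ j, hX.1.eigenvalues j := by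
        simp only [add_mul, Finset.sum_add_distrib]
        congr 1
        · rw [Finset.mul_sum]
          refine Finset.sum_congr rfl fun i _ => ?_
          rw [← Finset.mul_sum, sum_ovw_right, mul_one]
        · rw [Finset.sum_comm, Finset.mul_sum]
          refine Finset.sum_congr rfl fun j _ => ?_
          rw [← Finset.mul_sum, sum_ovw_left, mul_one]
    _ = b * R.trace.re + (1 - b) * X.trace.re := by
        rw [tb_trace_re_eq_sum hR.1, tb_trace_re_eq_sum hX.1]
    _ ≤ b * 1 + (1 - b) * 1 :=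
        add_le_add (mul_le_mul_of_nonneg_left hR1 hb0) (mul_le_mul_of_nonneg_left hX1 (sub_nonneg.2 hb1))
    _ = 1 := by ring

theorem trace_spow_mul_spow_nonneg {R X : Matrix n n ℂ} (hR : R.IsHermitian) (hX : X.IsHermitian)
    (b c : ℝ) : 0 ≤ (spow R (b : ℂ) * spow X (c : ℂ)).trace.re := by
  rw [tb_trace_spow_mul_spow_re hR hX]
  exact Finset.sum_nonneg fun i _ => Finset.sum_nonneg fun j _ =>
    mul_nonneg (mul_nonneg (rpowS_nonneg _ _) (rpowS_nonneg _ _)) (ovw_nonneg hR hX i j)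

theorem tb_convex_term (r x : ℝ) {s t a c : ℝ} (ha : 0 ≤ a) (hc : 0 ≤ c) (hac : a + c = 1) :
    rpowS (a * s + c * t) r * rpowS (1 - (a * s + c * t)) x ≤
      a * (rpowS s r * rpowS (1 - s) x) + c * (rpowS t r * rpowS (1 - t) x) := by
  by_cases hr : 0 < r
  · by_cases hx : 0 < x
    · simp only [rpowS, hr, hx, if_true, Real.rpow_def_of_pos, ← Real.exp_add]
      have h := convexOn_exp.2 (Set.mem_univ (Real.log r * s + Real.log x * (1 - s)))
        (Set.mem_univ (Real.log r * t + Real.log x * (1 - t))) ha hc hac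
      simp only [smul_eq_mul] at h
      refine le_trans (le_of_eq ?_) h
      congr 1
      have : c = 1 - a := by linarith
      subst this
      ring
    · simp [rpowS, hx]
  · simp [rpowS, hr]

/-- convexity in the exponent: every term `p^b x^(1-b) W` is an exponential function of `b` -/
theorem convexOn_trace_spow_mul_spow {R X : Matrix n n ℂ} (hR : R.IsHermitian) (hX : X.IsHermitian) :
    ConvexOn ℝ Set.univ (fun b : ℝ => (spow R (b : ℂ) * spow X ((1 - b : ℝ) : ℂ)).trace.re) := by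
  refine ⟨convex_univ, fun s _ t _ a c ha hc hac => ?_⟩
  simp only [tb_trace_spow_mul_spow_re hR hX, smul_eq_mul, Finset.mul_sum, ← Finset.sum_add_distrib]
  refine Finset.sum_le_sum fun i _ => Finset.sum_le_sum fun j _ => ?_
  have h := mul_le_mul_of_nonneg_right
    (tb_convex_term (hR.eigenvalues i) (hX.eigenvalues j) (s := s) (t := t) ha hc hac)
    (ovw_nonneg hR hX i j)
  refine h.trans (le_of_eq ?_)
  ring

theorem tb_spow_half_isHermitian (R : Matrix n n ℂ) : (spow R (1 / 2))ᴴ = spow R (1 / 2) := by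
  rw [spow_conjTranspose]
  congr 1
  apply Complex.ext <;> simp

/-- `‖√ρ - √ξ‖_2² = Tr ρ + Tr ξ - 2 Tr √ρ √ξ` -/
theorem hsSq_sqrt_sub_sqrt {R X : Matrix n n ℂ} (hR : R.PosSemidef) (hX : X.PosSemidef) :
    hsSq (spow R (1 / 2) - spow X (1 / 2)) =
      R.trace.re + X.trace.re - 2 * (spow R (1 / 2) * spow X (1 / 2)).trace.re := by
  have h := hsSq_eq_trace' (spow R (1 / 2) - spow X (1 / 2))
  rw [conjTranspose_sub, tb_spow_half_isHermitian, tb_spow_half_isHermitian] at h
  have hRR : spow R (1 / 2) * spow R (1 / 2) = R := by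
    rw [← spow_add]; norm_num; exact spow_one hR
  have hXX : spow X (1 / 2) * spow X (1 / 2) = X := by
    rw [← spow_add]; norm_num; exact spow_one hX
  have e : ((spow R (1 / 2) - spow X (1 / 2)) * (spow R (1 / 2) - spow X (1 / 2))).trace
      = R.trace + X.trace - 2 * (spow R (1 / 2) * spow X (1 / 2)).trace := by
    rw [Matrix.sub_mul, Matrix.mul_sub, Matrix.mul_sub, hRR, hXX, trace_sub, trace_sub, trace_sub,
      trace_mul_comm (spow X (1 / 2)) (spow R (1 / 2))]
    ring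
  rw [e] at h
  have h2 := congrArg Complex.re h
  simpa using h2

theorem tb_spowS_half {x : ℝ} (hx : 0 ≤ x) : spowS (1 / 2) x = (Real.sqrt x : ℂ) := by
  have e : (1 / 2 : ℂ) = ((1 / 2 : ℝ) : ℂ) := by push_cast; rfl
  rw [e, spowS_ofReal', tb_rpowS_of_nonneg hx (by norm_num), Real.sqrt_eq_rpow]

/-- eq. conditional-phase-hellinger, reduced to its scalar core `hκ`:
`|v^{ib} - w^{ib}| √w ≤ κ |√v - √w|` for the hat phases. -/
theorem hsn_phase_sub_mul_sqrt_le {R X : Matrix n n ℂ} (hR : R.PosSemidef) (hX : X.PosSemidef) (b κ : ℝ)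
    (hκ : ∀ v w : ℝ, 0 ≤ v → 0 ≤ w →
      ‖hpowS ((b : ℂ) * Complex.I) v - hpowS ((b : ℂ) * Complex.I) w‖ * Real.sqrt w ≤
        κ * |Real.sqrt v - Real.sqrt w|) :
    hsn ((hpow R ((b : ℂ) * Complex.I) - hpow X ((b : ℂ) * Complex.I)) * spow X (1 / 2)) ≤
      κ * hsn (spow R (1 / 2) - spow X (1 / 2)) := by
  have hκ0 : 0 ≤ κ := by
    have := hκ 1 0 zero_le_one le_rfl
    simpa using this
  have hsq : hsSq ((hpow R ((b : ℂ) * Complex.I) - hpow X ((b : ℂ) * Complex.I)) * spow X (1 / 2)) ≤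
      κ ^ 2 * hsSq (spow R (1 / 2) - spow X (1 / 2)) := by
    unfold hpow spow
    rw [hsSq_sub_mul_mfun hR.1 hX.1, hsSq_mfun_sub_mfun hR.1 hX.1, Finset.mul_sum]
    refine Finset.sum_le_sum fun i _ => ?_
    rw [Finset.mul_sum]
    refine Finset.sum_le_sum fun j _ => ?_
    have hr := hR.eigenvalues_nonneg i
    have hx := hX.eigenvalues_nonneg j
    rw [tb_spowS_half hr, tb_spowS_half hx, ← Complex.ofReal_sub, Complex.norm_real, Complex.norm_real,
      Real.norm_eq_abs, Real.norm_eq_abs, abs_of_nonneg (Real.sqrt_nonneg _), ← mul_pow, ← mul_assoc,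
      ← mul_pow]
    refine mul_le_mul_of_nonneg_right ?_ (ovw_nonneg hR.1 hX.1 i j)
    exact pow_le_pow_left₀ (mul_nonneg (norm_nonneg _) (Real.sqrt_nonneg _)) (hκ _ _ hr hx) 2
  rw [← hsn_sq, ← hsn_sq, ← mul_pow] at hsq
  exact (pow_le_pow_iff_left₀ (hsn_nonneg _) (mul_nonneg hκ0 (hsn_nonneg _)) two_ne_zero).1 hsq

theorem tb_norm_phase_sub_le (x y : ℝ) :
    ‖Complex.exp ((x : ℂ) * Complex.I) - Complex.exp ((y : ℂ) * Complex.I)‖ ≤ |x - y| := by
  have h : Complex.exp ((x : ℂ) * Complex.I) - Complex.exp ((y : ℂ) * Complex.I)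
      = Complex.exp ((y : ℂ) * Complex.I) * (Complex.exp (Complex.I * ((x - y : ℝ) : ℂ)) - 1) := by
    rw [mul_sub, ← Complex.exp_add, mul_one]
    congr 2
    push_cast; ring
  rw [h, norm_mul, Complex.norm_exp_ofReal_mul_I, one_mul]
  exact Real.norm_exp_I_mul_ofReal_sub_one_le

theorem tb_norm_phase_sub_le_two (x y : ℝ) :
    ‖Complex.exp ((x : ℂ) * Complex.I) - Complex.exp ((y : ℂ) * Complex.I)‖ ≤ 2 := by
  refine (norm_sub_le _ _).trans ?_
  rw [Complex.norm_exp_ofReal_mul_I, Complex.norm_exp_ofReal_mul_I]; norm_num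

theorem tb_hpowS_phase {v : ℝ} (hv : 0 < v) (b : ℝ) :
    hpowS ((b : ℂ) * Complex.I) v = Complex.exp (((b * Real.log v : ℝ) : ℂ) * Complex.I) := by
  rw [hpowS_pos hv]; congr 1; push_cast; ring

/-- the scalar core with a universal constant -/
theorem exists_phase_hellinger_const :
    ∃ C : ℝ, 0 < C ∧ ∀ b v w : ℝ, 0 ≤ v → 0 ≤ w →
      ‖hpowS ((b : ℂ) * Complex.I) v - hpowS ((b : ℂ) * Complex.I) w‖ * Real.sqrt w ≤
        C * (1 + |b|) * |Real.sqrt v - Real.sqrt w| := by
  refine ⟨4, by norm_num, fun b v w hv hw => ?_⟩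
  have hb := abs_nonneg b
  rcases hw.lt_or_eq with hw | hw
  swap
  · rw [← hw]; simp only [Real.sqrt_zero, mul_zero]; positivity
  set t := Real.sqrt w with ht
  have ht0 : 0 < t := Real.sqrt_pos.2 hw
  have hnorm2 : ‖hpowS ((b : ℂ) * Complex.I) v - hpowS ((b : ℂ) * Complex.I) w‖ ≤ 2 := by
    refine (norm_sub_le _ _).trans ?_
    rw [norm_hpowS_of_re_eq_zero (by simp), norm_hpowS_of_re_eq_zero (by simp)]; norm_num
  set s := Real.sqrt v with hs
  have hs0 : 0 ≤ s := Real.sqrt_nonneg v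
  by_cases hst : s < t / 2
  · -- far apart
    have h1 : t / 2 ≤ |s - t| := by rw [abs_sub_comm, abs_of_nonneg (by linarith)]; linarith
    calc _ ≤ 2 * t := mul_le_mul_of_nonneg_right hnorm2 ht0.le
      _ ≤ 4 * |s - t| := by linarith
      _ ≤ 4 * (1 + |b|) * |s - t| := by
          have := abs_nonneg (s - t)
          nlinarith [mul_nonneg hb this]
  · -- comparable
    rw [not_lt] at hst
    have hs1 : 0 < s := by linarith
    have hv1 : 0 < v := Real.sqrt_pos.1 hs1
    have hlogv : Real.log v = 2 * Real.log s := by rw [hs, Real.log_sqrt hv]; ring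
    have hlogw : Real.log w = 2 * Real.log t := by rw [ht, Real.log_sqrt hw.le]; ring
    have hlog : |Real.log s - Real.log t| * t ≤ 2 * |s - t| := by
      rw [← Real.log_div hs1.ne' ht0.ne']
      have h1 : Real.log (s / t) ≤ s / t - 1 := Real.log_le_sub_one_of_pos (div_pos hs1 ht0)
      have h2 : Real.log (t / s) ≤ t / s - 1 := Real.log_le_sub_one_of_pos (div_pos ht0 hs1)
      have h3 : Real.log (t / s) = - Real.log (s / t) := by
        rw [← Real.log_inv, inv_div]
      rw [h3] at h2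
      have e1 : (s / t - 1) * t = s - t := by field_simp
      have e2 : (t / s - 1) * t ≤ 2 * |s - t| := by
        have : (t / s - 1) * t = (t - s) * (t / s) := by field_simp
        rw [this]
        have hts : t / s ≤ 2 := by rw [div_le_iff₀ hs1]; linarith
        have hts0 : 0 ≤ t / s := (div_pos ht0 hs1).le
        have habs : t - s ≤ |s - t| := by rw [abs_sub_comm]; exact le_abs_self _
        have habs0 := abs_nonneg (s - t)
        nlinarith
      rcases abs_cases (Real.log (s / t)) with ⟨h, _⟩ | ⟨h, _⟩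
      · rw [h]
        calc Real.log (s / t) * t ≤ (s / t - 1) * t := mul_le_mul_of_nonneg_right h1 ht0.le
          _ = s - t := e1
          _ ≤ |s - t| := le_abs_self _
          _ ≤ 2 * |s - t| := by linarith [abs_nonneg (s - t)]
      · rw [h]
        exact (mul_le_mul_of_nonneg_right h2 ht0.le).trans e2
    rw [tb_hpowS_phase hv1, tb_hpowS_phase hw]
    calc _ ≤ |b * Real.log v - b * Real.log w| * t :=
          mul_le_mul_of_nonneg_right (tb_norm_phase_sub_le _ _) ht0.le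
      _ = 2 * |b| * (|Real.log s - Real.log t| * t) := by
          rw [hlogv, hlogw]
          have : b * (2 * Real.log s) - b * (2 * Real.log t) = 2 * b * (Real.log s - Real.log t) := by
            ring
          rw [this, abs_mul, abs_mul]; norm_num; ring
      _ ≤ 2 * |b| * (2 * |s - t|) := mul_le_mul_of_nonneg_left hlog (by positivity)
      _ ≤ 4 * (1 + |b|) * |s - t| := by
          have := abs_nonneg (s - t)
          nlinarith

end Claimed.Agent.R296
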