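import Claimed.Agent.R296.BufEnergy
import Claimed.Agent.R296.TwoBasis

/-!
# Row 296, P1 Lemma 2.2: the first norm comparison (prefix `bf_`)

(eq:initial-norm-lower): `‖L_{m-1} ⋯ L_0 Ω‖² ≤ ∏_j (4/3) R_j` for ALL feasible tuples, where
`R_j` bounds `‖L_j Ω‖²`; and the two-matrix Hoelder inequality giving
`R_j = (Tr ρ_j^{1/(1-a_j)})^{1-a_j}`.
Owner: helper101.
-/

set_option autoImplicit false
set_option linter.unusedSectionVars false
set_option linter.unusedDecidableInType false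
set_option linter.unusedVariables false
set_option linter.unusedSimpArgs false

namespace Claimed.Agent.R296

open Matrix
open scoped MatrixOrder Matrix.Norms.L2Operator ComplexOrder

/-- elements of `bf_Den` with positive floor are positive semidefinite -/
theorem bf_den_posSemidef {n : Type} [Fintype n] [DecidableEq n] {η t : ℝ} (hη : 0 ≤ η)
    {σ : Matrix n n ℂ} (hσ : σ ∈ bf_Den η t) : σ.PosSemidef := by
  have h1 : ((η : ℂ) • (1 : Matrix n n ℂ)).PosSemidef :=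
    PosSemidef.one.smul (by exact_mod_cast hη)
  have := hσ.2.1.add h1
  simpa using this

/-- on `bf_Den` with a positive floor hat powers and support powers agree -/
theorem bf_hpow_eq_spow {n : Type} [Fintype n] [DecidableEq n] {η t : ℝ} (hη : 0 < η)
    {σ : Matrix n n ℂ} (hσ : σ ∈ bf_Den η t) (z : ℂ) : hpow σ z = spow σ z := by
  obtain ⟨U, x, hU, hU', hx, -, rfl⟩ := bf_den_exists_diag hσ
  unfold hpow spow
  rw [mfun_of_decomp _ U hU hU' x, mfun_of_decomp _ U hU hU' x]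
  have : (fun i => hpowS z (x i)) = fun i => spowS z (x i) := funext fun i => by
    rw [hpowS_pos (lt_of_lt_of_le hη (hx i)), spowS_pos (lt_of_lt_of_le hη (hx i))]
  rw [this]

theorem bf_holder {n : Type} [Fintype n] [DecidableEq n] {ρ σ : Matrix n n ℂ} (hρ : ρ.PosSemidef)
    {η : ℝ} (hη : 0 < η) (hσ : σ ∈ bf_Den η 1) {a : ℝ} (ha0 : 0 < a) (ha1 : a < 1) :
    (ρ * hpow σ (a : ℂ)).trace.re ≤ ((spow ρ ((1 / (1 - a) : ℝ) : ℂ)).trace.re) ^ (1 - a) := by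
  have h := trace_spow_mul_le (bf_den_posSemidef hη.le hσ) hρ ha0 ha1
  rw [hσ.2.2] at h
  simp only [Complex.ofReal_re, Real.one_rpow, one_mul, Complex.ofReal_one, Complex.one_re] at h
  rw [bf_hpow_eq_spow hη hσ, trace_mul_comm]
  exact h

variable {s : Type} [DecidableEq s] [Fintype s] {io : s → Type}
  [∀ x, Fintype (io x)] [∀ x, DecidableEq (io x)]

theorem bf_Hyp.of_le {I : Type} [Fintype I] {h : I → Matrix (Cfg io) (Cfg io) ℂ} {E₀ Δ : ℝ}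
    {Ω : Cfg io → ℂ} {Y : ℕ → Finset s} {a : ℕ → ℝ} {γ : I → ℕ → ℝ} {m m' : ℕ}
    (H : bf_Hyp h E₀ Δ Ω Y a γ m) (hm : m' ≤ m) : bf_Hyp h E₀ Δ Ω Y a γ m' where
  hΩ := H.hΩ
  herm := H.herm
  heig := H.heig
  hΔ := H.hΔ
  hgap := H.hgap
  mono := H.mono
  ha0 := H.ha0
  ha1 := H.ha1
  hγ := H.hγ
  tri := fun i j hj => by
    rcases H.tri i j (by omega) with h1 | h1 | ⟨h1, h2⟩
    · exact Or.inl h1
    · exact Or.inr (Or.inl h1)
    · exact Or.inr (Or.inr ⟨h1, fun h3 => h2 (by omega)⟩)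
  budget := by
    refine le_trans ?_ H.budget
    refine Finset.sum_le_sum fun i _ => ?_
    refine Finset.sum_le_sum_of_subset_of_nonneg (Finset.range_mono hm) fun j _ _ => ?_
    exact mul_nonneg (H.hγ i j) (sq_nonneg _)

theorem bf_nsq_filter (A : Finset s) (Ω : Cfg io → ℂ) {σ : Matrix (CfgOn io A) (CfgOn io A) ℂ}
    (hσ : σ.IsHermitian) (a : ℝ) :
    bf_nsq (emb A (hpow σ ((a / 2 : ℝ) : ℂ)) *ᵥ Ω) =
      (ptr A (pureOp Ω) * hpow σ (a : ℂ)).trace.re := by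
  rw [bf_nsq_mulVec, ← emb_conjTranspose, (bf_hpow_real_isHermitian σ (a / 2)).eq, ← emb_mul,
    ← hpow_add, bf_ex_emb]
  have : (((a / 2 : ℝ) : ℂ) + ((a / 2 : ℝ) : ℂ)) = (a : ℂ) := by push_cast; ring
  rw [this]

theorem bf_first [∀ x, Nonempty (io x)] {I : Type} [Fintype I]
    {h : I → Matrix (Cfg io) (Cfg io) ℂ} {E₀ Δ : ℝ}
    {Ω : Cfg io → ℂ} {Y : ℕ → Finset s} {a : ℕ → ℝ} {γ : I → ℕ → ℝ} {m : ℕ}
    (H : bf_Hyp h E₀ Δ Ω Y a γ m) {η : ℝ} (hη : 0 < η)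
    (hη' : ∀ j, η * (Fintype.card (CfgOn io (Y j)) : ℝ) ≤ 1) (R : ℕ → ℝ)
    (hR : ∀ j, j < m → ∀ τ ∈ (bf_Den η 1 : Set (Matrix (CfgOn io (Y j)) (CfgOn io (Y j)) ℂ)),
      bf_nsq (emb (Y j) (hpow τ ((a j / 2 : ℝ) : ℂ)) *ᵥ Ω) ≤ R j)
    (σ : bf_Tup io Y) (hσ : ∀ j, σ j ∈ bf_Den η 1) :
    bf_nsq (bf_prod (bf_F Y a σ) m *ᵥ Ω) ≤ ∏ j ∈ Finset.range m, (4 / 3 * R j) := by
  induction m generalizing σ with
  | zero =>
    simp only [bf_prod_zero, one_mulVec, Finset.range_zero, Finset.prod_empty]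
    rw [bf_nsq, H.hΩ]; simp
  | succ m ih =>
    have ih' := ih (H.of_le (Nat.le_succ m)) (fun j hj => hR j (by omega))
    obtain ⟨σo, hopt⟩ := bf_exists_opt Y a hη hη' Ω (m + 1)
    refine (hopt.2 σ hσ).trans ?_
    have h1 := bf_opt_overlap H hη σo hopt
    -- Cauchy-Schwarz
    have h2 : star Ω ⬝ᵥ (bf_prod (bf_F Y a σo) (m + 1) *ᵥ Ω) =
        star (bf_F Y a σo m *ᵥ Ω) ⬝ᵥ (bf_prod (bf_F Y a σo) m *ᵥ Ω) := by
      have hH : (bf_F Y a σo m)ᴴ = bf_F Y a σo m := by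
        rw [bf_F_eq, bf_Fz_conjTranspose]; simp
      rw [bf_dot_mulVec, hH, bf_prod_succ, mulVec_mulVec]
    rw [h2] at h1
    have h3 := bf_cauchy (bf_F Y a σo m *ᵥ Ω) (bf_prod (bf_F Y a σo) m *ᵥ Ω)
    have h4 : bf_nsq (bf_F Y a σo m *ᵥ Ω) ≤ R m := by
      have := hR m (Nat.lt_succ_self m) (σo m) (hopt.1 m)
      rwa [bf_F_eq, bf_Fz, one_mul]
    have h5 := ih' σo hopt.1
    have h6 : 0 ≤ bf_nsq (bf_prod (bf_F Y a σo) m *ᵥ Ω) := bf_nsq_nonneg _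
    have h7 : 0 ≤ R m := (bf_nsq_nonneg _).trans h4
    rw [Finset.prod_range_succ]
    have h8 : bf_nsq (bf_F Y a σo m *ᵥ Ω) * bf_nsq (bf_prod (bf_F Y a σo) m *ᵥ Ω) ≤
        R m * ∏ j ∈ Finset.range m, (4 / 3 * R j) :=
      mul_le_mul h4 h5 h6 h7
    nlinarith

end Claimed.Agent.R296
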