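import Claimed.Agent.R296.BufDiag
import Claimed.Agent.R296.MatDK

/-!
# Row 296, P1 Lemma 2.2: existence of optimal filters (prefix `bf_`)

`bf_Den η t` is compact, `σ ↦ hpow σ z` is continuous on it (`η > 0`), hence the norm of the
filtered vector attains its maximum on the (Tychonoff) product of the feasible sets.
Owner: helper101.
-/

set_option autoImplicit false

namespace Claimed.Agent.R296

open Matrix
open scoped MatrixOrder Matrix.Norms.L2Operator ComplexOrder

section Gen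

variable {n : Type} [Fintype n] [DecidableEq n]

/-- the eigenvalues of a feasible density -/
theorem bf_den_eigenvalues {η t : ℝ} {σ : Matrix n n ℂ} (hσ : σ ∈ bf_Den η t) :
    (∀ i, η ≤ hσ.1.eigenvalues i) ∧ ∑ i, hσ.1.eigenvalues i = t := by
  have h := hσ.1
  have h2 := hσ
  rw [spectral_plain h] at h2
  exact (bf_den_diag_iff (eigU_conjTranspose_mul h) (eigU_mul_conjTranspose h) _ η t).1 h2

theorem bf_den_norm_le {η t : ℝ} {σ : Matrix n n ℂ} (hσ : σ ∈ bf_Den η t) :
    ‖σ‖ ≤ |t| + (Fintype.card n : ℝ) * |η| := by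
  obtain ⟨h1, h2⟩ := bf_den_eigenvalues hσ
  have hc : 0 ≤ |t| + (Fintype.card n : ℝ) * |η| := by positivity
  have h3 := norm_mfun_le hσ.1 (fun x => (x : ℂ)) hc (fun i => ?_)
  · rwa [mfun_id hσ.1] at h3
  · rw [Complex.norm_real, Real.norm_eq_abs, abs_le]
    have hN : (1 : ℝ) ≤ Fintype.card n := by
      exact_mod_cast Fintype.card_pos_iff.2 ⟨i⟩
    have hη : -|η| ≤ η := neg_abs_le η
    have ht : t ≤ |t| := le_abs_self t
    have ht0 : 0 ≤ |t| := abs_nonneg t
    have hη0 : 0 ≤ |η| := abs_nonneg η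
    constructor
    · have := h1 i
      nlinarith
    · have h4 : hσ.1.eigenvalues i + ∑ j ∈ Finset.univ.erase i, hσ.1.eigenvalues j = t := by
        rw [Finset.add_sum_erase _ _ (Finset.mem_univ i), h2]
      have h5 : ∑ _j ∈ Finset.univ.erase i, (-|η|) ≤ ∑ j ∈ Finset.univ.erase i, hσ.1.eigenvalues j :=
        Finset.sum_le_sum fun j _ => hη.trans (h1 j)
      rw [Finset.sum_const, Finset.card_erase_of_mem (Finset.mem_univ i), Finset.card_univ,
        nsmul_eq_mul, Nat.cast_sub (Fintype.card_pos_iff.2 ⟨i⟩), Nat.cast_one] at h5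
      nlinarith

theorem bf_den_isClosed (η t : ℝ) : IsClosed (bf_Den η t : Set (Matrix n n ℂ)) := by
  have h1 : IsClosed {σ : Matrix n n ℂ | σ.IsHermitian} :=
    isClosed_eq continuous_id.matrix_conjTranspose continuous_id
  have h2 : IsClosed {σ : Matrix n n ℂ | (σ - (η : ℂ) • (1 : Matrix n n ℂ)).PosSemidef} := by
    have e : {σ : Matrix n n ℂ | (σ - (η : ℂ) • (1 : Matrix n n ℂ)).PosSemidef}
        = {σ : Matrix n n ℂ | 0 ≤ σ - (η : ℂ) • (1 : Matrix n n ℂ)} := by
      ext σ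
      exact Matrix.nonneg_iff_posSemidef.symm
    rw [e]
    exact isClosed_le continuous_const (continuous_id.sub continuous_const)
  have h3 : IsClosed {σ : Matrix n n ℂ | σ.trace = (t : ℂ)} :=
    isClosed_eq continuous_id.matrix_trace continuous_const
  exact h1.inter (h2.inter h3)

theorem bf_den_isCompact (η t : ℝ) : IsCompact (bf_Den η t : Set (Matrix n n ℂ)) := by
  have : ProperSpace (Matrix n n ℂ) := FiniteDimensional.proper_rclike ℂ _
  refine Metric.isCompact_of_isClosed_isBounded (bf_den_isClosed η t) ?_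
  refine (Metric.isBounded_iff_subset_closedBall 0).2 ⟨|t| + (Fintype.card n : ℝ) * |η|, ?_⟩
  intro σ hσ
  rw [mem_closedBall_zero_iff]
  exact bf_den_norm_le hσ

theorem bf_den_nonempty {η t : ℝ} (h : η * (Fintype.card n : ℝ) ≤ t) [Nonempty n] :
    (bf_Den η t : Set (Matrix n n ℂ)).Nonempty := by
  have hN : (0 : ℝ) < Fintype.card n := by exact_mod_cast Fintype.card_pos
  refine ⟨(1 : Matrix n n ℂ) * diagonal (fun _ => ((t / Fintype.card n : ℝ) : ℂ)) * 1ᴴ, ?_⟩
  rw [bf_den_diag_iff (by simp) (by simp)]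
  refine ⟨fun _ => (le_div_iff₀ hN).2 h, ?_⟩
  rw [Finset.sum_const, Finset.card_univ, nsmul_eq_mul]
  field_simp

theorem bf_hpowS_continuousOn (z : ℂ) : ContinuousOn (hpowS z) (Set.Ioi (0 : ℝ)) := by
  have h : ContinuousOn (fun x : ℝ => Complex.exp (z * (Real.log x : ℂ))) (Set.Ioi (0 : ℝ)) := by
    refine Complex.continuous_exp.comp_continuousOn (continuousOn_const.mul ?_)
    refine Complex.continuous_ofReal.comp_continuousOn ?_
    exact Real.continuousOn_log.mono fun x hx => (ne_of_gt hx : x ≠ 0)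
  exact h.congr fun x hx => hpowS_pos hx z

/-- powers are continuous on the feasible set -/
theorem bf_hpow_continuousOn' {η : ℝ} (hη : 0 < η) (t : ℝ) (z : ℂ) :
    ContinuousOn (fun σ : Matrix n n ℂ => hpow σ z) (bf_Den η t) := by
  intro σ₀ hσ₀
  have h := dk_tendsto_mfun (lf := nhdsWithin σ₀ (bf_Den η t)) (X := fun σ => σ) (X₀ := σ₀)
    isOpen_Ioi (bf_hpowS_continuousOn z)
    (Filter.tendsto_id.mono_left nhdsWithin_le_nhds)
    (eventually_mem_nhdsWithin.mono fun σ hσ => hσ.1) hσ₀.1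
    (fun i => lt_of_lt_of_le hη ((bf_den_eigenvalues hσ₀).1 i))
  exact h

/-- real powers are continuous on the feasible set -/
theorem bf_hpow_continuousOn {η : ℝ} (hη : 0 < η) (t r : ℝ) :
    ContinuousOn (fun σ : Matrix n n ℂ => hpow σ (r : ℂ)) (bf_Den η t) :=
  bf_hpow_continuousOn' hη t r

end Gen

section Sites

variable {s : Type} [DecidableEq s] [Fintype s] {io : s → Type}
  [∀ x, Fintype (io x)] [∀ x, DecidableEq (io x)]

/-- `σ` is an optimal feasible tuple for the first `m` contours -/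
def bf_IsOpt (Y : ℕ → Finset s) (a : ℕ → ℝ) (η : ℝ) (Ω : Cfg io → ℂ) (m : ℕ)
    (σ : bf_Tup io Y) : Prop :=
  (∀ j, σ j ∈ bf_Den η 1) ∧ ∀ σ' : bf_Tup io Y, (∀ j, σ' j ∈ bf_Den η 1) →
    bf_nsq (bf_prod (bf_F Y a σ') m *ᵥ Ω) ≤ bf_nsq (bf_prod (bf_F Y a σ) m *ᵥ Ω)

theorem bf_F_continuousOn (Y : ℕ → Finset s) (a : ℕ → ℝ) {η : ℝ} (hη : 0 < η) (j : ℕ) :
    ContinuousOn (fun σ : bf_Tup io Y => bf_F Y a σ j)
      (Set.pi Set.univ fun j => (bf_Den η 1 : Set (Matrix (CfgOn io (Y j)) (CfgOn io (Y j)) ℂ))) := by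
  have h1 : ContinuousOn (fun σ : bf_Tup io Y => hpow (σ j) (1 * ((a j / 2 : ℝ) : ℂ)))
      (Set.pi Set.univ fun j =>
        (bf_Den η 1 : Set (Matrix (CfgOn io (Y j)) (CfgOn io (Y j)) ℂ))) :=
    (bf_hpow_continuousOn' hη 1 (1 * ((a j / 2 : ℝ) : ℂ))).comp
      (continuous_apply j).continuousOn fun σ hσ => hσ j (Set.mem_univ j)
  exact (continuous_embHom (io := io) (Y j)).comp_continuousOn h1

theorem bf_prod_continuousOn (Y : ℕ → Finset s) (a : ℕ → ℝ) {η : ℝ} (hη : 0 < η) (m : ℕ) :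
    ContinuousOn (fun σ : bf_Tup io Y => bf_prod (bf_F Y a σ) m)
      (Set.pi Set.univ fun j => (bf_Den η 1 : Set (Matrix (CfgOn io (Y j)) (CfgOn io (Y j)) ℂ))) := by
  induction m with
  | zero => exact continuousOn_const
  | succ m ih => exact (bf_F_continuousOn Y a hη m).mul ih

theorem bf_nsq_continuous {n : Type} [Fintype n] : Continuous (bf_nsq : (n → ℂ) → ℝ) := by
  unfold bf_nsq
  refine Complex.continuous_re.comp ?_
  unfold dotProduct
  refine continuous_finsetSum _ fun i _ => ?_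
  exact (continuous_star.comp (continuous_apply i)).mul (continuous_apply i)

theorem bf_exists_opt [∀ x, Nonempty (io x)] (Y : ℕ → Finset s) (a : ℕ → ℝ) {η : ℝ} (hη : 0 < η)
    (hη' : ∀ j, η * (Fintype.card (CfgOn io (Y j)) : ℝ) ≤ 1) (Ω : Cfg io → ℂ) (m : ℕ) :
    ∃ σ : bf_Tup io Y, bf_IsOpt Y a η Ω m σ := by
  have hK : IsCompact (Set.pi Set.univ fun j =>
      (bf_Den η 1 : Set (Matrix (CfgOn io (Y j)) (CfgOn io (Y j)) ℂ))) :=
    isCompact_univ_pi fun j => bf_den_isCompact η 1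
  have hne : (Set.pi Set.univ fun j =>
      (bf_Den η 1 : Set (Matrix (CfgOn io (Y j)) (CfgOn io (Y j)) ℂ))).Nonempty :=
    Set.univ_pi_nonempty_iff.2 fun j => bf_den_nonempty (hη' j)
  have hc : ContinuousOn (fun σ : bf_Tup io Y => bf_nsq (bf_prod (bf_F Y a σ) m *ᵥ Ω))
      (Set.pi Set.univ fun j =>
        (bf_Den η 1 : Set (Matrix (CfgOn io (Y j)) (CfgOn io (Y j)) ℂ))) := by
    refine bf_nsq_continuous.comp_continuousOn ?_
    have h2 : Continuous fun M : Matrix (Cfg io) (Cfg io) ℂ => M *ᵥ Ω :=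
      continuous_id.matrix_mulVec continuous_const
    exact h2.comp_continuousOn (bf_prod_continuousOn Y a hη m)
  obtain ⟨σ, hσ, hmax⟩ := hK.exists_isMaxOn hne hc
  refine ⟨σ, fun j => hσ j (Set.mem_univ j), fun σ' hσ' => ?_⟩
  exact hmax (fun j _ => hσ' j)

end Sites

end Claimed.Agent.R296
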