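import Claimed.Agent.R296.BufBasic
import Claimed.Agent.R296.BufOpt
import Claimed.Agent.R296.BufBip
import Claimed.Agent.R296.BufScalar

/-!
# Row 296, P1 Lemma 2.2: stationarity of the optimal filters (prefix `bf_`)

* `bf_first_order`  : abstract one-sided first order condition for `t ↦ ‖T (c t)‖²`;
* `bf_cyc`, `bf_removal` : removal of outer filters by cyclicity of the trace;
* `bf_opt_commute`  : (eq:initial-filter-commutation) `[σ_j, ρ_{ψ, Y_j}] = 0`;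
* `bf_opt_kkt`      : two-coordinate KKT inequalities in a common eigenbasis.
Owner: helper101.
-/

set_option autoImplicit false
set_option linter.unusedSectionVars false
set_option linter.unusedDecidableInType false
set_option linter.unusedVariables false

namespace Claimed.Agent.R296

open Matrix
open scoped MatrixOrder Matrix.Norms.L2Operator ComplexOrder

section Gen

variable {n N : Type} [Fintype n] [DecidableEq n] [Fintype N] [DecidableEq N]

theorem bf_first_order (T : Matrix n n ℂ →ₗ[ℂ] (N → ℂ)) (c : ℝ → Matrix n n ℂ) (D : Matrix n n ℂ)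
    (hc : HasDerivAt c D 0) {δ : ℝ} (hδ : 0 < δ)
    (hmax : ∀ t, 0 ≤ t → t < δ → bf_nsq (T (c t)) ≤ bf_nsq (T (c 0))) :
    (star (T (c 0)) ⬝ᵥ T D).re ≤ 0 := by
  have hT : ∀ σ, HasDerivAt (fun t => T (c t) σ) (T D σ) 0 := by
    intro σ
    let Tσ : Matrix n n ℂ →ₗ[ℂ] ℂ := (LinearMap.proj σ).comp T
    have h1 := ((LinearMap.toContinuousLinearMap Tσ).restrictScalars ℝ).hasFDerivAt (x := c 0)
    exact h1.comp_hasDerivAt (0 : ℝ) hc
  have hG : HasDerivAt (fun t => star (T (c t)) ⬝ᵥ T (c t))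
      (∑ σ, (star (T D σ) * T (c 0) σ + star (T (c 0) σ) * T D σ)) 0 := by
    simp only [dotProduct, Pi.star_apply]
    exact HasDerivAt.fun_sum fun σ _ => ((hT σ).star).mul (hT σ)
  have hg : HasDerivAt (fun t => bf_nsq (T (c t)))
      ((∑ σ, (star (T D σ) * T (c 0) σ + star (T (c 0) σ) * T D σ)).re) 0 := by
    have h1 := Complex.reCLM.hasFDerivAt (x := star (T (c 0)) ⬝ᵥ T (c 0))
    exact h1.comp_hasDerivAt (0 : ℝ) hG
  have h2 := bf_deriv_nonpos hδ hg hmax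
  have h3 : (∑ σ, (star (T D σ) * T (c 0) σ + star (T (c 0) σ) * T D σ)).re
      = 2 * (star (T (c 0)) ⬝ᵥ T D).re := by
    simp only [dotProduct, Pi.star_apply, Complex.re_sum, Finset.mul_sum]
    refine Finset.sum_congr rfl fun σ _ => ?_
    simp only [Complex.add_re, Complex.mul_re, Complex.star_def, Complex.conj_re, Complex.conj_im]
    ring
  rw [h3] at h2
  linarith

theorem bf_curve_unitary (B L : Matrix n n ℂ) :
    HasDerivAt (fun t : ℝ => NormedSpace.exp ((t : ℂ) • B) * L * NormedSpace.exp (-((t : ℂ) • B)))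
      (B * L - L * B) 0 := by
  have h1 : HasDerivAt (fun u : ℂ => NormedSpace.exp (u • B)) (NormedSpace.exp ((0 : ℂ) • B) * B) 0 :=
    hasDerivAt_exp_smul_const B (0 : ℂ)
  have h2 : HasDerivAt (fun u : ℂ => NormedSpace.exp (u • (-B)))
      (NormedSpace.exp ((0 : ℂ) • (-B)) * (-B)) 0 :=
    hasDerivAt_exp_smul_const (-B) (0 : ℂ)
  have h3 : HasDerivAt (fun u : ℂ => NormedSpace.exp (u • B) * L * NormedSpace.exp (u • (-B)))
      (B * L - L * B) 0 := by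
    have := (h1.mul_const L).mul h2
    simp only [zero_smul, NormedSpace.exp_zero, Matrix.one_mul, Matrix.mul_one] at this
    have e : B * L - L * B = B * L + L * -B := by rw [Matrix.mul_neg, sub_eq_add_neg]
    rw [e]
    exact this
  have h0 : HasDerivAt (fun t : ℝ => (t : ℂ)) 1 0 := (hasDerivAt_id (0 : ℝ)).ofReal_comp
  have h4 := HasDerivAt.scomp (0 : ℝ) (h := fun t : ℝ => (t : ℂ)) (by simpa using h3) h0
  simpa [smul_neg, Function.comp_def] using h4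

theorem bf_exp_unitary {B : Matrix n n ℂ} (hB : Bᴴ = -B) (t : ℝ) :
    (NormedSpace.exp ((t : ℂ) • B))ᴴ = NormedSpace.exp (-((t : ℂ) • B)) ∧
    (NormedSpace.exp ((t : ℂ) • B))ᴴ * NormedSpace.exp ((t : ℂ) • B) = 1 ∧
    NormedSpace.exp ((t : ℂ) • B) * (NormedSpace.exp ((t : ℂ) • B))ᴴ = 1 := by
  have h1 : (NormedSpace.exp ((t : ℂ) • B))ᴴ = NormedSpace.exp (-((t : ℂ) • B)) := by
    rw [← Matrix.exp_conjTranspose, conjTranspose_smul, hB]
    simp
  have hc : Commute (-((t : ℂ) • B)) ((t : ℂ) • B) := (Commute.refl _).neg_left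
  refine ⟨h1, ?_, ?_⟩
  · rw [h1, ← Matrix.exp_add_of_commute _ _ hc]; simp
  · rw [h1, ← Matrix.exp_add_of_commute _ _ hc.symm]; simp

theorem bf_curve_diag (U : Matrix n n ℂ) (f : n → ℝ → ℝ) (f' : n → ℝ)
    (hf : ∀ i, HasDerivAt (f i) (f' i) 0) :
    HasDerivAt (fun t : ℝ => U * diagonal (fun i => (f i t : ℂ)) * Uᴴ)
      (U * diagonal (fun i => (f' i : ℂ)) * Uᴴ) 0 := by
  let Λ : (n → ℂ) →ₗ[ℂ] Matrix n n ℂ :=
    { toFun := fun d => U * diagonal d * Uᴴ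
      map_add' := fun d d' => by
        have : (diagonal (d + d') : Matrix n n ℂ) = diagonal d + diagonal d' :=
          (diagonal_add d d').symm
        rw [this, Matrix.mul_add, Matrix.add_mul]
      map_smul' := fun c d => by
        rw [diagonal_smul, Matrix.mul_smul, Matrix.smul_mul]; rfl }
  have h1 : HasDerivAt (fun t : ℝ => (fun i => (f i t : ℂ))) (fun i => (f' i : ℂ)) 0 :=
    hasDerivAt_pi.2 fun i => (hf i).ofReal_comp
  have h2 := ((LinearMap.toContinuousLinearMap Λ).restrictScalars ℝ).hasFDerivAt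
    (x := fun i => (f i 0 : ℂ))
  exact h2.comp_hasDerivAt (0 : ℝ) h1

theorem bf_trace_herm_antiherm_re {ρ B : Matrix n n ℂ} (hρ : ρ.IsHermitian) (hB : Bᴴ = -B) :
    (ρ * B).trace.re = 0 := by
  have h1 : star ((ρ * B).trace) = -(ρ * B).trace := by
    rw [← trace_conjTranspose, conjTranspose_mul, hρ.eq, hB, Matrix.neg_mul, trace_neg,
      trace_mul_comm]
  have h2 := congrArg Complex.re h1
  simp only [Complex.star_def, Complex.conj_re, Complex.neg_re] at h2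
  linarith

theorem bf_herm_of_re_trace {G : Matrix n n ℂ}
    (key : ∀ B : Matrix n n ℂ, Bᴴ = -B → 0 ≤ (G * B).trace.re) : G = Gᴴ := by
  have hZ : (G - Gᴴ)ᴴ = -(G - Gᴴ) := by
    rw [conjTranspose_sub, conjTranspose_conjTranspose]; abel
  have k1 := key (G - Gᴴ) hZ
  have k2 := key (-(G - Gᴴ)) (by rw [conjTranspose_neg, hZ])
  have k3 : (G * (G - Gᴴ)).trace.re = 0 := by
    rw [Matrix.mul_neg, trace_neg, Complex.neg_re] at k2
    linarith
  -- `Tr (Zᴴ Z) = -2 re Tr (G Z)`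
  have k4 : ((G - Gᴴ)ᴴ * (G - Gᴴ)).trace = 0 := by
    have e1 : ((G - Gᴴ)ᴴ * (G - Gᴴ)).trace = -((G * (G - Gᴴ)).trace + star (G * (G - Gᴴ)).trace) := by
      rw [← trace_conjTranspose (G * (G - Gᴴ)), conjTranspose_mul, hZ, Matrix.neg_mul,
        Matrix.neg_mul, trace_neg, trace_neg, Matrix.sub_mul, trace_sub,
        trace_mul_comm (G - Gᴴ) Gᴴ]
      ring
    rw [e1]
    apply Complex.ext
    · simp [k3]
    · simp
  exact sub_eq_zero.1 (trace_conjTranspose_mul_self_eq_zero_iff.1 k4)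

theorem bf_comm_of_stationary {ρ L Li : Matrix n n ℂ} (hρ : ρ.IsHermitian) (hL : L.IsHermitian)
    (hLi : Li.IsHermitian) (h1 : L * Li = 1) (h2 : Li * L = 1)
    (hst : ∀ B : Matrix n n ℂ, Bᴴ = -B → (ρ * ((B * L - L * B) * Li)).trace.re ≤ 0) :
    ρ * (L * L) = L * L * ρ := by
  -- stationarity: `re Tr (G B) = 0`
  have key : ∀ B : Matrix n n ℂ, Bᴴ = -B → 0 ≤ ((Li * ρ * L) * B).trace.re := by
    intro B hB
    have h3 := hst B hB
    have h4 : ρ * ((B * L - L * B) * Li) = ρ * B - ρ * L * B * Li := by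
      rw [Matrix.sub_mul, Matrix.mul_sub, Matrix.mul_assoc B L Li, h1, Matrix.mul_one]
      simp only [Matrix.mul_assoc]
    have h5 : (ρ * L * B * Li).trace = ((Li * ρ * L) * B).trace := by
      rw [trace_mul_comm (ρ * L * B) Li]
      simp only [Matrix.mul_assoc]
    rw [h4, trace_sub, Complex.sub_re, bf_trace_herm_antiherm_re hρ hB, h5] at h3
    linarith
  have k6 : Li * ρ * L = L * ρ * Li := by
    have := bf_herm_of_re_trace key
    rw [conjTranspose_mul, conjTranspose_mul, hL.eq, hρ.eq, hLi.eq] at this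
    rw [this]; simp only [Matrix.mul_assoc]
  calc ρ * (L * L) = (L * Li) * ρ * L * L := by rw [h1]; simp only [Matrix.one_mul, Matrix.mul_assoc]
    _ = L * (Li * ρ * L) * L := by simp only [Matrix.mul_assoc]
    _ = L * (L * ρ * Li) * L := by rw [k6]
    _ = L * L * ρ * (Li * L) := by simp only [Matrix.mul_assoc]
    _ = L * L * ρ := by rw [h2, Matrix.mul_one]

theorem bf_commute_of_hpow {η t : ℝ} (hη : 0 < η) {σ ρ : Matrix n n ℂ} (hσ : σ ∈ bf_Den η t)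
    {r : ℝ} (hr : r ≠ 0) (h : Commute ρ (hpow σ (r : ℂ))) : Commute σ ρ := by
  obtain ⟨U, x, hU, hU', hx, -, rfl⟩ := bf_den_exists_diag hσ
  have hx0 : ∀ i, 0 < x i := fun i => lt_of_lt_of_le hη (hx i)
  have h1 : hpow (U * diagonal (fun i => (x i : ℂ)) * Uᴴ) (r : ℂ) =
      U * diagonal (fun i => ((x i ^ r : ℝ) : ℂ)) * Uᴴ := by
    rw [bf_hpow_diag hU hU']
    have : (fun i => hpowS (r : ℂ) (x i)) = fun i => ((x i ^ r : ℝ) : ℂ) :=
      funext fun i => hpowS_ofReal (hx0 i) r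
    rw [this]
  have h2 : mfun (fun y => ((y ^ (1 / r) : ℝ) : ℂ)) (U * diagonal (fun i => ((x i ^ r : ℝ) : ℂ)) * Uᴴ)
      = U * diagonal (fun i => (x i : ℂ)) * Uᴴ := by
    rw [mfun_of_decomp _ U hU hU' (fun i => x i ^ r)]
    have : (fun i => (((x i ^ r) ^ (1 / r) : ℝ) : ℂ)) = fun i => (x i : ℂ) :=
      funext fun i => by rw [← Real.rpow_mul (hx0 i).le, mul_one_div_cancel hr, Real.rpow_one]
    rw [this]
  rw [h1] at h
  rw [← h2]
  exact (mfun_commute _ h).symm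

theorem bf_diag_mul {U : Matrix n n ℂ} (hU : Uᴴ * U = 1) (d d' : n → ℂ) :
    (U * diagonal d * Uᴴ) * (U * diagonal d' * Uᴴ) = U * diagonal (fun i => d i * d' i) * Uᴴ := by
  calc (U * diagonal d * Uᴴ) * (U * diagonal d' * Uᴴ)
      = U * (diagonal d * (Uᴴ * U) * diagonal d') * Uᴴ := by simp only [Matrix.mul_assoc]
    _ = _ := by rw [hU, Matrix.mul_one, diagonal_mul_diagonal]

theorem bf_diag_trace {U : Matrix n n ℂ} (hU : Uᴴ * U = 1) (d : n → ℂ) :
    (U * diagonal d * Uᴴ).trace = ∑ i, d i := by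
  rw [trace_mul_comm, ← Matrix.mul_assoc, hU, Matrix.one_mul, trace_diagonal]

end Gen

section Sites

variable {s : Type} [DecidableEq s] [Fintype s] {io : s → Type}
  [∀ x, Fintype (io x)] [∀ x, DecidableEq (io x)]

theorem bf_cyc (A : Finset s) (ψ : Cfg io → ℂ) {σ : Matrix (CfgOn io A) (CfgOn io A) ℂ}
    (hσ : σ.IsHermitian) (hc : Commute σ (ptr A (pureOp ψ))) (z : ℂ)
    {G : Matrix (Cfg io) (Cfg io) ℂ} (hG : SuppIn A G) :
    bf_ex ψ (emb A (hpow σ z) * G * emb A (hpow σ (-z))) = bf_ex ψ G := by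
  obtain ⟨K, rfl⟩ := hG
  rw [← emb_mul, ← emb_mul, bf_ex_emb, bf_ex_emb]
  have h1 : Commute (ptr A (pureOp ψ)) (hpow σ z) := hpow_commute hc.symm z
  calc (ptr A (pureOp ψ) * (hpow σ z * K * hpow σ (-z))).trace
      = ((ptr A (pureOp ψ) * hpow σ z) * K * hpow σ (-z)).trace := by
        simp only [Matrix.mul_assoc]
    _ = ((hpow σ z * ptr A (pureOp ψ)) * K * hpow σ (-z)).trace := by rw [h1.eq]
    _ = (hpow σ (-z) * (hpow σ z * ptr A (pureOp ψ) * K)).trace := by rw [trace_mul_comm]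
    _ = ((hpow σ (-z) * hpow σ z) * (ptr A (pureOp ψ) * K)).trace := by
        simp only [Matrix.mul_assoc]
    _ = (ptr A (pureOp ψ) * K).trace := by rw [hpow_neg_mul hσ, Matrix.one_mul]

theorem bf_removal {Y : ℕ → Finset s} (hY : Monotone Y) (a : ℕ → ℝ) (σ : bf_Tup io Y)
    (hσ : ∀ k, (σ k).IsHermitian) (ψ : Cfg io → ℂ) (j r : ℕ)
    (hc : ∀ k, j ≤ k → k < j + r → Commute (σ k) (ptr (Y k) (pureOp ψ)))
    {G : Matrix (Cfg io) (Cfg io) ℂ} (hG : SuppIn (Y j) G) :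
    bf_ex ψ (bf_seg (bf_Fz Y a σ 1) j r * G * bf_ges (bf_Fz Y a σ (-1)) j r) = bf_ex ψ G := by
  induction r with
  | zero => simp
  | succ r ih =>
    rw [bf_seg_succ, bf_ges_succ]
    have h1 : SuppIn (Y (j + r))
        (bf_seg (bf_Fz Y a σ 1) j r * G * bf_ges (bf_Fz Y a σ (-1)) j r) := by
      refine ((bf_seg_suppIn fun k _ h2 => ?_).mul (hG.mono (hY (by omega)))).mul
        (bf_ges_suppIn fun k _ h2 => ?_)
      · exact (bf_Fz_suppIn Y a σ 1 k).mono (hY (by omega))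
      · exact (bf_Fz_suppIn Y a σ (-1) k).mono (hY (by omega))
    have h2 := bf_cyc (Y (j + r)) ψ (hσ (j + r)) (hc (j + r) (by omega) (by omega))
      (1 * ((a (j + r) / 2 : ℝ) : ℂ)) h1
    have h3 : bf_Fz Y a σ 1 (j + r) * bf_seg (bf_Fz Y a σ 1) j r * G *
        (bf_ges (bf_Fz Y a σ (-1)) j r * bf_Fz Y a σ (-1) (j + r)) =
        emb (Y (j + r)) (hpow (σ (j + r)) (1 * ((a (j + r) / 2 : ℝ) : ℂ))) *
          (bf_seg (bf_Fz Y a σ 1) j r * G * bf_ges (bf_Fz Y a σ (-1)) j r) *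
          emb (Y (j + r)) (hpow (σ (j + r)) (-(1 * ((a (j + r) / 2 : ℝ) : ℂ)))) := by
      unfold bf_Fz
      simp only [Matrix.mul_assoc, neg_mul]
    rw [h3, h2]
    exact ih fun k h1 h2 => hc k h1 (by omega)

theorem bf_F_eq (Y : ℕ → Finset s) (a : ℕ → ℝ) (σ : bf_Tup io Y) : bf_F Y a σ = bf_Fz Y a σ 1 := rfl

/-- replacing the `j`-th entry of a tuple -/
theorem bf_prod_update (Y : ℕ → Finset s) (a : ℕ → ℝ) (σ : bf_Tup io Y) {j m : ℕ} (hj : j < m)
    (τ : Matrix (CfgOn io (Y j)) (CfgOn io (Y j)) ℂ) :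
    bf_prod (bf_F Y a (Function.update σ j τ)) m =
      bf_seg (bf_F Y a σ) (j + 1) (m - j - 1) * emb (Y j) (hpow τ ((a j / 2 : ℝ) : ℂ)) *
        bf_prod (bf_F Y a σ) j := by
  have e1 : bf_seg (bf_F Y a (Function.update σ j τ)) (j + 1) (m - j - 1) =
      bf_seg (bf_F Y a σ) (j + 1) (m - j - 1) :=
    bf_seg_congr fun k h1 _ => bf_Fz_update Y a σ 1 j τ (by omega)
  have e2 : bf_F Y a (Function.update σ j τ) j = emb (Y j) (hpow τ ((a j / 2 : ℝ) : ℂ)) := by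
    rw [bf_F_eq, bf_Fz_update_self, one_mul]
  have e3 : bf_prod (bf_F Y a (Function.update σ j τ)) j = bf_prod (bf_F Y a σ) j :=
    bf_prod_congr fun k h1 => bf_Fz_update Y a σ 1 j τ (by omega)
  rw [bf_prod_split _ hj, e1, e2, e3]

theorem bf_update_mem {Y : ℕ → Finset s} {η : ℝ} {σ : bf_Tup io Y} (hσ : ∀ j, σ j ∈ bf_Den η 1)
    (j : ℕ) {τ : Matrix (CfgOn io (Y j)) (CfgOn io (Y j)) ℂ} (hτ : τ ∈ bf_Den η 1) (k : ℕ) :
    Function.update σ j τ k ∈ bf_Den η 1 := by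
  by_cases h : k = j
  · subst h; rw [Function.update_self]; exact hτ
  · rw [Function.update_of_ne h]; exact hσ k

theorem bf_opt_first_order {Y : ℕ → Finset s} (hY : Monotone Y) (a : ℕ → ℝ) {η : ℝ} (hη : 0 < η)
    (Ω : Cfg io → ℂ) (m : ℕ) (σ : bf_Tup io Y) (hopt : bf_IsOpt Y a η Ω m σ) (j : ℕ) (hj : j < m)
    (hc : ∀ k, j < k → k < m →
      Commute (σ k) (ptr (Y k) (pureOp (bf_prod (bf_F Y a σ) m *ᵥ Ω))))
    (c : ℝ → Matrix (CfgOn io (Y j)) (CfgOn io (Y j)) ℂ) (D : Matrix (CfgOn io (Y j)) (CfgOn io (Y j)) ℂ)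
    (hc0 : c 0 = hpow (σ j) ((a j / 2 : ℝ) : ℂ)) (hcD : HasDerivAt c D 0) {δ : ℝ} (hδ : 0 < δ)
    (hfeas : ∀ t, 0 ≤ t → t < δ → ∃ τ ∈ bf_Den η 1, c t = hpow τ ((a j / 2 : ℝ) : ℂ)) :
    (ptr (Y j) (pureOp (bf_prod (bf_F Y a σ) m *ᵥ Ω)) *
      (D * hpow (σ j) (-((a j / 2 : ℝ) : ℂ)))).trace.re ≤ 0 := by
  have hσ : ∀ k, (σ k).IsHermitian := fun k => (hopt.1 k).1
  set ψ := bf_prod (bf_F Y a σ) m *ᵥ Ω with hψ
  set A := bf_seg (bf_F Y a σ) (j + 1) (m - j - 1) with hA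
  set Ai := bf_ges (bf_Fz Y a σ (-1)) (j + 1) (m - j - 1) with hAi
  set ψ₀ := bf_prod (bf_F Y a σ) j *ᵥ Ω with hψ₀
  let T : Matrix (CfgOn io (Y j)) (CfgOn io (Y j)) ℂ →ₗ[ℂ] (Cfg io → ℂ) :=
    { toFun := fun M => (A * emb (Y j) M) *ᵥ ψ₀
      map_add' := fun M M' => by rw [emb_add, Matrix.mul_add, add_mulVec]
      map_smul' := fun z M => by rw [emb_smul, Matrix.mul_smul, smul_mulVec]; rfl }
  have hT : ∀ M, T M = (A * emb (Y j) M) *ᵥ ψ₀ := fun _ => rfl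
  -- value of `T` on feasible points
  have hTτ : ∀ τ, T (hpow τ ((a j / 2 : ℝ) : ℂ)) =
      bf_prod (bf_F Y a (Function.update σ j τ)) m *ᵥ Ω := by
    intro τ
    rw [hT, bf_prod_update Y a σ hj τ, hψ₀, mulVec_mulVec]
  have hT0 : T (c 0) = ψ := by
    rw [hc0, hTτ, Function.update_eq_self]
  have hmax : ∀ t, 0 ≤ t → t < δ → bf_nsq (T (c t)) ≤ bf_nsq (T (c 0)) := by
    intro t ht0 ht1
    obtain ⟨τ, hτ, hct⟩ := hfeas t ht0 ht1
    rw [hT0, hct, hTτ]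
    exact hopt.2 _ (bf_update_mem hopt.1 j hτ)
  have h1 := bf_first_order T c D hcD hδ hmax
  rw [hT0] at h1
  -- `ψ₀` in terms of `ψ`
  have hAiA : Ai * A = 1 := bf_ges_mul_seg (fun k => bf_Fz_neg_mul Y a σ hσ 1 k) _ _
  have h2 : ψ₀ = (emb (Y j) (hpow (σ j) (-((a j / 2 : ℝ) : ℂ))) * Ai) *ᵥ ψ := by
    have e : bf_prod (bf_F Y a σ) m = A * emb (Y j) (hpow (σ j) ((a j / 2 : ℝ) : ℂ)) *
        bf_prod (bf_F Y a σ) j := by
      have := bf_prod_update Y a σ hj (σ j)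
      rwa [Function.update_eq_self] at this
    rw [hψ, e, mulVec_mulVec]
    have e2 : emb (Y j) (hpow (σ j) (-((a j / 2 : ℝ) : ℂ))) * Ai *
        (A * emb (Y j) (hpow (σ j) ((a j / 2 : ℝ) : ℂ)) * bf_prod (bf_F Y a σ) j) =
        emb (Y j) (hpow (σ j) (-((a j / 2 : ℝ) : ℂ))) * (Ai * A) *
        emb (Y j) (hpow (σ j) ((a j / 2 : ℝ) : ℂ)) * bf_prod (bf_F Y a σ) j := by
      simp only [Matrix.mul_assoc]
    rw [e2, hAiA, Matrix.mul_one, ← emb_mul, hpow_neg_mul (hσ j), emb_one, Matrix.one_mul]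
  have h3 : star ψ ⬝ᵥ T D =
      bf_ex ψ (A * emb (Y j) (D * hpow (σ j) (-((a j / 2 : ℝ) : ℂ))) * Ai) := by
    rw [hT, bf_ex]
    conv_lhs => rw [h2]
    rw [mulVec_mulVec, emb_mul]
    simp only [Matrix.mul_assoc]
  have h4 := bf_removal hY a σ hσ ψ (j + 1) (m - j - 1)
    (fun k hk1 hk2 => hc k (by omega) (by omega))
    (G := emb (Y j) (D * hpow (σ j) (-((a j / 2 : ℝ) : ℂ))))
    (SuppIn.mono (hY (Nat.le_succ j)) ⟨_, rfl⟩)
  rw [h3] at h1
  rw [← bf_ex_emb, ← h4]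
  exact h1

theorem bf_hpow_real_isHermitian {n : Type} [Fintype n] [DecidableEq n] (σ : Matrix n n ℂ) (r : ℝ) :
    (hpow σ (r : ℂ)).IsHermitian := by
  rw [IsHermitian, hpow_conjTranspose]; simp

theorem bf_opt_commute {Y : ℕ → Finset s} (hY : Monotone Y) {a : ℕ → ℝ} (ha : ∀ j, 0 < a j)
    {η : ℝ} (hη : 0 < η) (Ω : Cfg io → ℂ) (m : ℕ) (σ : bf_Tup io Y)
    (hopt : bf_IsOpt Y a η Ω m σ) (j : ℕ) (hj : j < m) :
    Commute (σ j) (ptr (Y j) (pureOp (bf_prod (bf_F Y a σ) m *ᵥ Ω))) := by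
  induction' hd : m - j using Nat.strong_induction_on with d ih generalizing j
  have hc : ∀ k, j < k → k < m →
      Commute (σ k) (ptr (Y k) (pureOp (bf_prod (bf_F Y a σ) m *ᵥ Ω))) :=
    fun k h1 h2 => ih (m - k) (by omega) k h2 rfl
  have hσj := (hopt.1 j).1
  set ρ := ptr (Y j) (pureOp (bf_prod (bf_F Y a σ) m *ᵥ Ω)) with hρ
  have hρH : ρ.IsHermitian := (bf_ptr_pure_posSemidef _ _).1
  have hneg : (-((a j / 2 : ℝ) : ℂ)) = ((-(a j / 2) : ℝ) : ℂ) := by push_cast; ring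
  have hst : ∀ B : Matrix (CfgOn io (Y j)) (CfgOn io (Y j)) ℂ, Bᴴ = -B →
      (ρ * ((B * hpow (σ j) ((a j / 2 : ℝ) : ℂ) - hpow (σ j) ((a j / 2 : ℝ) : ℂ) * B) *
        hpow (σ j) (-((a j / 2 : ℝ) : ℂ)))).trace.re ≤ 0 := by
    intro B hB
    refine bf_opt_first_order hY a hη Ω m σ hopt j hj hc
      (fun t : ℝ => NormedSpace.exp ((t : ℂ) • B) * hpow (σ j) ((a j / 2 : ℝ) : ℂ) *
        NormedSpace.exp (-((t : ℂ) • B))) _ (by simp) (bf_curve_unitary B _) one_pos ?_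
    intro t _ _
    obtain ⟨e1, e2, e3⟩ := bf_exp_unitary hB t
    refine ⟨NormedSpace.exp ((t : ℂ) • B) * σ j * (NormedSpace.exp ((t : ℂ) • B))ᴴ,
      bf_den_conj e2 e3 (hopt.1 j), ?_⟩
    rw [hpow_unitary_conj _ e2 e3, e1]
  have h1 := bf_comm_of_stationary hρH (bf_hpow_real_isHermitian (σ j) (a j / 2))
    (by rw [hneg]; exact bf_hpow_real_isHermitian (σ j) _)
    (hpow_mul_neg hσj _) (hpow_neg_mul hσj _) hst
  rw [← hpow_add] at h1
  have h2 : (((a j / 2 : ℝ) : ℂ) + ((a j / 2 : ℝ) : ℂ)) = ((a j : ℝ) : ℂ) := by push_cast; ring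
  rw [h2] at h1
  exact bf_commute_of_hpow hη (hopt.1 j) (ha j).ne' h1

theorem bf_opt_kkt {Y : ℕ → Finset s} (hY : Monotone Y) {a : ℕ → ℝ} (ha : ∀ j, 0 < a j)
    {η : ℝ} (hη : 0 < η) (Ω : Cfg io → ℂ) (m : ℕ) (σ : bf_Tup io Y)
    (hopt : bf_IsOpt Y a η Ω m σ) (j : ℕ) (hj : j < m)
    {U : Matrix (CfgOn io (Y j)) (CfgOn io (Y j)) ℂ} (hU : Uᴴ * U = 1) (hU' : U * Uᴴ = 1)
    (x p : CfgOn io (Y j) → ℝ) (hx : σ j = U * diagonal (fun i => (x i : ℂ)) * Uᴴ)
    (hp : ptr (Y j) (pureOp (bf_prod (bf_F Y a σ) m *ᵥ Ω)) =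
      U * diagonal (fun i => (p i : ℂ)) * Uᴴ) (i k : CfgOn io (Y j)) (hk : η < x k) :
    p i * x k ≤ p k * x i := by
  rcases eq_or_ne i k with rfl | hik
  · exact le_rfl
  have hden := hopt.1 j
  rw [hx, bf_den_diag_iff hU hU'] at hden
  obtain ⟨hxη, hxs⟩ := hden
  have hx0 : ∀ l, 0 < x l := fun l => lt_of_lt_of_le hη (hxη l)
  set r : ℝ := a j / 2 with hr
  have hr0 : 0 < r := by have := ha j; positivity
  -- direction of the transfer
  let e : CfgOn io (Y j) → ℝ := fun l => (if l = i then 1 else 0) - (if l = k then 1 else 0)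
  have hes : ∑ l, e l = 0 := by simp [e, Finset.sum_sub_distrib]
  have hei : e i = 1 := by simp [e, hik]
  have hek : e k = -1 := by simp [e, hik.symm]
  have heo : ∀ l, l ≠ i → l ≠ k → e l = 0 := fun l h1 h2 => by simp [e, h1, h2]
  have hfeas0 : ∀ t : ℝ, 0 ≤ t → t < x k - η → ∀ l, η ≤ x l + t * e l := by
    intro t ht0 ht1 l
    by_cases h1 : l = i
    · subst h1; rw [hei]; linarith [hxη l]
    · by_cases h2 : l = k
      · subst h2; rw [hek]; linarith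
      · rw [heo l h1 h2]; linarith [hxη l]
  have hcomm := fun k' (_ : j < k') (h2 : k' < m) => bf_opt_commute hY ha hη Ω m σ hopt k' h2
  have hpowdiag : ∀ (y : CfgOn io (Y j) → ℝ), (∀ l, 0 < y l) → ∀ q : ℝ,
      hpow (U * diagonal (fun l => (y l : ℂ)) * Uᴴ) (q : ℂ) =
        U * diagonal (fun l => ((y l ^ q : ℝ) : ℂ)) * Uᴴ := by
    intro y hy q
    rw [bf_hpow_diag hU hU']
    have : (fun l => hpowS (q : ℂ) (y l)) = fun l => ((y l ^ q : ℝ) : ℂ) :=
      funext fun l => hpowS_ofReal (hy l) q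
    rw [this]
  have hfo := bf_opt_first_order hY a hη Ω m σ hopt j hj hcomm
    (fun t : ℝ => U * diagonal (fun l => (((x l + t * e l) ^ r : ℝ) : ℂ)) * Uᴴ)
    (U * diagonal (fun l => ((e l * r * x l ^ (r - 1) : ℝ) : ℂ)) * Uᴴ)
    (by
      simp only [zero_mul, add_zero]
      rw [hx, hpowdiag x hx0])
    (bf_curve_diag U (fun l t => (x l + t * e l) ^ r) (fun l => e l * r * x l ^ (r - 1))
      (fun l => by
        have h1 : HasDerivAt (fun t : ℝ => x l + t * e l) (e l) 0 := by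
          simpa using ((hasDerivAt_id (0 : ℝ)).mul_const (e l)).const_add (x l)
        have h2 := h1.rpow_const (p := r) (Or.inl (by simpa using (hx0 l).ne'))
        simpa using h2))
    (sub_pos.2 hk)
    (fun t ht0 ht1 => ⟨U * diagonal (fun l => ((x l + t * e l : ℝ) : ℂ)) * Uᴴ,
      (bf_den_diag_iff hU hU' _ η 1).2 ⟨hfeas0 t ht0 ht1, by
        rw [Finset.sum_add_distrib, ← Finset.mul_sum, hes, hxs]; ring⟩,
      (hpowdiag _ (fun l => lt_of_lt_of_le hη (hfeas0 t ht0 ht1 l)) r).symm⟩)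
  have hneg : (-((a j / 2 : ℝ) : ℂ)) = ((-r : ℝ) : ℂ) := by rw [hr]; push_cast; ring
  rw [hp, hneg, hx, hpowdiag x hx0, bf_diag_mul hU, bf_diag_mul hU, bf_diag_trace hU] at hfo
  have h5 : (∑ l, (p l : ℂ) * (((e l * r * x l ^ (r - 1) : ℝ) : ℂ) * ((x l ^ (-r) : ℝ) : ℂ))).re =
      ∑ l, e l * (r * (p l / x l)) := by
    rw [Complex.re_sum]
    refine Finset.sum_congr rfl fun l _ => ?_
    rw [← Complex.ofReal_mul, ← Complex.ofReal_mul, Complex.ofReal_re]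
    have : x l ^ (r - 1) * x l ^ (-r) = (x l)⁻¹ := by
      rw [← Real.rpow_add (hx0 l), ← Real.rpow_neg_one]; congr 1; ring
    calc p l * (e l * r * x l ^ (r - 1) * x l ^ (-r))
        = e l * (r * (p l * (x l ^ (r - 1) * x l ^ (-r)))) := by ring
      _ = _ := by rw [this, div_eq_mul_inv]
  rw [h5] at hfo
  have h6 : ∑ l, e l * (r * (p l / x l)) = r * (p i / x i) - r * (p k / x k) := by
    simp only [e, sub_mul, ite_mul, one_mul, zero_mul, Finset.sum_sub_distrib,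
      Finset.sum_ite_eq', Finset.mem_univ, if_true]
  rw [h6] at hfo
  have h7 : p i / x i ≤ p k / x k := by
    have : r * (p i / x i) ≤ r * (p k / x k) := by linarith
    exact le_of_mul_le_mul_left this hr0
  rwa [div_le_div_iff₀ (hx0 i) (hx0 k)] at h7

end Sites

end Claimed.Agent.R296
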