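import Mathlib

/-!
# Row 296: the two-family entropy cancellation (P1, Lemma 10.1), abstract form

The lemma is a statement on a set function `S : Finset Λ → ℝ` which vanishes on `∅`, is
non-negative, symmetric under complements (purity) and submodular (strong subadditivity).
Prefix `cn_`.
-/

set_option autoImplicit false

namespace Claimed.Agent.R296

open Finset

/-- the properties of the entropy set function of a pure state -/
structure EntLike {Λ : Type} [Fintype Λ] [DecidableEq Λ] (S : Finset Λ → ℝ) : Prop where
  empty : S ∅ = 0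
  nonneg : ∀ X, 0 ≤ S X
  compl : ∀ X, S Xᶜ = S X
  submod : ∀ X Y, S (X ∪ Y) + S (X ∩ Y) ≤ S X + S Y

variable {Λ : Type} [Fintype Λ] [DecidableEq Λ] {S : Finset Λ → ℝ}

theorem EntLike.cn_subadd (hS : EntLike S) (X Y : Finset Λ) : S (X ∪ Y) ≤ S X + S Y := by
  have h1 := hS.submod X Y
  have h2 := hS.nonneg (X ∩ Y)
  linarith

theorem EntLike.cn_subadd_biUnion (hS : EntLike S) {ι : Type} [DecidableEq ι] (t : Finset ι)
    (X : ι → Finset Λ) : S (t.biUnion X) ≤ ∑ i ∈ t, S (X i) := by
  induction t using Finset.induction_on with
  | empty => simp [hS.empty]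
  | insert a t ha ih =>
    rw [Finset.biUnion_insert, Finset.sum_insert ha]
    have := hS.cn_subadd (X a) (t.biUnion X)
    linarith

/-- the set against which the `i`-th region is tested -/
def cnPre {m : ℕ} (A : Finset Λ) (X : Fin m → Finset Λ) (f : Fin m → Bool) (φ : Bool) (t : ℕ) :
    Finset Λ :=
  Aᶜ ∪ (univ.filter fun j : Fin m => j.val < t ∧ f j = φ).biUnion X

/-- chain rule along one family -/
theorem cn_chain (_hS : EntLike S) {m : ℕ} (A : Finset Λ) (X : Fin m → Finset Λ)
    (f : Fin m → Bool) (ε : Fin m → ℝ)
    (hinfo : ∀ i : Fin m, S (X i) + S (cnPre A X f (f i) i.val)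
      - S (X i ∪ cnPre A X f (f i) i.val) ≤ ε i) (φ : Bool) :
    ∀ t : ℕ, t ≤ m → S Aᶜ + ∑ j ∈ univ.filter (fun j : Fin m => j.val < t ∧ f j = φ),
      (S (X j) - ε j) ≤ S (cnPre A X f φ t) := by
  intro t
  induction t with
  | zero =>
    intro _
    simp [cnPre]
  | succ t ih =>
    intro ht
    have ih' := ih (by omega)
    set i : Fin m := ⟨t, by omega⟩ with hi
    by_cases hf : f i = φ
    · have hfil : (univ.filter fun j : Fin m => j.val < t + 1 ∧ f j = φ)
          = insert i (univ.filter fun j : Fin m => j.val < t ∧ f j = φ) := by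
        ext j
        simp only [mem_filter, mem_univ, true_and, mem_insert]
        constructor
        · rintro ⟨h1, h2⟩
          by_cases hj : j.val = t
          · left
            exact Fin.ext hj
          · right
            exact ⟨by omega, h2⟩
        · rintro (rfl | ⟨h1, h2⟩)
          · exact ⟨by simp [hi], hf⟩
          · exact ⟨by omega, h2⟩
      have hnot : i ∉ (univ.filter fun j : Fin m => j.val < t ∧ f j = φ) := by
        simp [hi]
      have hpre : cnPre A X f φ (t + 1) = X i ∪ cnPre A X f φ t := by
        unfold cnPre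
        rw [hfil, Finset.biUnion_insert, Finset.union_left_comm]
      rw [hfil, Finset.sum_insert hnot, hpre]
      have h := hinfo i
      rw [hf] at h
      have hval : i.val = t := rfl
      rw [hval] at h
      linarith
    · have hfil : (univ.filter fun j : Fin m => j.val < t + 1 ∧ f j = φ)
          = (univ.filter fun j : Fin m => j.val < t ∧ f j = φ) := by
        ext j
        simp only [mem_filter, mem_univ, true_and]
        constructor
        · rintro ⟨h1, h2⟩
          refine ⟨?_, h2⟩
          by_contra hcon
          have hj : j.val = t := by omega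
          have : j = i := Fin.ext hj
          exact hf (this ▸ h2)
        · rintro ⟨h1, h2⟩
          exact ⟨by omega, h2⟩
      have hpre : cnPre A X f φ (t + 1) = cnPre A X f φ t := by
        unfold cnPre
        rw [hfil]
      rw [hfil, hpre]
      exact ih'

/-- **P1, Lemma 10.1** (two-family entropy cancellation). -/
theorem cn_cancel (hS : EntLike S) {m : ℕ} (A D : Finset Λ) (X : Fin m → Finset Λ)
    (f : Fin m → Bool) (ε : Fin m → ℝ)
    (hpart : ∀ x, x ∈ A ↔ x ∈ D ∨ ∃ i, x ∈ X i)
    (hDX : ∀ i, Disjoint D (X i)) (hXX : ∀ i j, i ≠ j → Disjoint (X i) (X j))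
    (hinfo : ∀ i : Fin m, S (X i) + S (cnPre A X f (f i) i.val)
      - S (X i ∪ cnPre A X f (f i) i.val) ≤ ε i) :
    S A ≤ S D + (1 / 2) * ∑ i, ε i := by
  have key : ∀ φ : Bool, S A + ∑ j ∈ univ.filter (fun j : Fin m => f j = φ), (S (X j) - ε j)
      ≤ S D + ∑ j ∈ univ.filter (fun j : Fin m => f j = !φ), S (X j) := by
    intro φ
    have h1 := cn_chain hS A X f ε hinfo φ m le_rfl
    have hfil : (univ.filter fun j : Fin m => j.val < m ∧ f j = φ)
        = univ.filter fun j : Fin m => f j = φ := by
      ext j
      simp
    rw [hfil, hS.compl] at h1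
    have hc : (cnPre A X f φ m)ᶜ = D ∪ (univ.filter fun j : Fin m => f j = !φ).biUnion X := by
      unfold cnPre
      rw [hfil]
      ext x
      simp only [mem_compl, mem_union, mem_biUnion, mem_filter, mem_univ, true_and, not_or,
        not_not, not_exists, not_and]
      constructor
      · rintro ⟨hxA, hx⟩
        rcases (hpart x).mp hxA with hD | ⟨i, hi⟩
        · exact Or.inl hD
        · refine Or.inr ⟨i, ?_, hi⟩
          by_contra hcon
          have : f i = φ := by
            cases hfi : f i <;> cases φ <;> simp_all
          exact hx i this hi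
      · rintro (hD | ⟨i, hfi, hi⟩)
        · exact ⟨(hpart x).mpr (Or.inl hD), fun j _ hj => Finset.disjoint_left.mp (hDX j) hD hj⟩
        · refine ⟨(hpart x).mpr (Or.inr ⟨i, hi⟩), fun j hfj hj => ?_⟩
          have hne : i ≠ j := by
            rintro rfl
            rw [hfj] at hfi
            cases φ <;> simp at hfi
          exact Finset.disjoint_left.mp (hXX i j hne) hi hj
    have h2 : S (cnPre A X f φ m) ≤ S D + ∑ j ∈ univ.filter (fun j : Fin m => f j = !φ), S (X j) := by
      rw [← hS.compl, hc]
      have h3 := hS.cn_subadd D ((univ.filter fun j : Fin m => f j = !φ).biUnion X)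
      have h4 := hS.cn_subadd_biUnion (univ.filter fun j : Fin m => f j = !φ) X
      linarith
    linarith
  have kt := key true
  have kf := key false
  simp only [Bool.not_true, Bool.not_false] at kt kf
  have hsplit : ∀ g : Fin m → ℝ, ∑ j ∈ univ.filter (fun j : Fin m => f j = true), g j
      + ∑ j ∈ univ.filter (fun j : Fin m => f j = false), g j = ∑ j, g j := by
    intro g
    rw [← Finset.sum_filter_add_sum_filter_not univ (fun j : Fin m => f j = true) g]
    congr 1
    apply Finset.sum_congr _ (fun _ _ => rfl)
    ext j
    simp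
  have e1 := hsplit (fun j => S (X j) - ε j)
  have e2 := hsplit (fun j => S (X j))
  have e3 : ∑ j, (S (X j) - ε j) = ∑ j, S (X j) - ∑ j, ε j := Finset.sum_sub_distrib _ _
  linarith

end Claimed.Agent.R296
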