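import Claimed.Agent.R296.CmpLaw

/-!
# Row 296, P1 Section 7: the interface between the upper comparisons (helper218, `CmpUp*.lean`, `CmpAsm.lean`) and the
lower comparisons (helper239, `Cmp/Low*.lean`), and the glue to `ComparatorK`

Architect: helper218.  Prefix `ci_`.  This file is sorry-free.

* `𝔇.OutCU C0 c0 C a0 ζ F`    : the fields `rough_upper`, `sharp_upper` of `𝔇.OutC`;
* `𝔇.OutCL C0 c0 C a0 ζ F Ed` : the fields `ed_nonneg`, `rough_lower`, `sharp_lower` of `𝔇.OutC`;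
* `UpperK`, `LowerK`          : the two halves hold for EVERY label `lam` with `GoodLab lam ε`, `ε = ε(𝔇, ζ) > 0`, `k ≥ k0`;
* `ci_comparatorK`            : `UpperK → LowerK → ComparatorK` (label selection `cp_label`).

Targets:  `theorem cp_upperK : UpperK` (`CmpAsm.lean`),  `theorem cl_lowerK : LowerK` (`Cmp/Low*.lean`).
-/

set_option autoImplicit false
set_option linter.unusedSectionVars false

namespace Claimed.Agent.R296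

namespace Scan

open Matrix Finset
open scoped ComplexOrder MatrixOrder

namespace RepData

variable {Λ ι α : Type} [Fintype Λ] [DecidableEq Λ] [Fintype ι]
  {io : Λ → Type} [∀ x, Fintype (io x)] [∀ x, DecidableEq (io x)]
  (𝔇 : RepData Λ ι α io)

/-- the upper half of `OutC` -/
structure OutCU (C0 c0 C a0 ζ : ℝ) (F : MTree α → ℝ) : Prop where
  rough_upper : 𝔇.PrefixData → ∀ r, ∀ p ∈ Set.Icc (0 : ℝ) 1,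
    F (𝔇.tree r p) ≤ 2 * 𝔇.ld - Real.log 𝔇.z +
      𝔇.W / 2 * (2 * 𝔇.Bsh / 𝔇.z + 2 * 𝔇.Bexc) + ζ
  sharp_upper : 𝔇.MgfData C0 c0 → 𝔇.a * Real.sqrt 𝔇.BB ≤ a0 → ∀ r, ∀ p ∈ Set.Icc (0 : ℝ) 1,
    F (𝔇.tree r p) ≤ 2 * 𝔇.ld - Real.log 𝔇.z +
      𝔇.W / 2 * (𝔇.av 𝔇.gpost (𝔇.tree r p) + C * (𝔇.a * 𝔇.BB + |Real.log 𝔇.z| / 𝔇.a)) + ζ

/-- the lower half of `OutC` -/
structure OutCL (C0 c0 C a0 ζ : ℝ) (F Ed : MTree α → ℝ) : Prop where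
  ed_nonneg : ∀ r, ∀ p ∈ Set.Icc (0 : ℝ) 1, 0 ≤ Ed (𝔇.tree r p)
  rough_lower : ∀ r, ∀ p ∈ Set.Icc (0 : ℝ) 1,
    𝔇.W / 2 * (2 * 𝔇.S' - C * (𝔇.τ * 𝔇.ld + Real.binEntropy 𝔇.τ / 𝔇.a) -
      C * (Ed (𝔇.tree r p) / 𝔇.τ) * 𝔇.S') - ζ ≤ F (𝔇.tree r p)
  sharp_lower : 𝔇.MgfData C0 c0 → 𝔇.a * Real.sqrt 𝔇.BB ≤ a0 → ∀ gmax : ℝ,
    (∀ l, 𝔇.Al l → ∀ g, 𝔇.gpre (𝔇.st l g) ≤ gmax) → ∀ r, ∀ p ∈ Set.Icc (0 : ℝ) 1,
    𝔇.W / 2 * (2 * 𝔇.S' + (1 - 𝔇.τ) * 𝔇.av 𝔇.gpre (𝔇.tree r p) -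
      C * (𝔇.τ * 𝔇.ld + Real.binEntropy 𝔇.τ / 𝔇.a + 𝔇.a * 𝔇.BB) -
      C * (Ed (𝔇.tree r p) / 𝔇.τ) * (𝔇.S' + gmax)) - ζ ≤ F (𝔇.tree r p)

variable {𝔇}

/-- the two halves, with different constants -/
theorem OutC.of_UL {a0 a1 a2 C0 c0 C1 C2 ζ : ℝ} {F Ed : MTree α → ℝ} (hW : 𝔇.WF a0)
    (hU : 𝔇.OutCU C0 c0 C1 a1 ζ F) (hL : 𝔇.OutCL C0 c0 C2 a2 ζ F Ed) :
    𝔇.OutC C0 c0 (max C1 C2) (min a1 a2) ζ F Ed := by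
  have hWn : 0 ≤ 𝔇.W / 2 := by
    have := hW.a_pos
    unfold W
    positivity
  have hsu : 𝔇.MgfData C0 c0 → 𝔇.a * Real.sqrt 𝔇.BB ≤ min a1 a2 → ∀ r, ∀ p ∈ Set.Icc (0 : ℝ) 1,
      F (𝔇.tree r p) ≤ 2 * 𝔇.ld - Real.log 𝔇.z +
        𝔇.W / 2 * (𝔇.av 𝔇.gpost (𝔇.tree r p) +
          max C1 C2 * (𝔇.a * 𝔇.BB + |Real.log 𝔇.z| / 𝔇.a)) + ζ := by
    intro hM hsm r p hp
    have hapos := hW.a_pos
    have hBB : 0 ≤ 𝔇.a * 𝔇.BB + |Real.log 𝔇.z| / 𝔇.a := by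
      have := hM.BB_ge
      have h0 : 0 ≤ 𝔇.BB := by linarith
      positivity
    refine le_trans (hU.sharp_upper hM (hsm.trans (min_le_left _ _)) r p hp) ?_
    have hd : 0 ≤ max C1 C2 - C1 := sub_nonneg.mpr (le_max_left _ _)
    have : 𝔇.W / 2 * (𝔇.av 𝔇.gpost (𝔇.tree r p) + C1 * (𝔇.a * 𝔇.BB + |Real.log 𝔇.z| / 𝔇.a)) ≤
        𝔇.W / 2 * (𝔇.av 𝔇.gpost (𝔇.tree r p) +
          max C1 C2 * (𝔇.a * 𝔇.BB + |Real.log 𝔇.z| / 𝔇.a)) := by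
      refine mul_le_mul_of_nonneg_left ?_ hWn
      nlinarith [mul_nonneg hd hBB]
    linarith
  have hapos := hW.a_pos
  have hτ := hW.tau_pos
  have hld : 0 ≤ 𝔇.ld := typLd_nonneg _ _
  have hS' : 0 ≤ 𝔇.S' := typS_nonneg _ _
  have hbe : 0 ≤ Real.binEntropy 𝔇.τ :=
    Real.binEntropy_nonneg hτ.le (by linarith [hW.tau_lt])
  have hA : 0 ≤ 𝔇.τ * 𝔇.ld + Real.binEntropy 𝔇.τ / 𝔇.a := by positivity
  have hd : 0 ≤ max C1 C2 - C2 := sub_nonneg.mpr (le_max_right _ _)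
  refine { ed_nonneg := hL.ed_nonneg, rough_upper := hU.rough_upper, rough_lower := ?_,
           sharp_upper := hsu, sharp_lower := ?_ }
  · intro r p hp
    have hE := hL.ed_nonneg r p hp
    have hB : 0 ≤ Ed (𝔇.tree r p) / 𝔇.τ * 𝔇.S' := by positivity
    refine le_trans ?_ (hL.rough_lower r p hp)
    have : 𝔇.W / 2 * (2 * 𝔇.S' - max C1 C2 * (𝔇.τ * 𝔇.ld + Real.binEntropy 𝔇.τ / 𝔇.a) -
        max C1 C2 * (Ed (𝔇.tree r p) / 𝔇.τ) * 𝔇.S') ≤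
        𝔇.W / 2 * (2 * 𝔇.S' - C2 * (𝔇.τ * 𝔇.ld + Real.binEntropy 𝔇.τ / 𝔇.a) -
        C2 * (Ed (𝔇.tree r p) / 𝔇.τ) * 𝔇.S') := by
      refine mul_le_mul_of_nonneg_left ?_ hWn
      nlinarith [mul_nonneg hd hA, mul_nonneg hd hB]
    linarith
  · intro hM hsm gmax hg r p hp
    have hE := hL.ed_nonneg r p hp
    have hgm : 0 ≤ gmax := by
      obtain ⟨l, hl⟩ := rm_exists_leaf (hW.hs_al r)
      exact (rm_gpre_nonneg hW _).trans (hg l hl ⟨0, hW.K_pos⟩)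
    have hBB : 0 ≤ 𝔇.τ * 𝔇.ld + Real.binEntropy 𝔇.τ / 𝔇.a + 𝔇.a * 𝔇.BB := by
      have := hM.BB_ge
      have h0 : 0 ≤ 𝔇.BB := by linarith
      positivity
    have hB : 0 ≤ Ed (𝔇.tree r p) / 𝔇.τ * (𝔇.S' + gmax) := by positivity
    refine le_trans ?_ (hL.sharp_lower hM (hsm.trans (min_le_right _ _)) gmax hg r p hp)
    have : 𝔇.W / 2 * (2 * 𝔇.S' + (1 - 𝔇.τ) * 𝔇.av 𝔇.gpre (𝔇.tree r p) -
        max C1 C2 * (𝔇.τ * 𝔇.ld + Real.binEntropy 𝔇.τ / 𝔇.a + 𝔇.a * 𝔇.BB) -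
        max C1 C2 * (Ed (𝔇.tree r p) / 𝔇.τ) * (𝔇.S' + gmax)) ≤
        𝔇.W / 2 * (2 * 𝔇.S' + (1 - 𝔇.τ) * 𝔇.av 𝔇.gpre (𝔇.tree r p) -
        C2 * (𝔇.τ * 𝔇.ld + Real.binEntropy 𝔇.τ / 𝔇.a + 𝔇.a * 𝔇.BB) -
        C2 * (Ed (𝔇.tree r p) / 𝔇.τ) * (𝔇.S' + gmax)) := by
      refine mul_le_mul_of_nonneg_left ?_ hWn
      nlinarith [mul_nonneg hd hBB, mul_nonneg hd hB]
    linarith

end RepData

/-- **the upper comparisons for the model**, for every good label -/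
def UpperK : Prop :=
  ∀ C0 c0 : ℝ, 0 < C0 → 0 < c0 → ∃ C a0 : ℝ, 1 ≤ C ∧ 0 < a0 ∧
    ∀ (Λ ι α : Type) [Fintype Λ] [DecidableEq Λ] [Fintype ι] (io : Λ → Type)
      [∀ x, Fintype (io x)] [∀ x, DecidableEq (io x)] [∀ x, Nonempty (io x)]
      (𝔇 : RepData Λ ι α io), 𝔇.WF a0 → ∀ ζ : ℝ, 0 < ζ → ∃ ε : ℝ, 0 < ε ∧ ∃ k0 : ℕ,
        ∀ k : ℕ, k0 ≤ k → ∀ lam : Rep.Irr (Equiv.Perm (Fin k)), 𝔇.GoodLab lam ε →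
          𝔇.OutCU C0 c0 C a0 ζ (𝔇.mF lam)

/-- **the lower comparisons for the model**, for every good label -/
def LowerK : Prop :=
  ∀ C0 c0 : ℝ, 0 < C0 → 0 < c0 → ∃ C a0 : ℝ, 1 ≤ C ∧ 0 < a0 ∧
    ∀ (Λ ι α : Type) [Fintype Λ] [DecidableEq Λ] [Fintype ι] (io : Λ → Type)
      [∀ x, Fintype (io x)] [∀ x, DecidableEq (io x)] [∀ x, Nonempty (io x)]
      (𝔇 : RepData Λ ι α io), 𝔇.WF a0 → ∀ ζ : ℝ, 0 < ζ → ∃ ε : ℝ, 0 < ε ∧ ∃ k0 : ℕ,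
        ∀ k : ℕ, k0 ≤ k → ∀ lam : Rep.Irr (Equiv.Perm (Fin k)), 𝔇.GoodLab lam ε →
          𝔇.OutCL C0 c0 C a0 ζ (𝔇.mF lam) (𝔇.mEd lam)

/-- the glue: label selection -/
theorem ci_comparatorK (hU : UpperK) (hL : LowerK) : ComparatorK := by
  intro C0 c0 hC0 hc0
  obtain ⟨C1, a1, hC1, ha1, hU⟩ := hU C0 c0 hC0 hc0
  obtain ⟨C2, a2, hC2, ha2, hL⟩ := hL C0 c0 hC0 hc0
  refine ⟨max C1 C2, min a1 a2, le_max_of_le_left hC1, lt_min ha1 ha2, ?_⟩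
  intro Λ ι α _ _ _ io _ _ _ 𝔇 hW ζ hζ
  obtain ⟨ε1, hε1, k1, hk1⟩ := hU Λ ι α io 𝔇 (hW.mono (min_le_left _ _)) ζ hζ
  obtain ⟨ε2, hε2, k2, hk2⟩ := hL Λ ι α io 𝔇 (hW.mono (min_le_right _ _)) ζ hζ
  obtain ⟨k3, hk3⟩ := cp_label 𝔇 hW (min ε1 ε2) (lt_min hε1 hε2)
  refine ⟨max (max k1 k2) k3, fun k hk => ?_⟩
  obtain ⟨lam, hlam⟩ := hk3 k (le_trans (le_max_right _ _) hk)
  have h1 := hk1 k (le_trans (le_trans (le_max_left _ _) (le_max_left _ _)) hk) lam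
    (cp_goodLab_mono 𝔇 (min_le_left _ _) hlam)
  have h2 := hk2 k (le_trans (le_trans (le_max_right _ _) (le_max_left _ _)) hk) lam
    (cp_goodLab_mono 𝔇 (min_le_right _ _) hlam)
  exact ⟨lam, cp_pre_ne_zero 𝔇 hW lam (cp_goodLab_pos 𝔇 hlam), RepData.OutC.of_UL hW h1 h2⟩

end Scan

end Claimed.Agent.R296
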