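import Claimed.Agent.R296.CmpLaw

/-!
# Row 296, P1 Section 7, package S7-TREE: the abstract tree comparisons (`CmpAbs.lean`) instantiated in the model

Architect: helper218.  Prefix `cp_`.  ONE owner.  Used by `CmpAsm.lean` (upper, helper218) and `Cmp/Low*.lean` (lower, helper239).
Only bookkeeping: instantiate `ca_rough_upper`, `ca_sharp_upper`, `ca_tree_lower` with `G = 𝔇.Al`, `Ab g l = 𝔇.mLeafB κ g l`,
`A l = 𝔇.mLeaf κ l`, `t = T`, `pre = 𝔇.mPre lam`; hypotheses from `CmpBand.lean` (`cp_band_posDef`, `cp_band_commute`, `cp_leaf_posDef`, …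
with `hW.st_ok`-type facts on allowed leaves) and `CmpPre.lean` (`cp_pin_proj`, `cp_pin_pre`, `cp_postL_norm`, `cp_postL_quad_le`,
`cp_pre_norm_le`, `cp_low_proj`, `cp_defect_mass`); `𝔇.mF lam T = -log (mN2 lam T) / k`; `MTree.E` is monotone and linear
(`MTree.E_le_of_all`, `E_mono_of_all`, `E_add`, `E_const` in `MTree.lean`).
-/

set_option autoImplicit false
set_option linter.unusedSectionVars false

namespace Claimed.Agent.R296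

namespace Scan

open Matrix Finset
open scoped ComplexOrder MatrixOrder

variable {Λ ι α : Type} [Fintype Λ] [DecidableEq Λ] [Fintype ι]
  {io : Λ → Type} [∀ x, Fintype (io x)] [∀ x, DecidableEq (io x)] [∀ x, Nonempty (io x)]
  (𝔇 : RepData Λ ι α io)

/-- substitution of valid trees at the leaves -/
theorem cp_valid_bind_of_all {β : Type} {t : MTree α} {k : α → MTree β} (ht : t.Valid)
    (hk : t.All fun a => (k a).Valid) : (t.bind k).Valid := by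
  induction t with
  | leaf a => exact hk
  | node p l r ihl ihr => exact ⟨ht.1, ht.2.1, ihl ht.2.2.1 hk.1, ihr ht.2.2.2 hk.2⟩

/-- the interpolated trees are valid and have allowed leaves
(`MTree.svalid_bind`, `hW.hs_valid`, `hW.ch_ok`, `hW.hs_al`; see the proof of `OutT.mono` in `RepModel.lean`) -/
theorem cp_tree_ok {a0 : ℝ} (hW : 𝔇.WF a0) (r : Fin 𝔇.R) {p : ℝ} (hp : p ∈ Set.Icc (0 : ℝ) 1) :
    (𝔇.tree r p).Valid ∧ (𝔇.tree r p).All 𝔇.Al := by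
  have h1 := (hW.hs_valid r).valid
  have h2 := hW.hs_al r
  have h3 := hW.ch_ok r
  constructor
  · unfold RepData.tree MTree.interp
    refine cp_valid_bind_of_all h1 (h3.imp fun a ha => ?_)
    exact ⟨hp.1, hp.2, trivial, ha.1.valid⟩
  · unfold RepData.tree MTree.interp
    have h4 : (𝔇.Hs r).All fun l => 𝔇.Al l ∧ (𝔇.Ch r l).All 𝔇.Al := by
      rw [MTree.all_iff_leaves] at h2 h3 ⊢
      exact fun a ha => ⟨h2 a ha, (h3 a ha).2.1⟩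
    exact MTree.all_bind h4 fun a ha => ⟨ha.1, ha.2⟩

section Fixed

variable {κ : Type} [Fintype κ] [DecidableEq κ] [Nonempty κ] {a0 : ℝ} (hW : 𝔇.WF a0)
  (lam : Rep.Irr (Equiv.Perm κ)) {T : MTree α} (hT : T.All 𝔇.Al) (hv : T.Valid)
include hW hT hv

/-- `ca_rough_upper` for the model -/
theorem cp_F_rough_upper {φ : 𝔇.MIx κ → ℂ} (hφ : star φ ⬝ᵥ φ = 1)
    (hne : star φ ⬝ᵥ 𝔇.mPre lam ≠ 0) {c1 c2 : ℝ}
    (h1 : -Real.log (‖star φ ⬝ᵥ 𝔇.mPre lam‖ ^ 2) ≤ c1)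
    (h2 : ∀ l, 𝔇.Al l → Real.log (star φ ⬝ᵥ (𝔇.mLeaf κ l *ᵥ φ)).re ≤ c2) :
    𝔇.mF lam T ≤ (c1 + c2 / 2) / Fintype.card κ := by
  have hk : (0 : ℝ) < Fintype.card κ := by exact_mod_cast Fintype.card_pos
  have hA : ∀ a, 𝔇.Al a → (𝔇.mLeaf κ a).PosDef := fun a ha =>
    ca_prod_posDef (G := 𝔇.Al) (cp_leafB_posDef 𝔇 hW) (cp_leafB_commute 𝔇 hW) ha
  have h : -Real.log (𝔇.mN2 lam T) ≤ -Real.log (‖star φ ⬝ᵥ 𝔇.mPre lam‖ ^ 2) +
      1 / 2 * T.E fun a => Real.log (star φ ⬝ᵥ (𝔇.mLeaf κ a *ᵥ φ)).re :=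
    ca_rough_upper hA hv hT hφ hne
  have hE : T.E (fun a => Real.log (star φ ⬝ᵥ (𝔇.mLeaf κ a *ᵥ φ)).re) ≤ c2 :=
    MTree.E_le_of_all hv (hT.imp h2)
  unfold RepData.mF
  apply div_le_div_of_nonneg_right _ hk.le
  linarith

/-- `ca_sharp_upper` for the model: `P = cmp mPinK`, `ψ = q^{-1/2} cmpVec (mPostL lam)`, `c = (√z/d)^k √q`;
`-log c² = k (2 ld - log z) - log q`; `⟨ψ, A ψ⟩ ≤ q⁻¹ ⟨post, A post⟩` (`cp_postL_quad_le`) -/
theorem cp_F_sharp_upper (hq : 0 < 𝔇.mQ lam) {c : Fin 𝔇.K → α → ℝ}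
    (h : ∀ l, 𝔇.Al l → ∀ g, Real.log (star (cmpVec (𝔇.mPost κ)) ⬝ᵥ
      (𝔇.mLeafB κ g l *ᵥ cmpVec (𝔇.mPost κ))).re ≤ c g l) :
    𝔇.mF lam T ≤ (Fintype.card κ * (2 * 𝔇.ld - Real.log 𝔇.z) - Real.log (𝔇.mQ lam) +
      1 / 2 * ∑ g, (T.E (c g) - Real.log (𝔇.mQ lam))) / Fintype.card κ := by
  have hk : (0 : ℝ) < Fintype.card κ := by exact_mod_cast Fintype.card_pos
  have hz := co_z_pos 𝔇 hW
  have hd : (0 : ℝ) < 𝔇.dst := by exact_mod_cast co_dst_pos 𝔇 hW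
  have hsq : 0 < Real.sqrt (𝔇.mQ lam) := Real.sqrt_pos.2 hq
  have hsz : 0 < Real.sqrt 𝔇.z := Real.sqrt_pos.2 hz
  set w : 𝔇.MIx κ → ℂ := cmpVec (𝔇.mPostL lam) with hw
  set c0 : ℝ := (Real.sqrt 𝔇.z / 𝔇.dst) ^ Fintype.card κ * Real.sqrt (𝔇.mQ lam) with hc0d
  have hc0 : 0 < c0 := by positivity
  set ψ : 𝔇.MIx κ → ℂ := (((Real.sqrt (𝔇.mQ lam))⁻¹ : ℝ) : ℂ) • w with hψd
  have hinv : ((Real.sqrt (𝔇.mQ lam))⁻¹) ^ 2 = (𝔇.mQ lam)⁻¹ := by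
    rw [inv_pow, Real.sq_sqrt hq.le]
  have hψ : star ψ ⬝ᵥ ψ = 1 := by
    have h1 := ca_quad_smul (Real.sqrt (𝔇.mQ lam))⁻¹ (1 : Matrix (𝔇.MIx κ) (𝔇.MIx κ) ℂ) w
    rw [one_mulVec, one_mulVec, hw, cp_postL_norm 𝔇 hW lam, hinv, ← Complex.ofReal_mul,
      inv_mul_cancel₀ hq.ne'] at h1
    rw [hψd, hw, h1]
    simp
  have hpre : cmp (𝔇.mPinK κ) *ᵥ 𝔇.mPre lam = (c0 : ℂ) • ψ := by
    rw [cp_pin_pre 𝔇 hW lam, hψd, smul_smul, ← Complex.ofReal_mul, hc0d, mul_assoc,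
      mul_inv_cancel₀ hsq.ne', mul_one]
  have h1 : -Real.log (𝔇.mN2 lam T) ≤ -Real.log (c0 ^ 2) +
      1 / 2 * ∑ g, T.E fun a => Real.log (star ψ ⬝ᵥ (𝔇.mLeafB κ g a *ᵥ ψ)).re :=
    ca_sharp_upper (G := 𝔇.Al) (Ab := 𝔇.mLeafB κ) (cp_leafB_posDef 𝔇 hW) (cp_leafB_commute 𝔇 hW)
      hv hT (cp_pin_proj 𝔇 hW).1 (cp_pin_proj 𝔇 hW).2
      (fun g a ha => cp_band_commute_pin 𝔇 hW (hW.st_disj a ha g) (hW.st_X a ha g)) hψ hc0 hpre
  have hlog : -Real.log (c0 ^ 2) =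
      Fintype.card κ * (2 * 𝔇.ld - Real.log 𝔇.z) - Real.log (𝔇.mQ lam) := by
    have hld : 𝔇.ld = Real.log (𝔇.dst : ℝ) := rfl
    rw [Real.log_pow, hc0d, Real.log_mul (by positivity) hsq.ne', Real.log_pow,
      Real.log_div hsz.ne' hd.ne', Real.log_sqrt hz.le, Real.log_sqrt hq.le, hld]
    push_cast
    ring
  have hw0 : w ≠ 0 := by
    intro h0
    have h3 := cp_postL_norm 𝔇 hW lam
    rw [← hw, h0] at h3
    simp only [star_zero, zero_dotProduct] at h3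
    have : 𝔇.mQ lam = 0 := by exact_mod_cast h3.symm
    linarith
  have hg : ∀ g, T.E (fun a => Real.log (star ψ ⬝ᵥ (𝔇.mLeafB κ g a *ᵥ ψ)).re) ≤
      T.E (c g) - Real.log (𝔇.mQ lam) := by
    intro g
    have h2 : T.E (fun a => Real.log (star ψ ⬝ᵥ (𝔇.mLeafB κ g a *ᵥ ψ)).re) ≤
        T.E (fun a => c g a - Real.log (𝔇.mQ lam)) := by
      apply MTree.E_le_E_of_all hv
      refine hT.imp fun a ha => ?_
      have hX : 0 < (star w ⬝ᵥ (𝔇.mLeafB κ g a *ᵥ w)).re :=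
        MTree.tr_quad_pos (cp_leafB_posDef 𝔇 hW g a ha) hw0
      have hXY : (star w ⬝ᵥ (𝔇.mLeafB κ g a *ᵥ w)).re ≤
          (star (cmpVec (𝔇.mPost κ)) ⬝ᵥ (𝔇.mLeafB κ g a *ᵥ cmpVec (𝔇.mPost κ))).re :=
        cp_postL_quad_le 𝔇 hW lam (hW.st_disj a ha g)
      rw [hψd, ca_quad_smul, Complex.re_ofReal_mul, hinv,
        Real.log_mul (inv_pos.2 hq).ne' hX.ne', Real.log_inv]
      have := (Real.log_le_log hX hXY).trans (h a ha g)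
      linarith
    rwa [MTree.E_sub, MTree.E_const] at h2
  unfold RepData.mF
  apply div_le_div_of_nonneg_right _ hk.le
  have hsum := Finset.sum_le_sum fun g (_ : g ∈ Finset.univ) => hg g
  rw [hlog] at h1
  linarith

/-- `ca_tree_lower` for the model (`Pi = mLow lam`), with `μ = ⟨v, mLow v⟩` eliminated by `cp_defect_mass`.
With `x = T.E (lamb g) ≤ xmax`, `0 ≤ xmax`, `0 ≤ μ ≤ 1`, `1 - μ ≤ Ed/τ`, `log b0 ≤ 0`:
`(1-μ) log (b0/2) + μ (x - log 2) = log (b0/2) + μ (x - log b0) ≥ log (b0/2) + μ x ≥ log (b0/2) + x - (Ed/τ) xmax`. -/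
theorem cp_F_lower (hne : 𝔇.mPre lam ≠ 0) {b0 : ℝ} (hb0 : 0 < b0) (hb1 : b0 ≤ 1)
    (hfloor : ∀ l, 𝔇.Al l → ∀ g, (b0 : ℂ) • (1 : Matrix (𝔇.MIx κ) (𝔇.MIx κ) ℂ) ≤ 𝔇.mLeafB κ g l)
    {lamb : Fin 𝔇.K → α → ℝ}
    (hpin : ∀ l, 𝔇.Al l → ∀ g, ((Real.exp (lamb g l) : ℝ) : ℂ) • 𝔇.mLow lam ≤ 𝔇.mLeafB κ g l)
    {xmax : ℝ} (hx0 : 0 ≤ xmax) (hx : ∀ l, 𝔇.Al l → ∀ g, lamb g l ≤ xmax) :
    (1 / 2 * ∑ g, (T.E (lamb g) - 𝔇.mEd lam T / 𝔇.τ * xmax + Real.log (b0 / 2))) /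
      Fintype.card κ ≤ 𝔇.mF lam T := by
  have hk : (0 : ℝ) < Fintype.card κ := by exact_mod_cast Fintype.card_pos
  have hproj := cp_low_proj 𝔇 hW lam
  have h1 := ca_tree_lower (G := 𝔇.Al) (Ab := 𝔇.mLeafB κ) (cp_leafB_posDef 𝔇 hW)
    (cp_leafB_commute 𝔇 hW) hv hT hproj.1 hproj.2 hb0 (fun g a ha => hfloor a ha g)
    (fun g a ha => hpin a ha g) hne (cp_pre_norm_le 𝔇 hW lam) (𝔇.mRoot κ T) rfl (𝔇.mN2 lam T) rfl
    (𝔇.mV lam T) rfl _ rfl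
  set μ := (star (𝔇.mV lam T) ⬝ᵥ (𝔇.mLow lam *ᵥ 𝔇.mV lam T)).re with hμ
  obtain ⟨hEd0, hmass⟩ := cp_defect_mass 𝔇 hW lam hne hT hv
  have hμ0 : 0 ≤ μ := ca_psd_re (ca_proj_psd hproj.1 hproj.2) _
  have hμ1 : μ ≤ 1 := by
    have h2 := ca_psd_re (ca_proj_psd (ca_one_sub_proj hproj.1 hproj.2).1
      (ca_one_sub_proj hproj.1 hproj.2).2) (𝔇.mV lam T)
    rw [sub_mulVec, one_mulVec, dotProduct_sub, cp_V_unit 𝔇 hW lam hne hT, Complex.sub_re,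
      Complex.one_re] at h2
    linarith
  have hL : Real.log b0 ≤ 0 := Real.log_nonpos hb0.le hb1
  have hdiv : Real.log (b0 / 2) = Real.log b0 - Real.log 2 :=
    Real.log_div hb0.ne' (by norm_num)
  have hg : ∀ g, T.E (lamb g) - 𝔇.mEd lam T / 𝔇.τ * xmax + Real.log (b0 / 2) ≤
      (1 - μ) * Real.log (b0 / 2) + μ * (T.E (lamb g) - Real.log 2) := by
    intro g
    have hxg : T.E (lamb g) ≤ xmax := MTree.E_le_of_all hv (hT.imp fun l hl => hx l hl g)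
    have ha : (1 - μ) * T.E (lamb g) ≤ (1 - μ) * xmax :=
      mul_le_mul_of_nonneg_left hxg (by linarith)
    have hb : (1 - μ) * xmax ≤ 𝔇.mEd lam T / 𝔇.τ * xmax :=
      mul_le_mul_of_nonneg_right (by linarith) hx0
    have hc : 0 ≤ μ * (-Real.log b0) := mul_nonneg hμ0 (by linarith)
    rw [hdiv]
    nlinarith
  unfold RepData.mF
  apply div_le_div_of_nonneg_right _ hk.le
  have hsum := Finset.sum_le_sum fun g (_ : g ∈ Finset.univ) => hg g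
  linarith

end Fixed

end Scan

end Claimed.Agent.R296
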