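import Claimed.Agent.R296.Tree

/-!
# Row 296, P1 Section 7: abstract matrix and tree lemmas of the norm comparisons

Owner: helper218 (proofs: helper246; no `sorry` in this file).  Prefix `ca_`.  No replicas here: `n` is any finite index type, `t` a weighted tree,
`ev` the evaluation by geometric means (`Tree.lean`), `rpw`, `mlog` (`MatPD.lean`, `MatPDOrd.lean`).

With `M = ev A t`, `N² = ⟨pre, M^{-1/2} pre⟩`, `v = M^{-1/4} pre / N`:

* `ca_rough_upper` : `-log N² ≤ -log |⟨φ,pre⟩|² + ½ E_t log ⟨φ, A_a φ⟩`            (any unit `φ`);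
* `ca_sharp_upper` : `-log N² ≤ -log c² + ½ ∑_g E_t log ⟨ψ, A_{g,a} ψ⟩`  if `P pre = c ψ`, `P` a projector
                     commuting with all band leaves;
* `ca_tree_lower`  : `-log N² ≥ ½ ∑_g [(1-μ) log (b0/2) + μ (E_t λ_g - log 2)]`, `μ = ⟨v, Π v⟩`, if
                     `A_{g,a} ≥ b0` and `A_{g,a} ≥ exp(λ_{g,a}) Π`;
* `ca_pin_of_compress` : `Π A⁻¹ Π ≤ c⁻¹ Π  ⟹  c Π ≤ A`;
* small tools on commuting positive matrices, Cauchy-Schwarz, cutoffs.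

TOOLS ALREADY PROVED: `ev_posDef, ev_mono, ev_quad_le, ev_ge_of_pin, ev_commute, ev_mul,
ev_congr_of_all` (Tree), `rpw_quadratic_le, pd_mlog_quadratic_le, pd_exp_mlog_quadratic_le,
pd_mlog_le_mlog, pd_mfun_resolution, pd_mlog_mul_of_commute, rpw_commute, rpw_add` (MatPD, MatPDOrd).
Hypotheses are only required at labels `a` with `G a`, where `t.All G`: in the proofs replace the family
by `fun a => if G a then A a else 1` (classical) and use `ev_congr_of_all`, `E_congr_of_all`.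
-/

set_option autoImplicit false
set_option linter.unusedSectionVars false

namespace Claimed.Agent.R296

open Matrix
open scoped MatrixOrder ComplexOrder

variable {α n : Type} [Fintype n] [DecidableEq n]

/-! ### package CA-1: vectors and one positive definite matrix -/

/-! ### helpers -/

theorem ca_dot_self (v : n → ℂ) : star v ⬝ᵥ v = (((star v ⬝ᵥ v).re : ℝ) : ℂ) := by
  rw [star_dotProduct_self_eq, Complex.ofReal_re]

theorem ca_dot_self_nonneg (v : n → ℂ) : 0 ≤ (star v ⬝ᵥ v).re := by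
  rw [star_dotProduct_self_eq, Complex.ofReal_re]; positivity

theorem ca_dot_mulVec (M : Matrix n n ℂ) (u v : n → ℂ) :
    star (M *ᵥ u) ⬝ᵥ v = star u ⬝ᵥ (Mᴴ *ᵥ v) := by
  rw [star_mulVec, ← dotProduct_mulVec]

/-- Cauchy-Schwarz -/
theorem ca_cauchy (u v : n → ℂ) :
    ‖star u ⬝ᵥ v‖ ^ 2 ≤ (star u ⬝ᵥ u).re * (star v ⬝ᵥ v).re := by
  have h := norm_inner_le_norm (𝕜 := ℂ) (WithLp.toLp 2 u : EuclideanSpace ℂ n) (WithLp.toLp 2 v)
  rw [EuclideanSpace.inner_eq_star_dotProduct] at h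
  have hn : ∀ w : n → ℂ, ‖(WithLp.toLp 2 w : EuclideanSpace ℂ n)‖ ^ 2 = (star w ⬝ᵥ w).re := by
    intro w
    rw [EuclideanSpace.norm_sq_eq, star_dotProduct_self_eq, Complex.ofReal_re]
  have h2 : ‖star u ⬝ᵥ v‖ = ‖v ⬝ᵥ star u‖ := by rw [dotProduct_comm]
  rw [← hn u, ← hn v, ← mul_pow, h2]
  exact pow_le_pow_left₀ (norm_nonneg _) h 2

/-- the quadratic form of a Hermitian matrix is real -/
theorem ca_quad_real {M : Matrix n n ℂ} (hM : M.IsHermitian) (v : n → ℂ) :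
    star v ⬝ᵥ (M *ᵥ v) = (((star v ⬝ᵥ (M *ᵥ v)).re : ℝ) : ℂ) := by
  have h : star (star v ⬝ᵥ (M *ᵥ v)) = star v ⬝ᵥ (M *ᵥ v) := by
    rw [← star_dotProduct_star, star_star, star_mulVec, hM.eq, dotProduct_mulVec]
  exact (Complex.conj_eq_iff_re.1 h).symm

/-- the quadratic form of `Sᴴ S` -/
theorem ca_quad_sq {S : Matrix n n ℂ} (hS : S.IsHermitian) (v : n → ℂ) :
    star (S *ᵥ v) ⬝ᵥ (S *ᵥ v) = star v ⬝ᵥ ((S * S) *ᵥ v) := by
  rw [ca_dot_mulVec, hS.eq, mulVec_mulVec]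

/-- Cauchy-Schwarz `|⟨φ,pre⟩|² ≤ ⟨φ, M^{1/2} φ⟩ ⟨pre, M^{-1/2} pre⟩` -/
theorem ca_cs_half {M : Matrix n n ℂ} (hM : M.PosDef) (φ pre : n → ℂ) :
    ‖star φ ⬝ᵥ pre‖ ^ 2 ≤
      (star φ ⬝ᵥ (rpw M (1 / 2) *ᵥ φ)).re * (star pre ⬝ᵥ (rpw M (-(1 / 2)) *ᵥ pre)).re := by
  have h := ca_cauchy (rpw M (1 / 4) *ᵥ φ) (rpw M (-(1 / 4)) *ᵥ pre)
  rw [ca_quad_sq (rpw_isHermitian M _), ca_quad_sq (rpw_isHermitian M _), ← rpw_add, ← rpw_add,
    ca_dot_mulVec, (rpw_isHermitian M _).eq, mulVec_mulVec, rpw_mul_neg hM.1, one_mulVec] at h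
  norm_num at h ⊢
  exact h

/-- Cauchy-Schwarz for commuting Hermitian matrices in a vector state -/
theorem ca_cs_commute {X Y : Matrix n n ℂ} (hX : X.IsHermitian) (hY : Y.IsHermitian) (w : n → ℂ) :
    (star w ⬝ᵥ ((X * Y) *ᵥ w)).re ≤
      Real.sqrt (star w ⬝ᵥ ((X * X) *ᵥ w)).re * Real.sqrt (star w ⬝ᵥ ((Y * Y) *ᵥ w)).re := by
  have h := ca_cauchy (X *ᵥ w) (Y *ᵥ w)
  rw [ca_quad_sq hX, ca_quad_sq hY, ca_dot_mulVec, hX.eq, mulVec_mulVec] at h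
  have h1 : ‖star w ⬝ᵥ ((X * Y) *ᵥ w)‖ ≤
      Real.sqrt ((star w ⬝ᵥ ((X * X) *ᵥ w)).re * (star w ⬝ᵥ ((Y * Y) *ᵥ w)).re) :=
    Real.le_sqrt_of_sq_le h
  have hx : 0 ≤ (star w ⬝ᵥ ((X * X) *ᵥ w)).re := by
    rw [← ca_quad_sq hX]; exact ca_dot_self_nonneg _
  rw [Real.sqrt_mul hx] at h1
  exact (Complex.re_le_norm _).trans h1


/-- real form of positivity -/
theorem ca_psd_re {T : Matrix n n ℂ} (hT : T.PosSemidef) (v : n → ℂ) :
    0 ≤ (star v ⬝ᵥ (T *ᵥ v)).re :=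
  (Complex.le_def.1 (hT.dotProduct_mulVec_nonneg v)).1

/-- a Hermitian matrix with nonnegative real quadratic form is positive semidefinite -/
theorem ca_psd_of_re {T : Matrix n n ℂ} (hT : T.IsHermitian)
    (h : ∀ v : n → ℂ, 0 ≤ (star v ⬝ᵥ (T *ᵥ v)).re) : T.PosSemidef :=
  PosSemidef.of_dotProduct_mulVec_nonneg hT fun v => by
    rw [ca_quad_real hT v]; exact_mod_cast h v

/-- order in terms of the real quadratic forms -/
theorem ca_le_re {X Y : Matrix n n ℂ} (h : X ≤ Y) (v : n → ℂ) :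
    (star v ⬝ᵥ (X *ᵥ v)).re ≤ (star v ⬝ᵥ (Y *ᵥ v)).re := by
  have h1 := ca_psd_re (Matrix.le_iff.1 h) v
  rw [sub_mulVec, dotProduct_sub, Complex.sub_re] at h1
  linarith

theorem ca_quad_conj (S R : Matrix n n ℂ) (v : n → ℂ) :
    star (S *ᵥ v) ⬝ᵥ (R *ᵥ (S *ᵥ v)) = star v ⬝ᵥ ((Sᴴ * R * S) *ᵥ v) := by
  rw [ca_dot_mulVec, mulVec_mulVec, mulVec_mulVec, Matrix.mul_assoc]

/-- a Hermitian idempotent is positive semidefinite -/
theorem ca_proj_psd {P : Matrix n n ℂ} (hP : P.IsHermitian) (hP2 : P * P = P) : P.PosSemidef := by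
  have h := posSemidef_conjTranspose_mul_self P
  rwa [hP.eq, hP2] at h

/-- Cauchy-Schwarz for a decomposition `u = ∑_{B ∈ S} u_B` -/
theorem ca_cs_sum {ι : Type} {T : Matrix n n ℂ} (hT : T.PosSemidef) (S : Finset ι) (u : ι → n → ℂ) :
    (star (∑ B ∈ S, u B) ⬝ᵥ (T *ᵥ ∑ B ∈ S, u B)).re ≤
      S.card * ∑ B ∈ S, (star (u B) ⬝ᵥ (T *ᵥ u B)).re := by
  obtain ⟨R, hR⟩ := CStarAlgebra.nonneg_iff_eq_star_mul_self.mp hT.nonneg
  rw [star_eq_conjTranspose] at hR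
  subst hR
  have hq : ∀ x : n → ℂ, (star x ⬝ᵥ ((Rᴴ * R) *ᵥ x)).re = ∑ i, ‖(R *ᵥ x) i‖ ^ 2 := by
    intro x
    rw [← mulVec_mulVec, ← ca_dot_mulVec, star_dotProduct_self_eq, Complex.ofReal_re]
  simp only [hq]
  rw [Finset.sum_comm, Finset.mul_sum]
  refine Finset.sum_le_sum fun i _ => ?_
  have e : (R *ᵥ ∑ B ∈ S, u B) i = ∑ B ∈ S, (R *ᵥ u B) i := by
    rw [mulVec_sum, Finset.sum_apply]
  rw [e]
  calc ‖∑ B ∈ S, (R *ᵥ u B) i‖ ^ 2 ≤ (∑ B ∈ S, ‖(R *ᵥ u B) i‖) ^ 2 :=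
        pow_le_pow_left₀ (norm_nonneg _) (norm_sum_le _ _) 2
    _ ≤ S.card * ∑ B ∈ S, ‖(R *ᵥ u B) i‖ ^ 2 := sq_sum_le_card_mul_sum_sq

/-- a projector commuting with `M` decreases `⟨pre, M^{-1/2} pre⟩` -/
theorem ca_pin_split {M P : Matrix n n ℂ} (hM : M.PosDef) (hP : P.IsHermitian) (hP2 : P * P = P)
    (hc : Commute P M) (pre : n → ℂ) :
    (star (P *ᵥ pre) ⬝ᵥ (rpw M (-(1 / 2)) *ᵥ (P *ᵥ pre))).re ≤
      (star pre ⬝ᵥ (rpw M (-(1 / 2)) *ᵥ pre)).re := by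
  set R := rpw M (-(1 / 2)) with hR
  have hcR : P * R = R * P := (rpw_commute hc _).eq
  have hRp : R.PosSemidef := (rpw_posDef hM.1 _).posSemidef
  have e : R = Pᴴ * R * P + (1 - P)ᴴ * R * (1 - P) := by
    have h1 : (1 - P)ᴴ = 1 - P := by rw [conjTranspose_sub, conjTranspose_one, hP.eq]
    have h2 : P * R * P = R * P := by rw [hcR, Matrix.mul_assoc, hP2]
    rw [h1, hP.eq, h2, Matrix.sub_mul, Matrix.one_mul, Matrix.mul_sub, Matrix.mul_one,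
      Matrix.sub_mul, h2, hcR]
    abel
  have h3 := ca_psd_re hRp ((1 - P) *ᵥ pre)
  rw [ca_quad_conj] at h3 ⊢
  conv_rhs => rw [e]
  rw [add_mulVec, dotProduct_add, Complex.add_re]
  linarith

/-- Cauchy-Schwarz `|⟨φ,pre⟩|² ≤ ⟨φ, M^r φ⟩ ⟨pre, M^{-r} pre⟩` -/
theorem ca_cs_rpw {M : Matrix n n ℂ} (hM : M.PosDef) (r : ℝ) (φ pre : n → ℂ) :
    ‖star φ ⬝ᵥ pre‖ ^ 2 ≤
      (star φ ⬝ᵥ (rpw M r *ᵥ φ)).re * (star pre ⬝ᵥ (rpw M (-r) *ᵥ pre)).re := by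
  have h := ca_cauchy (rpw M (r / 2) *ᵥ φ) (rpw M (-(r / 2)) *ᵥ pre)
  rw [ca_quad_sq (rpw_isHermitian M _), ca_quad_sq (rpw_isHermitian M _), ← rpw_add, ← rpw_add,
    ca_dot_mulVec, (rpw_isHermitian M _).eq, mulVec_mulVec, rpw_mul_neg hM.1, one_mulVec] at h
  have e1 : r / 2 + r / 2 = r := by ring
  have e2 : -(r / 2) + -(r / 2) = -r := by ring
  rwa [e1, e2] at h

/-- `Π A⁻¹ Π ≤ c⁻¹ Π` implies the lower pin `c Π ≤ A` (no commutation of `A` with `Π`).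
Proof: `m := ⟨x,Πx⟩ = ⟨A^{-1/2} Π x, A^{1/2} x⟩ ≤ (m/c)^{1/2} ⟨x,Ax⟩^{1/2}`. -/
theorem ca_pin_of_compress {A Pi : Matrix n n ℂ} (hA : A.PosDef) (hPi : Pi.IsHermitian)
    (hPi2 : Pi * Pi = Pi) {c : ℝ} (hc : 0 < c)
    (h : ∀ u : n → ℂ, Pi *ᵥ u = u → (star u ⬝ᵥ (A⁻¹ *ᵥ u)).re ≤ c⁻¹ * (star u ⬝ᵥ u).re) :
    (c : ℂ) • Pi ≤ A := by
  rw [Matrix.le_iff]
  have hH : (A - (c : ℂ) • Pi).IsHermitian := by
    refine hA.1.sub ?_
    rw [IsHermitian, conjTranspose_smul, hPi.eq]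
    simp
  refine ca_psd_of_re hH fun x => ?_
  rw [sub_mulVec, dotProduct_sub, Complex.sub_re, smul_mulVec, dotProduct_smul, smul_eq_mul,
    Complex.re_ofReal_mul]
  set u := Pi *ᵥ x with hu
  have hfix : Pi *ᵥ u = u := by rw [hu, mulVec_mulVec, hPi2]
  have hm : star x ⬝ᵥ u = star u ⬝ᵥ u := by
    rw [hu, ca_dot_mulVec, hPi.eq, mulVec_mulVec, hPi2]
  have hm' : star x ⬝ᵥ u = (((star u ⬝ᵥ u).re : ℝ) : ℂ) := by rw [hm]; exact ca_dot_self u
  set m := (star u ⬝ᵥ u).re with hmdef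
  have hm0 : 0 ≤ m := ca_dot_self_nonneg u
  have h1 := ca_cs_rpw hA 1 x u
  rw [rpw_one hA, rpw_neg_one hA, hm', Complex.norm_real, Real.norm_eq_abs, sq_abs] at h1
  have h2 := h u hfix
  have hq : 0 ≤ (star x ⬝ᵥ (A *ᵥ x)).re := ca_psd_re hA.posSemidef x
  rw [hm', Complex.ofReal_re]
  rcases hm0.eq_or_lt with h0 | h0
  · rw [← h0]; linarith
  · have h3 : m ^ 2 ≤ (star x ⬝ᵥ (A *ᵥ x)).re * (c⁻¹ * m) :=
      h1.trans (mul_le_mul_of_nonneg_left h2 hq)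
    have h4 : m ≤ (star x ⬝ᵥ (A *ᵥ x)).re * c⁻¹ := by
      have : m * m ≤ ((star x ⬝ᵥ (A *ᵥ x)).re * c⁻¹) * m := by nlinarith
      exact le_of_mul_le_mul_right this h0
    have h5 : c * m ≤ (star x ⬝ᵥ (A *ᵥ x)).re := by
      have := mul_le_mul_of_nonneg_left h4 hc.le
      rwa [mul_comm _ c⁻¹, ← mul_assoc, mul_inv_cancel₀ hc.ne', one_mul] at this
    linarith


theorem ca_smul_psd {T : Matrix n n ℂ} (hT : T.PosSemidef) {c : ℝ} (hc : 0 ≤ c) :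
    ((c : ℂ) • T).PosSemidef :=
  hT.smul (by exact_mod_cast hc)

theorem ca_one_sub_proj {P : Matrix n n ℂ} (hP : P.IsHermitian) (hP2 : P * P = P) :
    (1 - P).IsHermitian ∧ (1 - P) * (1 - P) = 1 - P := by
  refine ⟨by rw [IsHermitian, conjTranspose_sub, conjTranspose_one, hP.eq], ?_⟩
  rw [Matrix.sub_mul, Matrix.one_mul, Matrix.mul_sub, Matrix.mul_one, hP2]
  abel

/-- the logarithm of `x (1-Π) + y Π` -/
theorem ca_mlog_two {Pi : Matrix n n ℂ} (hPi : Pi.IsHermitian) (hPi2 : Pi * Pi = Pi) (x y : ℝ) :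
    mlog ((x : ℂ) • (1 - Pi) + (y : ℂ) • Pi) =
      (Real.log x : ℂ) • (1 - Pi) + (Real.log y : ℂ) • Pi := by
  have hQ := ca_one_sub_proj hPi hPi2
  have hQP : (1 - Pi) * Pi = 0 := by rw [Matrix.sub_mul, Matrix.one_mul, hPi2, sub_self]
  have hPQ : Pi * (1 - Pi) = 0 := by rw [Matrix.mul_sub, Matrix.mul_one, hPi2, sub_self]
  have key := pd_mfun_resolution (fun t => (Real.log t : ℂ)) (Finset.univ : Finset Bool)
    (fun b => if b then Pi else 1 - Pi) (fun b => if b then y else x)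
    (by
      intro k _ l _
      cases k <;> cases l <;> simp [hQ.2, hQP, hPQ, hPi2])
    (by simp)
    (by
      rw [Fintype.sum_bool]
      simp only [if_true, Bool.false_eq_true, if_false]
      refine IsHermitian.add ?_ ?_
      · rw [IsHermitian, conjTranspose_smul, hPi.eq]; simp
      · rw [IsHermitian, conjTranspose_smul, hQ.1.eq]; simp)
  rw [Fintype.sum_bool, Fintype.sum_bool] at key
  simp only [if_true, Bool.false_eq_true, if_false] at key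
  unfold mlog
  rw [add_comm, key, add_comm]

/-- `x (1-Π) + y Π` is positive definite for `x, y > 0` -/
theorem ca_two_posDef {Pi : Matrix n n ℂ} (hPi : Pi.IsHermitian) (hPi2 : Pi * Pi = Pi) {x y : ℝ}
    (hx : 0 < x) (hy : 0 < y) : ((x : ℂ) • (1 - Pi) + (y : ℂ) • Pi).PosDef := by
  have hQ := ca_one_sub_proj hPi hPi2
  have hm : 0 < min x y := lt_min hx hy
  refine pd_of_le (pd_smul PosDef.one hm) ?_
  rw [Matrix.le_iff]
  have e : (x : ℂ) • (1 - Pi) + (y : ℂ) • Pi - ((min x y : ℝ) : ℂ) • (1 : Matrix n n ℂ) =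
      ((x - min x y : ℝ) : ℂ) • (1 - Pi) + ((y - min x y : ℝ) : ℂ) • Pi := by
    push_cast
    simp only [sub_smul, smul_sub]
    abel
  rw [e]
  exact (ca_smul_psd (ca_proj_psd hQ.1 hQ.2) (sub_nonneg.2 (min_le_left _ _))).add
    (ca_smul_psd (ca_proj_psd hPi hPi2) (sub_nonneg.2 (min_le_right _ _)))

/-- logarithm below a matrix with a floor and a pin:
`M ≥ (b0/2)(1-Π) + (b1/2) Π`, `pd_mlog_le_mlog`, `pd_mfun_resolution`. -/
theorem ca_log_lower {M Pi : Matrix n n ℂ} (hM : M.PosDef) (hPi : Pi.IsHermitian)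
    (hPi2 : Pi * Pi = Pi) {b0 b1 : ℝ} (hb0 : 0 < b0) (hb1 : 0 < b1)
    (h0 : (b0 : ℂ) • (1 : Matrix n n ℂ) ≤ M) (h1 : (b1 : ℂ) • Pi ≤ M) {v : n → ℂ}
    (hv : star v ⬝ᵥ v = 1) :
    (1 - (star v ⬝ᵥ (Pi *ᵥ v)).re) * Real.log (b0 / 2) +
        (star v ⬝ᵥ (Pi *ᵥ v)).re * Real.log (b1 / 2) ≤
      (star v ⬝ᵥ (mlog M *ᵥ v)).re := by
  have hD := ca_two_posDef hPi hPi2 (half_pos hb0) (half_pos hb1)
  have hDM : (((b0 / 2 : ℝ) : ℂ) • (1 - Pi) + ((b1 / 2 : ℝ) : ℂ) • Pi) ≤ M := by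
    rw [Matrix.le_iff] at h0 h1 ⊢
    have e : M - (((b0 / 2 : ℝ) : ℂ) • (1 - Pi) + ((b1 / 2 : ℝ) : ℂ) • Pi) =
        ((1 / 2 : ℝ) : ℂ) • (M - (b0 : ℂ) • (1 : Matrix n n ℂ)) +
          ((1 / 2 : ℝ) : ℂ) • (M - (b1 : ℂ) • Pi) + ((b0 / 2 : ℝ) : ℂ) • Pi := by
      have e2 : M = ((1 / 2 : ℝ) : ℂ) • M + ((1 / 2 : ℝ) : ℂ) • M := by
        rw [← add_smul]; norm_num
      conv_lhs => rw [e2]
      push_cast
      simp only [smul_sub, smul_smul]
      have e3 : (1 / 2 : ℂ) * (b0 : ℂ) = (b0 : ℂ) / 2 := by ring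
      have e4 : (1 / 2 : ℂ) * (b1 : ℂ) = (b1 : ℂ) / 2 := by ring
      rw [e3, e4]
      abel
    rw [e]
    exact ((ca_smul_psd h0 (by norm_num)).add (ca_smul_psd h1 (by norm_num))).add
      (ca_smul_psd (ca_proj_psd hPi hPi2) (half_pos hb0).le)
  have h2 := ca_le_re (pd_mlog_le_mlog hD hDM) v
  rw [ca_mlog_two hPi hPi2] at h2
  refine le_trans (le_of_eq ?_) h2
  rw [add_mulVec, dotProduct_add, smul_mulVec, smul_mulVec, dotProduct_smul, dotProduct_smul,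
    sub_mulVec, one_mulVec, dotProduct_sub, hv, Complex.add_re, smul_eq_mul, smul_eq_mul,
    Complex.re_ofReal_mul, Complex.re_ofReal_mul, Complex.sub_re, Complex.one_re]
  ring

theorem ca_quad_smul (a : ℝ) (R : Matrix n n ℂ) (w : n → ℂ) :
    star ((a : ℂ) • w) ⬝ᵥ (R *ᵥ ((a : ℂ) • w)) = ((a ^ 2 : ℝ) : ℂ) * (star w ⬝ᵥ (R *ᵥ w)) := by
  rw [star_smul, smul_dotProduct, mulVec_smul, dotProduct_smul, smul_eq_mul, smul_eq_mul,
    Complex.star_def, Complex.conj_ofReal]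
  push_cast
  ring

theorem ca_quad_filter (M R : Matrix n n ℂ) (a : ℝ) (pre : n → ℂ) :
    star ((a : ℂ) • (rpw M (-(1 / 4)) *ᵥ pre)) ⬝ᵥ (R *ᵥ ((a : ℂ) • (rpw M (-(1 / 4)) *ᵥ pre))) =
      ((a ^ 2 : ℝ) : ℂ) * (star pre ⬝ᵥ ((rpw M (-(1 / 4)) * R * rpw M (-(1 / 4))) *ᵥ pre)) := by
  rw [ca_quad_smul, ca_quad_conj, (rpw_isHermitian M _).eq]

/-- the normalised filtered vector is a unit vector -/
theorem ca_unit {M : Matrix n n ℂ} (hM : M.PosDef) {pre : n → ℂ} (hpre : pre ≠ 0) :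
    0 < (star pre ⬝ᵥ (rpw M (-(1 / 2)) *ᵥ pre)).re ∧
    star ((((Real.sqrt (star pre ⬝ᵥ (rpw M (-(1 / 2)) *ᵥ pre)).re)⁻¹ : ℝ) : ℂ) •
        (rpw M (-(1 / 4)) *ᵥ pre)) ⬝ᵥ
      ((((Real.sqrt (star pre ⬝ᵥ (rpw M (-(1 / 2)) *ᵥ pre)).re)⁻¹ : ℝ) : ℂ) •
        (rpw M (-(1 / 4)) *ᵥ pre)) = 1 := by
  have hpos : 0 < (star pre ⬝ᵥ (rpw M (-(1 / 2)) *ᵥ pre)).re :=
    MTree.tr_quad_pos (rpw_posDef hM.1 _) hpre
  refine ⟨hpos, ?_⟩
  have hq := ca_quad_real (rpw_isHermitian M (-(1 / 2))) pre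
  generalize (star pre ⬝ᵥ (rpw M (-(1 / 2)) *ᵥ pre)).re = N2 at hpos hq ⊢
  have h := ca_quad_filter M 1 (Real.sqrt N2)⁻¹ pre
  rw [one_mulVec, Matrix.mul_one, ← rpw_add] at h
  have e : (-(1 / 4) + -(1 / 4) : ℝ) = -(1 / 2) := by norm_num
  rw [h, e, hq, ← Complex.ofReal_mul, inv_pow, Real.sq_sqrt hpos.le, inv_mul_cancel₀ hpos.ne',
    Complex.ofReal_one]

/-- `-log N² ≥ ½ ⟨v, log M v⟩` if `‖pre‖ ≤ 1`
(`N² ⟨v, M^{1/2} v⟩ = ‖pre‖²`, `pd_exp_mlog_quadratic_le` at `r = 1/2`). -/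
theorem ca_neg_log_ge {M : Matrix n n ℂ} (hM : M.PosDef) {pre : n → ℂ} (hpre : pre ≠ 0)
    (hpre1 : (star pre ⬝ᵥ pre).re ≤ 1) :
    1 / 2 * (star ((((Real.sqrt (star pre ⬝ᵥ (rpw M (-(1 / 2)) *ᵥ pre)).re)⁻¹ : ℝ) : ℂ) •
        (rpw M (-(1 / 4)) *ᵥ pre)) ⬝ᵥ
      (mlog M *ᵥ ((((Real.sqrt (star pre ⬝ᵥ (rpw M (-(1 / 2)) *ᵥ pre)).re)⁻¹ : ℝ) : ℂ) •
        (rpw M (-(1 / 4)) *ᵥ pre)))).re ≤
      -Real.log (star pre ⬝ᵥ (rpw M (-(1 / 2)) *ᵥ pre)).re := by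
  obtain ⟨hpos, hunit⟩ := ca_unit hM hpre
  have h := pd_exp_mlog_quadratic_le hM (1 / 2) hunit
  generalize (star pre ⬝ᵥ (rpw M (-(1 / 2)) *ᵥ pre)).re = N2 at hpos hunit h ⊢
  rw [ca_quad_filter M (rpw M (1 / 2)), ← rpw_add, ← rpw_add] at h
  have e : (-(1 / 4) + 1 / 2 + -(1 / 4) : ℝ) = 0 := by norm_num
  rw [e, rpw_zero hM.1, one_mulVec, Complex.re_ofReal_mul, inv_pow, Real.sq_sqrt hpos.le] at h
  have h2 := h.trans (mul_le_mul_of_nonneg_left hpre1 (inv_pos.2 hpos).le)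
  rw [mul_one] at h2
  have h3 := Real.log_le_log (Real.exp_pos _) h2
  rwa [Real.log_exp, Real.log_inv] at h3

/-- a matrix commuting with `M` and fixing `pre` fixes the filtered vector -/
theorem ca_sector {M S : Matrix n n ℂ} (hc : Commute S M) {pre : n → ℂ} (hS : S *ᵥ pre = pre)
    (r : ℝ) (c : ℂ) : S *ᵥ (c • (rpw M r *ᵥ pre)) = c • (rpw M r *ᵥ pre) := by
  rw [mulVec_smul, mulVec_mulVec, (rpw_commute hc r).eq, ← mulVec_mulVec, hS]

/-! ### package CA-2: commuting positive matrices -/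

/-- the product of two commuting positive semidefinite matrices -/
theorem ca_posSemidef_mul {X Y : Matrix n n ℂ} (hX : X.PosSemidef) (hY : Y.PosSemidef)
    (h : Commute X Y) : (X * Y).PosSemidef :=
  (Commute.mul_nonneg hX.nonneg hY.nonneg h).posSemidef

/-- `X ≤ Y`, `Z ≥ 0` commuting with both: `Z X ≤ Z Y` -/
theorem ca_mul_le_mul_left {X Y Z : Matrix n n ℂ} (h : X ≤ Y) (hZ : Z.PosSemidef)
    (hZX : Commute Z X) (hZY : Commute Z Y) : Z * X ≤ Z * Y := by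
  rw [Matrix.le_iff] at h ⊢
  rw [← Matrix.mul_sub]
  exact ca_posSemidef_mul hZ h (hZY.sub_right hZX)

/-- comparison of two commuting resolutions of the identity: `∑ f_i E_i ≤ ∑ g_j E'_j` as soon as
`f i ≤ g j` for all compatible pairs (`E_i E'_j ≠ 0`). -/
theorem ca_pvm_le {ι ι' : Type} [Fintype ι] [Fintype ι'] [DecidableEq ι] [DecidableEq ι']
    (E : ι → Matrix n n ℂ) (E' : ι' → Matrix n n ℂ)
    (hE : ∀ i, (E i).PosSemidef) (hE' : ∀ j, (E' j).PosSemidef)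
    (h1 : ∑ i, E i = 1) (h1' : ∑ j, E' j = 1) (hc : ∀ i j, Commute (E i) (E' j))
    (f : ι → ℝ) (g : ι' → ℝ) (h : ∀ i j, E i * E' j ≠ 0 → f i ≤ g j) :
    ∑ i, (f i : ℂ) • E i ≤ ∑ j, (g j : ℂ) • E' j := by
  rw [Matrix.le_iff]
  have e1 : ∑ i, (f i : ℂ) • E i = ∑ i, ∑ j, (f i : ℂ) • (E i * E' j) := by
    refine Finset.sum_congr rfl fun i _ => ?_
    rw [← Finset.smul_sum, ← Finset.mul_sum, h1', Matrix.mul_one]
  have e2 : ∑ j, (g j : ℂ) • E' j = ∑ i, ∑ j, (g j : ℂ) • (E i * E' j) := by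
    rw [Finset.sum_comm]
    refine Finset.sum_congr rfl fun j _ => ?_
    rw [← Finset.smul_sum, ← Finset.sum_mul, h1, Matrix.one_mul]
  rw [e1, e2, ← Finset.sum_sub_distrib]
  refine posSemidef_sum _ fun i _ => ?_
  rw [← Finset.sum_sub_distrib]
  refine posSemidef_sum _ fun j _ => ?_
  rw [← sub_smul, ← Complex.ofReal_sub]
  by_cases h0 : E i * E' j = 0
  · rw [h0, smul_zero]; exact PosSemidef.zero
  · exact ca_smul_psd (ca_posSemidef_mul (hE i) (hE' j) (hc i j)) (sub_nonneg.2 (h i j h0))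

/-- norm bound for the product of the cut-off factors -/
theorem ca_prod_cutoff_aux (L : List (Matrix n n ℂ × Matrix n n ℂ × ℝ)) (φ : n → ℂ)
    (hfix : ∀ x ∈ L, x.2.1 *ᵥ φ = φ)
    (hcomm : ∀ x ∈ L, ∀ y ∈ L, Commute x.2.1 y.1)
    (hc : ∀ x ∈ L, 0 ≤ x.2.2)
    (hbd : ∀ x ∈ L, (x.1 * x.2.1)ᴴ * (x.1 * x.2.1) ≤ ((x.2.2 ^ 2 : ℝ) : ℂ) • (1 : Matrix n n ℂ)) :
    (star ((L.map fun x => x.1).prod *ᵥ φ) ⬝ᵥ ((L.map fun x => x.1).prod *ᵥ φ)).re ≤
      (L.map fun x => x.2.2).prod ^ 2 * (star φ ⬝ᵥ φ).re := by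
  induction L with
  | nil => simp
  | cons x L ih =>
    have ih' := ih (fun y hy => hfix y (List.mem_cons_of_mem _ hy))
      (fun y hy z hz => hcomm y (List.mem_cons_of_mem _ hy) z (List.mem_cons_of_mem _ hz))
      (fun y hy => hc y (List.mem_cons_of_mem _ hy))
      (fun y hy => hbd y (List.mem_cons_of_mem _ hy))
    simp only [List.map_cons, List.prod_cons]
    set R := (L.map fun x => x.1).prod with hR
    have hcR : Commute x.2.1 R := by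
      refine Commute.list_prod_right _ _ fun y hy => ?_
      obtain ⟨z, hz, rfl⟩ := List.mem_map.1 hy
      exact hcomm x List.mem_cons_self z (List.mem_cons_of_mem _ hz)
    have e : (x.1 * R) *ᵥ φ = (x.1 * x.2.1) *ᵥ (R *ᵥ φ) := by
      rw [mulVec_mulVec, Matrix.mul_assoc, hcR.eq, ← Matrix.mul_assoc,
        ← mulVec_mulVec φ (x.1 * R) x.2.1, hfix x List.mem_cons_self]
    rw [e, ca_dot_mulVec, mulVec_mulVec]
    have h1 := ca_le_re (hbd x List.mem_cons_self) (R *ᵥ φ)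
    rw [smul_mulVec, one_mulVec, dotProduct_smul, smul_eq_mul, Complex.re_ofReal_mul] at h1
    refine h1.trans ?_
    rw [mul_pow, mul_assoc]
    exact mul_le_mul_of_nonneg_left ih' (sq_nonneg _)

/-- cutoffs: `φ` lies in the range of every `E_i`; the `E_i` commute with all `T_j` and `E_j`;
`‖T_i E_i x‖ ≤ c_i ‖x‖` in the form `(T_i E_i)ᴴ (T_i E_i) ≤ c_i² 1`.  Then
`|⟨φ, T_1 ⋯ T_m φ⟩| ≤ c_1 ⋯ c_m ‖φ‖²`. -/
theorem ca_prod_cutoff (L : List (Matrix n n ℂ × Matrix n n ℂ × ℝ)) (φ : n → ℂ)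
    (hfix : ∀ x ∈ L, x.2.1 *ᵥ φ = φ)
    (hcomm : ∀ x ∈ L, ∀ y ∈ L, Commute x.2.1 y.1 ∧ Commute x.2.1 y.2.1)
    (hc : ∀ x ∈ L, 0 ≤ x.2.2)
    (hbd : ∀ x ∈ L, (x.1 * x.2.1)ᴴ * (x.1 * x.2.1) ≤ ((x.2.2 ^ 2 : ℝ) : ℂ) • (1 : Matrix n n ℂ)) :
    ‖star φ ⬝ᵥ ((L.map fun x => x.1).prod *ᵥ φ)‖ ≤
      (L.map fun x => x.2.2).prod * (star φ ⬝ᵥ φ).re := by
  have h1 := ca_prod_cutoff_aux L φ hfix (fun x hx y hy => (hcomm x hx y hy).1) hc hbd
  have h2 := ca_cauchy φ ((L.map fun x => x.1).prod *ᵥ φ)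
  have h0 := ca_dot_self_nonneg φ
  have hp : 0 ≤ (L.map fun x => x.2.2).prod := by
    refine List.prod_nonneg fun y hy => ?_
    obtain ⟨z, hz, rfl⟩ := List.mem_map.1 hy
    exact hc z hz
  have h3 : ‖star φ ⬝ᵥ ((L.map fun x => x.1).prod *ᵥ φ)‖ ^ 2 ≤
      ((L.map fun x => x.2.2).prod * (star φ ⬝ᵥ φ).re) ^ 2 := by
    refine h2.trans ?_
    calc (star φ ⬝ᵥ φ).re * _ ≤ (star φ ⬝ᵥ φ).re * _ := mul_le_mul_of_nonneg_left h1 h0
      _ = _ := by ring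
  exact le_of_sq_le_sq h3 (mul_nonneg hp h0)

/-! ### package CA-3: bands -/

open Classical in
/-- the family `A`, made total: `1` at the labels outside `G` -/
noncomputable def ca_tot (G : α → Prop) (A : α → Matrix n n ℂ) (a : α) : Matrix n n ℂ :=
  if G a then A a else 1

theorem ca_tot_of {G : α → Prop} (A : α → Matrix n n ℂ) {a : α} (ha : G a) : ca_tot G A a = A a :=
  if_pos ha

theorem ca_tot_posDef {G : α → Prop} {A : α → Matrix n n ℂ} (hA : ∀ a, G a → (A a).PosDef) (a : α) :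
    (ca_tot G A a).PosDef := by
  unfold ca_tot
  split_ifs with h
  · exact hA a h
  · exact PosDef.one

theorem ca_tot_commute_left {G : α → Prop} {A : α → Matrix n n ℂ} {S : Matrix n n ℂ}
    (h : ∀ a, G a → Commute S (A a)) (a : α) : Commute S (ca_tot G A a) := by
  unfold ca_tot
  split_ifs with h'
  · exact h a h'
  · exact Commute.one_right S

theorem ca_tot_commute {G : α → Prop} {A B : α → Matrix n n ℂ}
    (h : ∀ a a', G a → G a' → Commute (A a) (B a')) (a a' : α) :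
    Commute (ca_tot G A a) (ca_tot G B a') := by
  refine ca_tot_commute_left (fun b hb => ?_) a'
  exact (ca_tot_commute_left (fun c hc => (h c b hc hb).symm) a).symm

theorem ca_ev_tot {G : α → Prop} (A : α → Matrix n n ℂ) {t : MTree α} (hG : t.All G) :
    t.ev A = t.ev (ca_tot G A) :=
  MTree.ev_congr_of_all (hG.imp fun _ ha => (ca_tot_of A ha).symm)

theorem ca_commute_ofFn {K : ℕ} {S : Matrix n n ℂ} (B : Fin K → Matrix n n ℂ)
    (h : ∀ g, Commute S (B g)) : Commute S (List.ofFn B).prod := by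
  refine Commute.list_prod_right _ _ fun x hx => ?_
  obtain ⟨g, rfl⟩ := (List.mem_ofFn' _ _).1 hx
  exact h g

theorem ca_ofFn_posDef {K : ℕ} (B : Fin K → Matrix n n ℂ) (hB : ∀ g, (B g).PosDef)
    (hc : ∀ g g', g ≠ g' → Commute (B g) (B g')) : ((List.ofFn B).prod).PosDef := by
  induction K with
  | zero => simpa using PosDef.one
  | succ K ih =>
    rw [List.ofFn_succ, List.prod_cons]
    refine pd_mul_of_commute (hB 0) (ih (fun i => B i.succ) (fun g => hB _) fun g g' h =>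
      hc _ _ fun h' => h (Fin.succ_injective _ h')) ?_
    exact ca_commute_ofFn _ fun g => hc _ _ (Fin.succ_ne_zero g).symm

theorem ca_mlog_ofFn {K : ℕ} (B : Fin K → Matrix n n ℂ) (hB : ∀ g, (B g).PosDef)
    (hc : ∀ g g', g ≠ g' → Commute (B g) (B g')) : mlog (List.ofFn B).prod = ∑ g, mlog (B g) := by
  induction K with
  | zero => simpa using pd_mlog_one
  | succ K ih =>
    have hc' : ∀ g g' : Fin K, g ≠ g' → Commute (B g.succ) (B g'.succ) := fun g g' h =>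
      hc _ _ fun h' => h (Fin.succ_injective _ h')
    rw [List.ofFn_succ, List.prod_cons, Fin.sum_univ_succ,
      pd_mlog_mul_of_commute (hB 0) (ca_ofFn_posDef (fun i => B i.succ) (fun g => hB _) hc')
        (ca_commute_ofFn _ fun g => hc _ _ (Fin.succ_ne_zero g).symm),
      ih (fun i => B i.succ) (fun g => hB _) hc']

theorem ca_ev_ofFn {K : ℕ} (B : Fin K → α → Matrix n n ℂ) (hB : ∀ g a, (B g a).PosDef)
    (hc : ∀ g g' a a', g ≠ g' → Commute (B g a) (B g' a')) (t : MTree α) :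
    t.ev (fun a => (List.ofFn fun g => B g a).prod) = (List.ofFn fun g => t.ev (B g)).prod := by
  induction K with
  | zero => simpa using MTree.ev_const PosDef.one t
  | succ K ih =>
    have hc' : ∀ (g g' : Fin K) (a a' : α), g ≠ g' → Commute (B g.succ a) (B g'.succ a') :=
      fun g g' a a' h => hc _ _ a a' fun h' => h (Fin.succ_injective _ h')
    simp only [List.ofFn_succ, List.prod_cons]
    rw [MTree.ev_mul (hB 0)
      (fun a => ca_ofFn_posDef (fun i => B i.succ a) (fun g => hB _ a) fun g g' h => hc' g g' a a h)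
      (fun a b => ca_commute_ofFn _ fun g => hc _ _ a b (Fin.succ_ne_zero g).symm),
      ih (fun i => B i.succ) (fun g => hB _) hc']

section Bands

variable {K : ℕ} {Ab : Fin K → α → Matrix n n ℂ} {G : α → Prop}

theorem ca_ev_prod_tot {t : MTree α} (hG : t.All G) :
    t.ev (fun a => (List.ofFn fun g => Ab g a).prod) =
      t.ev (fun a => (List.ofFn fun g => ca_tot G (Ab g) a).prod) :=
  MTree.ev_congr_of_all (hG.imp fun a ha => by simp only [ca_tot_of _ ha])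

/-- the product leaf is positive definite -/
theorem ca_prod_posDef (hA : ∀ g a, G a → (Ab g a).PosDef)
    (hc : ∀ g g' a a', g ≠ g' → G a → G a' → Commute (Ab g a) (Ab g' a')) {a : α} (ha : G a) :
    ((List.ofFn fun g => Ab g a).prod).PosDef :=
  ca_ofFn_posDef _ (fun g => hA g a ha) fun g g' h => hc g g' a a h ha ha

/-- band factorisation of the root (iterate `ev_mul`) -/
theorem ca_ev_prod (hA : ∀ g a, G a → (Ab g a).PosDef)
    (hc : ∀ g g' a a', g ≠ g' → G a → G a' → Commute (Ab g a) (Ab g' a'))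
    {t : MTree α} (hG : t.All G) :
    t.ev (fun a => (List.ofFn fun g => Ab g a).prod) = (List.ofFn fun g => t.ev (Ab g)).prod := by
  rw [ca_ev_prod_tot hG, ca_ev_ofFn (fun g => ca_tot G (Ab g)) (fun g => ca_tot_posDef (hA g))
    fun g g' a a' h => ca_tot_commute (fun b b' => hc g g' b b' h) a a']
  simp only [← ca_ev_tot _ hG]

/-- the band roots commute -/
theorem ca_ev_commute (hc : ∀ g g' a a', g ≠ g' → G a → G a' → Commute (Ab g a) (Ab g' a'))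
    {t t' : MTree α} (hG : t.All G) (hG' : t'.All G) {g g' : Fin K} (h : g ≠ g') :
    Commute (t.ev (Ab g)) (t'.ev (Ab g')) := by
  rw [ca_ev_tot _ hG, ca_ev_tot _ hG']
  exact MTree.ev_commute (fun b => (MTree.ev_commute (fun a =>
    (ca_tot_commute (fun c c' => hc g g' c c' h) a b).symm) t).symm) t'

theorem ca_ev_posDef {A : α → Matrix n n ℂ} (hA : ∀ a, G a → (A a).PosDef) {t : MTree α}
    (hG : t.All G) : (t.ev A).PosDef := by
  rw [ca_ev_tot _ hG]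
  exact MTree.ev_posDef (ca_tot_posDef hA) t

/-- `log 𝓜 = ∑_g log 𝓜_g` -/
theorem ca_mlog_ev_prod (hA : ∀ g a, G a → (Ab g a).PosDef)
    (hc : ∀ g g' a a', g ≠ g' → G a → G a' → Commute (Ab g a) (Ab g' a'))
    {t : MTree α} (hG : t.All G) :
    mlog (t.ev fun a => (List.ofFn fun g => Ab g a).prod) = ∑ g, mlog (t.ev (Ab g)) := by
  rw [ca_ev_prod hA hc hG]
  exact ca_mlog_ofFn _ (fun g => ca_ev_posDef (hA g) hG) fun g g' h => ca_ev_commute hc hG hG h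

/-- a matrix commuting with all band leaves commutes with the root -/
theorem ca_commute_root {S : Matrix n n ℂ} (hS : ∀ g a, G a → Commute S (Ab g a))
    {t : MTree α} (hG : t.All G) :
    Commute S (t.ev fun a => (List.ofFn fun g => Ab g a).prod) := by
  rw [ca_ev_prod_tot hG]
  exact MTree.ev_commute (fun a => ca_commute_ofFn _ fun g => ca_tot_commute_left (hS g) a) t

end Bands

/-! ### package CA-4: the three tree comparisons -/

theorem ca_ev_quad_le {A : α → Matrix n n ℂ} {G : α → Prop} (hA : ∀ a, G a → (A a).PosDef)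
    {t : MTree α} (ht : t.Valid) (hG : t.All G) {z : n → ℂ} (hz : z ≠ 0) :
    (star z ⬝ᵥ (t.ev A *ᵥ z)).re ≤
      Real.exp (t.E fun a => Real.log (star z ⬝ᵥ (A a *ᵥ z)).re) := by
  have h := MTree.ev_quad_le (ca_tot_posDef hA) ht hz
  rw [← ca_ev_tot _ hG] at h
  refine h.trans (le_of_eq ?_)
  congr 1
  exact MTree.E_congr_of_all (hG.imp fun a ha => by simp only [ca_tot_of _ ha])

theorem ca_ev_ge_of_pin {A : α → Matrix n n ℂ} {G : α → Prop} (hA : ∀ a, G a → (A a).PosDef)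
    {P : Matrix n n ℂ} (hP : P.PosSemidef) {c : α → ℝ} (hc : ∀ a, 0 < c a) {t : MTree α}
    (ht : t.Valid) (hG : t.All G) (h : ∀ a, G a → (c a : ℂ) • P ≤ A a) :
    ((Real.exp (t.E fun a => Real.log (c a)) : ℝ) : ℂ) • P ≤ t.ev A := by
  rw [ca_ev_tot _ hG]
  exact MTree.ev_ge_of_pin (ca_tot_posDef hA) hP hc ht
    (hG.imp fun a ha => by rw [ca_tot_of _ ha]; exact h a ha)

theorem ca_ne_zero_of_unit {φ : n → ℂ} (hφ : star φ ⬝ᵥ φ = 1) : φ ≠ 0 := by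
  rintro rfl
  simp at hφ

/-- **rough upper comparison, abstract form** -/
theorem ca_rough_upper {A : α → Matrix n n ℂ} {G : α → Prop} (hA : ∀ a, G a → (A a).PosDef)
    {t : MTree α} (ht : t.Valid) (hG : t.All G) {φ pre : n → ℂ} (hφ : star φ ⬝ᵥ φ = 1)
    (hne : star φ ⬝ᵥ pre ≠ 0) :
    -Real.log (star pre ⬝ᵥ (rpw (t.ev A) (-(1 / 2)) *ᵥ pre)).re ≤
      -Real.log (‖star φ ⬝ᵥ pre‖ ^ 2) +
        1 / 2 * t.E fun a => Real.log (star φ ⬝ᵥ (A a *ᵥ φ)).re := by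
  have hM := ca_ev_posDef hA hG
  have hφ0 := ca_ne_zero_of_unit hφ
  have hpre0 : pre ≠ 0 := by
    rintro rfl
    simp at hne
  have hq := ca_ev_quad_le hA ht hG hφ0
  have h1 := ca_cs_half hM φ pre
  have h2 := rpw_quadratic_le hM (r := 1 / 2) ⟨by norm_num, by norm_num⟩ hφ
  have hN : 0 < (star pre ⬝ᵥ (rpw (t.ev A) (-(1 / 2)) *ᵥ pre)).re :=
    MTree.tr_quad_pos (rpw_posDef hM.1 _) hpre0
  have hX : 0 < ‖star φ ⬝ᵥ pre‖ ^ 2 := by positivity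
  have h3 : (star φ ⬝ᵥ (t.ev A *ᵥ φ)).re ^ (1 / 2 : ℝ) ≤
      Real.exp (1 / 2 * t.E fun a => Real.log (star φ ⬝ᵥ (A a *ᵥ φ)).re) := by
    rw [mul_comm, Real.exp_mul]
    exact Real.rpow_le_rpow (MTree.tr_quad_pos hM hφ0).le hq (by norm_num)
  have h4 := h1.trans (mul_le_mul_of_nonneg_right (h2.trans h3) hN.le)
  have h5 := Real.log_le_log hX h4
  rw [Real.log_mul (Real.exp_pos _).ne' hN.ne', Real.log_exp] at h5
  linarith

/-- the quadratic form of `log 𝓜` is the sum over the bands -/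
theorem ca_quad_mlog_ev_prod {K : ℕ} {Ab : Fin K → α → Matrix n n ℂ} {G : α → Prop}
    (hA : ∀ g a, G a → (Ab g a).PosDef)
    (hc : ∀ g g' a a', g ≠ g' → G a → G a' → Commute (Ab g a) (Ab g' a'))
    {t : MTree α} (hG : t.All G) (v : n → ℂ) :
    (star v ⬝ᵥ (mlog (t.ev fun a => (List.ofFn fun g => Ab g a).prod) *ᵥ v)).re =
      ∑ g, (star v ⬝ᵥ (mlog (t.ev (Ab g)) *ᵥ v)).re := by
  rw [ca_mlog_ev_prod hA hc hG, sum_mulVec, dotProduct_sum, Complex.re_sum]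

/-- **sharp upper comparison, abstract form** -/
theorem ca_sharp_upper {K : ℕ} {Ab : Fin K → α → Matrix n n ℂ} {G : α → Prop}
    (hA : ∀ g a, G a → (Ab g a).PosDef)
    (hc : ∀ g g' a a', g ≠ g' → G a → G a' → Commute (Ab g a) (Ab g' a'))
    {t : MTree α} (ht : t.Valid) (hG : t.All G)
    {P : Matrix n n ℂ} (hP : P.IsHermitian) (hP2 : P * P = P)
    (hPc : ∀ g a, G a → Commute P (Ab g a))
    {ψ pre : n → ℂ} (hψ : star ψ ⬝ᵥ ψ = 1) {c : ℝ} (hc0 : 0 < c)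
    (hpre : P *ᵥ pre = (c : ℂ) • ψ) :
    -Real.log (star pre ⬝ᵥ
        (rpw (t.ev fun a => (List.ofFn fun g => Ab g a).prod) (-(1 / 2)) *ᵥ pre)).re ≤
      -Real.log (c ^ 2) +
        1 / 2 * ∑ g, t.E fun a => Real.log (star ψ ⬝ᵥ (Ab g a *ᵥ ψ)).re := by
  have hM : (t.ev fun a => (List.ofFn fun g => Ab g a).prod).PosDef :=
    ca_ev_posDef (fun a ha => ca_prod_posDef hA hc ha) hG
  have hψ0 := ca_ne_zero_of_unit hψ
  have h1 := ca_pin_split hM hP hP2 (ca_commute_root hPc hG) pre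
  rw [hpre, ca_quad_smul, Complex.re_ofReal_mul] at h1
  have h2 := pd_exp_mlog_quadratic_le hM (-(1 / 2)) hψ
  rw [ca_quad_mlog_ev_prod hA hc hG] at h2
  have h3 : ∑ g, (star ψ ⬝ᵥ (mlog (t.ev (Ab g)) *ᵥ ψ)).re ≤
      ∑ g, t.E fun a => Real.log (star ψ ⬝ᵥ (Ab g a *ᵥ ψ)).re := by
    refine Finset.sum_le_sum fun g _ => ?_
    have hg := ca_ev_posDef (hA g) hG
    refine (pd_mlog_quadratic_le hg hψ).trans ?_
    have := Real.log_le_log (MTree.tr_quad_pos hg hψ0) (ca_ev_quad_le (hA g) ht hG hψ0)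
    rwa [Real.log_exp] at this
  have hc2 : 0 < c ^ 2 := by positivity
  have h4 : c ^ 2 * Real.exp (-(1 / 2) *
      ∑ g, t.E fun a => Real.log (star ψ ⬝ᵥ (Ab g a *ᵥ ψ)).re) ≤
      (star pre ⬝ᵥ
        (rpw (t.ev fun a => (List.ofFn fun g => Ab g a).prod) (-(1 / 2)) *ᵥ pre)).re := by
    refine le_trans (mul_le_mul_of_nonneg_left (le_trans ?_ h2) hc2.le) h1
    exact Real.exp_le_exp.2 (by nlinarith)
  have h5 := Real.log_le_log (mul_pos hc2 (Real.exp_pos _)) h4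
  rw [Real.log_mul hc2.ne' (Real.exp_pos _).ne', Real.log_exp] at h5
  linarith

/-- **lower comparison, abstract form** -/
theorem ca_tree_lower {K : ℕ} {Ab : Fin K → α → Matrix n n ℂ} {G : α → Prop}
    (hA : ∀ g a, G a → (Ab g a).PosDef)
    (hc : ∀ g g' a a', g ≠ g' → G a → G a' → Commute (Ab g a) (Ab g' a'))
    {t : MTree α} (ht : t.Valid) (hG : t.All G)
    {Pi : Matrix n n ℂ} (hPi : Pi.IsHermitian) (hPi2 : Pi * Pi = Pi)
    {b0 : ℝ} (hb0 : 0 < b0) (hfloor : ∀ g a, G a → (b0 : ℂ) • (1 : Matrix n n ℂ) ≤ Ab g a)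
    {lamb : Fin K → α → ℝ}
    (hpin : ∀ g a, G a → ((Real.exp (lamb g a) : ℝ) : ℂ) • Pi ≤ Ab g a)
    {pre : n → ℂ} (hpre0 : pre ≠ 0) (hpre1 : (star pre ⬝ᵥ pre).re ≤ 1)
    (M : Matrix n n ℂ) (hM : M = t.ev fun a => (List.ofFn fun g => Ab g a).prod)
    (N2 : ℝ) (hN2 : N2 = (star pre ⬝ᵥ (rpw M (-(1 / 2)) *ᵥ pre)).re)
    (v : n → ℂ) (hv : v = (((Real.sqrt N2)⁻¹ : ℝ) : ℂ) • (rpw M (-(1 / 4)) *ᵥ pre))
    (μ : ℝ) (hμ : μ = (star v ⬝ᵥ (Pi *ᵥ v)).re) :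
    1 / 2 * ∑ g, ((1 - μ) * Real.log (b0 / 2) + μ * (t.E (lamb g) - Real.log 2)) ≤
      -Real.log N2 := by
  have hMpd : M.PosDef := by
    rw [hM]; exact ca_ev_posDef (fun a ha => ca_prod_posDef hA hc ha) hG
  have hunit : star v ⬝ᵥ v = 1 := by
    rw [hv, hN2]; exact (ca_unit hMpd hpre0).2
  have h1 : 1 / 2 * (star v ⬝ᵥ (mlog M *ᵥ v)).re ≤ -Real.log N2 := by
    rw [hv, hN2]; exact ca_neg_log_ge hMpd hpre0 hpre1
  refine le_trans (mul_le_mul_of_nonneg_left ?_ (by norm_num)) h1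
  rw [hM, ca_quad_mlog_ev_prod hA hc hG]
  refine Finset.sum_le_sum fun g _ => ?_
  have hg := ca_ev_posDef (hA g) hG
  have hf := ca_ev_ge_of_pin (hA g) PosSemidef.one (c := fun _ => b0) (fun _ => hb0) ht hG
    (hfloor g)
  rw [MTree.E_const, Real.exp_log hb0] at hf
  have hp := ca_ev_ge_of_pin (hA g) (ca_proj_psd hPi hPi2) (c := fun a => Real.exp (lamb g a))
    (fun _ => Real.exp_pos _) ht hG (hpin g)
  simp only [Real.log_exp] at hp
  have h2 := ca_log_lower hg hPi hPi2 hb0 (Real.exp_pos _) hf hp hunit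
  rw [← hμ, Real.log_div (Real.exp_pos _).ne' (by norm_num), Real.log_exp] at h2
  exact h2

end Claimed.Agent.R296
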