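import Claimed.Agent.R296.CmpUp
import Claimed.Agent.R296.Cmp.LowBand

/-!
# Row 296, P1 Section 7, package S7-UPS: the sharp upper comparison at the leaves

Architect: helper218.  Prefix `cp_`.  ONE owner.   (Subsection "Upper comparisons", sharp part.)

`⟨post, near form post⟩ ≤ poly ⟨post, D_U^a D_{UY}^a D_Y^{-a} post⟩
   ≤ poly ⟨D_U^{2a}⟩^{1/2} ⟨D_{UY}^{4a}⟩^{1/4} ⟨D_Y^{-4a}⟩^{1/4}`  (`WQ_compare`, two Cauchy-Schwarz steps for commuting positive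
operators; or helper116's `Pvm.lean`: `pvm_holder`) and `cp_mom_post_pos/neg`  (`8 a ≤ min 1 (c0/√BB)`); `C = 14 C0` suffices:
`(1/2)(2a S_U + 4 C0 BB a²) + (1/4)(4a S_UY + 16 C0 BB a²) + (1/4)(-4a S_Y + 32 C0 BB a²) = a gpost + 14 C0 BB a²`,
and the three factors `|log z|` add up to `(1/2 + 1/4 + 1/4) |log z|`.
`cp_sharp_leaf` = `cp_band_quad_pinned` (`x = mPost`, `cp_pinK_post`) + `cp_post_near_le` + moments + `cp_mPoly_le`, `cp_poly_le_exp`.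
-/

set_option autoImplicit false
set_option linter.unusedSectionVars false
set_option linter.unusedVariables false

namespace Claimed.Agent.R296

namespace Scan

open Matrix Finset
open scoped ComplexOrder MatrixOrder

/-! ### general system: dimension powers -/

section General

variable {s : Type} [DecidableEq s] [Fintype s] {io : s → Type}
  [∀ x, Fintype (io x)] [∀ x, DecidableEq (io x)] {κ : Type} [Fintype κ] [DecidableEq κ]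

theorem cus_dimPow_mul (Q : Finset s) (b b' : ℝ) :
    dimPow (io := io) (κ := κ) Q b * dimPow Q b' = dimPow Q (b + b') := by
  rw [dimPow, dimPow, dimPow, cenQ_mul]
  congr 1
  funext i
  have hd : (0 : ℝ) < ((Rep.dimI i : ℕ) : ℝ) := by exact_mod_cast Rep.dimI_pos i
  rw [← Complex.ofReal_mul, Real.rpow_add hd]

theorem cus_dimPow_isHermitian (Q : Finset s) (b : ℝ) :
    (dimPow (io := io) (κ := κ) Q b).IsHermitian := cenQ_isHermitian Q _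

theorem cus_dimPow_posSemidef (Q : Finset s) (b : ℝ) :
    (dimPow (io := io) (κ := κ) Q b).PosSemidef :=
  (cenQ_posDef Q _ (cl_dimI_rpow_pos b)).posSemidef

theorem cus_dimPow_commute {Q E : Finset s} (h : Q ⊆ E ∨ E ⊆ Q ∨ Disjoint Q E) (b b' : ℝ) :
    Commute (dimPow (io := io) (κ := κ) Q b) (dimPow E b') := cenQ_commute_cenQ _ _ h

theorem cus_quad_nonneg (Q : Finset s) (b : ℝ) (x : RCfg io κ → ℂ) :
    0 ≤ (star x ⬝ᵥ (dimPow Q b *ᵥ x)).re := ca_psd_re (cus_dimPow_posSemidef Q b) x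

/-- Hoelder with exponents `(2, 4, 4)` for three commuting dimension powers in a vector state -/
theorem cus_holder {U UY Y : Finset s} (h2 : Y ⊆ UY) (a : ℝ) (x : RCfg io κ → ℂ) :
    (star x ⬝ᵥ ((dimPow U a * dimPow UY a * dimPow Y (-a)) *ᵥ x)).re ≤
      (star x ⬝ᵥ (dimPow U (2 * a) *ᵥ x)).re ^ ((1 : ℝ) / 2) *
       (star x ⬝ᵥ (dimPow UY (4 * a) *ᵥ x)).re ^ ((1 : ℝ) / 4) *
       (star x ⬝ᵥ (dimPow Y (-(4 * a)) *ᵥ x)).re ^ ((1 : ℝ) / 4) := by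
  have c23 : ∀ b b' : ℝ, Commute (dimPow (io := io) (κ := κ) UY b) (dimPow Y b') :=
    fun b b' => cus_dimPow_commute (Or.inr (Or.inl h2)) b b'
  have hY : (dimPow (io := io) (κ := κ) UY a * dimPow Y (-a)).IsHermitian := by
    rw [Matrix.IsHermitian, conjTranspose_mul, (cus_dimPow_isHermitian UY a).eq,
      (cus_dimPow_isHermitian Y (-a)).eq, (c23 a (-a)).eq]
  have s1 := ca_cs_commute (cus_dimPow_isHermitian (io := io) (κ := κ) U a) hY x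
  have e1 : dimPow (io := io) (κ := κ) U a * dimPow U a = dimPow U (2 * a) := by
    rw [cus_dimPow_mul]; congr 1; ring
  have e2 : dimPow (io := io) (κ := κ) UY a * dimPow Y (-a) * (dimPow UY a * dimPow Y (-a)) =
      dimPow UY (2 * a) * dimPow Y (-(2 * a)) := by
    calc dimPow (io := io) (κ := κ) UY a * dimPow Y (-a) * (dimPow UY a * dimPow Y (-a))
        = dimPow UY a * (dimPow Y (-a) * dimPow UY a) * dimPow Y (-a) := by
          simp only [Matrix.mul_assoc]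
      _ = dimPow UY a * (dimPow UY a * dimPow Y (-a)) * dimPow Y (-a) := by rw [(c23 a (-a)).eq]
      _ = (dimPow UY a * dimPow UY a) * (dimPow Y (-a) * dimPow Y (-a)) := by
          simp only [Matrix.mul_assoc]
      _ = _ := by
          rw [cus_dimPow_mul, cus_dimPow_mul]
          congr 2 <;> ring
  rw [e1, e2, ← Matrix.mul_assoc] at s1
  have s2 := ca_cs_commute (cus_dimPow_isHermitian (io := io) (κ := κ) UY (2 * a))
    (cus_dimPow_isHermitian (io := io) (κ := κ) Y (-(2 * a))) x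
  have e3 : dimPow (io := io) (κ := κ) UY (2 * a) * dimPow UY (2 * a) = dimPow UY (4 * a) := by
    rw [cus_dimPow_mul]; congr 1; ring
  have e4 : dimPow (io := io) (κ := κ) Y (-(2 * a)) * dimPow Y (-(2 * a)) =
      dimPow Y (-(4 * a)) := by
    rw [cus_dimPow_mul]; congr 1; ring
  rw [e3, e4] at s2
  set A := (star x ⬝ᵥ (dimPow U (2 * a) *ᵥ x)).re with hA
  set B := (star x ⬝ᵥ (dimPow UY (4 * a) *ᵥ x)).re with hB
  set D := (star x ⬝ᵥ (dimPow Y (-(4 * a)) *ᵥ x)).re with hD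
  have hB0 : 0 ≤ B := cus_quad_nonneg UY _ x
  have hD0 : 0 ≤ D := cus_quad_nonneg Y _ x
  refine s1.trans ?_
  rw [mul_assoc]
  have h4 : ∀ y : ℝ, 0 ≤ y → Real.sqrt (Real.sqrt y) = y ^ ((1 : ℝ) / 4) := by
    intro y hy
    rw [Real.sqrt_eq_rpow, Real.sqrt_eq_rpow, ← Real.rpow_mul hy]
    norm_num
  calc Real.sqrt A * Real.sqrt (star x ⬝ᵥ ((dimPow UY (2 * a) * dimPow Y (-(2 * a))) *ᵥ x)).re
      ≤ Real.sqrt A * Real.sqrt (Real.sqrt B * Real.sqrt D) :=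
        mul_le_mul_of_nonneg_left (Real.sqrt_le_sqrt s2) (Real.sqrt_nonneg _)
    _ = A ^ ((1 : ℝ) / 2) * (B ^ ((1 : ℝ) / 4) * D ^ ((1 : ℝ) / 4)) := by
        rw [Real.sqrt_mul (Real.sqrt_nonneg B), h4 B hB0, h4 D hD0, Real.sqrt_eq_rpow]

/-- the near form is dominated by dimension powers -/
theorem cus_near_le (io : s → Type) [∀ x, Fintype (io x)] [∀ x, DecidableEq (io x)]
    [∀ x, Nonempty (io x)] (t : ℝ) (ht0 : 0 < t) (ht1 : t ≤ 1) :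
    ∃ (C : ℝ) (m : ℕ), 1 ≤ C ∧ ∀ (κ : Type) [Fintype κ] [DecidableEq κ] (U UY Y : Finset s),
      U ⊆ UY → Y ⊆ UY → Disjoint U Y →
      WQ (io := io) (κ := κ) t U (-2) * WQ t UY (-2) * WQ t Y 2 ≤
        ((C * ((Fintype.card κ : ℝ) + 1) ^ m : ℝ) : ℂ) •
          (dimPow U (2 * t) * dimPow UY (2 * t) * dimPow Y (-(2 * t))) := by
  obtain ⟨C, m, hC, hW⟩ := WQ_compare io t ht0 ht1
  refine ⟨C ^ 6, 6 * m, one_le_pow₀ hC, fun κ _ _ U UY Y h1 h2 h3 => ?_⟩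
  set c : ℝ := C * ((Fintype.card κ : ℝ) + 1) ^ m with hc
  have hc0 : 0 ≤ c := by positivity
  have e2 : ∀ Q : Finset s, WQ (io := io) (κ := κ) t Q 2 ≤
      ((c ^ 2 : ℝ) : ℂ) • dimPow Q (-(2 * t)) := by
    intro Q
    have := (hW κ Q 2).1
    rw [abs_of_pos (by norm_num : (0 : ℝ) < 2), Real.rpow_two, mul_comm t 2] at this
    exact this
  have e3 : ∀ Q : Finset s, WQ (io := io) (κ := κ) t Q (-2) ≤
      ((c ^ 2 : ℝ) : ℂ) • dimPow Q (2 * t) := by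
    intro Q
    have := (hW κ Q (-2)).1
    rw [abs_neg, abs_of_pos (by norm_num : (0 : ℝ) < 2), Real.rpow_two] at this
    have e : -(t * -2) = 2 * t := by ring
    rwa [e] at this
  have c12 : ∀ φ ψ : Rep.Irr (Equiv.Perm κ) → ℂ, Commute (cenQ (io := io) U φ) (cenQ UY ψ) :=
    fun φ ψ => cenQ_commute_cenQ _ _ (Or.inl h1)
  have c13 : ∀ φ ψ : Rep.Irr (Equiv.Perm κ) → ℂ, Commute (cenQ (io := io) U φ) (cenQ Y ψ) :=
    fun φ ψ => cenQ_commute_cenQ _ _ (Or.inr (Or.inr h3))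
  have c23 : ∀ φ ψ : Rep.Irr (Equiv.Perm κ) → ℂ, Commute (cenQ (io := io) UY φ) (cenQ Y ψ) :=
    fun φ ψ => cenQ_commute_cenQ _ _ (Or.inr (Or.inl h2))
  have key := cl_mul_le_mul3 (WQ_posDef (io := io) (κ := κ) t ht0 U (-2)).posSemidef
    (WQ_posDef (io := io) (κ := κ) t ht0 UY (-2)).posSemidef
    (WQ_posDef (io := io) (κ := κ) t ht0 Y 2).posSemidef (e3 U) (e3 UY) (e2 Y)
    (c12 _ _) (c13 _ _) (c23 _ _)
    (((c12 _ _).smul_left _).smul_right _) (((c13 _ _).smul_left _).smul_right _)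
    (((c23 _ _).smul_left _).smul_right _)
    ((c12 _ _).smul_left _) ((c13 _ _).smul_left _) ((c23 _ _).smul_left _)
  refine key.trans (le_of_eq ?_)
  simp only [Matrix.smul_mul, Matrix.mul_smul, smul_smul]
  have e6 : ((c ^ 2 : ℝ) : ℂ) * (((c ^ 2 : ℝ) : ℂ) * ((c ^ 2 : ℝ) : ℂ)) =
      ((C ^ 6 * ((Fintype.card κ : ℝ) + 1) ^ (6 * m) : ℝ) : ℂ) := by
    rw [← Complex.ofReal_mul, ← Complex.ofReal_mul]
    congr 1
    rw [hc, pow_mul']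
    ring
  rw [e6]

end General

variable {Λ ι α : Type} [Fintype Λ] [DecidableEq Λ] [Fintype ι]
  {io : Λ → Type} [∀ x, Fintype (io x)] [∀ x, DecidableEq (io x)] [∀ x, Nonempty (io x)]
  (𝔇 : RepData Λ ι α io)

variable {κ : Type} [Fintype κ] [DecidableEq κ]

/-! ### S7-UPS -/

section Sharp

theorem cus_rmPh_subset {A B : Finset Λ} (h : A ⊆ B) : rmPh A ⊆ rmPh B :=
  Finset.map_subset_map.2 h

theorem cus_rmPh_disjoint {A B : Finset Λ} (h : Disjoint A B) : Disjoint (rmPh A) (rmPh B) :=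
  (Finset.disjoint_map _).2 h

/-- one band, `post`: comparison with dimension powers and iterated Cauchy-Schwarz -/
theorem cp_post_near_le {a0 : ℝ} (hW : 𝔇.WF a0) (ha : 𝔇.a ≤ 1) :
    ∃ (C : ℝ) (m : ℕ), 1 ≤ C ∧ ∀ (κ : Type) [Fintype κ] [DecidableEq κ]
      (s : Finset Λ × Finset Λ), Disjoint s.1 s.2 → 𝔇.X ⊆ s.1 →
      (star (𝔇.mPost κ) ⬝ᵥ (𝔇.mNear s *ᵥ 𝔇.mPost κ)).re ≤
        C * ((Fintype.card κ : ℝ) + 1) ^ m *
          ((star (𝔇.mPost κ) ⬝ᵥ (dimPow (rmPh (s.1 \ 𝔇.X)) (2 * 𝔇.a) *ᵥ 𝔇.mPost κ)).re ^ ((1 : ℝ) / 2) *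
           (star (𝔇.mPost κ) ⬝ᵥ (dimPow (rmPh (s.2ᶜ \ 𝔇.X)) (4 * 𝔇.a) *ᵥ 𝔇.mPost κ)).re ^ ((1 : ℝ) / 4) *
           (star (𝔇.mPost κ) ⬝ᵥ (dimPow (rmPh (s.1 ∪ s.2)ᶜ) (-(4 * 𝔇.a)) *ᵥ 𝔇.mPost κ)).re ^
             ((1 : ℝ) / 4)) := by
  have := cp_nonempty 𝔇 hW
  obtain ⟨C, m, hC, h⟩ := cus_near_le (rmIo io 𝔇.dst) (𝔇.a / 2) (cp_t_pos 𝔇 hW) (by linarith)
  refine ⟨C, m, hC, fun κ _ _ s hs hX => ?_⟩
  have hd := Finset.disjoint_left.1 hs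
  have h1 : rmPh (s.1 \ 𝔇.X) ⊆ rmPh (s.2ᶜ \ 𝔇.X) := by
    apply cus_rmPh_subset
    intro y hy
    rw [Finset.mem_sdiff] at hy ⊢
    exact ⟨Finset.mem_compl.2 (hd hy.1), hy.2⟩
  have h2 : rmPh (s.1 ∪ s.2)ᶜ ⊆ rmPh (s.2ᶜ \ 𝔇.X) := by
    apply cus_rmPh_subset
    intro y hy
    rw [Finset.mem_compl, Finset.mem_union, not_or] at hy
    rw [Finset.mem_sdiff, Finset.mem_compl]
    exact ⟨hy.2, fun hyX => hy.1 (hX hyX)⟩
  have h3 : Disjoint (rmPh (s.1 \ 𝔇.X)) (rmPh (s.1 ∪ s.2)ᶜ) := by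
    apply cus_rmPh_disjoint
    rw [Finset.disjoint_left]
    intro y hy hy'
    rw [Finset.mem_compl, Finset.mem_union, not_or] at hy'
    exact hy'.1 (Finset.mem_sdiff.1 hy).1
  have h4 := h κ _ _ _ h1 h2 h3
  have e : 2 * (𝔇.a / 2) = 𝔇.a := by ring
  rw [e] at h4
  have h5 := ca_le_re h4 (𝔇.mPost κ)
  rw [smul_mulVec, dotProduct_smul, smul_eq_mul, Complex.re_ofReal_mul] at h5
  refine le_trans h5 (mul_le_mul_of_nonneg_left (cus_holder h2 𝔇.a _) (by positivity))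

end Sharp

end Scan

namespace Scan

open Matrix Finset
open scoped ComplexOrder MatrixOrder

/-! ### S7-UPS: the sharp upper comparison at the leaves -/

theorem cus_rpow_le_exp {M E r : ℝ} (h0 : 0 ≤ M) (h : M ≤ Real.exp E) (hr : 0 ≤ r) :
    M ^ r ≤ Real.exp (E * r) := by
  rw [Real.exp_mul]
  exact Real.rpow_le_rpow h0 h hr

theorem cp_sharp_leaf (C0 c0 : ℝ) (hC0 : 0 < C0) (hc0 : 0 < c0) :
    ∃ C a0 : ℝ, 1 ≤ C ∧ 0 < a0 ∧
    ∀ (Λ ι α : Type) [Fintype Λ] [DecidableEq Λ] [Fintype ι] (io : Λ → Type)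
      [∀ x, Fintype (io x)] [∀ x, DecidableEq (io x)] [∀ x, Nonempty (io x)]
      (𝔇 : RepData Λ ι α io), 𝔇.WF a0 → 𝔇.MgfData C0 c0 → 𝔇.a * Real.sqrt 𝔇.BB ≤ a0 →
      ∀ ε : ℝ, 0 < ε → ∃ k0 : ℕ, ∀ k : ℕ, k0 ≤ k → ∀ l, 𝔇.Al l → ∀ g,
        Real.log (star (cmpVec (𝔇.mPost (Fin k))) ⬝ᵥ
            (𝔇.mLeafB (Fin k) g l *ᵥ cmpVec (𝔇.mPost (Fin k)))).re ≤
          k * 𝔇.a * 𝔇.gpost (𝔇.st l g) + C * k * 𝔇.a ^ 2 * 𝔇.BB + k * |Real.log 𝔇.z| + ε * k := by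
  have hmin : 0 < min 1 c0 := lt_min one_pos hc0
  refine ⟨max 1 (14 * C0), min 1 c0 / 8, le_max_left _ _, by positivity, ?_⟩
  intro Λ ι α _ _ _ io _ _ _ 𝔇 hW hM hsm ε hε
  have hm1 : min 1 c0 ≤ 1 := min_le_left _ _
  have hm2 : min 1 c0 ≤ c0 := min_le_right _ _
  have hapos := hW.a_pos
  have ha1 : 𝔇.a ≤ 1 := hW.a_le.trans (by linarith)
  have hBB := hM.BB_ge
  have hsq1 : 1 ≤ Real.sqrt 𝔇.BB := Real.one_le_sqrt.2 hBB
  have hsq0 : 0 < Real.sqrt 𝔇.BB := by linarith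
  have h8c : 8 * 𝔇.a ≤ c0 / Real.sqrt 𝔇.BB := by
    rw [le_div_iff₀ hsq0]
    nlinarith
  have h81 : 8 * 𝔇.a ≤ 1 := by nlinarith
  obtain ⟨C, m, hC, hnear⟩ := cp_post_near_le 𝔇 hW ha1
  obtain ⟨k1, hk1⟩ := cp_poly_le_exp C m (by linarith) (ε / 2) (by positivity)
  obtain ⟨k2, hk2⟩ := cp_mPoly_le 𝔇 (ε / 2) (by positivity)
  refine ⟨max k1 k2, fun k hk l hl g => ?_⟩
  have hk1' := hk1 k (le_trans (le_max_left _ _) hk)
  have hk2' := hk2 k (le_trans (le_max_right _ _) hk)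
  have hs := hW.st_disj l hl g
  have hX := hW.st_X l hl g
  obtain ⟨-, -, mgY, mgU, mgUY⟩ := hM.mgf l hl g
  set s := 𝔇.st l g with hsdef
  have hsym : IsSymVec (𝔇.mPost (Fin k)) := tpow_isSymVec _
  have hq := cp_band_quad_pinned 𝔇 hW hs hX hsym (cp_pinK_post 𝔇 hW)
  have hpos : 0 < (star (cmpVec (𝔇.mPost (Fin k))) ⬝ᵥ
      (𝔇.mLeafB (Fin k) g l *ᵥ cmpVec (𝔇.mPost (Fin k)))).re :=
    MTree.tr_quad_pos (cp_leafB_posDef 𝔇 hW g l hl)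
      (ca_ne_zero_of_unit (by rw [cmpVec_dotProduct hsym, cp_post_unit 𝔇 hW]))
  rw [Real.log_le_iff_le_exp hpos]
  have hLB : 𝔇.mLeafB (Fin k) g l = 𝔇.mBand (Fin k) s := rfl
  rw [hLB, hq]
  have hcard : ((Fintype.card (Fin k) : ℕ) : ℝ) = (k : ℝ) := by rw [Fintype.card_fin]
  have hn := hnear (Fin k) s hs hX
  have dU : Disjoint (s.1 \ 𝔇.X) 𝔇.X := Finset.sdiff_disjoint
  have dUY : Disjoint (s.2ᶜ \ 𝔇.X) 𝔇.X := Finset.sdiff_disjoint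
  have dY : Disjoint (s.1 ∪ s.2)ᶜ 𝔇.X := by
    rw [Finset.disjoint_left]
    intro y hy hyX
    rw [Finset.mem_compl, Finset.mem_union, not_or] at hy
    exact hy.1 (hX hyX)
  have m1 := cp_mom_post_pos 𝔇 (κ := Fin k) hW dU mgU (u := 2 * 𝔇.a) (by positivity) (by linarith)
  have m2 := cp_mom_post_pos 𝔇 (κ := Fin k) hW dUY mgUY (u := 4 * 𝔇.a) (by positivity)
    (by linarith)
  have m3 := cp_mom_post_neg 𝔇 (κ := Fin k) hW dY mgY (u := 4 * 𝔇.a) (by positivity)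
    (by linarith) (by linarith)
  rw [hcard] at hn m1 m2 m3
  rw [Fintype.card_fin] at m3
  set SU := ent 𝔇.S.rho (s.1 \ 𝔇.X) with hSU
  set SUY := ent 𝔇.S.rho (s.2ᶜ \ 𝔇.X) with hSUY
  set SY := ent 𝔇.S.rho (s.1 ∪ s.2)ᶜ with hSY
  set Lz := |Real.log 𝔇.z| with hLz
  have m3' : (star (𝔇.mPost (Fin k)) ⬝ᵥ
      (dimPow (rmPh (s.1 ∪ s.2)ᶜ) (-(4 * 𝔇.a)) *ᵥ 𝔇.mPost (Fin k))).re ≤
      Real.exp (ε / 2 * k + k * (Lz - 4 * 𝔇.a * SY + 2 * C0 * 𝔇.BB * (4 * 𝔇.a) ^ 2)) := by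
    rw [Real.exp_add]
    exact m3.trans (mul_le_mul_of_nonneg_right hk2' (Real.exp_pos _).le)
  have r1 := cus_rpow_le_exp (cus_quad_nonneg _ _ _) m1 (by norm_num : (0 : ℝ) ≤ 1 / 2)
  have r2 := cus_rpow_le_exp (cus_quad_nonneg _ _ _) m2 (by norm_num : (0 : ℝ) ≤ 1 / 4)
  have r3 := cus_rpow_le_exp (cus_quad_nonneg _ _ _) m3' (by norm_num : (0 : ℝ) ≤ 1 / 4)
  have hk0 : (0 : ℝ) ≤ k := Nat.cast_nonneg k
  refine hn.trans ?_
  refine (mul_le_mul hk1' (mul_le_mul (mul_le_mul r1 r2 (Real.rpow_nonneg (cus_quad_nonneg _ _ _) _)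
    (Real.exp_pos _).le) r3 (Real.rpow_nonneg (cus_quad_nonneg _ _ _) _)
    (mul_pos (Real.exp_pos _) (Real.exp_pos _)).le) (by
      have q1 := Real.rpow_nonneg (cus_quad_nonneg (io := rmIo io 𝔇.dst) (κ := Fin k)
        (rmPh (s.1 \ 𝔇.X)) (2 * 𝔇.a) (𝔇.mPost (Fin k))) ((1 : ℝ) / 2)
      have q2 := Real.rpow_nonneg (cus_quad_nonneg (io := rmIo io 𝔇.dst) (κ := Fin k)
        (rmPh (s.2ᶜ \ 𝔇.X)) (4 * 𝔇.a) (𝔇.mPost (Fin k))) ((1 : ℝ) / 4)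
      have q3 := Real.rpow_nonneg (cus_quad_nonneg (io := rmIo io 𝔇.dst) (κ := Fin k)
        (rmPh (s.1 ∪ s.2)ᶜ) (-(4 * 𝔇.a)) (𝔇.mPost (Fin k))) ((1 : ℝ) / 4)
      exact mul_nonneg (mul_nonneg q1 q2) q3) (Real.exp_pos _).le).trans ?_
  rw [← Real.exp_add, ← Real.exp_add, ← Real.exp_add]
  apply Real.exp_le_exp.2
  have hg : 𝔇.gpost s = SU + SUY - SY := rfl
  rw [hg]
  have hmax : 14 * C0 * (k * 𝔇.a ^ 2 * 𝔇.BB) ≤ max 1 (14 * C0) * (k * 𝔇.a ^ 2 * 𝔇.BB) :=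
    mul_le_mul_of_nonneg_right (le_max_right _ _) (by positivity)
  have hεk : 0 ≤ ε * k := by positivity
  nlinarith

end Scan

end Claimed.Agent.R296
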