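import Claimed.Agent.R296.CmpUpR
import Claimed.Agent.R296.CmpUpS
import Claimed.Agent.R296.CmpTree
import Claimed.Agent.R296.CmpIface

/-!
# Row 296, P1 Section 7: assembly of the upper comparisons, `cp_upperK : UpperK`

Architect + proofs: helper218.  Prefix `cq_`.  No sorry in this file.
Inputs: `cp_rough_leaf` (`CmpUpR.lean`), `cp_sharp_leaf` (`CmpUpS.lean`), `cp_tree_ok`, `cp_F_rough_upper`, `cp_F_sharp_upper`
(`CmpTree.lean`).  Only bookkeeping with real numbers.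
-/

set_option autoImplicit false
set_option linter.unusedSectionVars false

namespace Claimed.Agent.R296

namespace Scan

open Matrix Finset
open scoped ComplexOrder MatrixOrder

/-- the arithmetic of the rough bound -/
theorem cq_rough_arith {k ld lz a K B ε ζ : ℝ} (hk : 0 < k) (hε : 0 ≤ ε) (h : 2 * ε ≤ ζ) :
    ((k * (2 * ld - lz) + ε * k) + (2 * k * a * K * B + ε * k) / 2) / k ≤
      2 * ld - lz + a * K / 2 * (2 * B) + ζ := by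
  rw [div_le_iff₀ hk]
  nlinarith [mul_nonneg hε hk.le, mul_le_mul_of_nonneg_right h hk.le]

/-- the arithmetic of the sharp bound -/
theorem cq_sharp_arith {k ld lz alz a K BB C ε ζ lq S : ℝ} (hk : 0 < k) (ha : 0 < a) (hK : 0 < K)
    (hC : 1 ≤ C) (halz : 0 ≤ alz) (hlq : -lq ≤ ε * k) (h : (K + 1) * ε ≤ ζ) :
    (k * (2 * ld - lz) - lq +
        1 / 2 * (k * a * S + K * (C * k * a ^ 2 * BB + k * alz + ε * k) - K * lq)) / k ≤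
      2 * ld - lz + a * K / 2 * (K⁻¹ * S + C * (a * BB + alz / a)) + ζ := by
  rw [div_le_iff₀ hk]
  have h1 : a * K / 2 * (K⁻¹ * S + C * (a * BB + alz / a)) =
      a * S / 2 + K / 2 * (C * a ^ 2 * BB) + C * (K / 2 * alz) := by
    field_simp
    ring
  rw [h1]
  have h2 : 0 ≤ (C - 1) * (K / 2 * alz * k) := by
    have : 0 ≤ C - 1 := by linarith
    positivity
  have h3 : (K + 1) * ε * k ≤ ζ * k := mul_le_mul_of_nonneg_right h hk.le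
  have h4 : (-lq) * (1 + K / 2) ≤ ε * k * (1 + K / 2) :=
    mul_le_mul_of_nonneg_right hlq (by positivity)
  nlinarith [h2, h3, h4]

/-- **the upper comparisons for the model** -/
theorem cp_upperK : UpperK := by
  intro C0 c0 hC0 hc0
  obtain ⟨C, a1, hC, ha1, hS⟩ := cp_sharp_leaf C0 c0 hC0 hc0
  refine ⟨C, min a1 1, hC, lt_min ha1 one_pos, ?_⟩
  intro Λ ι α _ _ _ io _ _ _ 𝔇 hW ζ hζ
  have ha : 𝔇.a ≤ 1 := hW.a_le.trans (min_le_right _ _)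
  have hKpos : (0 : ℝ) < 𝔇.K := by exact_mod_cast hW.K_pos
  obtain ⟨ε, hε, hε1, hε2⟩ : ∃ ε : ℝ, 0 < ε ∧ 2 * ε ≤ ζ ∧ ((𝔇.K : ℝ) + 1) * ε ≤ ζ := by
    refine ⟨ζ / (2 * ((𝔇.K : ℝ) + 1)), by positivity, ?_, ?_⟩
    · rw [← mul_div_assoc, div_le_iff₀ (by positivity)]
      nlinarith
    · rw [← mul_div_assoc, div_le_iff₀ (by positivity)]
      nlinarith
  -- the rough leaf data
  obtain ⟨εR, hεR, kR, hR⟩ : ∃ ε' : ℝ, 0 < ε' ∧ ∃ k0 : ℕ, 𝔇.PrefixData → ∀ k : ℕ, k0 ≤ k →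
      ∀ lam : Rep.Irr (Equiv.Perm (Fin k)),
      𝔇.GoodLab lam ε' → ∃ φ : 𝔇.MIx (Fin k) → ℂ, star φ ⬝ᵥ φ = 1 ∧
        star φ ⬝ᵥ 𝔇.mPre lam ≠ 0 ∧
        -Real.log (‖star φ ⬝ᵥ 𝔇.mPre lam‖ ^ 2) ≤ k * (2 * 𝔇.ld - Real.log 𝔇.z) + ε * k ∧
        ∀ l, 𝔇.Al l → Real.log (star φ ⬝ᵥ (𝔇.mLeaf (Fin k) l *ᵥ φ)).re ≤
          2 * k * 𝔇.a * 𝔇.K * (𝔇.Bsh / 𝔇.z + 𝔇.Bexc) + ε * k := by
    by_cases hP : 𝔇.PrefixData
    · obtain ⟨ε', hε', k0, h⟩ := cp_rough_leaf 𝔇 hW ha hP ε hε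
      exact ⟨ε', hε', k0, fun _ => h⟩
    · exact ⟨1, one_pos, 0, fun h => absurd h hP⟩
  -- the sharp leaf data
  obtain ⟨kS, hSh⟩ : ∃ k0 : ℕ, 𝔇.MgfData C0 c0 → 𝔇.a * Real.sqrt 𝔇.BB ≤ a1 →
      ∀ k : ℕ, k0 ≤ k → ∀ l, 𝔇.Al l → ∀ g,
        Real.log (star (cmpVec (𝔇.mPost (Fin k))) ⬝ᵥ
            (𝔇.mLeafB (Fin k) g l *ᵥ cmpVec (𝔇.mPost (Fin k)))).re ≤
          k * 𝔇.a * 𝔇.gpost (𝔇.st l g) + C * k * 𝔇.a ^ 2 * 𝔇.BB + k * |Real.log 𝔇.z| + ε * k := by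
    by_cases hM : 𝔇.MgfData C0 c0 ∧ 𝔇.a * Real.sqrt 𝔇.BB ≤ a1
    · obtain ⟨k0, h⟩ := hS Λ ι α io 𝔇 (hW.mono (min_le_left _ _)) hM.1 hM.2 ε hε
      exact ⟨k0, fun _ _ => h⟩
    · exact ⟨0, fun h1 h2 => absurd ⟨h1, h2⟩ hM⟩
  refine ⟨min εR ε, lt_min hεR hε, max (max kR kS) 1, fun k hk lam hlam => ?_⟩
  have hk1 : 1 ≤ k := le_trans (le_max_right _ _) hk
  have hkR : kR ≤ k := le_trans (le_trans (le_max_left _ _) (le_max_left _ _)) hk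
  have hkS : kS ≤ k := le_trans (le_trans (le_max_right _ _) (le_max_left _ _)) hk
  have : Nonempty (Fin k) := ⟨⟨0, hk1⟩⟩
  have hkpos : (0 : ℝ) < k := by exact_mod_cast hk1
  have hcard : ((Fintype.card (Fin k) : ℕ) : ℝ) = k := by simp
  refine { rough_upper := ?_, sharp_upper := ?_ }
  · intro hP r p hp
    obtain ⟨hv, hT⟩ := cp_tree_ok 𝔇 hW r hp
    obtain ⟨φ, hφ, hne, h1, h2⟩ := hR hP k hkR lam (cp_goodLab_mono 𝔇 (min_le_left _ _) hlam)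
    have h := cp_F_rough_upper 𝔇 hW lam hT hv hφ hne h1 h2
    rw [hcard] at h
    refine h.trans ?_
    have := cq_rough_arith (k := k) (ld := 𝔇.ld) (lz := Real.log 𝔇.z) (a := 𝔇.a) (K := 𝔇.K)
      (B := 𝔇.Bsh / 𝔇.z + 𝔇.Bexc) (ε := ε) (ζ := ζ) hkpos hε.le hε1
    refine this.trans (le_of_eq ?_)
    unfold RepData.W
    ring
  · intro hM hsm r p hp
    obtain ⟨hv, hT⟩ := cp_tree_ok 𝔇 hW r hp
    have hq : 0 < 𝔇.mQ lam := cp_goodLab_pos 𝔇 hlam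
    have h := cp_F_sharp_upper 𝔇 hW lam hT hv hq
      (hSh hM (hsm.trans (min_le_left _ _)) k hkS)
    rw [hcard] at h
    refine h.trans ?_
    have hlq : -Real.log (𝔇.mQ lam) ≤ ε * k := by
      have h1 := (cp_goodLab_mono 𝔇 (min_le_right _ _) hlam).1
      rw [hcard] at h1
      have h2 := Real.log_le_log (Real.exp_pos _) h1
      rw [Real.log_exp] at h2
      linarith
    have hE : ∀ g : Fin 𝔇.K, (𝔇.tree r p).E (fun l =>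
        k * 𝔇.a * 𝔇.gpost (𝔇.st l g) + C * k * 𝔇.a ^ 2 * 𝔇.BB + k * |Real.log 𝔇.z| + ε * k) =
        k * 𝔇.a * (𝔇.tree r p).E (fun l => 𝔇.gpost (𝔇.st l g)) +
          (C * k * 𝔇.a ^ 2 * 𝔇.BB + k * |Real.log 𝔇.z| + ε * k) := by
      intro g
      have : (fun l => k * 𝔇.a * 𝔇.gpost (𝔇.st l g) + C * k * 𝔇.a ^ 2 * 𝔇.BB +
          k * |Real.log 𝔇.z| + ε * k) = fun l => (k * 𝔇.a) * 𝔇.gpost (𝔇.st l g) +
          (C * k * 𝔇.a ^ 2 * 𝔇.BB + k * |Real.log 𝔇.z| + ε * k) := by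
        funext l
        ring
      rw [this, MTree.E_add, MTree.E_mul_left, MTree.E_const]
    have hsum : ∑ g : Fin 𝔇.K, ((𝔇.tree r p).E (fun l =>
        k * 𝔇.a * 𝔇.gpost (𝔇.st l g) + C * k * 𝔇.a ^ 2 * 𝔇.BB + k * |Real.log 𝔇.z| + ε * k) -
          Real.log (𝔇.mQ lam)) =
        k * 𝔇.a * (∑ g : Fin 𝔇.K, (𝔇.tree r p).E fun l => 𝔇.gpost (𝔇.st l g)) +
          𝔇.K * (C * k * 𝔇.a ^ 2 * 𝔇.BB + k * |Real.log 𝔇.z| + ε * k) -
          𝔇.K * Real.log (𝔇.mQ lam) := by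
      simp only [hE, Finset.sum_sub_distrib, Finset.sum_add_distrib, Finset.sum_const,
        Finset.card_univ, Fintype.card_fin, nsmul_eq_mul, Finset.mul_sum]
      ring
    rw [hsum]
    have := cq_sharp_arith (k := k) (ld := 𝔇.ld) (lz := Real.log 𝔇.z) (alz := |Real.log 𝔇.z|)
      (a := 𝔇.a) (K := 𝔇.K) (BB := 𝔇.BB) (C := C) (ε := ε) (ζ := ζ)
      (lq := Real.log (𝔇.mQ lam))
      (S := ∑ g : Fin 𝔇.K, (𝔇.tree r p).E fun l => 𝔇.gpost (𝔇.st l g))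
      hkpos hW.a_pos hKpos hC (abs_nonneg _) hlq hε2
    exact this

end Scan

end Claimed.Agent.R296
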