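import Claimed.Agent.R296.CmpOne
import Claimed.Agent.R296.Replica.Band

/-!
# Row 296, P1 Section 7, package S7-BAND: the band metrics of the model

Architect: helper218.  Proofs: helper98.  Prefix `cp_`.  ONE owner.  Pure consequences of `Replica/Band.lean`, `Replica/Cen.lean`,
`Replica/Sym.lean` (helper197) for the partition `P = C ∪ s.1`, `Y`, `F = R ∪ s.2` of the sites `Λ ⊕ Bool`.
The instance `∀ x, Nonempty (rmIo io 𝔇.dst x)` needed by `Band.lean` follows from `co_dst_pos`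
(`haveI` inside the proofs).  `t = 𝔇.a / 2 > 0`.
Hints: `cp_band_commute`: `bandMz_commute_nested` with `P ∪ Y = (mFar s)ᶜ ⊆ mP s'`.
`cp_band_commute_labC/R`: `bandMz_eq_near` is not needed: `{rmC} ⊆ P`, disjoint from `Y`, `F`
(`cenQ_commute_cenQ`, `WQ t Q z = cenQ Q _` by `rfl`), then `cmp_commute`.
`cp_band_commute_pin`: `mPinK = topow κ (emb mXC _)`, `mXC ⊆ P`, disjoint from `Y`, `F`: `cenQ_commute_topow`;
`topow` commutes with `symProj` (`topow_emb_commute_UQ` with `E = univ`).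
`cp_band_floor`: `bandM_floor` + `(C (k+1)^m)⁻¹ ≥ exp (-ε k)` for large `k`.
-/

set_option autoImplicit false
set_option linter.unusedSectionVars false

namespace Claimed.Agent.R296

namespace Scan

open Matrix Finset
open scoped ComplexOrder MatrixOrder

variable {Λ ι α : Type} [Fintype Λ] [DecidableEq Λ] [Fintype ι]
  {io : Λ → Type} [∀ x, Fintype (io x)] [∀ x, DecidableEq (io x)] [∀ x, Nonempty (io x)]
  (𝔇 : RepData Λ ι α io)


section Band

variable {κ : Type} [Fintype κ] [DecidableEq κ]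

/-- the local index types of the extended system are nonempty -/
theorem cp_nonempty {a0 : ℝ} (hW : 𝔇.WF a0) : ∀ x, Nonempty (rmIo io 𝔇.dst x)
  | Sum.inl x => inferInstanceAs (Nonempty (io x))
  | Sum.inr _ => ⟨⟨0, co_dst_pos 𝔇 hW⟩⟩

theorem cp_t_pos {a0 : ℝ} (hW : 𝔇.WF a0) : 0 < 𝔇.a / 2 := half_pos hW.a_pos

theorem cp_mem_rmPh {Q : Finset Λ} {x : Λ ⊕ Bool} : x ∈ rmPh Q ↔ ∃ y ∈ Q, Sum.inl y = x := by
  simp [rmPh]

theorem cp_part3 {s : Finset Λ × Finset Λ} (hs : Disjoint s.1 s.2) :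
    IsPart3 (RepData.mP s) (RepData.mY s) (RepData.mFar s) := by
  have hd := Finset.disjoint_left.1 hs
  refine ⟨?_, ?_, ?_, ?_⟩
  · rw [Finset.disjoint_left]
    rintro (y | b) h1 h2
    · simp [RepData.mP, RepData.mY, rmPh] at h1 h2
      exact h2.1 h1
    · simp [RepData.mY, rmPh] at h2
  · rw [Finset.disjoint_left]
    rintro (y | b) h1 h2
    · simp [RepData.mP, RepData.mFar, rmPh] at h1 h2
      exact hd h1 h2
    · simp [RepData.mP, RepData.mFar, rmPh] at h1 h2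
      rw [h1] at h2
      exact absurd h2 (by decide)
  · rw [Finset.disjoint_left]
    rintro (y | b) h1 h2
    · simp [RepData.mY, RepData.mFar, rmPh] at h1 h2
      exact h1.2 h2
    · simp [RepData.mY, rmPh] at h1
  · ext x
    simp only [Finset.mem_union, Finset.mem_univ, iff_true]
    rcases x with y | b
    · by_cases h1 : y ∈ s.1
      · left; left; simp [RepData.mP, rmPh, h1]
      · by_cases h2 : y ∈ s.2
        · right; simp [RepData.mFar, rmPh, h2]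
        · left; right; simp [RepData.mY, rmPh, h1, h2]
    · cases b
      · left; left; simp [RepData.mP]
      · right; simp [RepData.mFar]

theorem cp_band_posDef {a0 : ℝ} (hW : 𝔇.WF a0) {s : Finset Λ × Finset Λ} (hs : Disjoint s.1 s.2) :
    (𝔇.mBand κ s).PosDef := by
  have := cp_nonempty 𝔇 hW
  exact bandM_posDef _ (cp_t_pos 𝔇 hW) (cp_part3 hs)

/-- `A⁻¹` is the compression of `bandFull … (-1)` -/
theorem cp_band_inv {a0 : ℝ} (hW : 𝔇.WF a0) {s : Finset Λ × Finset Λ} (hs : Disjoint s.1 s.2) :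
    (𝔇.mBand κ s)⁻¹ =
      cmp (bandFull (𝔇.a / 2) (RepData.mP s) (RepData.mY s) (RepData.mFar s) (-1)) := by
  have := cp_nonempty 𝔇 hW
  have h := bandMz_add (io := rmIo io 𝔇.dst) (κ := κ) _ (cp_t_pos 𝔇 hW) (cp_part3 hs) 1 (-1)
  rw [add_neg_cancel, bandMz_zero _ (cp_t_pos 𝔇 hW)] at h
  exact Matrix.inv_eq_right_inv h

/-- cross-band commutation -/
theorem cp_band_commute {a0 : ℝ} (hW : 𝔇.WF a0) {s s' : Finset Λ × Finset Λ}
    (hs : Disjoint s.1 s.2) (hs' : Disjoint s'.1 s'.2) (hn : s.2ᶜ ⊆ s'.1) :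
    Commute (𝔇.mBand κ s) (𝔇.mBand κ s') := by
  have := cp_nonempty 𝔇 hW
  refine bandMz_commute_nested _ (cp_t_pos 𝔇 hW) (cp_part3 hs) (cp_part3 hs') ?_ 1 1
  have hd := Finset.disjoint_left.1 hs
  rintro (y | b) h
  · have hy : y ∈ s.2ᶜ := by
      rw [Finset.mem_compl]
      rcases Finset.mem_union.1 h with h | h
      · simp [RepData.mP, rmPh] at h
        exact hd h
      · simp [RepData.mY, rmPh] at h
        exact h.2
    simp [RepData.mP, rmPh, hn hy]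
  · rcases Finset.mem_union.1 h with h | h
    · simp [RepData.mP, rmPh] at h
      simp [RepData.mP, h]
    · simp [RepData.mY, rmPh] at h


omit [∀ x, Nonempty (io x)] in
/-- a label projector is a label function -/
theorem cp_labP_eq_cenQ {s : Type} [DecidableEq s] [Fintype s] {io' : s → Type}
    [∀ x, Fintype (io' x)] [∀ x, DecidableEq (io' x)] (Q : Finset s)
    (lam : Rep.Irr (Equiv.Perm κ)) :
    ∃ φ : Rep.Irr (Equiv.Perm κ) → ℂ, labP (io := io') Q lam = cenQ Q φ := by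
  classical
  refine ⟨fun i => if i = lam then 1 else 0, ?_⟩
  rw [cenQ_eq_sum]
  simp only [ite_smul, one_smul, zero_smul, Finset.sum_ite_eq', Finset.mem_univ, if_true]

/-- an operator which commutes with the three label algebras and with `symProj` commutes,
after compression, with the band metric -/
theorem cp_cmp_commute_band {a0 : ℝ} (hW : 𝔇.WF a0) (s : Finset Λ × Finset Λ)
    {X : Matrix (RCfg (rmIo io 𝔇.dst) κ) (RCfg (rmIo io 𝔇.dst) κ) ℂ} (hX : Commute X symProj)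
    (hP : ∀ φ, Commute X (cenQ (RepData.mP s) φ)) (hY : ∀ φ, Commute X (cenQ (RepData.mY s) φ))
    (hF : ∀ φ, Commute X (cenQ (RepData.mFar s) φ)) :
    Commute (cmp X) (𝔇.mBand κ s) := by
  have := cp_nonempty 𝔇 hW
  rw [RepData.mBand, bandM, bandMz]
  refine cmp_commute hX (bandFull_commute_symProj _ (cp_t_pos 𝔇 hW) _ _ _ _) ?_
  rw [bandFull]
  exact ((hP _).mul_right (hF _)).mul_right (hY _)

/-- the metrics preserve the label of `C` -/
theorem cp_band_commute_labC {a0 : ℝ} (hW : 𝔇.WF a0) {s : Finset Λ × Finset Λ}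
    (hs : Disjoint s.1 s.2) (lam : Rep.Irr (Equiv.Perm κ)) :
    Commute (cmp (labP (io := rmIo io 𝔇.dst) {rmC} lam)) (𝔇.mBand κ s) := by
  obtain ⟨φ, hφ⟩ := cp_labP_eq_cenQ (io' := rmIo io 𝔇.dst) {rmC} lam
  have h3 := cp_part3 hs
  have hsub : ({rmC} : Finset (Λ ⊕ Bool)) ⊆ RepData.mP s := by
    simp [RepData.mP]
  rw [hφ]
  refine cp_cmp_commute_band 𝔇 hW s (cenQ_commute_symProj _ _) (fun ψ => ?_) (fun ψ => ?_)
    (fun ψ => ?_)
  · exact cenQ_commute_cenQ _ _ (Or.inl hsub)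
  · exact cenQ_commute_cenQ _ _ (Or.inr (Or.inr (h3.dPY.mono_left hsub)))
  · exact cenQ_commute_cenQ _ _ (Or.inr (Or.inr (h3.dPF.mono_left hsub)))

/-- the metrics preserve the label of `R` -/
theorem cp_band_commute_labR {a0 : ℝ} (hW : 𝔇.WF a0) {s : Finset Λ × Finset Λ}
    (hs : Disjoint s.1 s.2) (lam : Rep.Irr (Equiv.Perm κ)) :
    Commute (cmp (labP (io := rmIo io 𝔇.dst) {rmR} lam)) (𝔇.mBand κ s) := by
  obtain ⟨φ, hφ⟩ := cp_labP_eq_cenQ (io' := rmIo io 𝔇.dst) {rmR} lam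
  have h3 := cp_part3 hs
  have hsub : ({rmR} : Finset (Λ ⊕ Bool)) ⊆ RepData.mFar s := by
    simp [RepData.mFar]
  rw [hφ]
  refine cp_cmp_commute_band 𝔇 hW s (cenQ_commute_symProj _ _) (fun ψ => ?_) (fun ψ => ?_)
    (fun ψ => ?_)
  · exact cenQ_commute_cenQ _ _ (Or.inr (Or.inr (h3.dPF.symm.mono_left hsub)))
  · exact cenQ_commute_cenQ _ _ (Or.inr (Or.inr (h3.dYF.symm.mono_left hsub)))
  · exact cenQ_commute_cenQ _ _ (Or.inl hsub)

/-- the pin commutes with the metrics (`X ∪ C ⊆ P`) -/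
theorem cp_band_commute_pin {a0 : ℝ} (hW : 𝔇.WF a0) {s : Finset Λ × Finset Λ}
    (hs : Disjoint s.1 s.2) (hX : 𝔇.X ⊆ s.1) :
    Commute (cmp (𝔇.mPinK κ)) (𝔇.mBand κ s) := by
  have h3 := cp_part3 hs
  have hsub : 𝔇.mXC ⊆ RepData.mP s := by
    rw [RepData.mXC, RepData.mP]
    exact Finset.union_subset_union (Finset.map_subset_map.2 hX) (Finset.Subset.refl _)
  rw [RepData.mPinK, RepData.mPin1]
  refine cp_cmp_commute_band 𝔇 hW s ?_ (fun ψ => ?_) (fun ψ => ?_) (fun ψ => ?_)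
  · exact commute_symProj_of_commute_UQ fun π =>
      topow_emb_commute_UQ (Or.inl (Finset.subset_univ _)) _ π
  · exact (cenQ_commute_topow _ _ (Or.inl hsub) _).symm
  · exact (cenQ_commute_topow _ _ (Or.inr (h3.dPY.mono_left hsub)) _).symm
  · exact (cenQ_commute_topow _ _ (Or.inr (h3.dPF.mono_left hsub)) _).symm

omit [Fintype Λ] [DecidableEq Λ] [Fintype ι] [∀ x, Fintype (io x)] [∀ x, DecidableEq (io x)]
  [∀ x, Nonempty (io x)] in
/-- a polynomial is eventually dominated by `exp (ε k)` -/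
theorem cp_poly_le_exp (C : ℝ) (m : ℕ) (hC : 0 < C) (ε : ℝ) (hε : 0 < ε) :
    ∃ k0 : ℕ, ∀ k : ℕ, k0 ≤ k → C * ((k : ℝ) + 1) ^ m ≤ Real.exp (ε * k) := by
  have h1 := (isLittleO_pow_exp_pos_mul_atTop (k := m) hε).def
    (c := Real.exp (-ε) / C) (by positivity)
  have h2 : Filter.Tendsto (fun k : ℕ => (k : ℝ) + 1) Filter.atTop Filter.atTop :=
    Filter.tendsto_atTop_add_const_right _ _ tendsto_natCast_atTop_atTop
  obtain ⟨k0, hk0⟩ := Filter.eventually_atTop.1 (h2.eventually h1)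
  refine ⟨k0, fun k hk => ?_⟩
  have h3 := hk0 k hk
  rw [Real.norm_of_nonneg (by positivity), Real.norm_of_nonneg (Real.exp_pos _).le] at h3
  have h4 : Real.exp (-ε) * Real.exp (ε * ((k : ℝ) + 1)) = Real.exp (ε * k) := by
    rw [← Real.exp_add]; congr 1; ring
  calc C * ((k : ℝ) + 1) ^ m ≤ C * (Real.exp (-ε) / C * Real.exp (ε * ((k : ℝ) + 1))) :=
        mul_le_mul_of_nonneg_left h3 hC.le
    _ = Real.exp (-ε) * Real.exp (ε * ((k : ℝ) + 1)) := by field_simp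
    _ = _ := h4

/-- (replicas:leaf-floor) with error `ε k` -/
theorem cp_band_floor {a0 : ℝ} (hW : 𝔇.WF a0) (ha : 𝔇.a ≤ 1) (ε : ℝ) (hε : 0 < ε) :
    ∃ k0 : ℕ, ∀ k : ℕ, k0 ≤ k → ∀ s : Finset Λ × Finset Λ, Disjoint s.1 s.2 →
      ((Real.exp (-(ε * k)) : ℝ) : ℂ) • (1 : Matrix (𝔇.MIx (Fin k)) (𝔇.MIx (Fin k)) ℂ)
        ≤ 𝔇.mBand (Fin k) s := by
  have := cp_nonempty 𝔇 hW
  obtain ⟨C, m, hC, h⟩ := bandM_floor (rmIo io 𝔇.dst) (𝔇.a / 2) (cp_t_pos 𝔇 hW) (by linarith)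
  obtain ⟨k0, hk0⟩ := cp_poly_le_exp C m (by linarith) ε hε
  refine ⟨k0, fun k hk s hs => ?_⟩
  have h1 := h (Fin k) _ _ _ (cp_part3 hs)
  refine le_trans ?_ h1
  have hcard : ((Fintype.card (Fin k) : ℕ) : ℝ) = (k : ℝ) := by rw [Fintype.card_fin]
  have hpos : 0 < C * ((k : ℝ) + 1) ^ m := by positivity
  have h2 : Real.exp (-(ε * k)) ≤ (C * (((Fintype.card (Fin k) : ℕ) : ℝ) + 1) ^ m)⁻¹ := by
    rw [Real.exp_neg, hcard]
    exact inv_anti₀ hpos (hk0 k hk)
  rw [Matrix.le_iff, ← sub_smul]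
  refine PosSemidef.one.smul ?_
  rw [← Complex.ofReal_sub]
  exact_mod_cast sub_nonneg.2 h2

end Band


end Scan

end Claimed.Agent.R296
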