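import Claimed.Agent.R296.RepModel

/-!
# Row 296, P1 Section 7 (norm comparisons): DEFINITIONS

Owner: helper218.  Only definitions (one existence leaf: `nonempty_typBasis`).
Everything refers to the model of `RepModel.lean` (sites `Λ ⊕ Bool`, `rmC`, `rmR`, `d = 𝔇.dst`).

One copy:
* `𝔇.TypBasis`, `𝔇.tb` : orthonormal eigenvectors `e i` of `ρ_X` whose eigenvalues `pe i` enumerate the
  typical part `typM ρ_X w` of the spectrum (`i : Fin d`);
* `𝔇.mPinVec = B_{XC} = d^{-1/2} ∑_i |e_i⟩_X |i⟩_C`, `𝔇.mPin1 = |B_{XC}⟩⟨B_{XC}| ⊗ 1`;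
* `𝔇.mPhi = (d/√z) mPin1 Ψ = B_{XC} ⊗ ψ`, the one-copy post vector;
* `𝔇.mG1 = |Ω⟩⟨Ω| ⊗ 1_{CR}`.

`κ` copies (full tensor space `RCfg (rmIo io d) κ`):
* `tprodOp X = ⊗_j X_j`;
* `𝔇.mPinK κ = mPin1^{⊗κ}` (the projector `𝖯`), `𝔇.mPost κ = mPhi^{⊗κ}`;
* `𝔇.mQ lam = ‖π_R^{lam} post‖²`, `𝔇.GoodLab lam ε` (eq. comparator:high-label with errors `ε k`);
* `𝔇.mPos B` : exactly the physical copies in `B` are excited; `𝔇.mDef κ` : at most `τ k` excited copies;
* `𝔇.mLow lam` : the projector `Π` of the lower comparison (defect count and the two auxiliary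
  labels), compressed to `Sym^κ 𝒱`.
-/

set_option autoImplicit false
set_option linter.unusedSectionVars false

namespace Claimed.Agent.R296

open Matrix Finset
open scoped ComplexOrder

section Tprod

variable {s : Type} [DecidableEq s] {io : s → Type} {κ : Type} [Fintype κ]

/-- the tensor product `⊗_j X_j` of one-copy operators -/
def tprodOp (X : κ → Matrix (Cfg io) (Cfg io) ℂ) : Matrix (RCfg io κ) (RCfg io κ) ℂ :=
  Matrix.of fun c c' => ∏ j, X j (rcopy c j) (rcopy c' j)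

end Tprod

/-- typical eigenvectors of a Hermitian matrix -/
theorem cmp_exists_typ {n : Type} [Fintype n] [DecidableEq n] (M : Matrix n n ℂ)
    (hM : M.IsHermitian) (w : ℝ) :
    ∃ (e : Fin (Multiset.card (Scan.typM M w)) → n → ℂ) (pe : Fin (Multiset.card (Scan.typM M w)) → ℝ),
      (∀ i j, star (e i) ⬝ᵥ e j = if i = j then 1 else 0) ∧
      (∀ i, M *ᵥ e i = (pe i : ℂ) • e i) ∧
      (Finset.univ : Finset (Fin (Multiset.card (Scan.typM M w)))).val.map pe = Scan.typM M w := by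
  classical
  set V : Matrix n n ℂ := (hM.eigenvectorUnitary : Matrix n n ℂ) with hV
  have hVV : Vᴴ * V = 1 := eigU_conjTranspose_mul hM
  have hspec : Scan.specM M = Finset.univ.val.map hM.eigenvalues := by
    unfold Scan.specM
    rw [hM.roots_charpoly_eq_eigenvalues, Multiset.map_map]
    refine Multiset.map_congr rfl fun x _ => ?_
    simp
  set T : Finset n := Finset.univ.filter fun k =>
    Real.exp (-vnEnt M - w) ≤ hM.eigenvalues k ∧ hM.eigenvalues k ≤ Real.exp (-vnEnt M + w) with hT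
  have htyp : Scan.typM M w = T.val.map hM.eigenvalues := by
    unfold Scan.typM
    rw [hspec, Multiset.filter_map, hT, Finset.filter_val]
    rfl
  have hcard : T.card = Multiset.card (Scan.typM M w) := by
    rw [htyp, Multiset.card_map]; rfl
  set f : Fin (Multiset.card (Scan.typM M w)) ≃ T := (Finset.equivFinOfCardEq hcard).symm with hf
  have hMV : M * V = V * diagonal (fun i => ((hM.eigenvalues i : ℝ) : ℂ)) := by
    conv_lhs => rw [spectral_plain hM]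
    rw [Matrix.mul_assoc, hVV, Matrix.mul_one]
  refine ⟨fun i x => V x (f i), fun i => hM.eigenvalues (f i), ?_, ?_, ?_⟩
  · intro i j
    have h := congrFun (congrFun hVV (f i)) (f j)
    rw [Matrix.mul_apply] at h
    simp only [conjTranspose_apply] at h
    have h2 : star (fun x => V x (f i)) ⬝ᵥ (fun x => V x (f j)) = ∑ x, star (V x (f i)) * V x (f j) := rfl
    rw [h2, h, Matrix.one_apply]
    by_cases hij : i = j
    · simp [hij]
    · have : ((f i : T) : n) ≠ (f j : T) := fun h' => hij (f.injective (Subtype.ext h'))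
      simp [hij, this]
  · intro i
    funext x
    have h := congrFun (congrFun hMV x) (f i)
    rw [Matrix.mul_apply, mul_diagonal] at h
    simp only [Matrix.mulVec, dotProduct, Pi.smul_apply, smul_eq_mul]
    rw [h, mul_comm]
  · refine Eq.trans ?_ htyp.symm
    have h1 : (Finset.univ : Finset (Fin (Multiset.card (Scan.typM M w)))).val.map
        (fun i => ((f i : T) : n)) = T.val := by
      have h2 := congrArg Finset.val (Finset.map_univ_equiv f)
      rw [Finset.map_val] at h2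
      have h3 : (Finset.univ : Finset T).val.map Subtype.val = T.val := by
        rw [Finset.univ_eq_attach]
        exact Multiset.attach_map_val T.val
      rw [← h3, ← h2, Multiset.map_map]
      rfl
    rw [← h1, Multiset.map_map]
    rfl

namespace Scan

namespace RepData

variable {Λ ι α : Type} [Fintype Λ] [DecidableEq Λ] [Fintype ι]
  {io : Λ → Type} [∀ x, Fintype (io x)] [∀ x, DecidableEq (io x)]
  (𝔇 : RepData Λ ι α io)

/-! ### one copy -/

/-- orthonormal eigenvectors of `ρ_X` for the typical eigenvalues -/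
structure TypBasis where
  /-- the eigenvectors -/
  e : Fin 𝔇.dst → CfgOn io 𝔇.X → ℂ
  /-- the eigenvalues -/
  pe : Fin 𝔇.dst → ℝ
  orth : ∀ i j, star (e i) ⬝ᵥ e j = if i = j then 1 else 0
  eig : ∀ i, ptr 𝔇.X 𝔇.S.rho *ᵥ e i = (pe i : ℂ) • e i
  spec : (Finset.univ : Finset (Fin 𝔇.dst)).val.map pe = typM (ptr 𝔇.X 𝔇.S.rho) 𝔇.w

/-- LEAF `S7-ONE`: spectral theorem for the Hermitian matrix `ptr X (pureOp Om)`:
`charpoly.roots = eigenvalues` (`Matrix.IsHermitian.roots_charpoly_eq_eigenvalues`), filter by the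
window, enumerate the selected indices by `Fin dst`. -/
theorem nonempty_typBasis : Nonempty 𝔇.TypBasis := by
  have hM : (ptr 𝔇.X 𝔇.S.rho).IsHermitian := by
    rw [ptr_eq_ptrE]
    exact ptrE_isHermitian _ (pureOp_posSemidef _).isHermitian
  obtain ⟨e, pe, h1, h2, h3⟩ := cmp_exists_typ _ hM 𝔇.w
  exact ⟨⟨e, pe, h1, h2, h3⟩⟩

/-- a fixed typical basis -/
noncomputable def tb : 𝔇.TypBasis := Classical.choice 𝔇.nonempty_typBasis

/-- the region `X ∪ C` -/
def mXC : Finset (Λ ⊕ Bool) := rmPh 𝔇.X ∪ {rmC}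

theorem rmC_mem_mXC : (rmC : Λ ⊕ Bool) ∈ 𝔇.mXC := by simp [mXC]

theorem inl_mem_mXC (x : {x // x ∈ 𝔇.X}) : (Sum.inl x.1 : Λ ⊕ Bool) ∈ 𝔇.mXC := by
  simp [mXC, rmPh, x.2]

/-- the pin vector `B_{XC}` -/
noncomputable def mPinVec : CfgOn (rmIo io 𝔇.dst) 𝔇.mXC → ℂ := fun τ =>
  ((Real.sqrt 𝔇.dst : ℝ) : ℂ)⁻¹ *
    𝔇.tb.e (τ ⟨rmC, 𝔇.rmC_mem_mXC⟩) (fun x => τ ⟨Sum.inl x.1, 𝔇.inl_mem_mXC x⟩)

/-- the one-copy pin projector -/
noncomputable def mPin1 : Matrix (Cfg (rmIo io 𝔇.dst)) (Cfg (rmIo io 𝔇.dst)) ℂ :=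
  emb 𝔇.mXC (pureOp 𝔇.mPinVec)

/-- the one-copy post vector `Φ = B_{XC} ⊗ ψ` -/
noncomputable def mPhi : Cfg (rmIo io 𝔇.dst) → ℂ :=
  (((𝔇.dst : ℝ) / Real.sqrt 𝔇.z : ℝ) : ℂ) • (𝔇.mPin1 *ᵥ 𝔇.mPsi)

/-- the one-copy ground projector `|Ω⟩⟨Ω| ⊗ 1_{CR}` -/
noncomputable def mG1 : Matrix (Cfg (rmIo io 𝔇.dst)) (Cfg (rmIo io 𝔇.dst)) ℂ :=
  rmLift 𝔇.dst (pureOp 𝔇.S.Om)

/-! ### `κ` copies -/

variable (κ : Type) [Fintype κ] [DecidableEq κ]

/-- the projector `𝖯` on the full tensor space -/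
noncomputable def mPinK : Matrix (RCfg (rmIo io 𝔇.dst) κ) (RCfg (rmIo io 𝔇.dst) κ) ℂ :=
  topow κ 𝔇.mPin1

/-- `post = Φ^{⊗κ}` -/
noncomputable def mPost : RCfg (rmIo io 𝔇.dst) κ → ℂ := tpow κ 𝔇.mPhi

variable {κ}

/-- `π_R^{lam} post` -/
noncomputable def mPostL (lam : Rep.Irr (Equiv.Perm κ)) : RCfg (rmIo io 𝔇.dst) κ → ℂ :=
  labP {rmR} lam *ᵥ 𝔇.mPost κ

/-- `q = ‖π_R^{lam} post‖²` -/
noncomputable def mQ (lam : Rep.Irr (Equiv.Perm κ)) : ℝ :=
  (star (𝔇.mPostL lam) ⬝ᵥ 𝔇.mPostL lam).re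

/-- eq. (comparator:high-label) with tolerance `ε k` -/
def GoodLab (lam : Rep.Irr (Equiv.Perm κ)) (ε : ℝ) : Prop :=
  Real.exp (-(ε * Fintype.card κ)) ≤ 𝔇.mQ lam ∧
    |Real.log (Rep.dimI lam) - Fintype.card κ * 𝔇.S'| ≤ ε * Fintype.card κ

/-- exactly the physical copies in `B` are excited -/
noncomputable def mPos (B : Finset κ) :
    Matrix (RCfg (rmIo io 𝔇.dst) κ) (RCfg (rmIo io 𝔇.dst) κ) ℂ :=
  tprodOp fun j => if j ∈ B then 1 - 𝔇.mG1 else 𝔇.mG1

variable (κ)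

/-- the sets of at most `τ k` copies -/
noncomputable def mSmall : Finset (Finset κ) :=
  Finset.univ.filter fun B : Finset κ => (B.card : ℝ) ≤ 𝔇.τ * Fintype.card κ

/-- at most `τ k` physical copies are excited -/
noncomputable def mDef : Matrix (RCfg (rmIo io 𝔇.dst) κ) (RCfg (rmIo io 𝔇.dst) κ) ℂ :=
  ∑ B ∈ 𝔇.mSmall κ, 𝔇.mPos B

variable {κ}

/-- the projector of the lower comparison on the full tensor space -/
noncomputable def mLowFull (lam : Rep.Irr (Equiv.Perm κ)) :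
    Matrix (RCfg (rmIo io 𝔇.dst) κ) (RCfg (rmIo io 𝔇.dst) κ) ℂ :=
  𝔇.mDef κ * labP {rmC} lam * labP {rmR} lam

/-- the projector `Π` of the lower comparison on `Sym^κ 𝒱` -/
noncomputable def mLow (lam : Rep.Irr (Equiv.Perm κ)) : Matrix (𝔇.MIx κ) (𝔇.MIx κ) ℂ :=
  cmp (𝔇.mLowFull lam)

/-! ### the exponents of the lower pins -/

/-- `L` of (comparator:inverse-compression), rough version -/
noncomputable def LR (C : ℝ) : ℝ :=
  2 * 𝔇.S' - C * (𝔇.τ * 𝔇.ld + Real.binEntropy 𝔇.τ / 𝔇.a)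

/-- `L_{j,g}` of (comparator:inverse-compression), sharp version -/
noncomputable def LS (C : ℝ) (s : Finset Λ × Finset Λ) : ℝ :=
  2 * 𝔇.S' + (1 - 𝔇.τ) * 𝔇.gpre s -
    C * (𝔇.τ * 𝔇.ld + Real.binEntropy 𝔇.τ / 𝔇.a + 𝔇.a * 𝔇.BB)

end RepData

end Scan

end Claimed.Agent.R296
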