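import Mathlib

/-!
# Row 296: weighted binary trees (P1, Sections 6-8)

`MTree α` is a finite rooted binary tree whose internal vertices carry a real parameter `p`
(weight `1 - p` on the left child, `p` on the right child) and whose leaves carry labels in `α`.
This file contains only the classical (scalar) part: expectation, substitution, uniform trees,
interpolation, Jensen.  The evaluation by matrix geometric means lives elsewhere.
-/

set_option autoImplicit false

namespace Claimed.Agent.R296

/-- weighted binary trees with leaf labels in `α` -/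
inductive MTree (α : Type) : Type
  | leaf : α → MTree α
  | node : ℝ → MTree α → MTree α → MTree α

namespace MTree

variable {α β γ : Type}

/-- expectation of `f` under the terminal weights -/
def E : MTree α → (α → ℝ) → ℝ
  | leaf a, f => f a
  | node p l r, f => (1 - p) * E l f + p * E r f

/-- all parameters lie in `[0,1]` -/
def Valid : MTree α → Prop
  | leaf _ => True
  | node p l r => 0 ≤ p ∧ p ≤ 1 ∧ Valid l ∧ Valid r

/-- all parameters lie strictly between `0` and `1` -/
def SValid : MTree α → Prop
  | leaf _ => True
  | node p l r => 0 < p ∧ p < 1 ∧ SValid l ∧ SValid r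

/-- substitution of trees at the leaves -/
def bind : MTree α → (α → MTree β) → MTree β
  | leaf a, k => k a
  | node p l r, k => node p (bind l k) (bind r k)

/-- relabelling of the leaves -/
def map (g : α → β) : MTree α → MTree β
  | leaf a => leaf (g a)
  | node p l r => node p (map g l) (map g r)

/-- list of leaf labels, from left to right -/
def leaves : MTree α → List α
  | leaf a => [a]
  | node _ l r => leaves l ++ leaves r

/-- list of (terminal weight, label), from left to right -/
def wts : MTree α → List (ℝ × α)
  | leaf a => [(1, a)]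
  | node p l r => (wts l).map (fun x => ((1 - p) * x.1, x.2)) ++ (wts r).map (fun x => (p * x.1, x.2))

/-- every leaf label satisfies `P` -/
def All (P : α → Prop) : MTree α → Prop
  | leaf a => P a
  | node _ l r => All P l ∧ All P r

@[simp] theorem E_leaf (a : α) (f : α → ℝ) : E (leaf a) f = f a := rfl
@[simp] theorem E_node (p : ℝ) (l r : MTree α) (f : α → ℝ) :
    E (node p l r) f = (1 - p) * E l f + p * E r f := rfl

theorem E_const (t : MTree α) (c : ℝ) : E t (fun _ => c) = c := by
  induction t with
  | leaf a => rfl
  | node p l r ihl ihr => simp only [E_node, ihl, ihr]; ring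

theorem E_add (t : MTree α) (f g : α → ℝ) : E t (fun a => f a + g a) = E t f + E t g := by
  induction t with
  | leaf a => rfl
  | node p l r ihl ihr => simp only [E_node, ihl, ihr]; ring

theorem E_sub (t : MTree α) (f g : α → ℝ) : E t (fun a => f a - g a) = E t f - E t g := by
  induction t with
  | leaf a => rfl
  | node p l r ihl ihr => simp only [E_node, ihl, ihr]; ring

theorem E_mul_left (t : MTree α) (c : ℝ) (f : α → ℝ) : E t (fun a => c * f a) = c * E t f := by
  induction t with
  | leaf a => rfl
  | node p l r ihl ihr => simp only [E_node, ihl, ihr]; ring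

theorem E_mul_right (t : MTree α) (c : ℝ) (f : α → ℝ) : E t (fun a => f a * c) = E t f * c := by
  induction t with
  | leaf a => rfl
  | node p l r ihl ihr => simp only [E_node, ihl, ihr]; ring

theorem E_finset_sum {ι : Type} (t : MTree α) (s : Finset ι) (f : ι → α → ℝ) :
    E t (fun a => ∑ i ∈ s, f i a) = ∑ i ∈ s, E t (f i) := by
  classical
  induction s using Finset.induction_on with
  | empty => simpa using E_const t 0
  | insert i s hi ih =>
    simp only [Finset.sum_insert hi]
    rw [E_add, ih]

theorem All.imp {P Q : α → Prop} (h : ∀ a, P a → Q a) : ∀ {t : MTree α}, All P t → All Q t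
  | leaf _, ht => h _ ht
  | node _ _ _, ht => ⟨All.imp h ht.1, All.imp h ht.2⟩

theorem all_of_forall {P : α → Prop} (h : ∀ a, P a) : ∀ t : MTree α, All P t
  | leaf a => h a
  | node _ l r => ⟨all_of_forall h l, all_of_forall h r⟩

theorem all_iff_leaves {P : α → Prop} : ∀ t : MTree α, All P t ↔ ∀ a ∈ leaves t, P a
  | leaf a => by simp [All, leaves]
  | node _ l r => by
    simp only [All, leaves, List.mem_append, all_iff_leaves l, all_iff_leaves r]
    constructor
    · rintro ⟨h1, h2⟩ a (ha | ha)
      · exact h1 a ha
      · exact h2 a ha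
    · intro h
      exact ⟨fun a ha => h a (Or.inl ha), fun a ha => h a (Or.inr ha)⟩

/-- monotonicity, with the comparison only required at the leaves -/
theorem E_le_E_of_all {t : MTree α} (hv : Valid t) {f g : α → ℝ}
    (h : All (fun a => f a ≤ g a) t) : E t f ≤ E t g := by
  induction t with
  | leaf a => exact h
  | node p l r ihl ihr =>
    obtain ⟨h0, h1, hl, hr⟩ := hv
    have := ihl hl h.1
    have := ihr hr h.2
    simp only [E_node]
    have h1' : 0 ≤ 1 - p := by linarith
    nlinarith [mul_le_mul_of_nonneg_left (ihl hl h.1) h1', mul_le_mul_of_nonneg_left (ihr hr h.2) h0]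

theorem E_mono {t : MTree α} (hv : Valid t) {f g : α → ℝ} (h : ∀ a, f a ≤ g a) :
    E t f ≤ E t g :=
  E_le_E_of_all hv (all_of_forall h t)

theorem E_nonneg {t : MTree α} (hv : Valid t) {f : α → ℝ} (h : ∀ a, 0 ≤ f a) : 0 ≤ E t f := by
  have := E_mono hv (f := fun _ => 0) (g := f) h
  rwa [E_const] at this

theorem E_nonneg_of_all {t : MTree α} (hv : Valid t) {f : α → ℝ} (h : All (fun a => 0 ≤ f a) t) :
    0 ≤ E t f := by
  have := E_le_E_of_all hv (f := fun _ => 0) (g := f) h
  rwa [E_const] at this

theorem E_le_of_all {t : MTree α} (hv : Valid t) {f : α → ℝ} {c : ℝ}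
    (h : All (fun a => f a ≤ c) t) : E t f ≤ c := by
  have := E_le_E_of_all hv (f := f) (g := fun _ => c) h
  rwa [E_const] at this

theorem le_E_of_all {t : MTree α} (hv : Valid t) {f : α → ℝ} {c : ℝ}
    (h : All (fun a => c ≤ f a) t) : c ≤ E t f := by
  have := E_le_E_of_all hv (f := fun _ => c) (g := f) h
  rwa [E_const] at this

theorem E_congr_of_all {t : MTree α} {f g : α → ℝ} (h : All (fun a => f a = g a) t) :
    E t f = E t g := by
  induction t with
  | leaf a => exact h
  | node p l r ihl ihr => simp only [E_node, ihl h.1, ihr h.2]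

theorem E_bind (t : MTree α) (k : α → MTree β) (f : β → ℝ) :
    E (bind t k) f = E t (fun a => E (k a) f) := by
  induction t with
  | leaf a => rfl
  | node p l r ihl ihr => simp only [bind, E_node, ihl, ihr]

theorem E_map (g : α → β) (t : MTree α) (f : β → ℝ) : E (map g t) f = E t (fun a => f (g a)) := by
  induction t with
  | leaf a => rfl
  | node p l r ihl ihr => simp only [map, E_node, ihl, ihr]

theorem valid_bind {t : MTree α} {k : α → MTree β} (ht : Valid t) (hk : ∀ a, Valid (k a)) :
    Valid (bind t k) := by
  induction t with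
  | leaf a => exact hk a
  | node p l r ihl ihr => exact ⟨ht.1, ht.2.1, ihl ht.2.2.1, ihr ht.2.2.2⟩

theorem valid_map {g : α → β} {t : MTree α} (ht : Valid t) : Valid (map g t) := by
  induction t with
  | leaf a => trivial
  | node p l r ihl ihr => exact ⟨ht.1, ht.2.1, ihl ht.2.2.1, ihr ht.2.2.2⟩

theorem all_bind {P : α → Prop} {Q : β → Prop} {t : MTree α} {k : α → MTree β} (ht : All P t)
    (hk : ∀ a, P a → All Q (k a)) : All Q (bind t k) := by
  induction t with
  | leaf a => exact hk a ht
  | node p l r ihl ihr => exact ⟨ihl ht.1, ihr ht.2⟩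

theorem all_map {Q : β → Prop} {g : α → β} {t : MTree α} (ht : All (fun a => Q (g a)) t) :
    All Q (map g t) := by
  induction t with
  | leaf a => exact ht
  | node p l r ihl ihr => exact ⟨ihl ht.1, ihr ht.2⟩

theorem map_bind (g : β → γ) (t : MTree α) (k : α → MTree β) :
    map g (bind t k) = bind t (fun a => map g (k a)) := by
  induction t with
  | leaf a => rfl
  | node p l r ihl ihr => simp only [bind, map, ihl, ihr]

theorem bind_map (g : α → β) (t : MTree α) (k : β → MTree γ) :
    bind (map g t) k = bind t (fun a => k (g a)) := by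
  induction t with
  | leaf a => rfl
  | node p l r ihl ihr => simp only [bind, map, ihl, ihr]

theorem bind_assoc (t : MTree α) (k : α → MTree β) (k' : β → MTree γ) :
    bind (bind t k) k' = bind t (fun a => bind (k a) k') := by
  induction t with
  | leaf a => rfl
  | node p l r ihl ihr => simp only [bind, ihl, ihr]

theorem bind_leaf (t : MTree α) : bind t leaf = t := by
  induction t with
  | leaf a => rfl
  | node p l r ihl ihr => simp only [bind, ihl, ihr]

/-- expectation as a weighted sum over the list of terminal weights -/
theorem E_eq_sum_wts (t : MTree α) (f : α → ℝ) : E t f = ((wts t).map fun x => x.1 * f x.2).sum := by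
  induction t with
  | leaf a => simp [wts]
  | node p l r ihl ihr =>
    simp only [E_node, wts, List.map_append, List.map_map, List.sum_append, ihl, ihr]
    congr 1
    · rw [← List.sum_map_mul_left]
      congr 1
      apply List.map_congr_left
      intro x _
      simp [mul_assoc]
    · rw [← List.sum_map_mul_left]
      congr 1
      apply List.map_congr_left
      intro x _
      simp [mul_assoc]

/-! ### uniform trees -/

/-- caterpillar tree carrying the uniform law on the list `a :: l` -/
noncomputable def unif (a : α) : List α → MTree α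
  | [] => leaf a
  | b :: l => node (((l.length : ℝ) + 1) / ((l.length : ℝ) + 2)) (leaf a) (unif b l)

theorem valid_unif (a : α) (l : List α) : Valid (unif a l) := by
  induction l generalizing a with
  | nil => trivial
  | cons b l ih =>
    refine ⟨by positivity, ?_, trivial, ih b⟩
    rw [div_le_one (by positivity)]
    linarith

theorem E_unif (a : α) (l : List α) (f : α → ℝ) :
    E (unif a l) f = (f a + (l.map f).sum) / ((l.length : ℝ) + 1) := by
  induction l generalizing a with
  | nil => simp [unif]
  | cons b l ih =>
    simp only [unif, E_node, E_leaf, ih b, List.map_cons, List.sum_cons, List.length_cons,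
      Nat.cast_add, Nat.cast_one]
    have h1 : ((l.length : ℝ) + 1) ≠ 0 := by positivity
    have h2 : ((l.length : ℝ) + 2) ≠ 0 := by positivity
    have h3 : ((l.length : ℝ) + 1 + 1) ≠ 0 := by positivity
    field_simp
    ring

theorem leaves_unif (a : α) (l : List α) : leaves (unif a l) = a :: l := by
  induction l generalizing a with
  | nil => rfl
  | cons b l ih => simp [unif, leaves, ih b]

/-- the uniform tree over a nonempty list (junk value `leaf d` on the empty list) -/
noncomputable def unifL (d : α) : List α → MTree α
  | [] => leaf d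
  | a :: l => unif a l

theorem valid_unifL (d : α) (l : List α) : Valid (unifL d l) := by
  cases l with
  | nil => trivial
  | cons a l => exact valid_unif a l

theorem E_unifL (d : α) {l : List α} (hl : l ≠ []) (f : α → ℝ) :
    E (unifL d l) f = (l.map f).sum / (l.length : ℝ) := by
  cases l with
  | nil => exact absurd rfl hl
  | cons a l => simp [unifL, E_unif]

theorem leaves_unifL (d : α) {l : List α} (hl : l ≠ []) : leaves (unifL d l) = l := by
  cases l with
  | nil => exact absurd rfl hl
  | cons a l => simp [unifL, leaves_unif]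

/-- the uniform tree over a nonempty finite type, with labels `g i` -/
noncomputable def unifF (ι : Type) [Fintype ι] [Inhabited ι] (g : ι → α) : MTree α :=
  unifL (g default) ((Finset.univ : Finset ι).toList.map g)

theorem valid_unifF (ι : Type) [Fintype ι] [Inhabited ι] (g : ι → α) : Valid (unifF ι g) :=
  valid_unifL _ _

theorem E_unifF (ι : Type) [Fintype ι] [Inhabited ι] (g : ι → α) (f : α → ℝ) :
    E (unifF ι g) f = (∑ i, f (g i)) / (Fintype.card ι : ℝ) := by
  have hne : ((Finset.univ : Finset ι).toList.map g) ≠ [] := by
    intro h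
    have h2 : (Finset.univ : Finset ι).toList = [] := by simpa using h
    have : (default : ι) ∈ (Finset.univ : Finset ι).toList := by simp
    rw [h2] at this
    simp at this
  rw [unifF, E_unifL _ hne]
  congr 1
  · rw [List.map_map]
    exact Finset.sum_map_toList (Finset.univ : Finset ι) (fun i => f (g i))
  · simp [Finset.card_univ]

theorem all_unifF (ι : Type) [Fintype ι] [Inhabited ι] (g : ι → α) {P : α → Prop}
    (h : ∀ i, P (g i)) : All P (unifF ι g) := by
  rw [all_iff_leaves]
  have hne : ((Finset.univ : Finset ι).toList.map g) ≠ [] := by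
    intro h
    have h2 : (Finset.univ : Finset ι).toList = [] := by simpa using h
    have : (default : ι) ∈ (Finset.univ : Finset ι).toList := by simp
    rw [h2] at this
    simp at this
  rw [unifF, leaves_unifL _ hne]
  intro a ha
  obtain ⟨i, _, rfl⟩ := List.mem_map.1 ha
  exact h i

/-- the uniform tree over a finite type, with labels `g i` (junk value `leaf d` if `ι` is empty) -/
noncomputable def unifD (ι : Type) [Fintype ι] (d : α) (g : ι → α) : MTree α :=
  unifL d ((Finset.univ : Finset ι).toList.map g)

theorem valid_unifD (ι : Type) [Fintype ι] (d : α) (g : ι → α) : Valid (unifD ι d g) :=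
  valid_unifL _ _

theorem unifD_list_ne (ι : Type) [Fintype ι] [Nonempty ι] (g : ι → α) :
    ((Finset.univ : Finset ι).toList.map g) ≠ [] := by
  intro h
  have h2 : (Finset.univ : Finset ι).toList = [] := by simpa using h
  obtain ⟨i⟩ := (inferInstance : Nonempty ι)
  have : i ∈ (Finset.univ : Finset ι).toList := by simp
  rw [h2] at this
  simp at this

theorem E_unifD (ι : Type) [Fintype ι] [Nonempty ι] (d : α) (g : ι → α) (f : α → ℝ) :
    E (unifD ι d g) f = (∑ i, f (g i)) / (Fintype.card ι : ℝ) := by
  rw [unifD, E_unifL _ (unifD_list_ne ι g)]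
  congr 1
  · rw [List.map_map]
    exact Finset.sum_map_toList (Finset.univ : Finset ι) (fun i => f (g i))
  · simp [Finset.card_univ]

theorem all_unifD (ι : Type) [Fintype ι] (d : α) (g : ι → α) {P : α → Prop} (hd : P d)
    (h : ∀ i, P (g i)) : All P (unifD ι d g) := by
  rw [all_iff_leaves, unifD]
  cases hl : ((Finset.univ : Finset ι).toList.map g) with
  | nil => simpa [unifL, leaves] using hd
  | cons a l =>
    rw [leaves_unifL _ (by simp)]
    intro b hb
    rw [← hl] at hb
    obtain ⟨i, _, rfl⟩ := List.mem_map.1 hb
    exact h i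

theorem leaves_unifD (ι : Type) [Fintype ι] [Nonempty ι] (d : α) (g : ι → α) :
    leaves (unifD ι d g) = (Finset.univ : Finset ι).toList.map g := by
  rw [unifD, leaves_unifL _ (unifD_list_ne ι g)]

/-! ### interpolation of one round -/

/-- every old leaf `h` is replaced by the vertex `h #_p (choice tree of h)` -/
def interp (p : ℝ) (Hs : MTree α) (Ch : α → MTree α) : MTree α :=
  bind Hs fun h => node p (leaf h) (Ch h)

theorem E_interp (p : ℝ) (Hs : MTree α) (Ch : α → MTree α) (f : α → ℝ) :
    E (interp p Hs Ch) f = (1 - p) * E Hs f + p * E (bind Hs Ch) f := by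
  rw [interp, E_bind, E_bind]
  simp only [E_node, E_leaf]
  rw [E_add, E_mul_left, E_mul_left]

theorem valid_interp {p : ℝ} (h0 : 0 ≤ p) (h1 : p ≤ 1) {Hs : MTree α} {Ch : α → MTree α}
    (hH : Valid Hs) (hC : ∀ a, Valid (Ch a)) : Valid (interp p Hs Ch) :=
  valid_bind hH fun a => ⟨h0, h1, trivial, hC a⟩

theorem all_interp {P : α → Prop} {p : ℝ} {Hs : MTree α} {Ch : α → MTree α} (hH : All P Hs)
    (hC : ∀ a, P a → All P (Ch a)) : All P (interp p Hs Ch) :=
  all_bind hH fun a ha => ⟨ha, hC a ha⟩

/-! ### Jensen -/

/-- Jensen for a concave function on `[0,∞)` -/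
theorem E_concave_le {t : MTree α} (hv : Valid t) {φ : ℝ → ℝ} (hφ : ConcaveOn ℝ (Set.Ici 0) φ)
    {f : α → ℝ} (hf : ∀ a, 0 ≤ f a) : E t (fun a => φ (f a)) ≤ φ (E t f) := by
  induction t with
  | leaf a => exact le_rfl
  | node p l r ihl ihr =>
    obtain ⟨h0, h1, hl, hr⟩ := hv
    have h1' : 0 ≤ 1 - p := by linarith
    have hc := hφ.2 (x := E l f) (y := E r f) (E_nonneg hl hf) (E_nonneg hr hf) h1' h0 (by ring)
    simp only [smul_eq_mul] at hc
    simp only [E_node]
    calc (1 - p) * E l (fun a => φ (f a)) + p * E r (fun a => φ (f a))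
        ≤ (1 - p) * φ (E l f) + p * φ (E r f) := by
          nlinarith [mul_le_mul_of_nonneg_left (ihl hl) h1', mul_le_mul_of_nonneg_left (ihr hr) h0]
      _ ≤ _ := hc

/-- `E (f^s) ≤ (E f)^s` for `0 ≤ s ≤ 1` -/
theorem E_rpow_le {t : MTree α} (hv : Valid t) {s : ℝ} (hs0 : 0 ≤ s) (hs1 : s ≤ 1) {f : α → ℝ}
    (hf : ∀ a, 0 ≤ f a) : E t (fun a => f a ^ s) ≤ E t f ^ s :=
  E_concave_le hv (Real.concaveOn_rpow hs0 hs1) hf

/-! ### strict validity -/

theorem SValid.valid : ∀ {t : MTree α}, SValid t → Valid t
  | leaf _, _ => trivial
  | node _ _ _, h => ⟨h.1.le, h.2.1.le, SValid.valid h.2.2.1, SValid.valid h.2.2.2⟩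

theorem svalid_unif (a : α) (l : List α) : SValid (unif a l) := by
  induction l generalizing a with
  | nil => trivial
  | cons b l ih =>
    refine ⟨by positivity, ?_, trivial, ih b⟩
    rw [div_lt_one (by positivity)]
    linarith

theorem svalid_unifL (d : α) (l : List α) : SValid (unifL d l) := by
  cases l with
  | nil => trivial
  | cons a l => exact svalid_unif a l

theorem svalid_unifD (ι : Type) [Fintype ι] (d : α) (g : ι → α) : SValid (unifD ι d g) :=
  svalid_unifL _ _

theorem svalid_bind {t : MTree α} {k : α → MTree β} (ht : SValid t)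
    (hk : All (fun a => SValid (k a)) t) : SValid (bind t k) := by
  induction t with
  | leaf a => exact hk
  | node p l r ihl ihr => exact ⟨ht.1, ht.2.1, ihl ht.2.2.1 hk.1, ihr ht.2.2.2 hk.2⟩

theorem svalid_map {g : α → β} {t : MTree α} (ht : SValid t) : SValid (map g t) := by
  induction t with
  | leaf a => trivial
  | node p l r ihl ihr => exact ⟨ht.1, ht.2.1, ihl ht.2.2.1, ihr ht.2.2.2⟩

theorem valid_of_map {g : α → β} : ∀ {t : MTree α}, Valid (map g t) → Valid t
  | leaf _, _ => trivial
  | node _ _ _, h => ⟨h.1, h.2.1, valid_of_map h.2.2.1, valid_of_map h.2.2.2⟩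


end MTree

end Claimed.Agent.R296
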