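import Claimed.Agent.R296.Replica.Band
import Claimed.Agent.R296.Scan.Api
import Claimed.Agent.R296.Scan.Typ

/-!
# Row 296, P1 Section 7, package S7-MOM: moments and tails of Schur labels in product vectors

Architect: helper218.  Prefix `cm_`.  ONE owner.
(eqs. comparator:label-remainder, comparator:signed-label-moments; `lem:schur` (5) of Section 5.)

Layers:
* A: any finite group `G`, unitary representation `U` on `Matrix n n ℂ`, invariant PSD `ρ`, `Tr ρ ≤ 1`.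
  With `t_{i,r} = Tr (P_r π_i) ≥ 0` (`P_r` spectral projector of `ρ` for the eigenvalue `r > 0`, `π_i = U(idem i)`):
  `t_{i,r} ≠ 0 → r d_i ≤ 1` (`Rep.inv_density_le` / `Rep.dimI_le_trace`), `t_{i,r} = d_i m_{i,r}`, `m_{i,r} ∈ ℕ`
  (`Rep.mult_nat`), `∑_r m_{i,r} ≤ Tr π_i / d_i`.
  - `cm_abs_moment_pos`: `d_i^u ≤ r^{-u}`;
  - `cm_abs_moment_neg`: Cauchy-Schwarz `∑ d^{-u} r t = ∑ (r^{1/2+u} t^{1/2}) (d^{-u} r^{1/2-u} t^{1/2})` and
    `∑ d_i^{-2u} r^{1-2u} t_{i,r} = ∑ (r d_i)^{1-2u} m_{i,r} ≤ ∑ m_{i,r}`.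
* B: tensor powers on `κ → α` (`Rep.tpow`, `Rep.tRep`): Rényi sums are multiplicative, total multiplicity is
  polynomial (`Rep.trace_tRep_idem_le`, `Rep.card_occurring_le`), monotonicity of tensor powers.
* C: product vectors `tpow κ θ` of the replica system: `⟨θ^κ, U_Q(y) θ^κ⟩ = Tr (ρ_Q^{⊗κ} tRep y)`
  (`repQ_eq_liftQ`, entrywise).
* D: scalar: derivative of the Rényi sums at exponent `1`.
* E: exponential tails of `log d_λ` around `k S(ρ_Q)`.
-/

set_option autoImplicit false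
set_option linter.unusedSectionVars false
set_option linter.unusedVariables false

namespace Claimed.Agent.R296

open Matrix Finset
open scoped ComplexOrder MatrixOrder

/-! ### A: abstract -/

section Abs

variable {G : Type} [Group G] [Fintype G] {n : Type} [Fintype n] [DecidableEq n]

/-- total multiplicity `∑_i Tr U(idem i) / d_i` of a representation -/
noncomputable def cmMult (U : G →* Matrix n n ℂ) : ℝ :=
  ∑ i : Rep.Irr G, (trace (Rep.repAlg U (Rep.idem i))).re / (Rep.dimI i : ℝ)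

/-- spectral form of the Renyi sums -/
theorem cm_renyi_eq {ρ : Matrix n n ℂ} (hρ : ρ.IsHermitian) (r : ℝ) :
    Scan.renyiTr ρ r = ∑ k, tlPw (hρ.eigenvalues k) r := by
  rw [Scan.renyiTr_eq_tlRenyi]
  exact tl_specSum_eq hρ fun x => tlPw x r

/-- the matrix `E` in the eigenbasis of `ρ` -/
noncomputable def cmRot {ρ : Matrix n n ℂ} (hρ : ρ.IsHermitian) (E : Matrix n n ℂ) : Matrix n n ℂ :=
  (hρ.eigenvectorUnitary : Matrix n n ℂ)ᴴ * E * (hρ.eigenvectorUnitary : Matrix n n ℂ)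

theorem cm_VV {ρ : Matrix n n ℂ} (hρ : ρ.IsHermitian) :
    (hρ.eigenvectorUnitary : Matrix n n ℂ)ᴴ * (hρ.eigenvectorUnitary : Matrix n n ℂ) = 1 :=
  Unitary.star_mul_self_of_mem hρ.eigenvectorUnitary.2

theorem cm_VV' {ρ : Matrix n n ℂ} (hρ : ρ.IsHermitian) :
    (hρ.eigenvectorUnitary : Matrix n n ℂ) * (hρ.eigenvectorUnitary : Matrix n n ℂ)ᴴ = 1 :=
  Unitary.mul_star_self_of_mem hρ.eigenvectorUnitary.2

theorem cm_spec {ρ : Matrix n n ℂ} (hρ : ρ.IsHermitian) :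
    ρ = (hρ.eigenvectorUnitary : Matrix n n ℂ) *
      diagonal (fun j => ((hρ.eigenvalues j : ℝ) : ℂ)) * (hρ.eigenvectorUnitary : Matrix n n ℂ)ᴴ := by
  have := hρ.spectral_theorem
  rw [Unitary.conjStarAlgAut_apply] at this
  exact this

theorem cmRot_mul_left {ρ : Matrix n n ℂ} (hρ : ρ.IsHermitian) (E : Matrix n n ℂ) :
    cmRot hρ (ρ * E) = diagonal (fun j => ((hρ.eigenvalues j : ℝ) : ℂ)) * cmRot hρ E := by
  unfold cmRot
  have h := congrArg (fun X => (hρ.eigenvectorUnitary : Matrix n n ℂ)ᴴ * X) (cm_spec hρ)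
  simp only [← Matrix.mul_assoc] at h
  rw [cm_VV hρ, Matrix.one_mul] at h
  rw [← Matrix.mul_assoc, h]
  simp only [Matrix.mul_assoc]

theorem cmRot_trace {ρ : Matrix n n ℂ} (hρ : ρ.IsHermitian) (E : Matrix n n ℂ) :
    trace (cmRot hρ E) = trace E := by
  unfold cmRot
  rw [Matrix.mul_assoc, trace_mul_comm, Matrix.mul_assoc, cm_VV' hρ, Matrix.mul_one]

theorem cmRot_posSemidef {ρ : Matrix n n ℂ} (hρ : ρ.IsHermitian) {E : Matrix n n ℂ}
    (hE : E.PosSemidef) : (cmRot hρ E).PosSemidef :=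
  hE.conjTranspose_mul_mul_same _

theorem cm_trace_mul {ρ : Matrix n n ℂ} (hρ : ρ.IsHermitian) (E : Matrix n n ℂ) :
    (trace (ρ * E)).re = ∑ k, hρ.eigenvalues k * (cmRot hρ E k k).re := by
  rw [← cmRot_trace hρ, cmRot_mul_left, trace, Complex.re_sum]
  refine Finset.sum_congr rfl fun k _ => ?_
  rw [diag_apply, diagonal_mul, Complex.re_ofReal_mul]

/-- weight of the block `i` in the `k`-th eigenvector of `ρ` -/
noncomputable def cmW (U : G →* Matrix n n ℂ) {ρ : Matrix n n ℂ} (hρ : ρ.IsHermitian)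
    (i : Rep.Irr G) (k : n) : ℝ :=
  (cmRot hρ (Rep.repAlg U (Rep.idem i)) k k).re

theorem cmW_nonneg (U : G →* Matrix n n ℂ) (hU : ∀ g, (U g)ᴴ = U g⁻¹) {ρ : Matrix n n ℂ}
    (hρ : ρ.IsHermitian) (i : Rep.Irr G) (k : n) : 0 ≤ cmW U hρ i k :=
  (Complex.le_def.1 ((cmRot_posSemidef hρ (Rep.repAlg_idem_posSemidef U hU i)).diag_nonneg
    (i := k))).1

theorem cmW_sum_irr (U : G →* Matrix n n ℂ) {ρ : Matrix n n ℂ} (hρ : ρ.IsHermitian) (k : n) :
    ∑ i, cmW U hρ i k = 1 := by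
  have h1 : ∑ i, cmRot hρ (Rep.repAlg U (Rep.idem i)) = 1 := by
    unfold cmRot
    rw [← Finset.sum_mul, ← Finset.mul_sum, ← map_sum, Rep.sum_idem, map_one, Matrix.mul_one,
      cm_VV hρ]
  have h2 := congrFun (congrFun h1 k) k
  rw [Matrix.sum_apply, Matrix.one_apply_eq] at h2
  have h3 := congrArg Complex.re h2
  rw [Complex.re_sum, Complex.one_re] at h3
  exact h3

theorem cmW_sum_eig (U : G →* Matrix n n ℂ) {ρ : Matrix n n ℂ} (hρ : ρ.IsHermitian)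
    (i : Rep.Irr G) : ∑ k, cmW U hρ i k = (trace (Rep.repAlg U (Rep.idem i))).re := by
  rw [← cmRot_trace hρ, trace, Complex.re_sum]
  rfl

theorem cm_trace_eq (U : G →* Matrix n n ℂ) {ρ : Matrix n n ℂ} (hρ : ρ.IsHermitian)
    (i : Rep.Irr G) :
    (trace (ρ * Rep.repAlg U (Rep.idem i))).re = ∑ k, hρ.eigenvalues k * cmW U hρ i k :=
  cm_trace_mul hρ _

/-- every eigenvalue met by the block `i` is at most `1 / d_i` -/
theorem cmW_le (U : G →* Matrix n n ℂ) (hU : ∀ g, (U g)ᴴ = U g⁻¹) (ρ : Matrix n n ℂ)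
    (hρ : ρ.PosSemidef) (htr : (trace ρ).re ≤ 1) (hc : ∀ g, ρ * U g = U g * ρ) (i : Rep.Irr G)
    (k : n) (hk : 0 < cmW U hρ.1 i k) : hρ.1.eigenvalues k * (Rep.dimI i : ℝ) ≤ 1 := by
  have h1 := (cmRot_posSemidef hρ.1 (Rep.inv_density_le U hU ρ hρ htr hc i)).diag_nonneg (i := k)
  have h2 : cmRot hρ.1 (((Rep.dimI i : ℂ))⁻¹ • Rep.repAlg U (Rep.idem i)
      - ρ * Rep.repAlg U (Rep.idem i)) =
      ((Rep.dimI i : ℂ))⁻¹ • cmRot hρ.1 (Rep.repAlg U (Rep.idem i)) -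
        diagonal (fun j => ((hρ.1.eigenvalues j : ℝ) : ℂ)) *
          cmRot hρ.1 (Rep.repAlg U (Rep.idem i)) := by
    rw [← cmRot_mul_left]
    unfold cmRot
    rw [Matrix.mul_sub, Matrix.sub_mul, Matrix.mul_smul, Matrix.smul_mul]
  rw [h2, Matrix.sub_apply, Matrix.smul_apply, diagonal_mul, smul_eq_mul] at h1
  have h3 := (Complex.le_def.1 h1).1
  have h4 : ((Rep.dimI i : ℂ))⁻¹ = (((Rep.dimI i : ℝ)⁻¹ : ℝ) : ℂ) := by push_cast; ring
  rw [h4, Complex.sub_re, Complex.re_ofReal_mul, Complex.re_ofReal_mul, Complex.zero_re] at h3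
  have hd : (0 : ℝ) < Rep.dimI i := by exact_mod_cast Rep.dimI_pos i
  change 0 ≤ (Rep.dimI i : ℝ)⁻¹ * cmW U hρ.1 i k - hρ.1.eigenvalues k * cmW U hρ.1 i k at h3
  have h5 : hρ.1.eigenvalues k ≤ (Rep.dimI i : ℝ)⁻¹ := by
    by_contra hcon
    rw [not_le] at hcon
    nlinarith
  calc hρ.1.eigenvalues k * (Rep.dimI i : ℝ) ≤ (Rep.dimI i : ℝ)⁻¹ * (Rep.dimI i : ℝ) :=
        mul_le_mul_of_nonneg_right h5 hd.le
    _ = 1 := inv_mul_cancel₀ hd.ne'

theorem cm_abs_prob_nonneg (U : G →* Matrix n n ℂ) (hU : ∀ g, (U g)ᴴ = U g⁻¹) (ρ : Matrix n n ℂ)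
    (hρ : ρ.PosSemidef) (hc : ∀ g, ρ * U g = U g * ρ) (i : Rep.Irr G) :
    0 ≤ (trace (ρ * Rep.repAlg U (Rep.idem i))).re := by
  rw [cm_trace_eq U hρ.1]
  exact Finset.sum_nonneg fun k _ => mul_nonneg (hρ.eigenvalues_nonneg k) (cmW_nonneg U hU _ i k)

theorem cm_abs_moment_pos (U : G →* Matrix n n ℂ) (hU : ∀ g, (U g)ᴴ = U g⁻¹) (ρ : Matrix n n ℂ)
    (hρ : ρ.PosSemidef) (htr : (trace ρ).re ≤ 1) (hc : ∀ g, ρ * U g = U g * ρ) {u : ℝ}
    (hu : 0 ≤ u) :
    ∑ i : Rep.Irr G, (Rep.dimI i : ℝ) ^ u * (trace (ρ * Rep.repAlg U (Rep.idem i))).re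
      ≤ Scan.renyiTr ρ (1 - u) := by
  rw [cm_renyi_eq hρ.1]
  calc ∑ i : Rep.Irr G, (Rep.dimI i : ℝ) ^ u * (trace (ρ * Rep.repAlg U (Rep.idem i))).re
      = ∑ k, ∑ i : Rep.Irr G, (Rep.dimI i : ℝ) ^ u * (hρ.1.eigenvalues k * cmW U hρ.1 i k) := by
        rw [Finset.sum_comm]
        refine Finset.sum_congr rfl fun i _ => ?_
        rw [cm_trace_eq U hρ.1, Finset.mul_sum]
    _ ≤ ∑ k, ∑ i : Rep.Irr G, tlPw (hρ.1.eigenvalues k) (1 - u) * cmW U hρ.1 i k := by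
        refine Finset.sum_le_sum fun k _ => Finset.sum_le_sum fun i _ => ?_
        have hw := cmW_nonneg U hU hρ.1 i k
        have hl := hρ.eigenvalues_nonneg k
        have hd : (0 : ℝ) < Rep.dimI i := by exact_mod_cast Rep.dimI_pos i
        rcases hw.eq_or_lt with hw0 | hw0
        · rw [← hw0]; simp
        rcases hl.eq_or_lt with hl0 | hl0
        · rw [← hl0]
          simp only [zero_mul, mul_zero]
          exact mul_nonneg (tlPw_nonneg _ _) hw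
        have h1 := cmW_le U hU ρ hρ htr hc i k hw0
        rw [← mul_assoc]
        refine mul_le_mul_of_nonneg_right ?_ hw
        rw [tlPw, if_pos hl0, Real.rpow_sub hl0, Real.rpow_one, le_div_iff₀ (Real.rpow_pos_of_pos hl0 u)]
        calc (Rep.dimI i : ℝ) ^ u * hρ.1.eigenvalues k * hρ.1.eigenvalues k ^ u
            = hρ.1.eigenvalues k * (hρ.1.eigenvalues k * (Rep.dimI i : ℝ)) ^ u := by
              rw [Real.mul_rpow hl0.le hd.le]; ring
          _ ≤ hρ.1.eigenvalues k * 1 :=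
              mul_le_mul_of_nonneg_left (Real.rpow_le_one (mul_nonneg hl0.le hd.le) h1 hu) hl0.le
          _ = _ := mul_one _
    _ = ∑ k, tlPw (hρ.1.eigenvalues k) (1 - u) := by
        refine Finset.sum_congr rfl fun k _ => ?_
        rw [← Finset.mul_sum, cmW_sum_irr, mul_one]

theorem cm_scalar_neg {l d w u : ℝ} (hl : 0 < l) (hd : 0 < d) (hw : 0 ≤ w) (hld : l * d ≤ 1)
    (hu1 : 2 * u ≤ 1) :
    d ^ (-u) * (l * w) ≤ Real.sqrt (l ^ (1 + 2 * u) * w) * Real.sqrt (w / d) := by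
  have hp : 0 < l ^ (1 + 2 * u) := Real.rpow_pos_of_pos hl _
  rw [← Real.sqrt_mul (mul_nonneg hp.le hw)]
  apply Real.le_sqrt_of_sq_le
  have hx : (l * d) ^ (1 - 2 * u) ≤ 1 :=
    Real.rpow_le_one (mul_pos hl hd).le hld (by linarith)
  have e : (d ^ (-u) * l) ^ 2 = l ^ (1 + 2 * u) / d * (l * d) ^ (1 - 2 * u) := by
    obtain ⟨a, rfl⟩ : ∃ a, l = Real.exp a := ⟨Real.log l, (Real.exp_log hl).symm⟩
    obtain ⟨b, rfl⟩ : ∃ b, d = Real.exp b := ⟨Real.log d, (Real.exp_log hd).symm⟩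
    rw [← Real.exp_add, ← Real.exp_mul, ← Real.exp_mul, ← Real.exp_mul, ← Real.exp_add, sq,
      ← Real.exp_add, div_eq_mul_inv, ← Real.exp_neg, ← Real.exp_add, ← Real.exp_add]
    congr 1
    ring
  have key : (d ^ (-u) * l) ^ 2 ≤ l ^ (1 + 2 * u) / d := by
    rw [e]
    exact mul_le_of_le_one_right (div_pos hp hd).le hx
  calc (d ^ (-u) * (l * w)) ^ 2 = (d ^ (-u) * l) ^ 2 * w ^ 2 := by ring
    _ ≤ l ^ (1 + 2 * u) / d * w ^ 2 := mul_le_mul_of_nonneg_right key (sq_nonneg w)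
    _ = l ^ (1 + 2 * u) * w * (w / d) := by ring

theorem cm_abs_moment_neg (U : G →* Matrix n n ℂ) (hU : ∀ g, (U g)ᴴ = U g⁻¹) (ρ : Matrix n n ℂ)
    (hρ : ρ.PosSemidef) (htr : (trace ρ).re ≤ 1) (hc : ∀ g, ρ * U g = U g * ρ) {u : ℝ}
    (hu0 : 0 ≤ u) (hu1 : 2 * u ≤ 1) :
    ∑ i : Rep.Irr G, (Rep.dimI i : ℝ) ^ (-u) * (trace (ρ * Rep.repAlg U (Rep.idem i))).re
      ≤ Real.sqrt (Scan.renyiTr ρ (1 + 2 * u)) * Real.sqrt (cmMult U) := by
  have hA : Scan.renyiTr ρ (1 + 2 * u) = ∑ p : Rep.Irr G × n,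
      Real.sqrt (tlPw (hρ.1.eigenvalues p.2) (1 + 2 * u) * cmW U hρ.1 p.1 p.2) ^ 2 := by
    rw [cm_renyi_eq hρ.1, Fintype.sum_prod_type_right]
    refine Finset.sum_congr rfl fun k _ => ?_
    rw [← mul_one (tlPw _ _), ← cmW_sum_irr U hρ.1 k, Finset.mul_sum]
    refine Finset.sum_congr rfl fun i _ => ?_
    rw [Real.sq_sqrt (mul_nonneg (tlPw_nonneg _ _) (cmW_nonneg U hU hρ.1 i k))]
  have hB : cmMult U = ∑ p : Rep.Irr G × n,
      Real.sqrt (cmW U hρ.1 p.1 p.2 / (Rep.dimI p.1 : ℝ)) ^ 2 := by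
    rw [cmMult, Fintype.sum_prod_type]
    refine Finset.sum_congr rfl fun i _ => ?_
    rw [← cmW_sum_eig U hρ.1, Finset.sum_div]
    refine Finset.sum_congr rfl fun k _ => ?_
    rw [Real.sq_sqrt (div_nonneg (cmW_nonneg U hU hρ.1 i k) (Nat.cast_nonneg _))]
  rw [hA, hB]
  refine le_trans ?_ (Real.sum_mul_le_sqrt_mul_sqrt _ _ _)
  rw [Fintype.sum_prod_type]
  refine Finset.sum_le_sum fun i _ => ?_
  rw [cm_trace_eq U hρ.1, Finset.mul_sum]
  refine Finset.sum_le_sum fun k _ => ?_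
  have hw := cmW_nonneg U hU hρ.1 i k
  have hl := hρ.eigenvalues_nonneg k
  have hd : (0 : ℝ) < Rep.dimI i := by exact_mod_cast Rep.dimI_pos i
  rcases hw.eq_or_lt with hw0 | hw0
  · rw [← hw0]; simp
  rcases hl.eq_or_lt with hl0 | hl0
  · rw [← hl0]
    simp only [zero_mul, mul_zero]
    positivity
  simp only
  rw [tlPw, if_pos hl0]
  exact cm_scalar_neg hl0 hd hw (cmW_le U hU ρ hρ htr hc i k hw0) hu1

end Abs

/-! ### B: tensor powers -/

section Tensor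

variable {α : Type} [Fintype α] [DecidableEq α] {κ : Type} [Fintype κ] [DecidableEq κ]

theorem cm_renyi_of_diag {n : Type} [Fintype n] [DecidableEq n] {M U W : Matrix n n ℂ} {d : n → ℝ}
    (hWU : W * U = 1) (hM : M = U * diagonal (fun i => (d i : ℂ)) * W) (r : ℝ) :
    Scan.renyiTr M r = ∑ i, tlPw (d i) r := by
  have h1 : M.charpoly = ∏ i, (Polynomial.X - Polynomial.C (d i : ℂ)) := by
    rw [hM, Matrix.charpoly_mul_comm, ← Matrix.mul_assoc, hWU, Matrix.one_mul,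
      Matrix.charpoly_diagonal]
  rw [Scan.renyiTr_eq_tlRenyi, tlRenyi, h1, Polynomial.roots_prod]
  · simp
  · simp [Finset.prod_ne_zero_iff, Polynomial.X_sub_C_ne_zero]

theorem cm_tlPw_prod {ι : Type} (S : Finset ι) (x : ι → ℝ) (hx : ∀ j ∈ S, 0 ≤ x j) (r : ℝ) :
    tlPw (∏ j ∈ S, x j) r = ∏ j ∈ S, tlPw (x j) r := by
  by_cases h : ∀ j ∈ S, 0 < x j
  · rw [tlPw, if_pos (Finset.prod_pos h), ← Real.finsetProd_rpow S x hx]
    refine Finset.prod_congr rfl fun j hj => ?_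
    rw [tlPw, if_pos (h j hj)]
  · push Not at h
    obtain ⟨j, hj, hj0⟩ := h
    have h0 : x j = 0 := le_antisymm hj0 (hx j hj)
    rw [Finset.prod_eq_zero hj h0, Finset.prod_eq_zero hj (by rw [h0]; simp [tlPw])]
    simp [tlPw]

theorem cm_renyi_tpow {ρ : Matrix α α ℂ} (hρ : ρ.PosSemidef) (r : ℝ) :
    Scan.renyiTr (Rep.tpow κ ρ) r = Scan.renyiTr ρ r ^ Fintype.card κ := by
  have h1 : Rep.tpow κ ρ = Rep.tpow κ (hρ.1.eigenvectorUnitary : Matrix α α ℂ) *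
      diagonal (fun f : κ → α => ((∏ j, hρ.1.eigenvalues (f j) : ℝ) : ℂ)) *
      Rep.tpow κ (hρ.1.eigenvectorUnitary : Matrix α α ℂ)ᴴ := by
    have h2 : (fun f : κ → α => ((∏ j, hρ.1.eigenvalues (f j) : ℝ) : ℂ)) =
        fun f : κ → α => ∏ j, ((hρ.1.eigenvalues (f j) : ℝ) : ℂ) := by
      funext f
      push_cast
      rfl
    rw [h2, ← Rep.tpow_diagonal (κ := κ) (fun a => ((hρ.1.eigenvalues a : ℝ) : ℂ)), ← Rep.tpow_mul,
      ← Rep.tpow_mul, ← cm_spec hρ.1]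
  rw [cm_renyi_of_diag (by rw [← Rep.tpow_mul, cm_VV, Rep.tpow_one]) h1, cm_renyi_eq hρ.1,
    ← Finset.card_univ, ← Finset.prod_const, Fintype.prod_sum]
  refine Finset.sum_congr rfl fun f _ => ?_
  exact cm_tlPw_prod _ _ (fun j _ => hρ.eigenvalues_nonneg _) r

theorem cm_tpow_posSemidef {ρ : Matrix α α ℂ} (hρ : ρ.PosSemidef) : (Rep.tpow κ ρ).PosSemidef :=
  Rep.tpow_posSemidef ρ hρ

theorem cm_trace_tpow (ρ : Matrix α α ℂ) : trace (Rep.tpow κ ρ) = trace ρ ^ Fintype.card κ :=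
  Rep.trace_tpow ρ

/-- general product operators on `κ → α` -/
def cmMix (X : κ → Matrix α α ℂ) : Matrix (κ → α) (κ → α) ℂ :=
  Matrix.of fun f g => ∏ j, X j (f j) (g j)

theorem cmMix_apply (X : κ → Matrix α α ℂ) (f g : κ → α) : cmMix X f g = ∏ j, X j (f j) (g j) := rfl

theorem cmMix_mul (X Y : κ → Matrix α α ℂ) : cmMix (fun j => X j * Y j) = cmMix X * cmMix Y := by
  ext f g
  simp only [cmMix_apply, Matrix.mul_apply]
  rw [Fintype.prod_sum]
  refine Finset.sum_congr rfl fun h _ => ?_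
  rw [Finset.prod_mul_distrib]

theorem cmMix_conjTranspose (X : κ → Matrix α α ℂ) : (cmMix X)ᴴ = cmMix fun j => (X j)ᴴ := by
  ext f g
  simp only [cmMix_apply, conjTranspose_apply, star_prod]

theorem cmMix_posSemidef {X : κ → Matrix α α ℂ} (hX : ∀ j, (X j).PosSemidef) :
    (cmMix X).PosSemidef := by
  choose B hB using fun j => hs_exists_eq_conjTranspose_mul_self (hX j)
  have : cmMix X = (cmMix B)ᴴ * cmMix B := by
    rw [cmMix_conjTranspose, ← cmMix_mul]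
    congr 1
    funext j
    exact hB j
  rw [this]
  exact posSemidef_conjTranspose_mul_self _

/-- `0 ≤ A ≤ B ⟹ A^{⊗κ} ≤ B^{⊗κ}` -/
theorem cm_tpow_mono {A B : Matrix α α ℂ} (hA : A.PosSemidef) (h : A ≤ B) :
    Rep.tpow κ A ≤ Rep.tpow κ B := by
  rw [Matrix.le_iff] at h ⊢
  have h1 : Rep.tpow κ B = ∑ t ∈ (Finset.univ : Finset κ).powerset,
      cmMix fun j => if j ∈ t then A else B - A := by
    ext f g
    rw [Matrix.sum_apply, Rep.tpow_apply]
    have h2 : ∀ j, B (f j) (g j) = A (f j) (g j) + (B - A) (f j) (g j) := fun j => by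
      rw [Matrix.sub_apply]; ring
    simp only [h2]
    rw [Finset.prod_add]
    refine Finset.sum_congr rfl fun t _ => ?_
    rw [cmMix_apply, ← Finset.prod_sdiff (Finset.subset_univ t), mul_comm]
    congr 1
    · refine Finset.prod_congr rfl fun j hj => ?_
      rw [if_neg (Finset.mem_sdiff.1 hj).2]
    · refine Finset.prod_congr rfl fun j hj => ?_
      rw [if_pos hj]
  have h3 : Rep.tpow κ A = cmMix fun j => if j ∈ (Finset.univ : Finset κ) then A else B - A := by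
    ext f g
    simp [cmMix_apply, Rep.tpow_apply]
  rw [h1, ← Finset.sum_erase_add _ _ (Finset.mem_powerset.2 (Finset.Subset.refl _)), ← h3,
    add_sub_cancel_right]
  refine Matrix.posSemidef_sum _ fun t _ => cmMix_posSemidef fun j => ?_
  split_ifs
  · exact hA
  · exact h

theorem cm_tpow_smul (c : ℂ) (A : Matrix α α ℂ) :
    Rep.tpow κ (c • A) = c ^ Fintype.card κ • Rep.tpow κ A :=
  Rep.tpow_smul c A

/-- the total multiplicity of `(ℂ^α)^{⊗κ}` is polynomial in `k` -/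
theorem cm_mult_le (d : ℕ) (hα : Fintype.card α ≤ d) :
    cmMult (Rep.tU α κ) ≤
      ((Fintype.card κ : ℝ) + 1) ^ d * ((Fintype.card κ : ℝ) + d) ^ (d * (d - 1) / 2) := by
  classical
  set S := Finset.univ.filter fun i : Rep.Irr (Equiv.Perm κ) => Rep.tRep α κ (Rep.idem i) ≠ 0
    with hS
  have hcard : (S.card : ℝ) ≤ ((Fintype.card κ : ℝ) + 1) ^ d := by
    have := Rep.card_occurring_le (α := α) (κ := κ) d hα
    have h2 : S.card ≤ (Fintype.card κ + 1) ^ d := by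
      convert this
    exact_mod_cast h2
  have hterm : ∀ i : Rep.Irr (Equiv.Perm κ),
      (trace (Rep.repAlg (Rep.tU α κ) (Rep.idem i))).re / (Rep.dimI i : ℝ) ≤
        if i ∈ S then ((Fintype.card κ : ℝ) + d) ^ (d * (d - 1) / 2) else 0 := by
    intro i
    have hd : (0 : ℝ) < Rep.dimI i := by exact_mod_cast Rep.dimI_pos i
    split_ifs with hi
    · rw [div_le_iff₀ hd, mul_comm]
      have := Rep.trace_tRep_idem_le (α := α) (κ := κ) d hα i
      push_cast at this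
      exact this
    · have h0 : Rep.tRep α κ (Rep.idem i) = 0 := by
        by_contra hne
        exact hi (Finset.mem_filter.2 ⟨Finset.mem_univ _, hne⟩)
      have h0' : Rep.repAlg (Rep.tU α κ) (Rep.idem i) = 0 := h0
      rw [h0']
      simp
  calc cmMult (Rep.tU α κ) ≤ ∑ i : Rep.Irr (Equiv.Perm κ),
        if i ∈ S then ((Fintype.card κ : ℝ) + d) ^ (d * (d - 1) / 2) else 0 :=
        Finset.sum_le_sum fun i _ => hterm i
    _ = S.card * ((Fintype.card κ : ℝ) + d) ^ (d * (d - 1) / 2) := by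
        rw [Finset.sum_ite_mem, Finset.univ_inter, Finset.sum_const, nsmul_eq_mul]
    _ ≤ _ := mul_le_mul_of_nonneg_right hcard (by positivity)

end Tensor

/-! ### C: product vectors of the replica system -/

section Replica

variable {s : Type} [DecidableEq s] [Fintype s] {io : s → Type}
  [∀ x, Fintype (io x)] [∀ x, DecidableEq (io x)] {κ : Type} [Fintype κ] [DecidableEq κ]

/-- the spectral cutoff `1[log d_λ ≤ c]` of the label of `Q` -/
noncomputable def cutQ (Q : Finset s) (c : ℝ) : Matrix (RCfg io κ) (RCfg io κ) ℂ :=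
  cenQ Q fun i => if Real.log (Rep.dimI i) ≤ c then 1 else 0

/-- the spectral cutoff `1[c ≤ log d_λ]` of the label of `Q` -/
noncomputable def cutQge (Q : Finset s) (c : ℝ) : Matrix (RCfg io κ) (RCfg io κ) ℂ :=
  cenQ Q fun i => if c ≤ Real.log (Rep.dimI i) then 1 else 0

theorem cm_tpow_rsplit (Q : Finset s) (θ : Cfg io → ℂ)
    (p : (κ → CfgOn io Q) × (κ → CfgOff io Q)) :
    tpow κ θ ((rsplit Q).symm p) = ∏ j, θ (cglue Q (p.1 j) (p.2 j)) := rfl

theorem cm_tpow_ptr_apply (Q : Finset s) (θ : Cfg io → ℂ) (a' a : κ → CfgOn io Q) :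
    Rep.tpow κ (ptr Q (pureOp θ)) a' a = ∑ b : κ → CfgOff io Q,
      tpow κ θ ((rsplit Q).symm (a', b)) * star (tpow κ θ ((rsplit Q).symm (a, b))) := by
  rw [Rep.tpow_apply]
  simp only [ptr, pureOp, vecMulVec_apply, Matrix.of_apply, Pi.star_apply]
  rw [Fintype.prod_sum]
  refine Finset.sum_congr rfl fun b _ => ?_
  rw [cm_tpow_rsplit, cm_tpow_rsplit, star_prod, Finset.prod_mul_distrib]

theorem cm_expect_liftQ (Q : Finset s) (θ : Cfg io → ℂ)
    (M : Matrix (κ → CfgOn io Q) (κ → CfgOn io Q) ℂ) :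
    star (tpow κ θ) ⬝ᵥ (liftQ Q M *ᵥ tpow κ θ) = trace (Rep.tpow κ (ptr Q (pureOp θ)) * M) := by
  set z : (κ → CfgOn io Q) → (κ → CfgOff io Q) → ℂ :=
    fun a b => tpow κ θ ((rsplit Q).symm (a, b)) with hz
  have h1 : ∀ c : RCfg io κ, (liftQ Q M *ᵥ tpow κ θ) c =
      ∑ a', M (rsplit Q c).1 a' * z a' (rsplit Q c).2 := by
    intro c
    simp only [mulVec, dotProduct]
    rw [← (rsplit Q).symm.sum_comp, Fintype.sum_prod_type]
    refine Finset.sum_congr rfl fun a' _ => ?_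
    simp only [liftQ_apply, Equiv.apply_symm_apply]
    rw [Finset.sum_eq_single (rsplit Q c).2]
    · rw [if_pos rfl, mul_one]
    · intro b _ hb
      rw [if_neg (Ne.symm hb), mul_zero, zero_mul]
    · intro h; exact absurd (Finset.mem_univ _) h
  calc star (tpow κ θ) ⬝ᵥ (liftQ Q M *ᵥ tpow κ θ)
      = ∑ a, ∑ b, star (z a b) * ∑ a', M a a' * z a' b := by
        simp only [dotProduct, Pi.star_apply]
        rw [← (rsplit Q).symm.sum_comp, Fintype.sum_prod_type]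
        refine Finset.sum_congr rfl fun a _ => Finset.sum_congr rfl fun b _ => ?_
        rw [h1, Equiv.apply_symm_apply]
    _ = ∑ a, ∑ a', ∑ b, z a' b * star (z a b) * M a a' := by
        refine Finset.sum_congr rfl fun a _ => ?_
        simp only [Finset.mul_sum]
        rw [Finset.sum_comm]
        refine Finset.sum_congr rfl fun a' _ => Finset.sum_congr rfl fun b _ => ?_
        ring
    _ = ∑ a', ∑ a, (∑ b, z a' b * star (z a b)) * M a a' := by
        rw [Finset.sum_comm]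
        simp only [Finset.sum_mul]
    _ = trace (Rep.tpow κ (ptr Q (pureOp θ)) * M) := by
        simp only [trace, diag_apply, Matrix.mul_apply, cm_tpow_ptr_apply]
        rfl

theorem cm_expect_eq_trace (Q : Finset s) (θ : Cfg io → ℂ) (y : GA κ) :
    star (tpow κ θ) ⬝ᵥ (repQ Q y *ᵥ tpow κ θ) =
      trace (Rep.tpow κ (ptr Q (pureOp θ)) * Rep.tRep (CfgOn io Q) κ y) := by
  rw [repQ_eq_liftQ, cm_expect_liftQ]

theorem cm_expect_cen (Q : Finset s) (θ : Cfg io → ℂ) (φ : Rep.Irr (Equiv.Perm κ) → ℂ) :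
    star (tpow κ θ) ⬝ᵥ (cenQ Q φ *ᵥ tpow κ θ) =
      ∑ i, φ i * trace (Rep.tpow κ (ptr Q (pureOp θ)) * Rep.tRep (CfgOn io Q) κ (Rep.idem i)) := by
  rw [cenQ, cm_expect_eq_trace, Rep.cfun, map_sum, Finset.mul_sum, trace_sum]
  refine Finset.sum_congr rfl fun i _ => ?_
  rw [map_smul, Matrix.mul_smul, trace_smul, smul_eq_mul]

/-- the law of the label of `Q` in the product vector `θ^{⊗κ}` -/
noncomputable def cmP (κ : Type) [Fintype κ] [DecidableEq κ] (Q : Finset s) (θ : Cfg io → ℂ)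
    (i : Rep.Irr (Equiv.Perm κ)) : ℝ :=
  (trace (Rep.tpow κ (ptr Q (pureOp θ)) * Rep.tRep (CfgOn io Q) κ (Rep.idem i))).re

theorem cm_ptr_posSemidef (Q : Finset s) (θ : Cfg io → ℂ) : (ptr Q (pureOp θ)).PosSemidef :=
  ptrE_posSemidef (cfgSplit Q) (pureOp_posSemidef θ)

theorem cmP_nonneg (Q : Finset s) (θ : Cfg io → ℂ) (i : Rep.Irr (Equiv.Perm κ)) :
    0 ≤ cmP κ Q θ i :=
  (Complex.le_def.1 (trace_mul_posSemidef_nonneg (cm_tpow_posSemidef (cm_ptr_posSemidef Q θ))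
    (Rep.tRep_idem_posSemidef i))).1

theorem cm_expect_cen_re (Q : Finset s) (θ : Cfg io → ℂ) (f : Rep.Irr (Equiv.Perm κ) → ℝ) :
    (star (tpow κ θ) ⬝ᵥ (cenQ Q (fun i => (f i : ℂ)) *ᵥ tpow κ θ)).re = ∑ i, f i * cmP κ Q θ i := by
  rw [cm_expect_cen, Complex.re_sum]
  refine Finset.sum_congr rfl fun i _ => ?_
  rw [Complex.re_ofReal_mul]
  rfl

/-- monotonicity of label expectations -/
theorem cm_expect_mono (Q : Finset s) (θ : Cfg io → ℂ) {f g : Rep.Irr (Equiv.Perm κ) → ℝ}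
    (h : ∀ i, f i ≤ g i) :
    (star (tpow κ θ) ⬝ᵥ (cenQ Q (fun i => (f i : ℂ)) *ᵥ tpow κ θ)).re ≤
      (star (tpow κ θ) ⬝ᵥ (cenQ Q (fun i => (g i : ℂ)) *ᵥ tpow κ θ)).re := by
  rw [cm_expect_cen_re, cm_expect_cen_re]
  exact Finset.sum_le_sum fun i _ => mul_le_mul_of_nonneg_right (h i) (cmP_nonneg Q θ i)

theorem cm_trace_tpow_le (Q : Finset s) {θ : Cfg io → ℂ} (hθ : star θ ⬝ᵥ θ = 1) :
    (trace (Rep.tpow κ (ptr Q (pureOp θ)))).re ≤ 1 := by
  rw [cm_trace_tpow, (tl_ptr_pure_isDensity hθ Q).2]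
  simp

/-- iid moment, positive sign -/
theorem cm_moment_pos (Q : Finset s) {θ : Cfg io → ℂ} (hθ : star θ ⬝ᵥ θ = 1) {u : ℝ} (hu : 0 ≤ u) :
    (star (tpow κ θ) ⬝ᵥ (dimPow Q u *ᵥ tpow κ θ)).re ≤
      Scan.renyiTr (ptr Q (pureOp θ)) (1 - u) ^ Fintype.card κ := by
  rw [dimPow, cm_expect_cen_re, ← cm_renyi_tpow (cm_ptr_posSemidef Q θ)]
  exact cm_abs_moment_pos (Rep.tU (CfgOn io Q) κ) Rep.tU_conjTranspose
    (Rep.tpow κ (ptr Q (pureOp θ))) (cm_tpow_posSemidef (cm_ptr_posSemidef Q θ))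
    (cm_trace_tpow_le Q hθ) (fun g => (Rep.tU_mul_tpow g _).symm) hu

/-- iid moment, negative sign -/
theorem cm_moment_neg [∀ x, Nonempty (io x)] (Q : Finset s) {θ : Cfg io → ℂ}
    (hθ : star θ ⬝ᵥ θ = 1) {u : ℝ} (hu0 : 0 ≤ u) (hu1 : 2 * u ≤ 1) :
    (star (tpow κ θ) ⬝ᵥ (dimPow Q (-u) *ᵥ tpow κ θ)).re ≤
      Real.sqrt (Scan.renyiTr (ptr Q (pureOp θ)) (1 + 2 * u) ^ Fintype.card κ) *
        Real.sqrt (((Fintype.card κ : ℝ) + 1) ^ dV io *
          ((Fintype.card κ : ℝ) + dV io) ^ (dV io * (dV io - 1) / 2)) := by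
  rw [dimPow, cm_expect_cen_re, ← cm_renyi_tpow (cm_ptr_posSemidef Q θ)]
  refine (cm_abs_moment_neg (Rep.tU (CfgOn io Q) κ) Rep.tU_conjTranspose
    (Rep.tpow κ (ptr Q (pureOp θ))) (cm_tpow_posSemidef (cm_ptr_posSemidef Q θ))
    (cm_trace_tpow_le Q hθ) (fun g => (Rep.tU_mul_tpow g _).symm) hu0 hu1).trans ?_
  exact mul_le_mul_of_nonneg_left (Real.sqrt_le_sqrt (cm_mult_le (dV io) (card_cfgOn_le_dV Q)))
    (Real.sqrt_nonneg _)

/-- domination of marginals passes to the label laws -/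
theorem cm_dominate (Q : Finset s) {θ θ' : Cfg io → ℂ} {c : ℝ} (hc : 0 ≤ c)
    (h : ptr Q (pureOp θ) ≤ (c : ℂ) • ptr Q (pureOp θ')) (f : Rep.Irr (Equiv.Perm κ) → ℝ)
    (hf : ∀ i, 0 ≤ f i) :
    (star (tpow κ θ) ⬝ᵥ (cenQ Q (fun i => (f i : ℂ)) *ᵥ tpow κ θ)).re ≤
      c ^ Fintype.card κ *
        (star (tpow κ θ') ⬝ᵥ (cenQ Q (fun i => (f i : ℂ)) *ᵥ tpow κ θ')).re := by
  rw [cm_expect_cen_re, cm_expect_cen_re, Finset.mul_sum]
  refine Finset.sum_le_sum fun i _ => ?_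
  have h1 : Rep.tpow κ (ptr Q (pureOp θ)) ≤
      (c : ℂ) ^ Fintype.card κ • Rep.tpow κ (ptr Q (pureOp θ')) := by
    rw [← cm_tpow_smul]
    exact cm_tpow_mono (cm_ptr_posSemidef Q θ) h
  have h2 := (Complex.le_def.1 (trace_mul_posSemidef_nonneg (Matrix.le_iff.1 h1)
    (Rep.tRep_idem_posSemidef (α := CfgOn io Q) i))).1
  rw [Matrix.sub_mul, trace_sub, Matrix.smul_mul, trace_smul, smul_eq_mul, ← Complex.ofReal_pow,
    Complex.sub_re, Complex.re_ofReal_mul, Complex.zero_re] at h2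
  have h3 : cmP κ Q θ i ≤ c ^ Fintype.card κ * cmP κ Q θ' i := by
    unfold cmP
    linarith
  calc f i * cmP κ Q θ i ≤ f i * (c ^ Fintype.card κ * cmP κ Q θ' i) :=
        mul_le_mul_of_nonneg_left h3 (hf i)
    _ = _ := by ring

theorem cm_tRep_ne_zero (Q : Finset s) (i : Rep.Irr (Equiv.Perm κ)) (h : labP (io := io) Q i ≠ 0) :
    Rep.tRep (CfgOn io Q) κ (Rep.idem i) ≠ 0 := by
  intro h0
  apply h
  rw [labP, repQ_eq_liftQ, h0, liftQ_zero]

/-- the number of labels of `Q` that occur is polynomial -/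
theorem cm_card_occurring [∀ x, Nonempty (io x)] (Q : Finset s) :
    (Finset.univ.filter fun i : Rep.Irr (Equiv.Perm κ) => labP (io := io) Q i ≠ 0).card
      ≤ (Fintype.card κ + 1) ^ dV io := by
  classical
  refine le_trans (Finset.card_le_card ?_)
    (Rep.card_occurring_le (α := CfgOn io Q) (κ := κ) (dV io) (card_cfgOn_le_dV Q))
  intro i hi
  rw [Finset.mem_filter] at hi ⊢
  exact ⟨hi.1, cm_tRep_ne_zero Q i hi.2⟩

theorem cm_log_card_le (Q : Finset s) :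
    Real.log (Fintype.card (CfgOn io Q)) ≤ Scan.ldim io Q := by
  unfold Scan.ldim
  by_cases h : ∀ x : {x // x ∈ Q}, Fintype.card (io x) ≠ 0
  · rw [Fintype.card_pi, Nat.cast_prod, Real.log_prod]
    · exact (Finset.sum_coe_sort Q fun x => Real.log (Fintype.card (io x))).le
    · intro x _
      exact_mod_cast h x
  · push Not at h
    obtain ⟨x, hx⟩ := h
    have h0 : Fintype.card (CfgOn io Q) = 0 := by
      rw [Fintype.card_pi]
      exact Finset.prod_eq_zero (Finset.mem_univ x) hx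
    rw [h0, Nat.cast_zero, Real.log_zero]
    exact Finset.sum_nonneg fun y _ => Real.log_natCast_nonneg _

/-- an occurring label of `Q` has dimension at most `(dim Q)^k` -/
theorem cm_dimI_le (Q : Finset s) (i : Rep.Irr (Equiv.Perm κ)) (h : labP (io := io) Q i ≠ 0) :
    Real.log (Rep.dimI i) ≤ Fintype.card κ * Scan.ldim io Q := by
  have h1 := Rep.dimI_le_card_pow (α := CfgOn io Q) i (cm_tRep_ne_zero Q i h)
  have hd : (0 : ℝ) < Rep.dimI i := by exact_mod_cast Rep.dimI_pos i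
  have h2 : (Rep.dimI i : ℝ) ≤ (Fintype.card (CfgOn io Q) : ℝ) ^ Fintype.card κ := by
    exact_mod_cast h1
  calc Real.log (Rep.dimI i) ≤ Real.log ((Fintype.card (CfgOn io Q) : ℝ) ^ Fintype.card κ) :=
        Real.log_le_log hd h2
    _ = Fintype.card κ * Real.log (Fintype.card (CfgOn io Q)) := Real.log_pow _ _
    _ ≤ _ := mul_le_mul_of_nonneg_left (cm_log_card_le Q) (Nat.cast_nonneg _)

end Replica

/-! ### D: scalar -/

theorem cm_renyi_sub {n : Type} [Fintype n] [DecidableEq n] {ρ : Matrix n n ℂ}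
    (hρ : ρ.IsHermitian) (u : ℝ) : Scan.renyiTr ρ (1 - u) = tlM hρ.eigenvalues u :=
  cm_renyi_eq hρ _

theorem cm_renyi_add {n : Type} [Fintype n] [DecidableEq n] {ρ : Matrix n n ℂ}
    (hρ : ρ.IsHermitian) (u : ℝ) : Scan.renyiTr ρ (1 + u) = tlM hρ.eigenvalues (-u) := by
  rw [← cm_renyi_sub, sub_neg_eq_add]

/-- `u ↦ log ∑ p^{1∓u}` vanishes at `0` with derivative `±S` -/
theorem cm_renyi_deriv {n : Type} [Fintype n] [DecidableEq n] {ρ : Matrix n n ℂ}
    (hρ : IsDensity ρ) (δ : ℝ) (hδ : 0 < δ) :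
    ∃ u0 : ℝ, 0 < u0 ∧ ∀ u : ℝ, 0 ≤ u → u ≤ u0 →
      Real.log (Scan.renyiTr ρ (1 - u)) ≤ u * (vnEnt ρ + δ) ∧
      Real.log (Scan.renyiTr ρ (1 + u)) ≤ -(u * (vnEnt ρ - δ)) := by
  have hH := hρ.1.1
  have hd := tl_logM_hasDerivAt (p := hH.eigenvalues) hρ.eigenvalues_nonneg hρ.sum_eigenvalues
  rw [← vnEnt_eq_sum_eigenvalues hH] at hd
  have h0 : Real.log (tlM hH.eigenvalues 0) = 0 := by
    rw [tlM_zero hρ.eigenvalues_nonneg, hρ.sum_eigenvalues, Real.log_one]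
  have h2 := (hasDerivAt_iff_isLittleO.1 hd).def hδ
  obtain ⟨ε, hε, hball⟩ := Metric.eventually_nhds_iff.1 h2
  have key : ∀ x : ℝ, |x| < ε →
      |Real.log (tlM hH.eigenvalues x) - x * vnEnt ρ| ≤ δ * |x| := by
    intro x hx
    have h3 := hball (y := x) (by rwa [Real.dist_eq, sub_zero])
    simpa [h0, Real.norm_eq_abs] using h3
  refine ⟨ε / 2, by positivity, fun u hu0 hu1 => ⟨?_, ?_⟩⟩
  · rw [cm_renyi_sub hH]
    have h4 := key u (by rw [abs_of_nonneg hu0]; linarith)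
    rw [abs_of_nonneg hu0] at h4
    have h5 := (abs_le.1 h4).2
    nlinarith
  · rw [cm_renyi_add hH]
    have h4 := key (-u) (by rw [abs_neg, abs_of_nonneg hu0]; linarith)
    rw [abs_neg, abs_of_nonneg hu0] at h4
    have h5 := (abs_le.1 h4).2
    nlinarith

theorem cm_renyi_pos {n : Type} [Fintype n] [DecidableEq n] {ρ : Matrix n n ℂ}
    (hρ : IsDensity ρ) (r : ℝ) : 0 < Scan.renyiTr ρ r := by
  have h := tlM_pos (p := hρ.1.1.eigenvalues) hρ.sum_eigenvalues (1 - r)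
  rwa [← cm_renyi_sub, sub_sub_cancel] at h

/-- a polynomial is eventually dominated by an exponential -/
theorem cm_poly_le_exp (d m : ℕ) {a : ℝ} (ha : 0 < a) :
    ∃ k0 : ℕ, ∀ k : ℕ, k0 ≤ k → ((k : ℝ) + 1) ^ d * ((k : ℝ) + d) ^ m ≤ Real.exp (a * k) := by
  have h1 := (isLittleO_pow_exp_pos_mul_atTop (d + m) ha).def
    (c := ((2 : ℝ) ^ (d + m))⁻¹) (by positivity)
  have h2 := tendsto_natCast_atTop_atTop.eventually h1
  obtain ⟨k1, hk1⟩ := Filter.eventually_atTop.1 h2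
  refine ⟨max k1 (max 1 d), fun k hk => ?_⟩
  have hk1' : k1 ≤ k := le_trans (le_max_left _ _) hk
  have hk2 : 1 ≤ k := le_trans (le_trans (le_max_left _ _) (le_max_right _ _)) hk
  have hk3 : d ≤ k := le_trans (le_trans (le_max_right _ _) (le_max_right _ _)) hk
  have h3 := hk1 k hk1'
  rw [Real.norm_eq_abs, Real.norm_eq_abs, abs_of_nonneg (by positivity),
    abs_of_pos (Real.exp_pos _)] at h3
  have hk2' : (1 : ℝ) ≤ k := by exact_mod_cast hk2
  have hk3' : (d : ℝ) ≤ k := by exact_mod_cast hk3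
  calc ((k : ℝ) + 1) ^ d * ((k : ℝ) + d) ^ m ≤ (2 * (k : ℝ)) ^ d * (2 * (k : ℝ)) ^ m := by
        gcongr <;> linarith
    _ = 2 ^ (d + m) * (k : ℝ) ^ (d + m) := by rw [← pow_add, mul_pow]
    _ ≤ 2 ^ (d + m) * (((2 : ℝ) ^ (d + m))⁻¹ * Real.exp (a * k)) := by gcongr
    _ = Real.exp (a * k) := by
        rw [← mul_assoc, mul_inv_cancel₀ (by positivity), one_mul]

/-! ### E: tails (fixed one-copy system and vector, all `κ`) -/

section Tails

variable {s : Type} [DecidableEq s] [Fintype s] {io : s → Type}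
  [∀ x, Fintype (io x)] [∀ x, DecidableEq (io x)] [∀ x, Nonempty (io x)]

theorem cm_one_sub_cutQ {κ : Type} [Fintype κ] [DecidableEq κ] (Q : Finset s) (c : ℝ) :
    (1 - cutQ Q c : Matrix (RCfg io κ) (RCfg io κ) ℂ) =
      cenQ Q fun i => (((if Real.log (Rep.dimI i) ≤ c then 0 else 1 : ℝ)) : ℂ) := by
  rw [sub_eq_iff_eq_add, cutQ, cenQ_add, ← cenQ_one Q]
  congr 1
  funext i
  split_ifs <;> simp

theorem cm_one_sub_cutQge {κ : Type} [Fintype κ] [DecidableEq κ] (Q : Finset s) (c : ℝ) :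
    (1 - cutQge Q c : Matrix (RCfg io κ) (RCfg io κ) ℂ) =
      cenQ Q fun i => (((if c ≤ Real.log (Rep.dimI i) then 0 else 1 : ℝ)) : ℂ) := by
  rw [sub_eq_iff_eq_add, cutQge, cenQ_add, ← cenQ_one Q]
  congr 1
  funext i
  split_ifs <;> simp

theorem cm_expect_smul_dimPow {κ : Type} [Fintype κ] [DecidableEq κ] (Q : Finset s)
    (θ : Cfg io → ℂ) (a b : ℝ) :
    (star (tpow κ θ) ⬝ᵥ (cenQ Q (fun i => ((a * (Rep.dimI i : ℝ) ^ b : ℝ) : ℂ)) *ᵥ tpow κ θ)).re =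
      a * (star (tpow κ θ) ⬝ᵥ (dimPow Q b *ᵥ tpow κ θ)).re := by
  rw [dimPow, cm_expect_cen_re, cm_expect_cen_re, Finset.mul_sum]
  refine Finset.sum_congr rfl fun i _ => ?_
  ring

/-- upper tail: `P(log d_λ > k (S(Q) + δ)) ≤ exp (-u k)` -/
theorem cm_tail_upper (Q : Finset s) {θ : Cfg io → ℂ} (hθ : star θ ⬝ᵥ θ = 1) (δ : ℝ) (hδ : 0 < δ) :
    ∃ u : ℝ, 0 < u ∧ ∀ (κ : Type) [Fintype κ] [DecidableEq κ] (c : ℝ),
      Fintype.card κ * (ent (pureOp θ) Q + δ) ≤ c →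
      (star (tpow κ θ) ⬝ᵥ ((1 - cutQ Q c) *ᵥ tpow κ θ)).re ≤ Real.exp (-(u * Fintype.card κ)) := by
  have hdens := tl_ptr_pure_isDensity hθ Q
  obtain ⟨v, hv, hder⟩ := cm_renyi_deriv hdens (δ / 2) (by positivity)
  refine ⟨v * (δ / 2), by positivity, fun κ _ _ c hc => ?_⟩
  have hS : ent (pureOp θ) Q = vnEnt (ptr Q (pureOp θ)) := rfl
  set S := vnEnt (ptr Q (pureOp θ)) with hSdef
  rw [hS] at hc
  have hR : Scan.renyiTr (ptr Q (pureOp θ)) (1 - v) ≤ Real.exp (v * (S + δ / 2)) :=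
    (Real.log_le_iff_le_exp (cm_renyi_pos hdens _)).1 (hder v hv.le le_rfl).1
  have hmk : ∀ i : Rep.Irr (Equiv.Perm κ), (if Real.log (Rep.dimI i) ≤ c then 0 else 1 : ℝ) ≤
      Real.exp (-(v * c)) * (Rep.dimI i : ℝ) ^ v := by
    intro i
    have hd : (0 : ℝ) < Rep.dimI i := by exact_mod_cast Rep.dimI_pos i
    split_ifs with h
    · positivity
    · rw [not_le] at h
      rw [Real.rpow_def_of_pos hd, ← Real.exp_add, ← Real.exp_zero]
      apply Real.exp_le_exp.2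
      nlinarith
  rw [cm_one_sub_cutQ]
  calc _ ≤ _ := cm_expect_mono Q θ hmk
    _ = Real.exp (-(v * c)) * (star (tpow κ θ) ⬝ᵥ (dimPow Q v *ᵥ tpow κ θ)).re :=
        cm_expect_smul_dimPow Q θ _ _
    _ ≤ Real.exp (-(v * c)) * Real.exp (v * (S + δ / 2)) ^ Fintype.card κ := by
        refine mul_le_mul_of_nonneg_left ?_ (Real.exp_nonneg _)
        exact (cm_moment_pos Q hθ hv.le).trans
          (pow_le_pow_left₀ (cm_renyi_pos hdens _).le hR _)
    _ = Real.exp (-(v * c) + Fintype.card κ * (v * (S + δ / 2))) := by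
        rw [← Real.exp_nat_mul, ← Real.exp_add]
    _ ≤ _ := by
        apply Real.exp_le_exp.2
        nlinarith

/-- lower tail: `P(log d_λ < k (S(Q) - δ)) ≤ exp (-u k)` for large `k` -/
theorem cm_tail_lower (Q : Finset s) {θ : Cfg io → ℂ} (hθ : star θ ⬝ᵥ θ = 1) (δ : ℝ) (hδ : 0 < δ) :
    ∃ u : ℝ, 0 < u ∧ ∃ k0 : ℕ, ∀ (κ : Type) [Fintype κ] [DecidableEq κ] (c : ℝ),
      k0 ≤ Fintype.card κ → c ≤ Fintype.card κ * (ent (pureOp θ) Q - δ) →
      (star (tpow κ θ) ⬝ᵥ ((1 - cutQge Q c) *ᵥ tpow κ θ)).re ≤ Real.exp (-(u * Fintype.card κ)) := by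
  have hdens := tl_ptr_pure_isDensity hθ Q
  obtain ⟨v, hv, hder⟩ := cm_renyi_deriv hdens (δ / 2) (by positivity)
  set w : ℝ := min v 1 / 2 with hw
  have hw0 : 0 < w := by
    have : 0 < min v 1 := lt_min hv one_pos
    positivity
  have hw1 : 2 * w ≤ 1 := by
    have : min v 1 ≤ 1 := min_le_right _ _
    rw [hw]; linarith
  have hw2 : 2 * w ≤ v := by
    have : min v 1 ≤ v := min_le_left _ _
    rw [hw]; linarith
  obtain ⟨k0, hk0⟩ := cm_poly_le_exp (dV io) (dV io * (dV io - 1) / 2)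
    (a := w * δ / 2) (by positivity)
  refine ⟨w * δ / 4, by positivity, k0, fun κ _ _ c hk hc => ?_⟩
  have hS : ent (pureOp θ) Q = vnEnt (ptr Q (pureOp θ)) := rfl
  set S := vnEnt (ptr Q (pureOp θ)) with hSdef
  rw [hS] at hc
  have hR : Scan.renyiTr (ptr Q (pureOp θ)) (1 + 2 * w) ≤ Real.exp (-(2 * w * (S - δ / 2))) :=
    (Real.log_le_iff_le_exp (cm_renyi_pos hdens _)).1 (hder (2 * w) (by positivity) hw2).2
  have hmk : ∀ i : Rep.Irr (Equiv.Perm κ), (if c ≤ Real.log (Rep.dimI i) then 0 else 1 : ℝ) ≤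
      Real.exp (w * c) * (Rep.dimI i : ℝ) ^ (-w) := by
    intro i
    have hd : (0 : ℝ) < Rep.dimI i := by exact_mod_cast Rep.dimI_pos i
    split_ifs with h
    · positivity
    · rw [not_le] at h
      rw [Real.rpow_def_of_pos hd, ← Real.exp_add, ← Real.exp_zero]
      apply Real.exp_le_exp.2
      nlinarith
  have hA : Real.sqrt (Scan.renyiTr (ptr Q (pureOp θ)) (1 + 2 * w) ^ Fintype.card κ) ≤
      Real.exp (-(Fintype.card κ * (w * (S - δ / 2)))) := by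
    have h1 : Scan.renyiTr (ptr Q (pureOp θ)) (1 + 2 * w) ^ Fintype.card κ ≤
        Real.exp (-(Fintype.card κ * (w * (S - δ / 2))) * 2) := by
      refine (pow_le_pow_left₀ (cm_renyi_pos hdens _).le hR _).trans_eq ?_
      rw [← Real.exp_nat_mul]
      congr 1
      ring
    refine (Real.sqrt_le_sqrt h1).trans_eq ?_
    rw [← Real.exp_half]
    congr 1
    ring
  have hB : Real.sqrt (((Fintype.card κ : ℝ) + 1) ^ dV io *
      ((Fintype.card κ : ℝ) + dV io) ^ (dV io * (dV io - 1) / 2)) ≤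
      Real.exp (w * δ / 4 * Fintype.card κ) := by
    refine (Real.sqrt_le_sqrt (hk0 _ hk)).trans_eq ?_
    rw [← Real.exp_half]
    congr 1
    ring
  rw [cm_one_sub_cutQge]
  calc _ ≤ _ := cm_expect_mono Q θ hmk
    _ = Real.exp (w * c) * (star (tpow κ θ) ⬝ᵥ (dimPow Q (-w) *ᵥ tpow κ θ)).re :=
        cm_expect_smul_dimPow Q θ _ _
    _ ≤ Real.exp (w * c) * (Real.exp (-(Fintype.card κ * (w * (S - δ / 2)))) *
          Real.exp (w * δ / 4 * Fintype.card κ)) := by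
        refine mul_le_mul_of_nonneg_left ?_ (Real.exp_nonneg _)
        exact (cm_moment_neg Q hθ hw0.le hw1).trans
          (mul_le_mul hA hB (Real.sqrt_nonneg _) (Real.exp_nonneg _))
    _ = Real.exp (w * c + (-(Fintype.card κ * (w * (S - δ / 2))) + w * δ / 4 * Fintype.card κ)) := by
        rw [← Real.exp_add, ← Real.exp_add]
    _ ≤ _ := by
        apply Real.exp_le_exp.2
        nlinarith

end Tails

theorem cm_defs_eqns_cite : True := by
  have := @cmMult.eq_1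
  have := @cmRot.eq_1
  have := @cmW.eq_1
  have := @cmMix.eq_1
  have := @cutQ.eq_1
  have := @cutQge.eq_1
  have := @cmP.eq_1
  trivial

end Claimed.Agent.R296
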