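import Claimed.Agent.R296.CmpPre
import Claimed.Agent.R296.CmpMom

/-!
# Row 296, P1 Section 7, package S7-LAW: label laws in the model (label selection, signed moments)

Architect: helper218.  Prefix `cp_`.  ONE owner.  Inputs: `CmpMom.lean` (general moments and tails), `CmpOne.lean`
(marginals of `Ψ`, `Φ`), `CmpPre.lean` (`cp_sum_mQ`, `cp_mQ_eq`).  The instance `∀ x, Nonempty (rmIo io 𝔇.dst x)` comes from
`co_dst_pos` (`haveI`).

* `cp_label` (comparator:high-label).  `P(lam) = mQ lam` is a probability distribution on labels (`cp_sum_mQ`),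
  `= ⟨Φ^k, labP {rmR} lam Φ^k⟩`.  By `cm_tail_upper`, `cm_tail_lower` (`θ = Φ`, `Q = {rmR}`, `δ = ε`, `co_ent_phi_R`) the labels with
  `|log d - k S'| > ε k` have total probability `≤ 2 exp (-u k) ≤ 1/2`; at most `(k+1)^D` labels have `P ≠ 0`
  (`cm_card_occurring`); so some label with `|log d - k S'| ≤ ε k` has `P ≥ (2 (k+1)^D)⁻¹ ≥ exp (-ε k)`.
* signed moments (comparator:signed-label-moments): `cm_moment_pos/neg` + `co_renyi_psi` + `MgfAt` at `u`, resp. `-2u`;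
  for `post`: `cm_dominate` with `co_ptr_phi_le` (`c = z⁻¹`).
-/

set_option autoImplicit false
set_option linter.unusedSectionVars false

namespace Claimed.Agent.R296

namespace Scan

open Matrix Finset
open scoped ComplexOrder MatrixOrder

variable {Λ ι α : Type} [Fintype Λ] [DecidableEq Λ] [Fintype ι]
  {io : Λ → Type} [∀ x, Fintype (io x)] [∀ x, DecidableEq (io x)] [∀ x, Nonempty (io x)]
  (𝔇 : RepData Λ ι α io)

/-- the polynomial factor of the negative moments -/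
noncomputable def RepData.mPoly (k : ℕ) : ℝ :=
  Real.sqrt (((k : ℝ) + 1) ^ dV (rmIo io 𝔇.dst) *
    ((k : ℝ) + dV (rmIo io 𝔇.dst)) ^ (dV (rmIo io 𝔇.dst) * (dV (rmIo io 𝔇.dst) - 1) / 2))

/-- polynomials are below exponentials -/
theorem cpl_poly_le_exp (N : ℕ) (C : ℝ) {ε : ℝ} (hε : 0 < ε) :
    ∃ k0 : ℕ, ∀ k : ℕ, k0 ≤ k → C * ((k : ℝ) + 1) ^ N ≤ Real.exp (ε * k) := by
  have hc : 0 < 1 / ((|C| + 1) * 2 ^ N) := by positivity
  have h := ((isLittleO_pow_exp_pos_mul_atTop (k := N) hε).comp_tendsto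
    tendsto_natCast_atTop_atTop).bound hc
  obtain ⟨k1, h1⟩ := Filter.eventually_atTop.1 h
  refine ⟨max k1 1, fun k hk => ?_⟩
  have hk1 : k1 ≤ k := le_trans (le_max_left _ _) hk
  have hk0 : 1 ≤ k := le_trans (le_max_right _ _) hk
  have h2 := h1 k hk1
  simp only [Function.comp_apply, Real.norm_eq_abs, abs_of_pos (Real.exp_pos _)] at h2
  have hkR : (1 : ℝ) ≤ k := by exact_mod_cast hk0
  rw [abs_of_nonneg (by positivity)] at h2
  have h3 : ((k : ℝ) + 1) ^ N ≤ 2 ^ N * (k : ℝ) ^ N := by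
    rw [← mul_pow]
    exact pow_le_pow_left₀ (by positivity) (by linarith) N
  have h4 : (|C| + 1) * 2 ^ N * (k : ℝ) ^ N ≤ Real.exp (ε * k) := by
    have := mul_le_mul_of_nonneg_left h2 (by positivity : 0 ≤ (|C| + 1) * 2 ^ N)
    calc (|C| + 1) * 2 ^ N * (k : ℝ) ^ N
        ≤ (|C| + 1) * 2 ^ N * (1 / ((|C| + 1) * 2 ^ N) * Real.exp (ε * k)) := this
      _ = Real.exp (ε * k) := by field_simp
  calc C * ((k : ℝ) + 1) ^ N ≤ (|C| + 1) * ((k : ℝ) + 1) ^ N :=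
        mul_le_mul_of_nonneg_right (by linarith [le_abs_self C]) (by positivity)
    _ ≤ (|C| + 1) * (2 ^ N * (k : ℝ) ^ N) := mul_le_mul_of_nonneg_left h3 (by positivity)
    _ = (|C| + 1) * 2 ^ N * (k : ℝ) ^ N := by ring
    _ ≤ _ := h4

theorem cp_mPoly_ge_one (k : ℕ) : 1 ≤ 𝔇.mPoly k := by
  unfold RepData.mPoly
  rw [Real.one_le_sqrt]
  set D := dV (rmIo io 𝔇.dst) with hD
  have h1 : (1 : ℝ) ≤ ((k : ℝ) + 1) ^ D := one_le_pow₀ (by linarith [(Nat.cast_nonneg k : (0 : ℝ) ≤ k)])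
  have h2 : (1 : ℝ) ≤ ((k : ℝ) + D) ^ (D * (D - 1) / 2) := by
    rcases Nat.eq_zero_or_pos D with h0 | h0
    · rw [h0]; simp
    · have : (1 : ℝ) ≤ D := by exact_mod_cast h0
      exact one_le_pow₀ (by linarith [(Nat.cast_nonneg k : (0 : ℝ) ≤ k)])
  calc (1 : ℝ) = 1 * 1 := (one_mul 1).symm
    _ ≤ _ := mul_le_mul h1 h2 zero_le_one (by linarith)

/-- polynomial factors are `exp (o(k))` -/
theorem cp_mPoly_le (ε : ℝ) (hε : 0 < ε) :
    ∃ k0 : ℕ, ∀ k : ℕ, k0 ≤ k → 𝔇.mPoly k ≤ Real.exp (ε * k) := by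
  set D := dV (rmIo io 𝔇.dst) with hD
  obtain ⟨k0, h0⟩ := cpl_poly_le_exp (D + D * (D - 1) / 2) (((D : ℝ) + 1) ^ (D * (D - 1) / 2)) hε
  refine ⟨k0, fun k hk => ?_⟩
  have h1 := cp_mPoly_ge_one 𝔇 k
  have hk0 : (0 : ℝ) ≤ k := Nat.cast_nonneg k
  have hD0 : (0 : ℝ) ≤ D := Nat.cast_nonneg D
  unfold RepData.mPoly at h1 ⊢
  rw [← hD] at h1 ⊢
  set x := ((k : ℝ) + 1) ^ D * ((k : ℝ) + D) ^ (D * (D - 1) / 2) with hx
  have hx1 : 1 ≤ x := (Real.one_le_sqrt).1 h1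
  have h2 : Real.sqrt x ≤ x := by
    rw [Real.sqrt_le_iff]
    exact ⟨by linarith, by nlinarith⟩
  refine h2.trans (le_trans ?_ (h0 k hk))
  have h3 : ((k : ℝ) + D) ^ (D * (D - 1) / 2) ≤
      (((D : ℝ) + 1) * ((k : ℝ) + 1)) ^ (D * (D - 1) / 2) :=
    pow_le_pow_left₀ (by positivity) (by nlinarith) _
  calc x ≤ ((k : ℝ) + 1) ^ D * (((D : ℝ) + 1) * ((k : ℝ) + 1)) ^ (D * (D - 1) / 2) :=
        mul_le_mul_of_nonneg_left h3 (by positivity)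
    _ = ((D : ℝ) + 1) ^ (D * (D - 1) / 2) * ((k : ℝ) + 1) ^ (D + D * (D - 1) / 2) := by
        rw [mul_pow, pow_add]; ring

theorem cp_goodLab_mono {κ : Type} [Fintype κ] [DecidableEq κ] {lam : Rep.Irr (Equiv.Perm κ)}
    {ε ε' : ℝ} (h : ε ≤ ε') (hg : 𝔇.GoodLab lam ε) : 𝔇.GoodLab lam ε' := by
  have hk : (0 : ℝ) ≤ Fintype.card κ := Nat.cast_nonneg _
  have h1 : ε * Fintype.card κ ≤ ε' * Fintype.card κ := mul_le_mul_of_nonneg_right h hk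
  exact ⟨(Real.exp_le_exp.2 (neg_le_neg h1)).trans hg.1, hg.2.trans h1⟩

theorem cp_goodLab_pos {κ : Type} [Fintype κ] [DecidableEq κ] {lam : Rep.Irr (Equiv.Perm κ)}
    {ε : ℝ} (hg : 𝔇.GoodLab lam ε) : 0 < 𝔇.mQ lam :=
  (Real.exp_pos _).trans_le hg.1

section Label

variable {κ : Type} [Fintype κ] [DecidableEq κ]

theorem cp_one_sub_cenQ {s : Type} [DecidableEq s] [Fintype s] {io' : s → Type}
    [∀ x, Fintype (io' x)] [∀ x, DecidableEq (io' x)] (Q : Finset s)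
    (φ : Rep.Irr (Equiv.Perm κ) → ℂ) :
    1 - cenQ (io := io') Q φ = cenQ Q fun i => 1 - φ i := by
  rw [cenQ_eq_sum, cenQ_eq_sum, ← sum_labP Q, ← Finset.sum_sub_distrib]
  refine Finset.sum_congr rfl fun i _ => ?_
  rw [sub_smul, one_smul]

/-- expectation of a label function of `R` in `post` -/
theorem cp_expect_post (φ : Rep.Irr (Equiv.Perm κ) → ℝ) :
    (star (𝔇.mPost κ) ⬝ᵥ (cenQ {rmR} (fun i => (φ i : ℂ)) *ᵥ 𝔇.mPost κ)).re =
      ∑ i, φ i * 𝔇.mQ i := by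
  rw [cenQ_eq_sum, Matrix.sum_mulVec, dotProduct_sum, Complex.re_sum]
  refine Finset.sum_congr rfl fun i _ => ?_
  rw [smul_mulVec, dotProduct_smul, smul_eq_mul, Complex.re_ofReal_mul, ← cp_mQ_eq]

theorem cp_mQ_eq_zero {lam : Rep.Irr (Equiv.Perm κ)}
    (h : labP (io := rmIo io 𝔇.dst) {rmR} lam = 0) : 𝔇.mQ lam = 0 := by
  rw [cp_mQ_eq, h, zero_mulVec, dotProduct_zero, Complex.zero_re]

end Label

theorem cp_label {a0 : ℝ} (hW : 𝔇.WF a0) (ε : ℝ) (hε : 0 < ε) :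
    ∃ k0 : ℕ, ∀ k : ℕ, k0 ≤ k → ∃ lam : Rep.Irr (Equiv.Perm (Fin k)), 𝔇.GoodLab lam ε := by
  have : ∀ x, Nonempty (rmIo io 𝔇.dst x) := by
    have hd := co_dst_pos 𝔇 hW
    rintro (x | b)
    · exact inferInstanceAs (Nonempty (io x))
    · exact ⟨(⟨0, hd⟩ : Fin 𝔇.dst)⟩
  have hθ := co_phi_unit 𝔇 hW
  have hS := co_ent_phi_R 𝔇 hW
  obtain ⟨u1, hu1, H1⟩ := cm_tail_upper ({rmR} : Finset (Λ ⊕ Bool)) hθ ε hε
  obtain ⟨u2, hu2, k2, H2⟩ := cm_tail_lower ({rmR} : Finset (Λ ⊕ Bool)) hθ ε hε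
  obtain ⟨k3, H3⟩ := cpl_poly_le_exp 0 4 hu1
  obtain ⟨k4, H4⟩ := cpl_poly_le_exp 0 4 hu2
  obtain ⟨k5, H5⟩ := cpl_poly_le_exp (dV (rmIo io 𝔇.dst)) 4 hε
  refine ⟨max (max k2 k3) (max k4 k5), fun k hk => ?_⟩
  have hk2 : k2 ≤ k := le_trans (by simp) hk
  have hk3 : k3 ≤ k := le_trans (by simp) hk
  have hk4 : k4 ≤ k := le_trans (by simp) hk
  have hk5 : k5 ≤ k := le_trans (by simp) hk
  have hcard : Fintype.card (Fin k) = k := Fintype.card_fin k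
  rw [hS] at H1 H2
  have T1 := H1 (Fin k) ((Fintype.card (Fin k) : ℝ) * (𝔇.S' + ε)) le_rfl
  have T2 := H2 (Fin k) ((Fintype.card (Fin k) : ℝ) * (𝔇.S' - ε)) (by rw [hcard]; exact hk2) le_rfl
  rw [hcard] at T1 T2
  have e3 := H3 k hk3
  have e4 := H4 k hk4
  have e5 := H5 k hk5
  simp only [pow_zero, mul_one] at e3 e4
  have x1 : Real.exp (-(u1 * k)) ≤ 1 / 4 := by
    rw [Real.exp_neg, inv_eq_one_div]
    exact one_div_le_one_div_of_le (by norm_num) e3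
  have x2 : Real.exp (-(u2 * k)) ≤ 1 / 4 := by
    rw [Real.exp_neg, inv_eq_one_div]
    exact one_div_le_one_div_of_le (by norm_num) e4
  -- the two tails as sums over labels
  set c1 : ℝ := (k : ℝ) * (𝔇.S' + ε) with hc1
  set c2 : ℝ := (k : ℝ) * (𝔇.S' - ε) with hc2
  set i1 : Rep.Irr (Equiv.Perm (Fin k)) → ℝ :=
    fun i => if Real.log (Rep.dimI i) ≤ c1 then 0 else 1 with hi1
  set i2 : Rep.Irr (Equiv.Perm (Fin k)) → ℝ :=
    fun i => if c2 ≤ Real.log (Rep.dimI i) then 0 else 1 with hi2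
  have S1 : ∑ i, i1 i * 𝔇.mQ i ≤ 1 / 4 := by
    rw [← cp_expect_post]
    refine le_trans (le_of_eq ?_) (T1.trans x1)
    rw [cutQ, cp_one_sub_cenQ]
    congr 5
    funext i
    simp only [hi1]
    split_ifs <;> simp
  have S2 : ∑ i, i2 i * 𝔇.mQ i ≤ 1 / 4 := by
    rw [← cp_expect_post]
    refine le_trans (le_of_eq ?_) (T2.trans x2)
    rw [cutQge, cp_one_sub_cenQ]
    congr 5
    funext i
    simp only [hi2]
    split_ifs <;> simp
  by_contra hcon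
  push Not at hcon
  set G : Finset (Rep.Irr (Equiv.Perm (Fin k))) := Finset.univ.filter fun i =>
    labP (io := rmIo io 𝔇.dst) {rmR} i ≠ 0 ∧ c2 ≤ Real.log (Rep.dimI i) ∧
      Real.log (Rep.dimI i) ≤ c1 with hG
  have hGcard : (G.card : ℝ) ≤ ((k : ℝ) + 1) ^ dV (rmIo io 𝔇.dst) := by
    have h1 : G.card ≤ (Finset.univ.filter fun i : Rep.Irr (Equiv.Perm (Fin k)) =>
        labP (io := rmIo io 𝔇.dst) {rmR} i ≠ 0).card := by
      apply Finset.card_le_card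
      intro i hi
      simp only [hG, Finset.mem_filter, Finset.mem_univ, true_and] at hi ⊢
      exact hi.1
    have h2 := cm_card_occurring (io := rmIo io 𝔇.dst) (κ := Fin k) ({rmR} : Finset (Λ ⊕ Bool))
    rw [hcard] at h2
    exact_mod_cast h1.trans h2
  have hGsmall : ∀ i ∈ G, 𝔇.mQ i ≤ Real.exp (-(ε * k)) := by
    intro i hi
    simp only [hG, Finset.mem_filter, Finset.mem_univ, true_and] at hi
    by_contra hlt
    push Not at hlt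
    apply hcon i
    refine ⟨by rw [hcard]; exact hlt.le, ?_⟩
    rw [hcard, abs_le]
    constructor
    · have := hi.2.1
      rw [hc2] at this
      linarith
    · have := hi.2.2
      rw [hc1] at this
      linarith
  have S3 : ∑ i ∈ G, 𝔇.mQ i ≤ 1 / 4 := by
    have h1 := Finset.sum_le_card_nsmul G (fun i => 𝔇.mQ i) _ hGsmall
    rw [nsmul_eq_mul] at h1
    refine h1.trans ?_
    have hE : 0 < Real.exp (ε * k) := Real.exp_pos _
    rw [Real.exp_neg, ← div_eq_mul_inv, div_le_iff₀ hE]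
    linarith
  have hsum := cp_sum_mQ 𝔇 (κ := Fin k) hW
  have hle : ∑ i : Rep.Irr (Equiv.Perm (Fin k)), 𝔇.mQ i ≤
      ∑ i, (i1 i * 𝔇.mQ i + i2 i * 𝔇.mQ i + if i ∈ G then 𝔇.mQ i else 0) := by
    refine Finset.sum_le_sum fun i _ => ?_
    have hq := cp_mQ_nonneg 𝔇 i
    simp only [hi1, hi2]
    by_cases a1 : Real.log (Rep.dimI i) ≤ c1
    · by_cases a2 : c2 ≤ Real.log (Rep.dimI i)
      · by_cases a3 : labP (io := rmIo io 𝔇.dst) {rmR} i = 0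
        · rw [cp_mQ_eq_zero 𝔇 a3]
          simp
        · have : i ∈ G := by
            simp only [hG, Finset.mem_filter, Finset.mem_univ, true_and]
            exact ⟨a3, a2, a1⟩
          simp [a1, a2, this]
      · rw [if_pos a1, if_neg a2]
        split_ifs <;> linarith
    · rw [if_neg a1]
      split_ifs <;> linarith
  rw [hsum, Finset.sum_add_distrib, Finset.sum_add_distrib, Finset.sum_ite_mem,
    Finset.univ_inter] at hle
  linarith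

theorem cp_renyiTr_nonneg {n : Type} [Fintype n] [DecidableEq n] (M : Matrix n n ℂ) (r : ℝ) :
    0 ≤ renyiTr M r := by
  unfold renyiTr
  refine Multiset.sum_nonneg fun x hx => ?_
  obtain ⟨p, -, rfl⟩ := Multiset.mem_map.1 hx
  split_ifs with h
  · exact Real.rpow_nonneg h.le _
  · exact le_rfl

/-- from a bound on the logarithm to a bound on the `k`-th power -/
theorem cp_pow_le_exp {x b : ℝ} (hx : 0 ≤ x) (h : Real.log x ≤ b) (k : ℕ) :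
    x ^ k ≤ Real.exp (k * b) := by
  have h1 : x ≤ Real.exp b := by
    rcases hx.eq_or_lt with h0 | h0
    · rw [← h0]; exact (Real.exp_pos _).le
    · calc x = Real.exp (Real.log x) := (Real.exp_log h0).symm
        _ ≤ Real.exp b := Real.exp_le_exp.2 h
  calc x ^ k ≤ Real.exp b ^ k := pow_le_pow_left₀ hx h1 k
    _ = Real.exp (k * b) := (Real.exp_nat_mul b k).symm

section Moments

variable {κ : Type} [Fintype κ] [DecidableEq κ] {a0 C0 c0 : ℝ}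

theorem cp_mom_psi_pos (hW : 𝔇.WF a0) {Q : Finset Λ} (hQ : 𝔇.MgfAt C0 c0 Q) {u : ℝ}
    (hu0 : 0 ≤ u) (hu1 : u ≤ c0 / Real.sqrt 𝔇.BB) :
    (star (tpow κ 𝔇.mPsi) ⬝ᵥ (dimPow (rmPh Q) u *ᵥ tpow κ 𝔇.mPsi)).re ≤
      Real.exp (Fintype.card κ * (u * ent 𝔇.S.rho Q + C0 * 𝔇.BB * u ^ 2)) := by
  have h1 := cm_moment_pos (κ := κ) (rmPh Q) (co_psi_unit 𝔇 hW) hu0
  rw [co_renyi_psi 𝔇 hW] at h1
  exact h1.trans (cp_pow_le_exp (cp_renyiTr_nonneg _ _) (hQ u (by rwa [abs_of_nonneg hu0])) _)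

theorem cp_mom_psi_neg (hW : 𝔇.WF a0) {Q : Finset Λ} (hQ : 𝔇.MgfAt C0 c0 Q) {u : ℝ}
    (hu0 : 0 ≤ u) (hu1 : 2 * u ≤ c0 / Real.sqrt 𝔇.BB) (hu2 : 2 * u ≤ 1) :
    (star (tpow κ 𝔇.mPsi) ⬝ᵥ (dimPow (rmPh Q) (-u) *ᵥ tpow κ 𝔇.mPsi)).re ≤
      𝔇.mPoly (Fintype.card κ) *
        Real.exp (Fintype.card κ * (-(u * ent 𝔇.S.rho Q) + 2 * C0 * 𝔇.BB * u ^ 2)) := by
  have : ∀ x, Nonempty (rmIo io 𝔇.dst x) := by
    have hd := co_dst_pos 𝔇 hW
    rintro (x | b)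
    · exact inferInstanceAs (Nonempty (io x))
    · exact ⟨(⟨0, hd⟩ : Fin 𝔇.dst)⟩
  have h1 := cm_moment_neg (κ := κ) (rmPh Q) (co_psi_unit 𝔇 hW) hu0 hu2
  rw [co_renyi_psi 𝔇 hW] at h1
  have h2 := hQ (-(2 * u)) (by rwa [abs_neg, abs_of_nonneg (by linarith)])
  have e1 : (1 : ℝ) - -(2 * u) = 1 + 2 * u := by ring
  rw [e1] at h2
  have h3 := cp_pow_le_exp (cp_renyiTr_nonneg _ _) h2 (Fintype.card κ)
  have h4 : Real.sqrt (renyiTr (ptr Q 𝔇.S.rho) (1 + 2 * u) ^ Fintype.card κ) ≤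
      Real.exp (Fintype.card κ * (-(u * ent 𝔇.S.rho Q) + 2 * C0 * 𝔇.BB * u ^ 2)) := by
    rw [Real.sqrt_le_iff]
    refine ⟨(Real.exp_pos _).le, h3.trans (le_of_eq ?_)⟩
    rw [← Real.exp_nat_mul]
    congr 1
    push_cast
    ring
  rw [mul_comm (𝔇.mPoly _)]
  exact h1.trans (mul_le_mul_of_nonneg_right h4 (Real.sqrt_nonneg _))

theorem cp_inv_z_pow (hW : 𝔇.WF a0) (k : ℕ) :
    (𝔇.z⁻¹) ^ k = Real.exp (k * |Real.log 𝔇.z|) := by
  have hz := co_z_pos 𝔇 hW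
  have hz1 := co_z_le_one 𝔇 hW
  rw [abs_of_nonpos (Real.log_nonpos hz.le hz1), Real.exp_nat_mul, Real.exp_neg, Real.exp_log hz]

theorem cp_mom_post_pos (hW : 𝔇.WF a0) {Q : Finset Λ} (hX : Disjoint Q 𝔇.X)
    (hQ : 𝔇.MgfAt C0 c0 Q) {u : ℝ} (hu0 : 0 ≤ u) (hu1 : u ≤ c0 / Real.sqrt 𝔇.BB) :
    (star (𝔇.mPost κ) ⬝ᵥ (dimPow (rmPh Q) u *ᵥ 𝔇.mPost κ)).re ≤
      Real.exp (Fintype.card κ * (|Real.log 𝔇.z| + u * ent 𝔇.S.rho Q + C0 * 𝔇.BB * u ^ 2)) := by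
  have hz := co_z_pos 𝔇 hW
  have h1 := cm_dominate (κ := κ) (rmPh Q) (inv_nonneg.2 hz.le) (co_ptr_phi_le 𝔇 hW Q hX)
    (fun i => ((Rep.dimI i : ℕ) : ℝ) ^ u) (fun i => Real.rpow_nonneg (Nat.cast_nonneg _) _)
  have h2 := cp_mom_psi_pos 𝔇 (κ := κ) hW hQ hu0 hu1
  rw [cp_inv_z_pow 𝔇 hW] at h1
  refine le_trans h1 (le_trans (mul_le_mul_of_nonneg_left h2 (Real.exp_pos _).le) (le_of_eq ?_))
  rw [← Real.exp_add]
  congr 1
  ring

theorem cp_mom_post_neg (hW : 𝔇.WF a0) {Q : Finset Λ} (hX : Disjoint Q 𝔇.X)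
    (hQ : 𝔇.MgfAt C0 c0 Q) {u : ℝ} (hu0 : 0 ≤ u) (hu1 : 2 * u ≤ c0 / Real.sqrt 𝔇.BB)
    (hu2 : 2 * u ≤ 1) :
    (star (𝔇.mPost κ) ⬝ᵥ (dimPow (rmPh Q) (-u) *ᵥ 𝔇.mPost κ)).re ≤
      𝔇.mPoly (Fintype.card κ) * Real.exp (Fintype.card κ *
        (|Real.log 𝔇.z| - u * ent 𝔇.S.rho Q + 2 * C0 * 𝔇.BB * u ^ 2)) := by
  have hz := co_z_pos 𝔇 hW
  have h1 := cm_dominate (κ := κ) (rmPh Q) (inv_nonneg.2 hz.le) (co_ptr_phi_le 𝔇 hW Q hX)
    (fun i => ((Rep.dimI i : ℕ) : ℝ) ^ (-u)) (fun i => Real.rpow_nonneg (Nat.cast_nonneg _) _)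
  have h2 := cp_mom_psi_neg 𝔇 (κ := κ) hW hQ hu0 hu1 hu2
  rw [cp_inv_z_pow 𝔇 hW] at h1
  refine le_trans h1 (le_trans (mul_le_mul_of_nonneg_left h2 (Real.exp_pos _).le) (le_of_eq ?_))
  rw [mul_left_comm, ← Real.exp_add]
  congr 2
  ring

end Moments

/-- failure probability of the cutoffs of the rough comparison (`cm_tail_upper` with `δ = 1`, `co_ent_phi_le`) -/
theorem cp_cut_tail {a0 : ℝ} (hW : 𝔇.WF a0) (B : Finset Λ) (hB : Disjoint B 𝔇.X) :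
    ∃ u : ℝ, 0 < u ∧ ∀ (κ : Type) [Fintype κ] [DecidableEq κ],
      (star (𝔇.mPost κ) ⬝ᵥ
        ((1 - cutQ (rmPh B) (Fintype.card κ * (ent 𝔇.S.rho B / 𝔇.z + 1))) *ᵥ 𝔇.mPost κ)).re
        ≤ Real.exp (-(u * Fintype.card κ)) := by
  have : ∀ x, Nonempty (rmIo io 𝔇.dst x) := by
    have hd := co_dst_pos 𝔇 hW
    rintro (x | b)
    · exact inferInstanceAs (Nonempty (io x))
    · exact ⟨(⟨0, hd⟩ : Fin 𝔇.dst)⟩
  obtain ⟨u, hu, H⟩ := cm_tail_upper (rmPh B) (co_phi_unit 𝔇 hW) 1 one_pos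
  refine ⟨u, hu, fun κ _ _ => H κ _ ?_⟩
  have := co_ent_phi_le 𝔇 hW B hB
  exact mul_le_mul_of_nonneg_left (by linarith) (Nat.cast_nonneg _)

end Scan

end Claimed.Agent.R296
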