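import Mathlib
import Claimed.Agent.R296.Supp
import Claimed.Agent.R296.EntSite

/-!
# Row 296, ENT-BASE 6d: change of the site system (E5), products (E4), local unitaries (E6)
-/

set_option autoImplicit false
set_option linter.unusedSectionVars false
set_option linter.unusedSimpArgs false

namespace Claimed.Agent.R296

open Matrix
open scoped ComplexOrder Kronecker

section Abs

variable {n n' m r : Type} [Fintype n] [DecidableEq n] [Fintype n'] [DecidableEq n']
  [Fintype m] [DecidableEq m] [Fintype r] [DecidableEq r]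

theorem ptrE_submatrix_equiv (E : n' ≃ n) (e : n' ≃ m × r) (M : Matrix n n ℂ) :
    ptrE e (M.submatrix E E) = ptrE (E.symm.trans e) M := by
  ext x y
  simp [ptrE_apply]

variable {n₁ n₂ m₁ m₂ r₁ r₂ : Type} [Fintype n₁] [DecidableEq n₁] [Fintype n₂] [DecidableEq n₂]
  [Fintype m₁] [DecidableEq m₁] [Fintype m₂] [DecidableEq m₂]
  [Fintype r₁] [DecidableEq r₁] [Fintype r₂] [DecidableEq r₂]

/-- the partial trace of a Kronecker product along the product splitting -/
theorem ptrE_kronecker (e₁ : n₁ ≃ m₁ × r₁) (e₂ : n₂ ≃ m₂ × r₂) (M₁ : Matrix n₁ n₁ ℂ)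
    (M₂ : Matrix n₂ n₂ ℂ) :
    ptrE ((e₁.prodCongr e₂).trans (Equiv.prodProdProdComm m₁ r₁ m₂ r₂)) (M₁ ⊗ₖ M₂)
      = ptrE e₁ M₁ ⊗ₖ ptrE e₂ M₂ := by
  ext ⟨x₁, x₂⟩ ⟨y₁, y₂⟩
  simp only [ptrE_apply, Matrix.kroneckerMap_apply, Fintype.sum_prod_type, Finset.sum_mul_sum]
  rfl

/-- `Y ⊗ 1` and `1 ⊗ V` commute -/
theorem embE_commute_swap (e : n ≃ m × r) (Y : Matrix m m ℂ) (V : Matrix r r ℂ) :
    embE e Y * embE (e.trans (Equiv.prodComm m r)) V
      = embE (e.trans (Equiv.prodComm m r)) V * embE e Y := by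
  have key : ∀ u u', (embE e Y * embE (e.trans (Equiv.prodComm m r)) V) u u'
      = Y (e u).1 (e u').1 * V (e u).2 (e u').2 := by
    intro u u'
    rw [Matrix.mul_apply, Finset.sum_eq_single (e.symm ((e u').1, (e u).2))]
    · simp [embE_apply]
    · intro w _ hw
      simp only [embE_apply, Equiv.trans_apply, Equiv.prodComm_apply, Prod.fst_swap,
        Prod.snd_swap]
      by_cases h1 : (e u).2 = (e w).2
      · by_cases h2 : (e w).1 = (e u').1
        · exfalso
          apply hw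
          rw [Equiv.eq_symm_apply]
          exact Prod.ext h2 h1.symm
        · simp [h2]
      · simp [h1]
    · simp
  have key' : ∀ u u', (embE (e.trans (Equiv.prodComm m r)) V * embE e Y) u u'
      = Y (e u).1 (e u').1 * V (e u).2 (e u').2 := by
    intro u u'
    rw [Matrix.mul_apply, Finset.sum_eq_single (e.symm ((e u).1, (e u').2))]
    · simp [embE_apply, mul_comm]
    · intro w _ hw
      simp only [embE_apply, Equiv.trans_apply, Equiv.prodComm_apply, Prod.fst_swap,
        Prod.snd_swap]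
      by_cases h1 : (e u).1 = (e w).1
      · by_cases h2 : (e w).2 = (e u').2
        · exfalso
          apply hw
          rw [Equiv.eq_symm_apply]
          exact Prod.ext h1.symm h2
        · simp [h2]
      · simp [h1]
    · simp
  ext u u'
  rw [key, key']

/-- conjugation by a unitary acting on the traced-out factor does not change the marginal -/
theorem ptrE_conj_swap (e : n ≃ m × r) {V : Matrix r r ℂ} (M : Matrix n n ℂ)
    (hW : (embE (e.trans (Equiv.prodComm m r)) V)ᴴ * embE (e.trans (Equiv.prodComm m r)) V = 1) :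
    ptrE e (embE (e.trans (Equiv.prodComm m r)) V * M * (embE (e.trans (Equiv.prodComm m r)) V)ᴴ)
      = ptrE e M := by
  set W := embE (e.trans (Equiv.prodComm m r)) V with hWdef
  rw [Matrix.ext_iff_trace_mul_right]
  intro Y
  rw [← trace_mul_embE, ← trace_mul_embE]
  have hc : embE e Y * W = W * embE e Y := embE_commute_swap e Y V
  calc (W * M * Wᴴ * embE e Y).trace = (M * (Wᴴ * embE e Y * W)).trace := by
        rw [Matrix.mul_assoc (W * M), Matrix.mul_assoc W, Matrix.trace_mul_comm,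
          Matrix.mul_assoc M, Matrix.mul_assoc]
    _ = (M * embE e Y).trace := by
        rw [Matrix.mul_assoc Wᴴ, hc, ← Matrix.mul_assoc Wᴴ, hW, Matrix.one_mul]

/-- conjugation by a unitary acting on the kept factor does not change the entropy -/
theorem vnEnt_ptrE_conj_embE (e : n ≃ m × r) {K : Matrix m m ℂ} (M : Matrix n n ℂ)
    (hU : embE e K * (embE e K)ᴴ = 1) :
    vnEnt (ptrE e (embE e K * M * (embE e K)ᴴ)) = vnEnt (ptrE e M) := by
  rcases isEmpty_or_nonempty r with hr | hr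
  · have z : ∀ N : Matrix n n ℂ, ptrE e N = 0 := by
      intro N
      ext x y
      simp [ptrE_apply]
    rw [z, z]
  · have hK : K * star K = 1 := by
      have h1 : embE e (K * Kᴴ) = embE e 1 := by
        rw [embE_mul, embE_conjTranspose, hU, embE_one]
      have h2 := congrArg (ptrE e) h1
      rw [ptrE_embE, ptrE_embE] at h2
      have hc : (Fintype.card r : ℂ) ≠ 0 := by
        exact_mod_cast Fintype.card_ne_zero
      exact smul_right_injective _ hc h2
    rw [← embE_conjTranspose, ptrE_mul_embE, ptrE_embE_mul, ← star_eq_conjTranspose,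
      vnEnt_unitary_conj K hK]

end Abs

section Site

variable {s : Type} [DecidableEq s] [Fintype s] {io : s → Type}
  [∀ x, Fintype (io x)] [∀ x, DecidableEq (io x)]

/-! ### (E5) change of the site system, (E4) products -/

section Change

variable {s' : Type} [DecidableEq s'] [Fintype s'] {io' : s' → Type}
  [∀ x, Fintype (io' x)] [∀ x, DecidableEq (io' x)]

/-- covariance of the entropy under any identification of configuration spaces which maps the
region `A'` to the region `A` (relabelling / permutation of sites, partial swaps,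
coarse-graining of sites) -/
theorem ent_submatrix_equiv (E : Cfg io' ≃ Cfg io) (A' : Finset s') (A : Finset s)
    (h1 : ∀ σ τ, (∀ x, x ∈ A' → σ x = τ x) ↔ ∀ y, y ∈ A → E σ y = E τ y)
    (h2 : ∀ σ τ, (∀ x, x ∉ A' → σ x = τ x) ↔ ∀ y, y ∉ A → E σ y = E τ y)
    (ρ : Matrix (Cfg io) (Cfg io) ℂ) : ent (ρ.submatrix E E) A' = ent ρ A := by
  have h : ent (ρ.submatrix E E) A' = vnEnt (ptrE (E.symm.trans (cfgSplit A')) ρ) := by
    unfold ent
    rw [ptr_eq_ptrE, ptrE_submatrix_equiv]
  rw [h]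
  refine (ent_eq_ptrE _ _ ?_ ?_ ρ).symm
  · intro σ τ
    have := h1 (E.symm σ) (E.symm τ)
    simp only [Equiv.apply_symm_apply] at this
    rw [← this]
    exact br_crOn_eq_iff A' _ _
  · intro σ τ
    have := h2 (E.symm σ) (E.symm τ)
    simp only [Equiv.apply_symm_apply] at this
    rw [← this]
    exact br_crOff_eq_iff A' _ _

variable {s'' : Type} [DecidableEq s''] [Fintype s''] {io'' : s'' → Type}
  [∀ x, Fintype (io'' x)] [∀ x, DecidableEq (io'' x)]

/-- additivity of the entropy on product states: the system `(s, io)` is identified with the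
union of `(s', io')` and `(s'', io'')` -/
theorem ent_kronecker (E : Cfg io ≃ Cfg io' × Cfg io'') (A : Finset s) (A' : Finset s')
    (A'' : Finset s'')
    (h1 : ∀ σ τ, (∀ x, x ∈ A → σ x = τ x) ↔
      (∀ y, y ∈ A' → (E σ).1 y = (E τ).1 y) ∧ (∀ y, y ∈ A'' → (E σ).2 y = (E τ).2 y))
    (h2 : ∀ σ τ, (∀ x, x ∉ A → σ x = τ x) ↔
      (∀ y, y ∉ A' → (E σ).1 y = (E τ).1 y) ∧ (∀ y, y ∉ A'' → (E σ).2 y = (E τ).2 y))
    {ρ' : Matrix (Cfg io') (Cfg io') ℂ} {ρ'' : Matrix (Cfg io'') (Cfg io'') ℂ}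
    (h' : IsDensity ρ') (h'' : IsDensity ρ'') :
    ent ((ρ' ⊗ₖ ρ'').submatrix E E) A = ent ρ' A' + ent ρ'' A'' := by
  set e₂ := ((cfgSplit (io := io') A').prodCongr (cfgSplit (io := io'') A'')).trans
    (Equiv.prodProdProdComm _ _ _ _) with he₂
  have h : ent ((ρ' ⊗ₖ ρ'').submatrix E E) A
      = vnEnt (ptrE (E.trans e₂) ((ρ' ⊗ₖ ρ'').submatrix E E)) := by
    refine ent_eq_ptrE _ _ ?_ ?_ _
    · intro σ τ
      rw [h1]
      simp only [he₂, cfgSplit, Equiv.trans_apply, Equiv.prodCongr_apply, Equiv.coe_fn_mk,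
        Prod.map_fst, Prod.map_snd, Equiv.prodProdProdComm_apply, Prod.mk.injEq, br_crOn_eq_iff]
    · intro σ τ
      rw [h2]
      simp only [he₂, cfgSplit, Equiv.trans_apply, Equiv.prodCongr_apply, Equiv.coe_fn_mk,
        Prod.map_fst, Prod.map_snd, Equiv.prodProdProdComm_apply, Prod.mk.injEq, br_crOff_eq_iff]
  rw [h, ptrE_submatrix_equiv]
  have h3 : E.symm.trans (E.trans e₂) = e₂ := by
    ext x <;> simp
  rw [h3, he₂, ptrE_kronecker, vnEnt_kronecker (ptrE_isDensity _ h') (ptrE_isDensity _ h'')]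
  rfl

end Change

/-! ### (E6) local unitaries -/

theorem ent_conj_suppIn {U : Matrix (Cfg io) (Cfg io) ℂ} (hU : U * Uᴴ = 1) {B A : Finset s}
    (hs : SuppIn B U) (hBA : B ⊆ A) (ρ : Matrix (Cfg io) (Cfg io) ℂ) :
    ent (U * ρ * Uᴴ) A = ent ρ A := by
  obtain ⟨K, rfl⟩ := hs.sp_mono hBA
  unfold ent
  rw [ptr_eq_ptrE, ptr_eq_ptrE, emb_eq_embE]
  rw [emb_eq_embE] at hU
  exact vnEnt_ptrE_conj_embE _ ρ hU

theorem embOff_eq_embE (A : Finset s) (K : Matrix (CfgOff io A) (CfgOff io A) ℂ) :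
    embOff A K = embE ((cfgSplit A).trans (Equiv.prodComm _ _)) K := rfl

theorem ent_conj_suppIn_disjoint {U : Matrix (Cfg io) (Cfg io) ℂ} (hU : U * Uᴴ = 1)
    {B A : Finset s} (hs : SuppIn B U) (hBA : Disjoint B A) (ρ : Matrix (Cfg io) (Cfg io) ℂ) :
    ent (U * ρ * Uᴴ) A = ent ρ A := by
  obtain ⟨K, rfl⟩ := hs.sp_off hBA
  unfold ent
  rw [ptr_eq_ptrE, ptr_eq_ptrE, embOff_eq_embE]
  rw [embOff_eq_embE] at hU
  rw [ptrE_conj_swap _ ρ (mul_eq_one_comm.mp hU)]

theorem pureOp_mulVec {n : Type} [Fintype n] (U : Matrix n n ℂ) (Ω : n → ℂ) :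
    pureOp (U *ᵥ Ω) = U * pureOp Ω * Uᴴ := by
  unfold pureOp
  rw [Matrix.mul_vecMulVec, Matrix.vecMulVec_mul, Matrix.star_mulVec]

end Site

end Claimed.Agent.R296
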