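import Claimed.Agent.R296.CmpDefs
import Claimed.Agent.R296.EntSiteChange
import Claimed.Agent.R296.EntSub
import Claimed.Agent.R296.LocEmb

/-!
# Row 296, P1 Section 7, package S7-ONE: the one-copy vectors `Ψ`, `Φ`, the pin, the lifted Hamiltonian

Architect: helper218.  Prefix `co_`.  ONE owner.  Everything is finite sums over configurations of the
extended system `Λ ⊕ Bool` (`RepModel.lean`, `CmpDefs.lean`).  No replicas.

Notation: `d = 𝔇.dst`, `e i`, `pe i` = `𝔇.tb.e i`, `𝔇.tb.pe i` (orthonormal eigenvectors of `ρ_X`, eigenvalues in the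
window), `z = ∑ pe i`, `Ψ = Ω ⊗ Bell_{CR}`, `B_{XC} = d^{-1/2} ∑_i e_i ⊗ |i⟩_C`,
`Φ = (d/√z) (|B⟩⟨B| ⊗ 1) Ψ`.  The key formula is `co_phi_apply`:
`Φ(σ) = d^{-1/2} e_{σ_C}(σ_X) · z^{-1/2} ∑_x conj(e_{σ_R}(x)) Ω(x, σ_{Xᶜ})`,  i.e. `Φ = B_{XC} ⊗ ψ`.
Marginals: with `T = ∑_i e_i e_i^*` (a projector on `X`, `T ≤ 1`, commuting with `ρ_X`):
`z ρ_{Φ,B} = Tr_{rest} (T ⊗ 1)|Ω⟩⟨Ω|(T ⊗ 1) ≤ ρ_B` for `B` disjoint from `X` (the cross terms vanish after the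
trace over `X` because ... simply `ρ_B - z ρ_{Φ,B} = Tr_{rest} ((1-T) ⊗ 1)|Ω⟩⟨Ω|((1-T) ⊗ 1) ≥ 0`);
`(ρ_{Φ,R})_{r r'} = z⁻¹ ⟨e_r, ρ_X e_{r'}⟩ = δ_{r r'} pe_r / z`.
Entropy: `ρ_B = z ρ_{Φ,B} + (ρ_B - z ρ_{Φ,B})`, `vnEnt_sum_ge` / `vnEnt_mix_lower` (concavity), remainder `≥ 0`.
-/

set_option autoImplicit false
set_option linter.unusedSectionVars false

namespace Claimed.Agent.R296

namespace Scan

open Matrix Finset
open scoped ComplexOrder MatrixOrder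

variable {Λ ι α : Type} [Fintype Λ] [DecidableEq Λ] [Fintype ι]
  {io : Λ → Type} [∀ x, Fintype (io x)] [∀ x, DecidableEq (io x)] [∀ x, Nonempty (io x)]
  (𝔇 : RepData Λ ι α io)

/-! ### the splitting `physical × (C, R)` -/

/-- assemble a configuration of the extended system -/
def coMk {d : ℕ} (ω : Cfg io) (c r : Fin d) : Cfg (rmIo io d) := fun x =>
  match x with
  | Sum.inl y => ω y
  | Sum.inr false => c
  | Sum.inr true => r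

/-- `Cfg (Λ ⊕ Bool) ≃ Cfg Λ × (C × R)` -/
def coSplit (io : Λ → Type) (d : ℕ) : Cfg (rmIo io d) ≃ Cfg io × (Fin d × Fin d) where
  toFun σ := (rmPhys σ, (rmAtC σ, rmAtR σ))
  invFun p := coMk p.1 p.2.1 p.2.2
  left_inv σ := by
    funext x
    rcases x with y | b
    · rfl
    · cases b <;> rfl
  right_inv p := rfl

theorem coSplit_apply {d : ℕ} (σ : Cfg (rmIo io d)) :
    coSplit io d σ = (rmPhys σ, (rmAtC σ, rmAtR σ)) := rfl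

theorem coSplit_symm_apply {d : ℕ} (p : Cfg io × (Fin d × Fin d)) :
    (coSplit io d).symm p = coMk p.1 p.2.1 p.2.2 := rfl

@[simp] theorem co_rmPhys_mk {d : ℕ} (ω : Cfg io) (c r : Fin d) : rmPhys (coMk ω c r) = ω := rfl
@[simp] theorem co_rmAtC_mk {d : ℕ} (ω : Cfg io) (c r : Fin d) : rmAtC (coMk ω c r) = c := rfl
@[simp] theorem co_rmAtR_mk {d : ℕ} (ω : Cfg io) (c r : Fin d) : rmAtR (coMk ω c r) = r := rfl

theorem co_vec_mk {d : ℕ} (f : Cfg io → ℂ) (ω : Cfg io) (c r : Fin d) :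
    rmVec d f (coMk ω c r) = f ω * (if c = r then ((Real.sqrt d : ℝ) : ℂ)⁻¹ else 0) := rfl

theorem co_mk_eta {d : ℕ} (σ : Cfg (rmIo io d)) : coMk (rmPhys σ) (rmAtC σ) (rmAtR σ) = σ :=
  (coSplit io d).left_inv σ

/-- summation over the configurations of the extended system -/
theorem co_sum_cfg {d : ℕ} {M : Type} [AddCommMonoid M] (f : Cfg (rmIo io d) → M) :
    ∑ σ, f σ = ∑ ω : Cfg io, ∑ c : Fin d, ∑ r : Fin d, f (coMk ω c r) := by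
  rw [← (coSplit io d).symm.sum_comp, Fintype.sum_prod_type]
  refine Finset.sum_congr rfl fun ω _ => ?_
  rw [Fintype.sum_prod_type]
  rfl

theorem co_lift_eq_embE {d : ℕ} (h : Matrix (Cfg io) (Cfg io) ℂ) :
    rmLift d h = embE (coSplit io d) h := by
  ext σ τ
  simp only [rmLift, Matrix.of_apply, embE_apply, coSplit_apply, Prod.mk.injEq]

/-! ### the lifted Hamiltonian -/

theorem co_lift_one : rmLift 𝔇.dst (1 : Matrix (Cfg io) (Cfg io) ℂ) = 1 := by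
  rw [co_lift_eq_embE, embE_one]

theorem co_lift_add (g h : Matrix (Cfg io) (Cfg io) ℂ) :
    rmLift 𝔇.dst (g + h) = rmLift 𝔇.dst g + rmLift 𝔇.dst h := by
  simp only [co_lift_eq_embE, embE_add]

theorem co_lift_sub (g h : Matrix (Cfg io) (Cfg io) ℂ) :
    rmLift 𝔇.dst (g - h) = rmLift 𝔇.dst g - rmLift 𝔇.dst h := by
  simp only [co_lift_eq_embE, embE_sub]

theorem co_lift_smul (c : ℂ) (h : Matrix (Cfg io) (Cfg io) ℂ) :
    rmLift 𝔇.dst (c • h) = c • rmLift 𝔇.dst h := by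
  simp only [co_lift_eq_embE, embE_smul]

theorem co_lift_mul (g h : Matrix (Cfg io) (Cfg io) ℂ) :
    rmLift 𝔇.dst (g * h) = rmLift 𝔇.dst g * rmLift 𝔇.dst h := by
  simp only [co_lift_eq_embE, embE_mul]

theorem co_lift_conjTranspose (h : Matrix (Cfg io) (Cfg io) ℂ) :
    (rmLift 𝔇.dst h).conjTranspose = rmLift 𝔇.dst h.conjTranspose := by
  simp only [co_lift_eq_embE, embE_conjTranspose]

theorem co_lift_posSemidef {h : Matrix (Cfg io) (Cfg io) ℂ} (hh : h.PosSemidef) :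
    (rmLift 𝔇.dst h).PosSemidef := by
  rw [co_lift_eq_embE]
  exact embE_posSemidef _ hh

theorem co_mem_rmPh {Q : Finset Λ} {y : Λ} : (Sum.inl y : Λ ⊕ Bool) ∈ rmPh Q ↔ y ∈ Q := by
  simp [rmPh]

theorem co_inr_not_mem_rmPh (Q : Finset Λ) (b : Bool) : (Sum.inr b : Λ ⊕ Bool) ∉ rmPh Q := by
  simp [rmPh]

/-- relabelling of the configurations of a physical region -/
def coPh (io : Λ → Type) (d : ℕ) (Q : Finset Λ) : CfgOn (rmIo io d) (rmPh Q) ≃ CfgOn io Q where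
  toFun a := fun y => a ⟨Sum.inl y.1, co_mem_rmPh.2 y.2⟩
  invFun q := fun x =>
    match x with
    | ⟨Sum.inl y, h⟩ => q ⟨y, co_mem_rmPh.1 h⟩
    | ⟨Sum.inr b, h⟩ => (co_inr_not_mem_rmPh Q b h).elim
  left_inv a := by
    funext x
    rcases x with ⟨y | b, h⟩
    · rfl
    · exact (co_inr_not_mem_rmPh Q b h).elim
  right_inv q := rfl

theorem co_coPh_crOn {d : ℕ} (Q : Finset Λ) (σ : Cfg (rmIo io d)) :
    coPh io d Q (crOn (rmPh Q) σ) = crOn Q (rmPhys σ) := rfl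

theorem co_crOff_rmPh_iff {d : ℕ} (Q : Finset Λ) (σ τ : Cfg (rmIo io d)) :
    crOff (rmPh Q) σ = crOff (rmPh Q) τ ↔
      (rmAtC σ = rmAtC τ ∧ rmAtR σ = rmAtR τ) ∧ crOff Q (rmPhys σ) = crOff Q (rmPhys τ) := by
  rw [br_crOff_eq_iff, br_crOff_eq_iff]
  constructor
  · intro h
    exact ⟨⟨h _ (co_inr_not_mem_rmPh Q false), h _ (co_inr_not_mem_rmPh Q true)⟩,
      fun y hy => h _ fun h' => hy (co_mem_rmPh.1 h')⟩
  · rintro ⟨⟨h1, h2⟩, h3⟩ x hx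
    rcases x with y | b
    · exact h3 y fun h' => hx (co_mem_rmPh.2 h')
    · cases b
      · exact h1
      · exact h2

/-- the lift of a local operator -/
theorem co_lift_emb {d : ℕ} (Q : Finset Λ) (K : Matrix (CfgOn io Q) (CfgOn io Q) ℂ) :
    rmLift d (emb Q K) = emb (rmPh Q) (K.submatrix (coPh io d Q) (coPh io d Q)) := by
  ext σ τ
  simp only [rmLift, emb, Matrix.of_apply, submatrix_apply, co_coPh_crOn, co_crOff_rmPh_iff]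
  by_cases h1 : rmAtC σ = rmAtC τ ∧ rmAtR σ = rmAtR τ
  · by_cases h2 : crOff Q (rmPhys σ) = crOff Q (rmPhys τ)
    · simp [h1, h2]
    · simp [h1, h2]
  · simp [h1]

/-- every operator on a physical region is a lift -/
theorem co_emb_eq_lift {d : ℕ} (Q : Finset Λ)
    (K : Matrix (CfgOn (rmIo io d) (rmPh Q)) (CfgOn (rmIo io d) (rmPh Q)) ℂ) :
    emb (rmPh Q) K = rmLift d (emb Q (K.submatrix (coPh io d Q).symm (coPh io d Q).symm)) := by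
  rw [co_lift_emb]
  congr 1
  ext a b
  simp

/-- supports are preserved (USED BY SECTION 6 TOO) -/
theorem co_lift_suppIn {D : Finset Λ} {h : Matrix (Cfg io) (Cfg io) ℂ} (hh : SuppIn D h) :
    SuppIn (rmPh D) (rmLift 𝔇.dst h) := by
  obtain ⟨K, rfl⟩ := hh
  exact ⟨_, co_lift_emb D K⟩

theorem co_lift_mulVec (h : Matrix (Cfg io) (Cfg io) ℂ) (Ω : Cfg io → ℂ) :
    rmLift 𝔇.dst h *ᵥ rmVec 𝔇.dst Ω = rmVec 𝔇.dst (h *ᵥ Ω) := by
  funext σ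
  show ∑ τ, rmLift 𝔇.dst h σ τ * rmVec 𝔇.dst Ω τ = (∑ ω, h (rmPhys σ) ω * Ω ω) *
    (if rmAtC σ = rmAtR σ then ((Real.sqrt 𝔇.dst : ℝ) : ℂ)⁻¹ else 0)
  rw [co_sum_cfg, Finset.sum_mul]
  refine Finset.sum_congr rfl fun ω _ => ?_
  rw [Finset.sum_eq_single (rmAtC σ), Finset.sum_eq_single (rmAtR σ)]
  · by_cases hcr : rmAtC σ = rmAtR σ <;> simp [rmLift, rmVec, mul_assoc, hcr]
  · intro r _ hr
    simp [rmLift, Ne.symm hr]
  · intro h; exact absurd (Finset.mem_univ _) h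
  · intro c _ hc
    refine Finset.sum_eq_zero fun r _ => ?_
    simp [rmLift, Ne.symm hc]
  · intro h; exact absurd (Finset.mem_univ _) h

/-! ### auxiliary: spectrum -/

theorem co_specM_eq {n : Type} [Fintype n] [DecidableEq n] {M : Matrix n n ℂ}
    (hM : M.IsHermitian) : specM M = Finset.univ.val.map hM.eigenvalues := by
  unfold specM
  rw [hM.roots_charpoly_eq_eigenvalues, Multiset.map_map]
  refine Multiset.map_congr rfl fun x _ => ?_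
  simp

theorem co_typZ_le {n : Type} [Fintype n] [DecidableEq n] {M : Matrix n n ℂ}
    (hM : M.PosSemidef) (w : ℝ) : typZ M w ≤ M.trace.re := by
  classical
  unfold typZ typM
  have h1 := Multiset.sum_filter_add_sum_filter_not (s := specM M)
    (fun p => Real.exp (-vnEnt M - w) ≤ p ∧ p ≤ Real.exp (-vnEnt M + w))
  have h2 : (specM M).sum = M.trace.re := by
    rw [co_specM_eq hM.isHermitian, trace_re_eq_sum_eigenvalues hM.isHermitian]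
    rfl
  have h3 : 0 ≤ ((specM M).filter fun p =>
      ¬ (Real.exp (-vnEnt M - w) ≤ p ∧ p ≤ Real.exp (-vnEnt M + w))).sum := by
    apply Multiset.sum_nonneg
    intro p hp
    have hp' := (Multiset.mem_filter.1 hp).1
    rw [co_specM_eq hM.isHermitian, Multiset.mem_map] at hp'
    obtain ⟨k, _, rfl⟩ := hp'
    exact hM.eigenvalues_nonneg k
  rw [← h2, ← h1]
  linarith

theorem co_rhoX_posSemidef : (ptr 𝔇.X 𝔇.S.rho).PosSemidef := by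
  rw [ptr_eq_ptrE]
  exact ptrE_posSemidef _ (pureOp_posSemidef _)

variable {a0 : ℝ} (hW : 𝔇.WF a0)
include hW

theorem co_rho_trace : 𝔇.S.rho.trace = 1 := by
  unfold Sys.rho pureOp
  rw [trace_vecMulVec, dotProduct_comm]
  exact hW.sys.unit

/-! ### scalars -/

theorem co_dst_pos : 0 < 𝔇.dst := by
  rcases Nat.eq_zero_or_pos 𝔇.dst with h | h
  · exfalso
    have h1 : typM (ptr 𝔇.X 𝔇.S.rho) 𝔇.w = 0 := Multiset.card_eq_zero.1 h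
    have h2 := hW.typ_pos
    unfold typZ at h2
    rw [h1] at h2
    simp at h2
  · exact h

theorem co_pe_mem (i : Fin 𝔇.dst) : 𝔇.tb.pe i ∈ typM (ptr 𝔇.X 𝔇.S.rho) 𝔇.w := by
  rw [← 𝔇.tb.spec]
  exact Multiset.mem_map_of_mem _ (Finset.mem_univ_val i)

theorem co_pe_pos (i : Fin 𝔇.dst) : 0 < 𝔇.tb.pe i := by
  classical
  have h := co_pe_mem 𝔇 hW i
  unfold typM at h
  exact lt_of_lt_of_le (Real.exp_pos _) (Multiset.mem_filter.1 h).2.1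

theorem co_sum_pe : ∑ i, 𝔇.tb.pe i = 𝔇.z := by
  unfold RepData.z typZ
  rw [← 𝔇.tb.spec]
  rfl

theorem co_z_pos : 0 < 𝔇.z := hW.typ_pos

theorem co_z_le_one : 𝔇.z ≤ 1 := by
  have h := co_typZ_le (co_rhoX_posSemidef 𝔇) 𝔇.w
  have h2 : (ptr 𝔇.X 𝔇.S.rho).trace = 1 := by
    rw [ptr_eq_ptrE, trace_ptrE, co_rho_trace 𝔇 hW]
  rw [h2, Complex.one_re] at h
  exact h

theorem co_S'_eq : 𝔇.S' = ∑ i, Real.negMulLog (𝔇.tb.pe i / 𝔇.z) := by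
  unfold RepData.S' typS
  rw [← 𝔇.tb.spec, Multiset.map_map]
  rfl

theorem co_pe_div_nonneg (i : Fin 𝔇.dst) : 0 ≤ 𝔇.tb.pe i / 𝔇.z :=
  div_nonneg (co_pe_pos 𝔇 hW i).le (co_z_pos 𝔇 hW).le

theorem co_sum_pe_div : ∑ i, 𝔇.tb.pe i / 𝔇.z = 1 := by
  rw [← Finset.sum_div, co_sum_pe 𝔇 hW, div_self (co_z_pos 𝔇 hW).ne']

theorem co_S'_nonneg : 0 ≤ 𝔇.S' := by
  rw [co_S'_eq 𝔇 hW]
  refine Finset.sum_nonneg fun i _ => Real.negMulLog_nonneg (co_pe_div_nonneg 𝔇 hW i) ?_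
  rw [← co_sum_pe_div 𝔇 hW]
  exact Finset.single_le_sum (f := fun i => 𝔇.tb.pe i / 𝔇.z)
    (fun j _ => co_pe_div_nonneg 𝔇 hW j) (Finset.mem_univ i)

theorem co_S'_le_ld : 𝔇.S' ≤ 𝔇.ld := by
  rw [co_S'_eq 𝔇 hW]
  have h := sum_negMulLog_le_log_card (fun i => 𝔇.tb.pe i / 𝔇.z) (co_pe_div_nonneg 𝔇 hW)
    (co_sum_pe_div 𝔇 hW)
  rw [Fintype.card_fin] at h
  exact h

theorem co_ld_nonneg : 0 ≤ 𝔇.ld := by
  unfold RepData.ld typLd
  exact Real.log_natCast_nonneg _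

/-! ### the vectors -/

omit hW in
theorem co_sqrt_inv_mul (d : ℕ) :
    ((Real.sqrt d : ℝ) : ℂ)⁻¹ * ((Real.sqrt d : ℝ) : ℂ)⁻¹ = (d : ℂ)⁻¹ := by
  rw [← mul_inv, ← Complex.ofReal_mul, Real.mul_self_sqrt (Nat.cast_nonneg d)]
  simp

omit hW in
theorem co_star_sqrt_inv (x : ℝ) : star (((Real.sqrt x : ℝ) : ℂ)⁻¹) = ((Real.sqrt x : ℝ) : ℂ)⁻¹ := by
  rw [star_inv₀]
  simp

omit hW in
/-- the Bell pair is normalised -/
theorem co_bell_sum {d : ℕ} (hd : 0 < d) :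
    ∑ c : Fin d, ∑ r : Fin d, star (if c = r then ((Real.sqrt d : ℝ) : ℂ)⁻¹ else 0) *
      (if c = r then ((Real.sqrt d : ℝ) : ℂ)⁻¹ else 0) = 1 := by
  have h : ∀ c : Fin d, ∑ r : Fin d, star (if c = r then ((Real.sqrt d : ℝ) : ℂ)⁻¹ else 0) *
      (if c = r then ((Real.sqrt d : ℝ) : ℂ)⁻¹ else 0) = (d : ℂ)⁻¹ := by
    intro c
    rw [Finset.sum_eq_single c]
    · simp only [if_true, co_star_sqrt_inv, co_sqrt_inv_mul]
    · intro r _ hr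
      simp [Ne.symm hr]
    · intro h; exact absurd (Finset.mem_univ _) h
  simp only [h, Finset.sum_const, Finset.card_univ, Fintype.card_fin, nsmul_eq_mul]
  exact mul_inv_cancel₀ (by exact_mod_cast hd.ne')

omit hW in
theorem co_vec_dot {d : ℕ} (hd : 0 < d) (ω ω' : Cfg io → ℂ) :
    star (rmVec d ω) ⬝ᵥ rmVec d ω' = star ω ⬝ᵥ ω' := by
  simp only [dotProduct, Pi.star_apply]
  rw [co_sum_cfg]
  refine Finset.sum_congr rfl fun ω₀ _ => ?_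
  simp only [co_vec_mk, star_mul']
  have h : ∀ c r : Fin d, star (ω ω₀) * star (if c = r then ((Real.sqrt d : ℝ) : ℂ)⁻¹ else 0) *
      (ω' ω₀ * if c = r then ((Real.sqrt d : ℝ) : ℂ)⁻¹ else 0) = star (ω ω₀) * ω' ω₀ *
      (star (if c = r then ((Real.sqrt d : ℝ) : ℂ)⁻¹ else 0) *
      (if c = r then ((Real.sqrt d : ℝ) : ℂ)⁻¹ else 0)) := by
    intro c r; ring
  simp only [h, ← Finset.mul_sum, co_bell_sum hd, mul_one]

theorem co_psi_unit : star 𝔇.mPsi ⬝ᵥ 𝔇.mPsi = 1 := by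
  unfold RepData.mPsi
  rw [co_vec_dot (co_dst_pos 𝔇 hW)]
  exact hW.sys.unit

omit hW in
theorem co_inl_mem_mXC {y : Λ} : (Sum.inl y : Λ ⊕ Bool) ∈ 𝔇.mXC ↔ y ∈ 𝔇.X := by
  simp [RepData.mXC, rmPh]

omit hW in
theorem co_rmR_not_mem_mXC : (rmR : Λ ⊕ Bool) ∉ 𝔇.mXC := by
  simp [RepData.mXC, rmPh]

omit hW in
/-- configurations of `X ∪ C` -/
def coXC : CfgOn (rmIo io 𝔇.dst) 𝔇.mXC ≃ CfgOn io 𝔇.X × Fin 𝔇.dst where
  toFun τ := (fun x => τ ⟨Sum.inl x.1, 𝔇.inl_mem_mXC x⟩, τ ⟨rmC, 𝔇.rmC_mem_mXC⟩)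
  invFun p := fun x =>
    match x with
    | ⟨Sum.inl y, h⟩ => p.1 ⟨y, (co_inl_mem_mXC 𝔇).1 h⟩
    | ⟨Sum.inr _, _⟩ => p.2
  left_inv τ := by
    funext x
    rcases x with ⟨y | b, h⟩
    · rfl
    · cases b
      · rfl
      · exact absurd h (co_rmR_not_mem_mXC 𝔇)
  right_inv p := rfl

omit hW in
theorem co_pinVec_eq (τ : CfgOn (rmIo io 𝔇.dst) 𝔇.mXC) :
    𝔇.mPinVec τ = ((Real.sqrt 𝔇.dst : ℝ) : ℂ)⁻¹ * 𝔇.tb.e (coXC 𝔇 τ).2 (coXC 𝔇 τ).1 := rfl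

/-- normalisation of the coefficients of the pin vector -/
theorem co_pin_coeff_sum : ∑ x : CfgOn io 𝔇.X, ∑ c : Fin 𝔇.dst,
    (((Real.sqrt 𝔇.dst : ℝ) : ℂ)⁻¹ * 𝔇.tb.e c x) *
      star (((Real.sqrt 𝔇.dst : ℝ) : ℂ)⁻¹ * 𝔇.tb.e c x) = 1 := by
  rw [Finset.sum_comm]
  have h : ∀ c : Fin 𝔇.dst, ∑ x : CfgOn io 𝔇.X, (((Real.sqrt 𝔇.dst : ℝ) : ℂ)⁻¹ * 𝔇.tb.e c x) *
      star (((Real.sqrt 𝔇.dst : ℝ) : ℂ)⁻¹ * 𝔇.tb.e c x) = (𝔇.dst : ℂ)⁻¹ := by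
    intro c
    have h1 := 𝔇.tb.orth c c
    rw [if_pos rfl] at h1
    simp only [dotProduct, Pi.star_apply] at h1
    calc ∑ x : CfgOn io 𝔇.X, (((Real.sqrt 𝔇.dst : ℝ) : ℂ)⁻¹ * 𝔇.tb.e c x) *
        star (((Real.sqrt 𝔇.dst : ℝ) : ℂ)⁻¹ * 𝔇.tb.e c x)
        = ∑ x : CfgOn io 𝔇.X, (𝔇.dst : ℂ)⁻¹ * (star (𝔇.tb.e c x) * 𝔇.tb.e c x) := by
          refine Finset.sum_congr rfl fun x _ => ?_
          rw [star_mul', co_star_sqrt_inv, ← co_sqrt_inv_mul]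
          ring
      _ = _ := by rw [← Finset.mul_sum, h1, mul_one]
  simp only [h, Finset.sum_const, Finset.card_univ, Fintype.card_fin, nsmul_eq_mul]
  exact mul_inv_cancel₀ (by exact_mod_cast (co_dst_pos 𝔇 hW).ne')

theorem co_pinVec_unit : star 𝔇.mPinVec ⬝ᵥ 𝔇.mPinVec = 1 := by
  simp only [dotProduct, Pi.star_apply]
  rw [← (coXC 𝔇).symm.sum_comp, Fintype.sum_prod_type, ← co_pin_coeff_sum 𝔇 hW]
  refine Finset.sum_congr rfl fun x _ => Finset.sum_congr rfl fun c _ => ?_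
  rw [co_pinVec_eq, Equiv.apply_symm_apply, mul_comm]

omit hW in
theorem co_pureOp_isHermitian {n : Type} [Fintype n] [DecidableEq n] (v : n → ℂ) :
    (pureOp v).IsHermitian := (pureOp_posSemidef v).isHermitian

omit hW in
theorem co_pureOp_sq {n : Type} [Fintype n] [DecidableEq n] {v : n → ℂ} (hv : star v ⬝ᵥ v = 1) :
    pureOp v * pureOp v = pureOp v := by
  unfold pureOp
  rw [vecMulVec_mul_vecMulVec, hv, one_smul]

omit hW in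
theorem co_pureOp_mulVec {n : Type} [Fintype n] [DecidableEq n] (v w : n → ℂ) :
    pureOp v *ᵥ w = (star v ⬝ᵥ w) • v := by
  unfold pureOp
  rw [vecMulVec_mulVec]
  funext i
  simp [mul_comm]

theorem co_pin1_isHermitian : 𝔇.mPin1.IsHermitian := by
  unfold RepData.mPin1
  rw [IsHermitian, ← emb_conjTranspose, (co_pureOp_isHermitian _).eq]

theorem co_pin1_sq : 𝔇.mPin1 * 𝔇.mPin1 = 𝔇.mPin1 := by
  unfold RepData.mPin1
  rw [← emb_mul, co_pureOp_sq (co_pinVec_unit 𝔇 hW)]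

omit hW in
/-- the contraction `(⟨e_r|_X ⊗ 1) ω` -/
noncomputable def coPr (ω : Cfg io → ℂ) (r : Fin 𝔇.dst) (y : CfgOff io 𝔇.X) : ℂ :=
  ∑ x : CfgOn io 𝔇.X, star (𝔇.tb.e r x) * ω (cglue 𝔇.X x y)

omit hW in
theorem co_coXC_crOn (σ : Cfg (rmIo io 𝔇.dst)) :
    coXC 𝔇 (crOn 𝔇.mXC σ) = (crOn 𝔇.X (rmPhys σ), rmAtC σ) := rfl

omit hW in
theorem co_cglue_mXC (a : CfgOn (rmIo io 𝔇.dst) 𝔇.mXC) (σ : Cfg (rmIo io 𝔇.dst)) :
    cglue 𝔇.mXC a (crOff 𝔇.mXC σ) =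
      coMk (cglue 𝔇.X (coXC 𝔇 a).1 (crOff 𝔇.X (rmPhys σ))) (coXC 𝔇 a).2 (rmAtR σ) := by
  funext x
  rcases x with y | b
  · by_cases hy : y ∈ 𝔇.X
    · simp only [cglue, coMk, dif_pos hy, dif_pos ((co_inl_mem_mXC 𝔇).2 hy)]
      rfl
    · simp only [cglue, coMk, dif_neg hy, dif_neg (fun h => hy ((co_inl_mem_mXC 𝔇).1 h))]
      rfl
  · cases b
    · simp only [cglue, coMk, dif_pos 𝔇.rmC_mem_mXC]
      rfl
    · simp only [cglue, coMk, dif_neg (co_rmR_not_mem_mXC 𝔇)]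
      rfl

omit hW in
/-- the pin applied to `ω ⊗ Bell` -/
theorem co_pin1_vec_apply (ω : Cfg io → ℂ) (σ : Cfg (rmIo io 𝔇.dst)) :
    (𝔇.mPin1 *ᵥ rmVec 𝔇.dst ω) σ =
      ((Real.sqrt 𝔇.dst : ℝ) : ℂ)⁻¹ * 𝔇.tb.e (rmAtC σ) (crOn 𝔇.X (rmPhys σ)) *
        ((𝔇.dst : ℂ)⁻¹ * coPr 𝔇 ω (rmAtR σ) (crOff 𝔇.X (rmPhys σ))) := by
  unfold RepData.mPin1
  rw [sp_emb_mulVec, ← (coXC 𝔇).symm.sum_comp, Fintype.sum_prod_type]
  simp only [pureOp_apply, co_pinVec_eq, co_cglue_mXC, Equiv.apply_symm_apply, co_coXC_crOn,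
    co_vec_mk]
  unfold coPr
  rw [Finset.mul_sum, Finset.mul_sum]
  refine Finset.sum_congr rfl fun x _ => ?_
  rw [Finset.sum_eq_single (rmAtR σ)]
  · rw [if_pos rfl, star_mul', co_star_sqrt_inv, ← co_sqrt_inv_mul]
    ring
  · intro c _ hc
    simp [hc]
  · intro h; exact absurd (Finset.mem_univ _) h

/-- the explicit product form `Φ = B_{XC} ⊗ ψ` -/
theorem co_phi_apply (σ : Cfg (rmIo io 𝔇.dst)) :
    𝔇.mPhi σ = ((Real.sqrt 𝔇.dst : ℝ) : ℂ)⁻¹ * 𝔇.tb.e (rmAtC σ) (crOn 𝔇.X (rmPhys σ)) *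
      (((Real.sqrt 𝔇.z : ℝ) : ℂ)⁻¹ * ∑ x : CfgOn io 𝔇.X,
        star (𝔇.tb.e (rmAtR σ) x) * 𝔇.S.Om (cglue 𝔇.X x (crOff 𝔇.X (rmPhys σ)))) := by
  unfold RepData.mPhi RepData.mPsi
  rw [Pi.smul_apply, co_pin1_vec_apply, smul_eq_mul]
  have hd : (𝔇.dst : ℂ) ≠ 0 := by exact_mod_cast (co_dst_pos 𝔇 hW).ne'
  unfold coPr
  push_cast
  field_simp

/-- the one-copy pinning calculation -/
theorem co_pin1_psi :
    𝔇.mPin1 *ᵥ 𝔇.mPsi = ((Real.sqrt 𝔇.z / 𝔇.dst : ℝ) : ℂ) • 𝔇.mPhi := by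
  unfold RepData.mPhi
  rw [smul_smul, ← Complex.ofReal_mul]
  have hd : (𝔇.dst : ℝ) ≠ 0 := by exact_mod_cast (co_dst_pos 𝔇 hW).ne'
  have hz : Real.sqrt 𝔇.z ≠ 0 := (Real.sqrt_pos.2 (co_z_pos 𝔇 hW)).ne'
  have h : Real.sqrt 𝔇.z / 𝔇.dst * (𝔇.dst / Real.sqrt 𝔇.z) = 1 := by
    field_simp
  rw [h, Complex.ofReal_one, one_smul]

/-- sums of products over `X`, `C` and the rest factorise -/
theorem co_sum_factor (g g' : CfgOff io 𝔇.X → ℂ) :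
    ∑ ω : Cfg io, ∑ c : Fin 𝔇.dst,
      (((Real.sqrt 𝔇.dst : ℝ) : ℂ)⁻¹ * 𝔇.tb.e c (crOn 𝔇.X ω) * g (crOff 𝔇.X ω)) *
        star (((Real.sqrt 𝔇.dst : ℝ) : ℂ)⁻¹ * 𝔇.tb.e c (crOn 𝔇.X ω) * g' (crOff 𝔇.X ω)) =
      ∑ y, g y * star (g' y) := by
  rw [sp_sum_cfg 𝔇.X]
  simp only [sp_crOn_cglue, sp_crOff_cglue]
  calc ∑ x : CfgOn io 𝔇.X, ∑ y : CfgOff io 𝔇.X, ∑ c : Fin 𝔇.dst,
        (((Real.sqrt 𝔇.dst : ℝ) : ℂ)⁻¹ * 𝔇.tb.e c x * g y) *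
          star (((Real.sqrt 𝔇.dst : ℝ) : ℂ)⁻¹ * 𝔇.tb.e c x * g' y)
      = (∑ x : CfgOn io 𝔇.X, ∑ c : Fin 𝔇.dst, (((Real.sqrt 𝔇.dst : ℝ) : ℂ)⁻¹ * 𝔇.tb.e c x) *
          star (((Real.sqrt 𝔇.dst : ℝ) : ℂ)⁻¹ * 𝔇.tb.e c x)) * ∑ y, g y * star (g' y) := by
        rw [Finset.sum_mul]
        refine Finset.sum_congr rfl fun x _ => ?_
        rw [Finset.sum_comm, Finset.sum_mul]
        refine Finset.sum_congr rfl fun c _ => ?_
        rw [Finset.mul_sum]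
        refine Finset.sum_congr rfl fun y _ => ?_
        rw [star_mul' (_ * _) (g' y)]
        ring
    _ = _ := by rw [co_pin_coeff_sum 𝔇 hW, one_mul]

omit hW in
/-- the Gram matrix of the contractions of `Ω` -/
theorem co_coPr_gram (r r' : Fin 𝔇.dst) :
    ∑ y, coPr 𝔇 𝔇.S.Om r y * star (coPr 𝔇 𝔇.S.Om r' y) =
      if r = r' then (𝔇.tb.pe r : ℂ) else 0 := by
  have h1 : star (𝔇.tb.e r) ⬝ᵥ (ptr 𝔇.X 𝔇.S.rho *ᵥ 𝔇.tb.e r') =
      if r = r' then (𝔇.tb.pe r : ℂ) else 0 := by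
    rw [𝔇.tb.eig, dotProduct_smul, 𝔇.tb.orth, smul_eq_mul]
    by_cases h : r = r'
    · simp [h]
    · simp [h]
  rw [← h1]
  have h2 : ∀ y, coPr 𝔇 𝔇.S.Om r y * star (coPr 𝔇 𝔇.S.Om r' y) =
      ∑ x : CfgOn io 𝔇.X, ∑ x' : CfgOn io 𝔇.X, star (𝔇.tb.e r x) *
        (𝔇.S.Om (cglue 𝔇.X x y) * star (𝔇.S.Om (cglue 𝔇.X x' y)) * 𝔇.tb.e r' x') := by
    intro y
    simp only [coPr, star_sum, star_mul', star_star]
    rw [Finset.sum_mul_sum]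
    refine Finset.sum_congr rfl fun x _ => Finset.sum_congr rfl fun x' _ => ?_
    ring
  simp only [h2, dotProduct, Matrix.mulVec, ptr, Matrix.of_apply, Sys.rho, pureOp_apply,
    Pi.star_apply, Finset.sum_mul, Finset.mul_sum]
  rw [Finset.sum_comm]
  refine Finset.sum_congr rfl fun x _ => ?_
  rw [Finset.sum_comm]

theorem co_phi_mk (ω : Cfg io) (c r : Fin 𝔇.dst) :
    𝔇.mPhi (coMk ω c r) = ((Real.sqrt 𝔇.dst : ℝ) : ℂ)⁻¹ * 𝔇.tb.e c (crOn 𝔇.X ω) *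
      (((Real.sqrt 𝔇.z : ℝ) : ℂ)⁻¹ * coPr 𝔇 𝔇.S.Om r (crOff 𝔇.X ω)) :=
  co_phi_apply 𝔇 hW (coMk ω c r)

/-- the `R`-marginal of `Φ`, entrywise -/
theorem co_phi_R_entry (r r' : Fin 𝔇.dst) :
    ∑ ω : Cfg io, ∑ c : Fin 𝔇.dst, 𝔇.mPhi (coMk ω c r) * star (𝔇.mPhi (coMk ω c r')) =
      if r = r' then ((𝔇.tb.pe r / 𝔇.z : ℝ) : ℂ) else 0 := by
  simp only [co_phi_mk 𝔇 hW]
  rw [co_sum_factor 𝔇 hW (fun y => ((Real.sqrt 𝔇.z : ℝ) : ℂ)⁻¹ * coPr 𝔇 𝔇.S.Om r y)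
    (fun y => ((Real.sqrt 𝔇.z : ℝ) : ℂ)⁻¹ * coPr 𝔇 𝔇.S.Om r' y)]
  have hz : ((Real.sqrt 𝔇.z : ℝ) : ℂ)⁻¹ * ((Real.sqrt 𝔇.z : ℝ) : ℂ)⁻¹ = ((𝔇.z : ℝ) : ℂ)⁻¹ := by
    rw [← mul_inv, ← Complex.ofReal_mul, Real.mul_self_sqrt (co_z_pos 𝔇 hW).le]
  calc ∑ y, ((Real.sqrt 𝔇.z : ℝ) : ℂ)⁻¹ * coPr 𝔇 𝔇.S.Om r y *
        star (((Real.sqrt 𝔇.z : ℝ) : ℂ)⁻¹ * coPr 𝔇 𝔇.S.Om r' y)
      = ((𝔇.z : ℝ) : ℂ)⁻¹ * ∑ y, coPr 𝔇 𝔇.S.Om r y * star (coPr 𝔇 𝔇.S.Om r' y) := by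
        rw [Finset.mul_sum]
        refine Finset.sum_congr rfl fun y _ => ?_
        rw [star_mul', co_star_sqrt_inv, ← hz]
        ring
    _ = _ := by
        rw [co_coPr_gram]
        by_cases h : r = r'
        · simp only [if_pos h]
          push_cast
          rw [div_eq_mul_inv, mul_comm]
        · simp [h]

theorem co_phi_unit : star 𝔇.mPhi ⬝ᵥ 𝔇.mPhi = 1 := by
  simp only [dotProduct, Pi.star_apply]
  rw [co_sum_cfg]
  calc ∑ ω : Cfg io, ∑ c : Fin 𝔇.dst, ∑ r : Fin 𝔇.dst,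
        star (𝔇.mPhi (coMk ω c r)) * 𝔇.mPhi (coMk ω c r)
      = ∑ r : Fin 𝔇.dst, ∑ ω : Cfg io, ∑ c : Fin 𝔇.dst,
        𝔇.mPhi (coMk ω c r) * star (𝔇.mPhi (coMk ω c r)) := by
        calc ∑ ω : Cfg io, ∑ c : Fin 𝔇.dst, ∑ r : Fin 𝔇.dst,
              star (𝔇.mPhi (coMk ω c r)) * 𝔇.mPhi (coMk ω c r)
            = ∑ ω : Cfg io, ∑ r : Fin 𝔇.dst, ∑ c : Fin 𝔇.dst,
              star (𝔇.mPhi (coMk ω c r)) * 𝔇.mPhi (coMk ω c r) :=
              Finset.sum_congr rfl fun ω _ => Finset.sum_comm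
          _ = ∑ r : Fin 𝔇.dst, ∑ ω : Cfg io, ∑ c : Fin 𝔇.dst,
              star (𝔇.mPhi (coMk ω c r)) * 𝔇.mPhi (coMk ω c r) := Finset.sum_comm
          _ = _ := by
              refine Finset.sum_congr rfl fun r _ => Finset.sum_congr rfl fun ω _ =>
                Finset.sum_congr rfl fun c _ => ?_
              rw [mul_comm]
    _ = 1 := by
        simp only [co_phi_R_entry 𝔇 hW, if_true]
        rw [← Complex.ofReal_sum, co_sum_pe_div 𝔇 hW, Complex.ofReal_one]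

theorem co_pin1_phi : 𝔇.mPin1 *ᵥ 𝔇.mPhi = 𝔇.mPhi := by
  unfold RepData.mPhi
  rw [mulVec_smul, mulVec_mulVec, co_pin1_sq 𝔇 hW]

/-! ### marginals -/

omit hW in
/-- tracing out the Bell pair -/
theorem co_ptrE_vec {d : ℕ} (hd : 0 < d) (ω : Cfg io → ℂ) :
    ptrE (coSplit io d) (pureOp (rmVec d ω)) = pureOp ω := by
  ext ω₁ ω₂
  rw [ptrE_apply, Fintype.sum_prod_type]
  simp only [coSplit_symm_apply, pureOp_apply, co_vec_mk, star_mul']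
  have h : ∀ c r : Fin d, ω ω₁ * (if c = r then ((Real.sqrt d : ℝ) : ℂ)⁻¹ else 0) *
      (star (ω ω₂) * star (if c = r then ((Real.sqrt d : ℝ) : ℂ)⁻¹ else 0)) = ω ω₁ * star (ω ω₂) *
      (star (if c = r then ((Real.sqrt d : ℝ) : ℂ)⁻¹ else 0) *
      (if c = r then ((Real.sqrt d : ℝ) : ℂ)⁻¹ else 0)) := by
    intro c r; ring
  simp only [h, ← Finset.mul_sum, co_bell_sum hd, mul_one]

omit hW in
theorem co_trace_submatrix {n m : Type} [Fintype n] [Fintype m] (E : n ≃ m) (M : Matrix m m ℂ) :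
    (M.submatrix E E).trace = M.trace := by
  simp only [Matrix.trace, Matrix.diag_apply, submatrix_apply]
  exact E.sum_comp fun i => M i i

omit hW in
/-- physical marginals of `ω ⊗ Bell` -/
theorem co_ptr_vec {d : ℕ} (hd : 0 < d) (ω : Cfg io → ℂ) (Q : Finset Λ) :
    ptr (rmPh Q) (pureOp (rmVec d ω)) =
      (ptr Q (pureOp ω)).submatrix (coPh io d Q) (coPh io d Q) := by
  rw [Matrix.ext_iff_trace_mul_right]
  intro K
  have hK : K = (K.submatrix (coPh io d Q).symm (coPh io d Q).symm).submatrix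
      (coPh io d Q) (coPh io d Q) := by
    ext a b; simp
  calc (ptr (rmPh Q) (pureOp (rmVec d ω)) * K).trace
      = (pureOp (rmVec d ω) * emb (rmPh Q) K).trace := by
        rw [ptr_eq_ptrE, emb_eq_embE, trace_mul_embE]
    _ = (pureOp ω * emb Q (K.submatrix (coPh io d Q).symm (coPh io d Q).symm)).trace := by
        rw [co_emb_eq_lift, co_lift_eq_embE, trace_mul_embE, co_ptrE_vec hd]
    _ = (ptr Q (pureOp ω) * K.submatrix (coPh io d Q).symm (coPh io d Q).symm).trace := by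
        rw [ptr_eq_ptrE, emb_eq_embE, trace_mul_embE]
    _ = _ := by
        conv_rhs => rw [hK]
        rw [submatrix_mul_equiv, co_trace_submatrix]

/-- physical marginals of `Ψ` are those of `Ω` (up to the obvious relabelling of the index type) -/
theorem co_ptr_psi (Q : Finset Λ) :
    ∃ E : CfgOn (rmIo io 𝔇.dst) (rmPh Q) ≃ CfgOn io Q,
      ptr (rmPh Q) (pureOp 𝔇.mPsi) = (ptr Q 𝔇.S.rho).submatrix E E :=
  ⟨coPh io 𝔇.dst Q, co_ptr_vec (co_dst_pos 𝔇 hW) _ Q⟩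

omit hW in
theorem co_renyiTr_submatrix {n m : Type} [Fintype n] [DecidableEq n] [Fintype m] [DecidableEq m]
    (E : n ≃ m) (M : Matrix m m ℂ) (r : ℝ) : renyiTr (M.submatrix E E) r = renyiTr M r := by
  have h : (M.submatrix E E).charpoly = M.charpoly := by
    have := Matrix.charpoly_reindex E.symm M
    simpa [Matrix.reindex_apply] using this
  unfold renyiTr specM
  rw [h]

theorem co_renyi_psi (Q : Finset Λ) (r : ℝ) :
    renyiTr (ptr (rmPh Q) (pureOp 𝔇.mPsi)) r = renyiTr (ptr Q 𝔇.S.rho) r := by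
  obtain ⟨E, hE⟩ := co_ptr_psi 𝔇 hW Q
  rw [hE, co_renyiTr_submatrix]

theorem co_ent_psi (Q : Finset Λ) : ent (pureOp 𝔇.mPsi) (rmPh Q) = ent 𝔇.S.rho Q := by
  obtain ⟨E, hE⟩ := co_ptr_psi 𝔇 hW Q
  unfold ent
  rw [hE, vnEnt_submatrix_equiv]

omit hW in
/-- squared norm -/
noncomputable def coN {n : Type} [Fintype n] (v : n → ℂ) : ℝ := ∑ i, ‖v i‖ ^ 2

omit hW in
theorem co_dot_self {n : Type} [Fintype n] (v : n → ℂ) : star v ⬝ᵥ v = (coN v : ℂ) := by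
  classical
  exact star_dotProduct_self_eq v

omit hW in
theorem co_mul_star (z : ℂ) : z * star z = ((‖z‖ ^ 2 : ℝ) : ℂ) := by
  rw [Complex.star_def, Complex.mul_conj, Complex.normSq_eq_norm_sq]

omit hW in
theorem coN_smul {n : Type} [Fintype n] (c : ℂ) (v : n → ℂ) : coN (c • v) = ‖c‖ ^ 2 * coN v := by
  unfold coN
  rw [Finset.mul_sum]
  refine Finset.sum_congr rfl fun i _ => ?_
  rw [Pi.smul_apply, smul_eq_mul, norm_mul, mul_pow]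

omit hW in
theorem coN_vec {d : ℕ} (hd : 0 < d) (ω : Cfg io → ℂ) : coN (rmVec d ω) = coN ω := by
  have h := co_vec_dot hd ω ω
  rw [co_dot_self, co_dot_self] at h
  exact_mod_cast h

omit hW in
/-- Bessel's inequality for the typical basis -/
theorem co_bessel (g : CfgOn io 𝔇.X → ℂ) :
    ∑ r : Fin 𝔇.dst, ‖∑ x, star (𝔇.tb.e r x) * g x‖ ^ 2 ≤ ∑ x, ‖g x‖ ^ 2 := by
  set v : Fin 𝔇.dst → EuclideanSpace ℂ (CfgOn io 𝔇.X) := fun r => WithLp.toLp 2 (𝔇.tb.e r) with hv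
  have hin : ∀ (r : Fin 𝔇.dst) (f : CfgOn io 𝔇.X → ℂ),
      inner ℂ (v r) (WithLp.toLp 2 f : EuclideanSpace ℂ (CfgOn io 𝔇.X)) = star (𝔇.tb.e r) ⬝ᵥ f := by
    intro r f
    rw [EuclideanSpace.inner_eq_star_dotProduct, dotProduct_comm]
  have ho : Orthonormal ℂ v := by
    rw [orthonormal_iff_ite]
    intro i j
    rw [hin]
    exact 𝔇.tb.orth i j
  have h := ho.sum_inner_products_le (WithLp.toLp 2 g : EuclideanSpace ℂ (CfgOn io 𝔇.X))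
    (s := Finset.univ)
  rw [EuclideanSpace.norm_sq_eq] at h
  simp only [hin] at h
  exact h

/-- the pin shrinks `ω ⊗ Bell` by the factor `d` at least -/
theorem co_pin1_vec_le (ω : Cfg io → ℂ) :
    coN (𝔇.mPin1 *ᵥ rmVec 𝔇.dst ω) ≤ ((𝔇.dst : ℝ)⁻¹) ^ 2 * coN ω := by
  have h1 : ((coN (𝔇.mPin1 *ᵥ rmVec 𝔇.dst ω) : ℝ) : ℂ) =
      ((∑ r : Fin 𝔇.dst, ∑ y, ‖(𝔇.dst : ℂ)⁻¹ * coPr 𝔇 ω r y‖ ^ 2 : ℝ) : ℂ) := by
    unfold coN
    push_cast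
    simp only [← Complex.ofReal_pow, ← co_mul_star]
    rw [co_sum_cfg]
    calc ∑ ω₀ : Cfg io, ∑ c : Fin 𝔇.dst, ∑ r : Fin 𝔇.dst,
          (𝔇.mPin1 *ᵥ rmVec 𝔇.dst ω) (coMk ω₀ c r) * star ((𝔇.mPin1 *ᵥ rmVec 𝔇.dst ω) (coMk ω₀ c r))
        = ∑ ω₀ : Cfg io, ∑ r : Fin 𝔇.dst, ∑ c : Fin 𝔇.dst,
          (𝔇.mPin1 *ᵥ rmVec 𝔇.dst ω) (coMk ω₀ c r) *
            star ((𝔇.mPin1 *ᵥ rmVec 𝔇.dst ω) (coMk ω₀ c r)) :=
          Finset.sum_congr rfl fun ω _ => Finset.sum_comm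
      _ = ∑ r : Fin 𝔇.dst, ∑ ω₀ : Cfg io, ∑ c : Fin 𝔇.dst,
          (𝔇.mPin1 *ᵥ rmVec 𝔇.dst ω) (coMk ω₀ c r) *
            star ((𝔇.mPin1 *ᵥ rmVec 𝔇.dst ω) (coMk ω₀ c r)) := Finset.sum_comm
      _ = _ := by
          refine Finset.sum_congr rfl fun r _ => ?_
          simp only [co_pin1_vec_apply, co_rmPhys_mk, co_rmAtC_mk, co_rmAtR_mk]
          exact co_sum_factor 𝔇 hW (fun y => (𝔇.dst : ℂ)⁻¹ * coPr 𝔇 ω r y)
            (fun y => (𝔇.dst : ℂ)⁻¹ * coPr 𝔇 ω r y)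
  have h2 : coN (𝔇.mPin1 *ᵥ rmVec 𝔇.dst ω) =
      ∑ r : Fin 𝔇.dst, ∑ y, ‖(𝔇.dst : ℂ)⁻¹ * coPr 𝔇 ω r y‖ ^ 2 := by exact_mod_cast h1
  have h3 : coN ω = ∑ y : CfgOff io 𝔇.X, ∑ x : CfgOn io 𝔇.X, ‖ω (cglue 𝔇.X x y)‖ ^ 2 := by
    unfold coN
    rw [Finset.sum_comm, ← Fintype.sum_prod_type']
    exact Fintype.sum_equiv (cfgSplit 𝔇.X) _ _ (fun σ => by simp [cfgSplit])
  rw [h2, h3, Finset.sum_comm, Finset.mul_sum]
  refine Finset.sum_le_sum fun y _ => ?_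
  have h4 := co_bessel 𝔇 (fun x => ω (cglue 𝔇.X x y))
  calc ∑ r : Fin 𝔇.dst, ‖(𝔇.dst : ℂ)⁻¹ * coPr 𝔇 ω r y‖ ^ 2
      = ((𝔇.dst : ℝ)⁻¹) ^ 2 * ∑ r : Fin 𝔇.dst, ‖coPr 𝔇 ω r y‖ ^ 2 := by
        rw [Finset.mul_sum]
        refine Finset.sum_congr rfl fun r _ => ?_
        rw [norm_mul, mul_pow, norm_inv, Complex.norm_natCast]
    _ ≤ _ := mul_le_mul_of_nonneg_left h4 (by positivity)

omit hW in
theorem co_quad_eq_trace {m : Type} [Fintype m] (φ : m → ℂ) (M : Matrix m m ℂ) :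
    star φ ⬝ᵥ (M *ᵥ φ) = (pureOp φ * M).trace := by
  unfold pureOp
  rw [vecMulVec_mul, trace_vecMulVec, dotProduct_mulVec, dotProduct_comm]

omit hW in
/-- quadratic forms of a marginal of a pure state -/
theorem co_quad_ptr {s : Type} [DecidableEq s] [Fintype s] {jo : s → Type}
    [∀ x, Fintype (jo x)] [∀ x, DecidableEq (jo x)] (A : Finset s) (φ : Cfg jo → ℂ)
    (L : Matrix (CfgOn jo A) (CfgOn jo A) ℂ) :
    (ptr A (pureOp φ) * (Lᴴ * L)).trace = (coN (emb A L *ᵥ φ) : ℂ) := by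
  rw [ptr_eq_ptrE, ← trace_mul_embE, ← co_quad_eq_trace, ← co_dot_self, embE_mul,
    embE_conjTranspose, ← emb_eq_embE, star_mulVec, ← dotProduct_mulVec, mulVec_mulVec]

omit hW in
theorem co_disjoint_mXC {B : Finset Λ} (hB : Disjoint B 𝔇.X) : Disjoint (rmPh B) 𝔇.mXC := by
  rw [Finset.disjoint_left]
  intro x hx hx'
  rcases x with y | b
  · exact Finset.disjoint_left.1 hB (co_mem_rmPh.1 hx) ((co_inl_mem_mXC 𝔇).1 hx')
  · exact co_inr_not_mem_rmPh B b hx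

/-- domination on vectors -/
theorem co_phi_dom (B : Finset Λ) (hB : Disjoint B 𝔇.X)
    (L : Matrix (CfgOn (rmIo io 𝔇.dst) (rmPh B)) (CfgOn (rmIo io 𝔇.dst) (rmPh B)) ℂ) :
    coN (emb (rmPh B) L *ᵥ 𝔇.mPhi) ≤ 𝔇.z⁻¹ * coN (emb (rmPh B) L *ᵥ 𝔇.mPsi) := by
  have hd : (0 : ℝ) < 𝔇.dst := by exact_mod_cast co_dst_pos 𝔇 hW
  have hz := co_z_pos 𝔇 hW
  have hcomm : emb (rmPh B) L * 𝔇.mPin1 = 𝔇.mPin1 * emb (rmPh B) L :=
    (SuppIn.commute (co_disjoint_mXC 𝔇 hB) ⟨L, rfl⟩ ⟨_, rfl⟩).eq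
  set h := emb B (L.submatrix (coPh io 𝔇.dst B).symm (coPh io 𝔇.dst B).symm) with hh
  have h1 : emb (rmPh B) L *ᵥ 𝔇.mPsi = rmVec 𝔇.dst (h *ᵥ 𝔇.S.Om) := by
    rw [co_emb_eq_lift, ← hh]
    exact co_lift_mulVec 𝔇 h 𝔇.S.Om
  have h2 : emb (rmPh B) L *ᵥ 𝔇.mPhi = (((𝔇.dst : ℝ) / Real.sqrt 𝔇.z : ℝ) : ℂ) •
      (𝔇.mPin1 *ᵥ rmVec 𝔇.dst (h *ᵥ 𝔇.S.Om)) := by
    unfold RepData.mPhi
    rw [mulVec_smul, mulVec_mulVec, hcomm, ← mulVec_mulVec, h1]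
  rw [h2, h1, coN_smul, coN_vec (co_dst_pos 𝔇 hW), Complex.norm_real, Real.norm_eq_abs, sq_abs,
    div_pow, Real.sq_sqrt hz.le]
  have h3 := co_pin1_vec_le 𝔇 hW (h *ᵥ 𝔇.S.Om)
  calc (𝔇.dst : ℝ) ^ 2 / 𝔇.z * coN (𝔇.mPin1 *ᵥ rmVec 𝔇.dst (h *ᵥ 𝔇.S.Om))
      ≤ (𝔇.dst : ℝ) ^ 2 / 𝔇.z * (((𝔇.dst : ℝ)⁻¹) ^ 2 * coN (h *ᵥ 𝔇.S.Om)) :=
        mul_le_mul_of_nonneg_left h3 (by positivity)
    _ = 𝔇.z⁻¹ * coN (h *ᵥ 𝔇.S.Om) := by
        field_simp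

omit hW in
theorem co_ptr_pure_isHermitian {s : Type} [DecidableEq s] [Fintype s] {jo : s → Type}
    [∀ x, Fintype (jo x)] [∀ x, DecidableEq (jo x)] (A : Finset s) (φ : Cfg jo → ℂ) :
    (ptr A (pureOp φ)).IsHermitian := by
  rw [ptr_eq_ptrE]
  exact ptrE_isHermitian _ (pureOp_posSemidef φ).isHermitian

/-- (comparator:post-marginal), domination -/
theorem co_ptr_phi_le (B : Finset Λ) (hB : Disjoint B 𝔇.X) :
    ptr (rmPh B) (pureOp 𝔇.mPhi) ≤ ((𝔇.z⁻¹ : ℝ) : ℂ) • ptr (rmPh B) (pureOp 𝔇.mPsi) := by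
  rw [Matrix.le_iff]
  refine PosSemidef.of_dotProduct_mulVec_nonneg ?_ fun v => ?_
  · rw [IsHermitian, conjTranspose_sub, conjTranspose_smul, (co_ptr_pure_isHermitian _ _).eq,
      (co_ptr_pure_isHermitian _ _).eq]
    simp
  · obtain ⟨L, hL⟩ := exists_eq_conjTranspose_mul_self (pureOp_posSemidef v)
    rw [co_quad_eq_trace, Matrix.trace_mul_comm, Matrix.sub_mul, Matrix.smul_mul, trace_sub,
      trace_smul, hL, co_quad_ptr, co_quad_ptr, smul_eq_mul, ← Complex.ofReal_mul,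
      ← Complex.ofReal_sub, Complex.zero_le_real, sub_nonneg]
    exact co_phi_dom 𝔇 hW B hB L

omit hW in
theorem co_isDensity_of_unit {n : Type} [Fintype n] [DecidableEq n] {v : n → ℂ}
    (hv : star v ⬝ᵥ v = 1) : IsDensity (pureOp v) := by
  apply pureOp_isDensity
  rw [co_dot_self] at hv
  have : coN v = 1 := by exact_mod_cast hv
  exact this

/-- (comparator:post-marginal), entropy -/
theorem co_ent_phi_le (B : Finset Λ) (hB : Disjoint B 𝔇.X) :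
    ent (pureOp 𝔇.mPhi) (rmPh B) ≤ ent 𝔇.S.rho B / 𝔇.z := by
  have hz := co_z_pos 𝔇 hW
  have hz1 := co_z_le_one 𝔇 hW
  rw [← co_ent_psi 𝔇 hW B, le_div_iff₀ hz]
  unfold ent
  set σ₁ := ptr (rmPh B) (pureOp 𝔇.mPhi) with hσ₁
  set ρ' := ptr (rmPh B) (pureOp 𝔇.mPsi) with hρ'
  have hD1 : IsDensity σ₁ := ptr_isDensity (co_isDensity_of_unit (co_phi_unit 𝔇 hW)) _
  have hD' : IsDensity ρ' := ptr_isDensity (co_isDensity_of_unit (co_psi_unit 𝔇 hW)) _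
  have hle := co_ptr_phi_le 𝔇 hW B hB
  rw [← hσ₁, ← hρ', Matrix.le_iff] at hle
  set R := ρ' - 𝔇.z • σ₁ with hR
  have hRP : R.PosSemidef := by
    have h1 := hle.smul (a := ((𝔇.z : ℝ) : ℂ)) (by exact_mod_cast hz.le)
    have h2 : ((𝔇.z : ℝ) : ℂ) • (((𝔇.z⁻¹ : ℝ) : ℂ) • ρ' - σ₁) = R := by
      rw [smul_sub, smul_smul, ← Complex.ofReal_mul, mul_inv_cancel₀ hz.ne', Complex.ofReal_one,
        one_smul, hR]
      congr 1
    rwa [h2] at h1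
  have hRt : R.trace = ((1 - 𝔇.z : ℝ) : ℂ) := by
    rw [hR, trace_sub, trace_smul, hD'.2, hD1.2]
    simp
  rcases hz1.eq_or_lt with h1 | h1
  · have h0 : R = 0 := by
      rw [← hRP.trace_eq_zero_iff, hRt, h1]
      simp
    have h2 : ρ' = σ₁ := by
      have := sub_eq_zero.1 (hR ▸ h0)
      rw [this, h1, one_smul]
    rw [h2, h1, mul_one]
  · have h1z : 0 < 1 - 𝔇.z := by linarith
    set σ₂ := (1 - 𝔇.z)⁻¹ • R with hσ₂
    have hD2 : IsDensity σ₂ := by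
      refine ⟨hRP.smul (inv_nonneg.2 h1z.le), ?_⟩
      rw [hσ₂, trace_smul, hRt]
      rw [Complex.real_smul, ← Complex.ofReal_mul, inv_mul_cancel₀ h1z.ne', Complex.ofReal_one]
    have hmix := vnEnt_mix_lower (k := Fin 2) ![𝔇.z, 1 - 𝔇.z] ![σ₁, σ₂]
      (by intro j; fin_cases j <;> simp [hz.le, h1z.le])
      (by simp)
      (by intro j; fin_cases j <;> simp [hD1, hD2])
    simp only [Fin.sum_univ_two, Matrix.cons_val_zero, Matrix.cons_val_one] at hmix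
    have h3 : 𝔇.z • σ₁ + (1 - 𝔇.z) • σ₂ = ρ' := by
      rw [hσ₂, smul_smul, mul_inv_cancel₀ h1z.ne', one_smul, hR]
      abel
    rw [h3] at hmix
    have h4 := vnEnt_nonneg hD2
    nlinarith

omit hW in
/-- the splitting `R × rest` -/
def coSplitR (io : Λ → Type) (d : ℕ) : Cfg (rmIo io d) ≃ Fin d × (Cfg io × Fin d) where
  toFun σ := (rmAtR σ, (rmPhys σ, rmAtC σ))
  invFun p := coMk p.2.1 p.2.2 p.1
  left_inv σ := (coSplit io d).left_inv σ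
  right_inv _ := rfl

/-- the `R`-marginal of `Φ` is `diag (pe / z)` -/
theorem co_ent_phi_R : ent (pureOp 𝔇.mPhi) {rmR} = 𝔇.S' := by
  have h := ent_eq_ptrE (coSplitR io 𝔇.dst) {rmR} (by
      intro σ τ
      simp only [Finset.mem_singleton, forall_eq]
      rfl) (by
      intro σ τ
      simp only [Finset.mem_singleton]
      constructor
      · intro h x hx
        have h1 : rmPhys σ = rmPhys τ := congrArg Prod.fst h
        have h2 : rmAtC σ = rmAtC τ := congrArg Prod.snd h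
        rcases x with y | b
        · exact congrFun h1 y
        · cases b
          · exact h2
          · exact absurd rfl hx
      · intro h
        refine Prod.ext ?_ ?_
        · funext y
          exact h (Sum.inl y) (by simp)
        · exact h (Sum.inr false) (by simp)) (pureOp 𝔇.mPhi)
  rw [h]
  have h2 : ptrE (coSplitR io 𝔇.dst) (pureOp 𝔇.mPhi) =
      diagonal fun r => ((𝔇.tb.pe r / 𝔇.z : ℝ) : ℂ) := by
    ext r r'
    rw [ptrE_apply, Fintype.sum_prod_type, diagonal_apply]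
    simp only [pureOp_apply]
    exact co_phi_R_entry 𝔇 hW r r'
  rw [h2, vnEnt_diagonal_real, co_S'_eq 𝔇 hW]

/-! ### the lifted Hamiltonian, continued -/

theorem co_lift_psi :
    rmLift 𝔇.dst (∑ i, 𝔇.S.h i) *ᵥ 𝔇.mPsi = (𝔇.S.E0 : ℂ) • 𝔇.mPsi := by
  unfold RepData.mPsi
  rw [co_lift_mulVec, hW.sys.eig]
  funext σ
  simp [rmVec, mul_assoc]

theorem co_G1_isHermitian : 𝔇.mG1.IsHermitian := by
  unfold RepData.mG1
  rw [IsHermitian, co_lift_conjTranspose, (co_pureOp_isHermitian _).eq]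

theorem co_G1_sq : 𝔇.mG1 * 𝔇.mG1 = 𝔇.mG1 := by
  unfold RepData.mG1
  rw [← co_lift_mul, co_pureOp_sq hW.sys.unit]

theorem co_G1_psi : 𝔇.mG1 *ᵥ 𝔇.mPsi = 𝔇.mPsi := by
  unfold RepData.mG1 RepData.mPsi
  rw [co_lift_mulVec, co_pureOp_mulVec, hW.sys.unit, one_smul]

/-- the physical gap on the extended one-copy space -/
theorem co_gap :
    (rmLift 𝔇.dst (∑ i, 𝔇.S.h i) - (𝔇.S.E0 : ℂ) • 1 - (𝔇.S.gap : ℂ) • (1 - 𝔇.mG1)).PosSemidef := by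
  have h := co_lift_posSemidef 𝔇 hW.sys.gapped
  rw [co_lift_sub, co_lift_sub, co_lift_smul, co_lift_smul, co_lift_sub, co_lift_one] at h
  exact h

end Scan

end Claimed.Agent.R296
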