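import Claimed.Agent.R296.CmpBand
import Claimed.Agent.R296.CmpAbs
import Claimed.Agent.R296.LocEmb

/-!
# Row 296, P1 Section 7, package S7-PRE: prevector, pin, defect projector on `κ` copies

Architect: helper218.  Prefix `cp_` (model), `tprodOp_` (general).  ONE owner (may be split in PRE-A = sections
`Tprod` + `Defect`, PRE-B = sections `Vec` + `Final`).
Inputs: `CmpOne.lean` (one copy), `Replica/Perm.lean`, `Sym.lean`, `Cen.lean` (helper197), `CmpBand.lean`, `CmpAbs.lean`.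

Sketches.
* `cp_labC_psiK`: `Ψ^{⊗κ}` is fixed by `UQ {rmC, rmR} π` (entrywise: the Bell factor only tests `σ_C = σ_R` copy by
  copy); `repQ_mirror` + `gaInv_of_central` (`Rep.idem` is central).
* `cp_pre_labC`: `π_C π_R Ψ^k = π_R π_C Ψ^k = π_R π_R Ψ^k`.
* `cp_pin_pre`: `topow_mulVec_tpow`, `co_pin1_psi`, `tpow κ (c • θ) = c^k • tpow κ θ`; `mPinK` commutes with `labP {rmR}`
  (`cenQ_commute_topow`, disjoint).
* `cp_pre_energy`: `copyAvg (rmLift H)` commutes with `labP {rmR} lam` (`cenQ_commute_copyAvg`, `co_lift_suppIn` with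
  `D = univ`), `barOp_mulVec_cohV`-type computation on `tpow`.
* `cp_defect_mass`: `v = mV lam T` is a unit vector (`ca_unit`), fixed by `cmp (labP {rmC} lam)`, `cmp (labP {rmR} lam)`
  (`ca_sector`, `ca_commute_root`, `cp_band_commute_labC/R`, `cp_pre_labC/R`); hence
  `⟨v, mLow v⟩ = ⟨v, cmp mDef v⟩` (`cmp_mul`), and `1 - cmp mDef ≤ τ⁻¹ cmp (copyAvg (1 - mG1)) ≤ (τ gap)⁻¹ (mH - E0)`.
-/

set_option autoImplicit false
set_option linter.unusedSectionVars false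

namespace Claimed.Agent.R296

namespace Scan

open Matrix Finset
open scoped ComplexOrder MatrixOrder

/-! ### general tensor products of one-copy operators -/

section Tprod

variable {s : Type} [DecidableEq s] [Fintype s] {io : s → Type}
  [∀ x, Fintype (io x)] [∀ x, DecidableEq (io x)] {κ : Type} [Fintype κ] [DecidableEq κ]

theorem tprodOp_const (X : Matrix (Cfg io) (Cfg io) ℂ) : tprodOp (fun _ : κ => X) = topow κ X := rfl

theorem tprodOp_eq_tpo (X : κ → Matrix (Cfg io) (Cfg io) ℂ) : tprodOp X = tpo X := rfl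

theorem tprodOp_apply (X : κ → Matrix (Cfg io) (Cfg io) ℂ) (c c' : RCfg io κ) :
    tprodOp X c c' = ∏ j, X j (rcopy c j) (rcopy c' j) := rfl

theorem tprodOp_mul (X Y : κ → Matrix (Cfg io) (Cfg io) ℂ) :
    tprodOp X * tprodOp Y = tprodOp fun j => X j * Y j :=
  (tpo_mul X Y).symm

theorem tprodOp_conjTranspose (X : κ → Matrix (Cfg io) (Cfg io) ℂ) :
    (tprodOp X).conjTranspose = tprodOp fun j => (X j).conjTranspose :=
  tpo_conjTranspose X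

theorem tprodOp_eq_zero (X : κ → Matrix (Cfg io) (Cfg io) ℂ) (j : κ) (h : X j = 0) :
    tprodOp X = 0 := by
  ext c c'
  rw [tprodOp_apply, Matrix.zero_apply]
  exact Finset.prod_eq_zero (Finset.mem_univ j) (by rw [h]; rfl)

/-- expansion of `(X + Y)^{⊗κ}` -/
theorem tprodOp_sum_subsets (X Y : Matrix (Cfg io) (Cfg io) ℂ) :
    ∑ B : Finset κ, tprodOp (fun j => if j ∈ B then X else Y) = topow κ (X + Y) := by
  ext c c'
  rw [Matrix.sum_apply]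
  change _ = ∏ j, (X + Y) (rcopy c j) (rcopy c' j)
  simp only [Matrix.add_apply, tprodOp_apply]
  rw [Finset.prod_add, Finset.powerset_univ]
  refine Finset.sum_congr rfl fun B _ => ?_
  rw [← Finset.prod_sdiff (Finset.subset_univ B), mul_comm]
  congr 1
  · refine Finset.prod_congr rfl fun j hj => ?_
    rw [if_pos hj]
  · refine Finset.prod_congr rfl fun j hj => ?_
    rw [if_neg (Finset.mem_sdiff.1 hj).2]

theorem copyOp_eq_tprodOp (j : κ) (h : Matrix (Cfg io) (Cfg io) ℂ) :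
    copyOp j h = tprodOp fun i => if i = j then h else 1 := by
  rw [copyOp_eq_tpo, tprodOp_eq_tpo]
  congr 1
  funext i
  by_cases hi : i = j
  · subst hi; simp
  · simp [hi]

theorem UQ_univ_conj_tprodOp (π : Equiv.Perm κ) (X : κ → Matrix (Cfg io) (Cfg io) ℂ) :
    UQ Finset.univ π * tprodOp X * UQ Finset.univ π⁻¹ = tprodOp fun j => X (π⁻¹ j) :=
  UQ_univ_conj_tpo π X

/-- operators supported in `D` on every copy commute with the permutations of a disjoint region -/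
theorem tprodOp_commute_repQ {D Q : Finset s} (h : Disjoint D Q)
    (X : κ → Matrix (Cfg io) (Cfg io) ℂ) (hX : ∀ j, SuppIn D (X j)) (y : GA κ) :
    Commute (tprodOp X) (repQ Q y) := by
  choose K hK using hX
  have e : X = fun j => emb D (K j) := funext hK
  rw [repQ_eq_sum, e, tprodOp_eq_tpo]
  refine Commute.sum_right _ _ _ fun π _ => Commute.smul_right ?_ _
  exact commute_UQ_of_conj (UQ_conj_tpo_emb_disjoint h K π)

theorem cp_crOff_rperm_self (D : Finset s) (σ : Equiv.Perm κ) (c : RCfg io κ) (i : κ) :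
    crOff D (rcopy (rperm D σ c) i) = crOff D (rcopy c i) := by
  funext x
  have hx : x.1 ∉ D := x.2
  simp [crOff, rcopy, rperm_apply, hx]

/-- a tensor power of a rank-one projector on `D` absorbs the permutations of `D` -/
theorem UQ_mul_topow_pureOp (D : Finset s) (b : CfgOn io D → ℂ) (π : Equiv.Perm κ) :
    UQ D π * topow κ (emb D (pureOp b)) = topow κ (emb D (pureOp b)) := by
  ext c c'
  rw [UQ_eq_rpMat, rpMat_mul_apply, ← map_inv, topow_eq_tpo, tpo_emb_apply, tpo_emb_apply]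
  simp only [cp_crOff_rperm_self, crOn_rperm_of_subset (Finset.Subset.refl D), inv_inv]
  split_ifs with h
  · simp only [pureOp, vecMulVec_apply, Finset.prod_mul_distrib]
    congr 1
    exact Equiv.prod_comp π fun i => b (crOn D (rcopy c i))
  · rfl

theorem tpow_smul (c : ℂ) (θ : Cfg io → ℂ) :
    tpow κ (c • θ) = c ^ Fintype.card κ • tpow κ θ := by
  funext x
  simp only [tpow, Pi.smul_apply, smul_eq_mul, Finset.prod_mul_distrib, Finset.prod_const,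
    Finset.card_univ]

end Tprod

variable {Λ ι α : Type} [Fintype Λ] [DecidableEq Λ] [Fintype ι]
  {io : Λ → Type} [∀ x, Fintype (io x)] [∀ x, DecidableEq (io x)] [∀ x, Nonempty (io x)]
  (𝔇 : RepData Λ ι α io)

variable {κ : Type} [Fintype κ] [DecidableEq κ]

/-! ### the defect projectors -/

section Defect

theorem cp_Q1_isHermitian {a0 : ℝ} (hW : 𝔇.WF a0) : (1 - 𝔇.mG1).IsHermitian :=
  isHermitian_one.sub (co_G1_isHermitian 𝔇 hW)

theorem cp_Q1_sq {a0 : ℝ} (hW : 𝔇.WF a0) : (1 - 𝔇.mG1) * (1 - 𝔇.mG1) = 1 - 𝔇.mG1 := by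
  rw [Matrix.sub_mul, Matrix.mul_sub, Matrix.mul_sub, co_G1_sq 𝔇 hW]
  simp

theorem cp_Q1_mul_G1 {a0 : ℝ} (hW : 𝔇.WF a0) : (1 - 𝔇.mG1) * 𝔇.mG1 = 0 := by
  rw [Matrix.sub_mul, co_G1_sq 𝔇 hW]
  simp

theorem cp_G1_mul_Q1 {a0 : ℝ} (hW : 𝔇.WF a0) : 𝔇.mG1 * (1 - 𝔇.mG1) = 0 := by
  rw [Matrix.mul_sub, co_G1_sq 𝔇 hW]
  simp

theorem cp_G1_posSemidef {a0 : ℝ} (hW : 𝔇.WF a0) : 𝔇.mG1.PosSemidef := by
  have h := Matrix.posSemidef_conjTranspose_mul_self 𝔇.mG1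
  rwa [(co_G1_isHermitian 𝔇 hW).eq, co_G1_sq 𝔇 hW] at h

theorem cp_Q1_posSemidef {a0 : ℝ} (hW : 𝔇.WF a0) : (1 - 𝔇.mG1).PosSemidef := by
  have h := Matrix.posSemidef_conjTranspose_mul_self (1 - 𝔇.mG1)
  rwa [(cp_Q1_isHermitian 𝔇 hW).eq, cp_Q1_sq 𝔇 hW] at h

theorem cp_pos_isHermitian {a0 : ℝ} (hW : 𝔇.WF a0) (B : Finset κ) : (𝔇.mPos B).IsHermitian := by
  unfold RepData.mPos
  rw [IsHermitian, tprodOp_conjTranspose]
  congr 1
  funext j
  split_ifs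
  · exact cp_Q1_isHermitian 𝔇 hW
  · exact co_G1_isHermitian 𝔇 hW

theorem cp_pos_posSemidef {a0 : ℝ} (hW : 𝔇.WF a0) (B : Finset κ) : (𝔇.mPos B).PosSemidef := by
  unfold RepData.mPos
  rw [tprodOp_eq_tpo]
  refine tpo_posSemidef fun j => ?_
  split_ifs
  · exact cp_Q1_posSemidef 𝔇 hW
  · exact cp_G1_posSemidef 𝔇 hW

theorem cp_pos_mul {a0 : ℝ} (hW : 𝔇.WF a0) (B B' : Finset κ) :
    𝔇.mPos B * 𝔇.mPos B' = if B = B' then 𝔇.mPos B else 0 := by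
  unfold RepData.mPos
  rw [tprodOp_mul]
  split_ifs with h
  · subst h
    congr 1
    funext j
    split_ifs
    · exact cp_Q1_sq 𝔇 hW
    · exact co_G1_sq 𝔇 hW
  · have : ∃ j, ¬ (j ∈ B ↔ j ∈ B') := by
      by_contra hcon
      push Not at hcon
      exact h (Finset.ext hcon)
    obtain ⟨j, hj⟩ := this
    refine tprodOp_eq_zero _ j ?_
    by_cases h1 : j ∈ B
    · have h2 : j ∉ B' := fun h2 => hj ⟨fun _ => h2, fun _ => h1⟩
      simp only [h1, h2, if_true, if_false]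
      exact cp_Q1_mul_G1 𝔇 hW
    · have h2 : j ∈ B' := by
        by_contra h2
        exact hj ⟨fun h => absurd h h1, fun h => absurd h h2⟩
      simp only [h1, h2, if_true, if_false]
      exact cp_G1_mul_Q1 𝔇 hW

theorem cp_sum_pos {a0 : ℝ} (hW : 𝔇.WF a0) : ∑ B : Finset κ, 𝔇.mPos B = 1 := by
  unfold RepData.mPos
  rw [tprodOp_sum_subsets, sub_add_cancel, topow_one]

theorem cp_pos_conj (π : Equiv.Perm κ) (B : Finset κ) :
    UQ Finset.univ π * 𝔇.mPos B * UQ Finset.univ π⁻¹ = 𝔇.mPos (B.map π.toEmbedding) := by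
  unfold RepData.mPos
  rw [UQ_univ_conj_tprodOp]
  congr 1
  funext j
  have : π⁻¹ j ∈ B ↔ j ∈ B.map π.toEmbedding := by
    rw [Finset.mem_map]
    constructor
    · intro h
      exact ⟨π⁻¹ j, h, by simp⟩
    · rintro ⟨i, hi, rfl⟩
      simpa using hi
  simp only [this]

theorem cp_G1_suppIn : SuppIn (rmPh (Finset.univ : Finset Λ)) 𝔇.mG1 :=
  co_lift_suppIn 𝔇 (SuppIn.univ _)

theorem cp_disjoint_phys {Q : Finset (Λ ⊕ Bool)} (hQ : Q ⊆ {rmC, rmR}) (D : Finset Λ) :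
    Disjoint (rmPh D) Q := by
  rw [Finset.disjoint_left]
  intro x hx hxQ
  have h1 := hQ hxQ
  unfold rmPh at hx
  rw [Finset.mem_map] at hx
  obtain ⟨y, -, rfl⟩ := hx
  simp at h1

/-- the position projectors act on physical factors only -/
theorem cp_pos_commute_repQ {Q : Finset (Λ ⊕ Bool)} (hQ : Q ⊆ {rmC, rmR}) (y : GA κ)
    (B : Finset κ) : Commute (𝔇.mPos B) (repQ Q y) := by
  unfold RepData.mPos
  refine tprodOp_commute_repQ (cp_disjoint_phys hQ Finset.univ) _ (fun j => ?_) y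
  split_ifs
  · exact (SuppIn.one _).sub (cp_G1_suppIn 𝔇)
  · exact cp_G1_suppIn 𝔇

theorem cp_def_isHermitian {a0 : ℝ} (hW : 𝔇.WF a0) : (𝔇.mDef κ).IsHermitian := by
  unfold RepData.mDef
  rw [IsHermitian, conjTranspose_sum]
  exact Finset.sum_congr rfl fun B _ => cp_pos_isHermitian 𝔇 hW B

theorem cp_def_sq {a0 : ℝ} (hW : 𝔇.WF a0) : 𝔇.mDef κ * 𝔇.mDef κ = 𝔇.mDef κ := by
  unfold RepData.mDef
  rw [Finset.sum_mul_sum]
  refine Finset.sum_congr rfl fun B hB => ?_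
  simp only [cp_pos_mul 𝔇 hW]
  rw [Finset.sum_ite_eq, if_pos hB]

theorem cp_def_commute_UQ (π : Equiv.Perm κ) : Commute (𝔇.mDef κ) (UQ Finset.univ π) := by
  apply commute_UQ_of_conj
  unfold RepData.mDef
  rw [Finset.mul_sum, Finset.sum_mul]
  simp only [cp_pos_conj]
  refine Finset.sum_bij (fun B _ => B.map π.toEmbedding) ?_ ?_ ?_ ?_
  · intro B hB
    unfold RepData.mSmall at hB ⊢
    rw [Finset.mem_filter] at hB ⊢
    refine ⟨Finset.mem_univ _, ?_⟩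
    rw [Finset.card_map]
    exact hB.2
  · intro B _ B' _ h
    exact Finset.map_injective _ h
  · intro B hB
    refine ⟨B.map π⁻¹.toEmbedding, ?_, ?_⟩
    · unfold RepData.mSmall at hB ⊢
      rw [Finset.mem_filter] at hB ⊢
      refine ⟨Finset.mem_univ _, ?_⟩
      rw [Finset.card_map]
      exact hB.2
    · ext j
      simp only [Finset.mem_map, Equiv.coe_toEmbedding]
      constructor
      · rintro ⟨i, ⟨l, hl, rfl⟩, rfl⟩
        simpa using hl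
      · intro hj
        exact ⟨π⁻¹ j, ⟨j, hj, rfl⟩, by simp⟩
  · intro B _
    rfl

theorem cp_copyOp_Q1_mul_pos {a0 : ℝ} (hW : 𝔇.WF a0) (j : κ) (B : Finset κ) :
    copyOp j (1 - 𝔇.mG1) * 𝔇.mPos B = if j ∈ B then 𝔇.mPos B else 0 := by
  unfold RepData.mPos
  rw [copyOp_eq_tprodOp, tprodOp_mul]
  split_ifs with h
  · congr 1
    funext i
    by_cases hi : i = j
    · subst hi
      simp only [if_true, h]
      exact cp_Q1_sq 𝔇 hW
    · simp only [hi, if_false, Matrix.one_mul]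
  · refine tprodOp_eq_zero _ j ?_
    simp only [if_true, h, if_false]
    exact cp_Q1_mul_G1 𝔇 hW

theorem cp_copyOp_Q1 {a0 : ℝ} (hW : 𝔇.WF a0) (j : κ) :
    copyOp j (1 - 𝔇.mG1) = ∑ B : Finset κ, if j ∈ B then 𝔇.mPos B else 0 := by
  calc copyOp j (1 - 𝔇.mG1) = copyOp j (1 - 𝔇.mG1) * ∑ B : Finset κ, 𝔇.mPos B := by
        rw [cp_sum_pos 𝔇 hW, Matrix.mul_one]
    _ = _ := by
        rw [Finset.mul_sum]
        exact Finset.sum_congr rfl fun B _ => cp_copyOp_Q1_mul_pos 𝔇 hW j B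

/-- the defect count in the position basis -/
theorem cp_copyAvg_defect {a0 : ℝ} (hW : 𝔇.WF a0) :
    copyAvg (κ := κ) (1 - 𝔇.mG1) =
      ∑ B : Finset κ, ((B.card : ℂ) / (Fintype.card κ : ℂ)) • 𝔇.mPos B := by
  unfold copyAvg
  simp only [cp_copyOp_Q1 𝔇 hW]
  rw [Finset.sum_comm, Finset.smul_sum]
  refine Finset.sum_congr rfl fun B _ => ?_
  rw [← Finset.sum_filter, Finset.sum_const, Finset.filter_mem_eq_inter, Finset.univ_inter,
    ← Nat.cast_smul_eq_nsmul ℂ, smul_smul]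
  congr 1
  rw [div_eq_mul_inv, mul_comm]


/-- Markov: `τ (1 - Π_def) ≤ k⁻¹ ∑ Q_i` -/
theorem cp_def_markov {a0 : ℝ} (hW : 𝔇.WF a0) :
    (𝔇.τ : ℂ) • (1 - 𝔇.mDef κ) ≤ copyAvg (κ := κ) (1 - 𝔇.mG1) := by
  classical
  rw [Matrix.le_iff, cp_copyAvg_defect 𝔇 hW]
  have e : ∑ B : Finset κ, ((B.card : ℂ) / (Fintype.card κ : ℂ)) • 𝔇.mPos B -
      (𝔇.τ : ℂ) • (1 - 𝔇.mDef κ) = ∑ B : Finset κ,
      (((B.card : ℝ) / (Fintype.card κ : ℝ) - if B ∈ 𝔇.mSmall κ then 0 else 𝔇.τ : ℝ) : ℂ) •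
        𝔇.mPos B := by
    have h1 : (1 : Matrix (RCfg (rmIo io 𝔇.dst) κ) (RCfg (rmIo io 𝔇.dst) κ) ℂ) - 𝔇.mDef κ =
        ∑ B : Finset κ, (if B ∈ 𝔇.mSmall κ then (0 : ℂ) else 1) • 𝔇.mPos B := by
      rw [← cp_sum_pos 𝔇 hW]
      unfold RepData.mDef
      rw [← Finset.sum_filter_add_sum_filter_not Finset.univ (fun B => B ∈ 𝔇.mSmall κ),
        Finset.filter_mem_eq_inter, Finset.univ_inter, add_sub_cancel_left,
        ← Finset.sum_filter_add_sum_filter_not Finset.univ (fun B => B ∈ 𝔇.mSmall κ)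
          (fun B => (if B ∈ 𝔇.mSmall κ then (0 : ℂ) else 1) • 𝔇.mPos B)]
      rw [Finset.sum_eq_zero (s := Finset.univ.filter fun B => B ∈ 𝔇.mSmall κ), zero_add]
      · refine Finset.sum_congr rfl fun B hB => ?_
        rw [if_neg (Finset.mem_filter.1 hB).2, one_smul]
      · intro B hB
        rw [if_pos (Finset.mem_filter.1 hB).2, zero_smul]
    rw [h1, Finset.smul_sum, ← Finset.sum_sub_distrib]
    refine Finset.sum_congr rfl fun B _ => ?_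
    rw [smul_smul, ← sub_smul]
    congr 1
    split_ifs <;> push_cast <;> ring
  rw [e]
  refine Matrix.posSemidef_sum _ fun B _ => (cp_pos_posSemidef 𝔇 hW B).smul ?_
  have hc : (0 : ℝ) ≤ (B.card : ℝ) / (Fintype.card κ : ℝ) - if B ∈ 𝔇.mSmall κ then 0 else 𝔇.τ := by
    split_ifs with h
    · rw [sub_zero]; positivity
    · unfold RepData.mSmall at h
      rw [Finset.mem_filter, not_and, not_le] at h
      have h2 := h (Finset.mem_univ _)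
      have hk : (0 : ℝ) < Fintype.card κ := by
        rcases Nat.eq_zero_or_pos (Fintype.card κ) with h0 | h0
        · exfalso
          have hB : B.card = 0 := Nat.le_zero.1 (h0 ▸ Finset.card_le_univ B)
          rw [h0, hB] at h2
          simp at h2
        · exact_mod_cast h0
      rw [sub_nonneg, le_div_iff₀ hk]
      exact h2.le
  exact_mod_cast hc

theorem cp_copyOp_smul (j : κ) (c : ℂ) (h : Matrix (Cfg (rmIo io 𝔇.dst)) (Cfg (rmIo io 𝔇.dst)) ℂ) :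
    copyOp j (c • h) = c • copyOp j h := by
  ext x x'
  simp only [copyOp, Matrix.of_apply, Matrix.smul_apply, smul_eq_mul]
  split_ifs <;> simp

theorem cp_copyAvg_smul (c : ℂ) (h : Matrix (Cfg (rmIo io 𝔇.dst)) (Cfg (rmIo io 𝔇.dst)) ℂ) :
    copyAvg (κ := κ) (c • h) = c • copyAvg h := by
  simp only [copyAvg, cp_copyOp_smul, ← Finset.smul_sum]
  rw [smul_comm]

theorem cp_copyAvg_sub (g h : Matrix (Cfg (rmIo io 𝔇.dst)) (Cfg (rmIo io 𝔇.dst)) ℂ) :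
    copyAvg (κ := κ) (g - h) = copyAvg g - copyAvg h := by
  have e : ∀ j : κ, copyOp j (g - h) = copyOp j g - copyOp j h := by
    intro j
    ext x x'
    simp only [copyOp, Matrix.of_apply, Matrix.sub_apply]
    split_ifs <;> simp
  simp only [copyAvg, e, Finset.sum_sub_distrib, smul_sub]

/-- the physical gap on `κ` copies -/
theorem cp_gapK [Nonempty κ] {a0 : ℝ} (hW : 𝔇.WF a0) :
    (𝔇.S.gap : ℂ) • copyAvg (κ := κ) (1 - 𝔇.mG1) ≤
      copyAvg (κ := κ) (rmLift 𝔇.dst (∑ i, 𝔇.S.h i)) - (𝔇.S.E0 : ℂ) • 1 := by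
  have := cp_nonempty 𝔇 hW
  rw [Matrix.le_iff]
  have h := copyAvg_posSemidef (κ := κ) (co_gap 𝔇 hW)
  rwa [cp_copyAvg_sub, cp_copyAvg_sub, cp_copyAvg_smul, cp_copyAvg_smul, copyAvg_one] at h

/-- a product of three commuting Hermitian idempotents -/
theorem cp_proj3 {n : Type*} [Fintype n] {A B C : Matrix n n ℂ} (hA : A.IsHermitian)
    (hB : B.IsHermitian) (hC : C.IsHermitian) (hA2 : A * A = A) (hB2 : B * B = B)
    (hC2 : C * C = C) (hAB : Commute A B) (hAC : Commute A C) (hBC : Commute B C) :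
    (A * B * C).IsHermitian ∧ A * B * C * (A * B * C) = A * B * C := by
  constructor
  · rw [IsHermitian, conjTranspose_mul, conjTranspose_mul, hA.eq, hB.eq, hC.eq]
    calc C * (B * A) = C * (A * B) := by rw [hAB.eq]
      _ = (C * A) * B := by rw [Matrix.mul_assoc]
      _ = (A * C) * B := by rw [hAC.eq]
      _ = A * (C * B) := by rw [Matrix.mul_assoc]
      _ = A * (B * C) := by rw [hBC.eq]
      _ = A * B * C := by rw [Matrix.mul_assoc]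
  · calc A * B * C * (A * B * C) = A * B * (C * A) * B * C := by simp only [Matrix.mul_assoc]
      _ = A * B * (A * C) * B * C := by rw [hAC.eq]
      _ = A * (B * A) * (C * B) * C := by simp only [Matrix.mul_assoc]
      _ = A * (A * B) * (B * C) * C := by rw [hAB.eq, hBC.eq]
      _ = (A * A) * (B * B) * (C * C) := by simp only [Matrix.mul_assoc]
      _ = A * B * C := by rw [hA2, hB2, hC2]

theorem cp_labP_sq (Q : Finset (Λ ⊕ Bool)) (lam : Rep.Irr (Equiv.Perm κ)) :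
    labP (io := rmIo io 𝔇.dst) Q lam * labP Q lam = labP Q lam := by
  rw [labP_mul_labP, if_pos rfl]

theorem cp_labP_commute_UQ (Q : Finset (Λ ⊕ Bool)) (lam : Rep.Irr (Equiv.Perm κ))
    (π : Equiv.Perm κ) : Commute (labP (io := rmIo io 𝔇.dst) Q lam) (UQ Finset.univ π) :=
  repQ_central_commute_UQ_univ Q (cen_idem_central lam) π

theorem cp_labP_commute_symProj (Q : Finset (Λ ⊕ Bool)) (lam : Rep.Irr (Equiv.Perm κ)) :
    Commute (labP (io := rmIo io 𝔇.dst) Q lam) symProj :=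
  commute_symProj_of_commute_UQ (cp_labP_commute_UQ 𝔇 Q lam)

theorem cp_def_commute_labP {Q : Finset (Λ ⊕ Bool)} (hQ : Q ⊆ {rmC, rmR})
    (lam : Rep.Irr (Equiv.Perm κ)) : Commute (𝔇.mDef κ) (labP Q lam) := by
  unfold RepData.mDef
  exact Commute.sum_left _ _ _ fun B _ => cp_pos_commute_repQ 𝔇 hQ _ B

theorem cp_labC_commute_labR (lam lam' : Rep.Irr (Equiv.Perm κ)) :
    Commute (labP (io := rmIo io 𝔇.dst) {rmC} lam) (labP {rmR} lam') :=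
  repQ_commute_disjoint (by simp) _ _

theorem cp_def_commute_symProj : Commute (𝔇.mDef κ) symProj :=
  commute_symProj_of_commute_UQ (cp_def_commute_UQ 𝔇)

/-- the three factors of `mLowFull` commute, are Hermitian idempotents and commute with `symProj` -/
theorem cp_lowFull_proj {a0 : ℝ} (hW : 𝔇.WF a0) (lam : Rep.Irr (Equiv.Perm κ)) :
    (𝔇.mLowFull lam).IsHermitian ∧ 𝔇.mLowFull lam * 𝔇.mLowFull lam = 𝔇.mLowFull lam ∧
      Commute (𝔇.mLowFull lam) symProj := by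
  have h := cp_proj3 (cp_def_isHermitian 𝔇 hW (κ := κ)) (labP_isHermitian {rmC} lam)
    (labP_isHermitian {rmR} lam) (cp_def_sq 𝔇 hW) (cp_labP_sq 𝔇 _ lam) (cp_labP_sq 𝔇 _ lam)
    (cp_def_commute_labP 𝔇 (by simp) lam) (cp_def_commute_labP 𝔇 (by simp) lam)
    (cp_labC_commute_labR 𝔇 lam lam)
  refine ⟨h.1, h.2, ?_⟩
  unfold RepData.mLowFull
  exact ((cp_def_commute_symProj 𝔇).mul_left (cp_labP_commute_symProj 𝔇 _ lam)).mul_left
    (cp_labP_commute_symProj 𝔇 _ lam)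

end Defect

/-! ### the vectors on the full tensor space -/

section Vec

theorem cp_rcopy_rperm_CR (π : Equiv.Perm κ) (c : RCfg (rmIo io 𝔇.dst) κ) (j : κ) :
    rmPhys (rcopy (rperm ({rmC, rmR} : Finset (Λ ⊕ Bool)) π c) j) = rmPhys (rcopy c j) ∧
    rmAtC (rcopy (rperm ({rmC, rmR} : Finset (Λ ⊕ Bool)) π c) j) = rmAtC (rcopy c (π⁻¹ j)) ∧
    rmAtR (rcopy (rperm ({rmC, rmR} : Finset (Λ ⊕ Bool)) π c) j) = rmAtR (rcopy c (π⁻¹ j)) := by
  refine ⟨?_, ?_, ?_⟩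
  · funext y
    simp [rmPhys, rcopy, rperm_apply]
    rfl
  · simp [rmAtC, rcopy, rperm_apply]
    rfl
  · simp [rmAtR, rcopy, rperm_apply]
    rfl

theorem cp_psiK_fixed_CR (π : Equiv.Perm κ) :
    UQ ({rmC, rmR} : Finset (Λ ⊕ Bool)) π *ᵥ tpow κ 𝔇.mPsi = tpow κ 𝔇.mPsi := by
  funext c
  rw [UQ_mulVec]
  simp only [tpow, RepData.mPsi, rmVec]
  simp only [(cp_rcopy_rperm_CR 𝔇 π⁻¹ c _).1, (cp_rcopy_rperm_CR 𝔇 π⁻¹ c _).2.1,
    (cp_rcopy_rperm_CR 𝔇 π⁻¹ c _).2.2, inv_inv, Finset.prod_mul_distrib]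
  congr 1
  exact Equiv.prod_comp π fun j => if rmAtC (rcopy c j) = rmAtR (rcopy c j) then
    ((Real.sqrt 𝔇.dst : ℝ) : ℂ)⁻¹ else 0

theorem cp_labC_psiK (lam : Rep.Irr (Equiv.Perm κ)) :
    labP {rmC} lam *ᵥ tpow κ 𝔇.mPsi = labP {rmR} lam *ᵥ tpow κ 𝔇.mPsi := by
  have h := repQ_mirror (io := rmIo io 𝔇.dst) (Q := {rmC}) (E := {rmR}) (by simp)
    (z := tpow κ 𝔇.mPsi) (fun π => cp_psiK_fixed_CR 𝔇 π) (Rep.idem lam)
  rw [gaInv_of_central (cen_idem_central lam)] at h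
  exact h

theorem cp_labP_isSym (Q : Finset (Λ ⊕ Bool)) (lam : Rep.Irr (Equiv.Perm κ))
    {z : RCfg (rmIo io 𝔇.dst) κ → ℂ} (hz : IsSymVec z) : IsSymVec (labP Q lam *ᵥ z) := by
  intro π
  rw [mulVec_mulVec, ← (cp_labP_commute_UQ 𝔇 Q lam π).eq, ← mulVec_mulVec, hz π]

theorem cp_preFull_isSym (lam : Rep.Irr (Equiv.Perm κ)) : IsSymVec (𝔇.mPreFull lam) :=
  cp_labP_isSym 𝔇 _ lam (tpow_isSymVec _)

theorem cp_postL_isSym (lam : Rep.Irr (Equiv.Perm κ)) : IsSymVec (𝔇.mPostL lam) :=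
  cp_labP_isSym 𝔇 _ lam (tpow_isSymVec _)

theorem cp_pinK_commute_symProj : Commute (𝔇.mPinK κ) symProj :=
  commute_symProj_of_commute_UQ fun π =>
    topow_emb_commute_UQ (Or.inl (Finset.subset_univ _)) _ π

/-- vectors in the range of the pin are fixed by the permutations of `X ∪ C` -/
theorem cp_UQ_pinK (π : Equiv.Perm κ) : UQ 𝔇.mXC π * 𝔇.mPinK κ = 𝔇.mPinK κ :=
  UQ_mul_topow_pureOp _ _ π

theorem cp_pinK_post {a0 : ℝ} (hW : 𝔇.WF a0) : 𝔇.mPinK κ *ᵥ 𝔇.mPost κ = 𝔇.mPost κ := by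
  unfold RepData.mPinK RepData.mPost
  rw [topow_mulVec_tpow, co_pin1_phi 𝔇 hW]

theorem cp_disjoint_mXC_R : Disjoint 𝔇.mXC ({rmR} : Finset (Λ ⊕ Bool)) := by
  rw [Finset.disjoint_singleton_right]
  simp [RepData.mXC, rmPh]

theorem cp_pinK_commute_labR (lam : Rep.Irr (Equiv.Perm κ)) :
    Commute (𝔇.mPinK κ) (labP {rmR} lam) :=
  tprodOp_commute_repQ (cp_disjoint_mXC_R 𝔇) (fun _ => 𝔇.mPin1) (fun _ => ⟨_, rfl⟩) _

theorem cp_pinK_postL {a0 : ℝ} (hW : 𝔇.WF a0) (lam : Rep.Irr (Equiv.Perm κ)) :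
    𝔇.mPinK κ *ᵥ 𝔇.mPostL lam = 𝔇.mPostL lam := by
  unfold RepData.mPostL
  rw [mulVec_mulVec, (cp_pinK_commute_labR 𝔇 lam).eq, ← mulVec_mulVec, cp_pinK_post 𝔇 hW]

theorem cp_pinK_preFull {a0 : ℝ} (hW : 𝔇.WF a0) (lam : Rep.Irr (Equiv.Perm κ)) :
    𝔇.mPinK κ *ᵥ 𝔇.mPreFull lam =
      (((Real.sqrt 𝔇.z / 𝔇.dst) ^ Fintype.card κ : ℝ) : ℂ) • 𝔇.mPostL lam := by
  unfold RepData.mPreFull RepData.mPostL RepData.mPost
  rw [mulVec_mulVec, (cp_pinK_commute_labR 𝔇 lam).eq, ← mulVec_mulVec]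
  unfold RepData.mPinK
  rw [topow_mulVec_tpow, co_pin1_psi 𝔇 hW, tpow_smul, mulVec_smul]
  push_cast
  rfl

theorem cp_post_unit {a0 : ℝ} (hW : 𝔇.WF a0) : star (𝔇.mPost κ) ⬝ᵥ 𝔇.mPost κ = 1 := by
  unfold RepData.mPost
  rw [tpow_dotProduct, co_phi_unit 𝔇 hW, one_pow]

theorem cp_proj_quad {n : Type*} [Fintype n] {P : Matrix n n ℂ} (hP : P.IsHermitian)
    (hP2 : P * P = P) (z : n → ℂ) : star (P *ᵥ z) ⬝ᵥ (P *ᵥ z) = star z ⬝ᵥ (P *ᵥ z) := by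
  rw [star_mulVec, ← dotProduct_mulVec, mulVec_mulVec, hP.eq, hP2]

theorem cp_mQ_eq (lam : Rep.Irr (Equiv.Perm κ)) :
    𝔇.mQ lam = (star (𝔇.mPost κ) ⬝ᵥ (labP {rmR} lam *ᵥ 𝔇.mPost κ)).re := by
  unfold RepData.mQ RepData.mPostL
  rw [cp_proj_quad (labP_isHermitian _ lam) (cp_labP_sq 𝔇 _ lam)]

/-- the label law of `R` in `post` is a probability distribution -/
theorem cp_sum_mQ {a0 : ℝ} (hW : 𝔇.WF a0) : ∑ lam : Rep.Irr (Equiv.Perm κ), 𝔇.mQ lam = 1 := by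
  simp only [cp_mQ_eq]
  rw [← Complex.re_sum, ← dotProduct_sum, ← sum_mulVec, sum_labP, one_mulVec, cp_post_unit 𝔇 hW]
  rfl

theorem cp_mQ_nonneg (lam : Rep.Irr (Equiv.Perm κ)) : 0 ≤ 𝔇.mQ lam := by
  unfold RepData.mQ
  rw [star_dotProduct_self_eq, Complex.ofReal_re]
  positivity

end Vec

/-! ### the statements consumed by the assembly -/

section Final

theorem cp_one_sub_labP_posSemidef (Q : Finset (Λ ⊕ Bool)) (lam : Rep.Irr (Equiv.Perm κ)) :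
    (1 - labP (io := rmIo io 𝔇.dst) Q lam).PosSemidef := by
  classical
  rw [← sum_labP (io := rmIo io 𝔇.dst) Q, ← Finset.sum_erase_add _ _ (Finset.mem_univ lam),
    add_sub_cancel_right]
  exact Matrix.posSemidef_sum _ fun i _ => labP_posSemidef Q i

theorem cp_psiK_unit {a0 : ℝ} (hW : 𝔇.WF a0) : star (tpow κ 𝔇.mPsi) ⬝ᵥ tpow κ 𝔇.mPsi = 1 := by
  rw [tpow_dotProduct, co_psi_unit 𝔇 hW, one_pow]

theorem cp_pre_norm_le {a0 : ℝ} (hW : 𝔇.WF a0) (lam : Rep.Irr (Equiv.Perm κ)) :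
    (star (𝔇.mPre lam) ⬝ᵥ 𝔇.mPre lam).re ≤ 1 := by
  unfold RepData.mPre
  rw [cmpVec_dotProduct (cp_preFull_isSym 𝔇 lam)]
  unfold RepData.mPreFull
  rw [cp_proj_quad (labP_isHermitian _ lam) (cp_labP_sq 𝔇 _ lam)]
  have h := (cp_one_sub_labP_posSemidef 𝔇 {rmR} lam).dotProduct_mulVec_nonneg (tpow κ 𝔇.mPsi)
  rw [sub_mulVec, one_mulVec, dotProduct_sub, cp_psiK_unit 𝔇 hW] at h
  have h2 := (Complex.le_def.1 h).1
  simp only [Complex.zero_re, Complex.sub_re, Complex.one_re] at h2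
  linarith

theorem cp_pre_labR {a0 : ℝ} (hW : 𝔇.WF a0) (lam : Rep.Irr (Equiv.Perm κ)) :
    cmp (labP (io := rmIo io 𝔇.dst) {rmR} lam) *ᵥ 𝔇.mPre lam = 𝔇.mPre lam := by
  unfold RepData.mPre RepData.mPreFull
  rw [cmp_mulVec_cmpVec (cp_labP_commute_symProj 𝔇 _ lam), mulVec_mulVec, cp_labP_sq]

theorem cp_pre_labC {a0 : ℝ} (hW : 𝔇.WF a0) (lam : Rep.Irr (Equiv.Perm κ)) :
    cmp (labP (io := rmIo io 𝔇.dst) {rmC} lam) *ᵥ 𝔇.mPre lam = 𝔇.mPre lam := by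
  unfold RepData.mPre RepData.mPreFull
  rw [cmp_mulVec_cmpVec (cp_labP_commute_symProj 𝔇 _ lam), mulVec_mulVec,
    (cp_labC_commute_labR 𝔇 lam lam).eq, ← mulVec_mulVec, cp_labC_psiK, mulVec_mulVec, cp_labP_sq]

theorem cp_labR_commute_copyAvg_lift (lam : Rep.Irr (Equiv.Perm κ))
    (h : Matrix (Cfg io) (Cfg io) ℂ) :
    Commute (labP (io := rmIo io 𝔇.dst) {rmR} lam) (copyAvg (κ := κ) (rmLift 𝔇.dst h)) := by
  obtain ⟨K, hK⟩ := co_lift_suppIn 𝔇 (SuppIn.univ h)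
  rw [hK, copyAvg]
  refine Commute.smul_right (Commute.sum_right _ _ _ fun j _ => ?_) _
  exact repQ_commute_copyOp {rmR} (cp_disjoint_phys (by simp) Finset.univ) _ j K

/-- the prevector is an exact mean-energy eigenvector (ALSO USED BY SECTION 6) -/
theorem cp_pre_energy [Nonempty κ] {a0 : ℝ} (hW : 𝔇.WF a0) (lam : Rep.Irr (Equiv.Perm κ)) :
    𝔇.mH κ *ᵥ 𝔇.mPre lam = (𝔇.S.E0 : ℂ) • 𝔇.mPre lam := by
  have := cp_nonempty 𝔇 hW
  unfold RepData.mH RepData.mPre RepData.mPreFull barOp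
  rw [cmp_mulVec_cmpVec (copyAvg_commute_symProj _), mulVec_mulVec,
    ← (cp_labR_commute_copyAvg_lift 𝔇 lam _).eq, ← mulVec_mulVec,
    copyAvg_mulVec_tpow (co_lift_psi 𝔇 hW), mulVec_smul, cmpVec, cmpVec, mulVec_smul]

theorem cp_pin_proj {a0 : ℝ} (hW : 𝔇.WF a0) :
    (cmp (𝔇.mPinK κ)).IsHermitian ∧ cmp (𝔇.mPinK κ) * cmp (𝔇.mPinK κ) = cmp (𝔇.mPinK κ) := by
  constructor
  · rw [IsHermitian, cmp_conjTranspose]
    unfold RepData.mPinK
    rw [topow_conjTranspose, (co_pin1_isHermitian 𝔇 hW).eq]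
  · rw [← cmp_mul (cp_pinK_commute_symProj 𝔇)]
    unfold RepData.mPinK
    rw [← topow_mul, co_pin1_sq 𝔇 hW]

/-- (comparator:bell-pin) -/
theorem cp_pin_pre {a0 : ℝ} (hW : 𝔇.WF a0) (lam : Rep.Irr (Equiv.Perm κ)) :
    cmp (𝔇.mPinK κ) *ᵥ 𝔇.mPre lam =
      (((Real.sqrt 𝔇.z / 𝔇.dst) ^ Fintype.card κ : ℝ) : ℂ) • cmpVec (𝔇.mPostL lam) := by
  unfold RepData.mPre
  rw [cmp_mulVec_cmpVec (cp_pinK_commute_symProj 𝔇), cp_pinK_preFull 𝔇 hW, cmpVec, cmpVec,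
    mulVec_smul]

/-- `‖cmpVec (π_R post)‖² = q` -/
theorem cp_postL_norm {a0 : ℝ} (hW : 𝔇.WF a0) (lam : Rep.Irr (Equiv.Perm κ)) :
    star (cmpVec (𝔇.mPostL lam)) ⬝ᵥ cmpVec (𝔇.mPostL lam) = (𝔇.mQ lam : ℂ) := by
  rw [cmpVec_dotProduct (cp_postL_isSym 𝔇 lam)]
  unfold RepData.mQ
  rw [star_dotProduct_self_eq, Complex.ofReal_re]

theorem cp_pre_ne_zero {a0 : ℝ} (hW : 𝔇.WF a0) (lam : Rep.Irr (Equiv.Perm κ))
    (hq : 0 < 𝔇.mQ lam) : 𝔇.mPre lam ≠ 0 := by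
  intro h0
  have h1 := cp_pin_pre 𝔇 hW lam
  rw [h0, mulVec_zero] at h1
  have hc : (((Real.sqrt 𝔇.z / 𝔇.dst) ^ Fintype.card κ : ℝ) : ℂ) ≠ 0 := by
    have hz := co_z_pos 𝔇 hW
    have hd : (0 : ℝ) < 𝔇.dst := by exact_mod_cast co_dst_pos 𝔇 hW
    have : (0 : ℝ) < (Real.sqrt 𝔇.z / 𝔇.dst) ^ Fintype.card κ := by positivity
    exact_mod_cast this.ne'
  have h2 : cmpVec (𝔇.mPostL lam) = 0 := by
    rcases smul_eq_zero.1 h1.symm with h | h
    · exact absurd h hc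
    · exact h
  have h3 := cp_postL_norm 𝔇 hW lam
  rw [h2] at h3
  simp only [star_zero, zero_dotProduct] at h3
  have : 𝔇.mQ lam = 0 := by exact_mod_cast h3.symm
  linarith

/-- a Hermitian idempotent commuting with a positive semidefinite matrix decreases its form -/
theorem cp_proj_quad_le {n : Type*} [Fintype n] [DecidableEq n] {A p : Matrix n n ℂ}
    (hA : A.PosSemidef) (hp : p.IsHermitian) (hp2 : p * p = p) (hc : Commute p A) (x : n → ℂ) :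
    (star (p *ᵥ x) ⬝ᵥ (A *ᵥ (p *ᵥ x))).re ≤ (star x ⬝ᵥ (A *ᵥ x)).re := by
  have h1 : star (p *ᵥ x) ⬝ᵥ (A *ᵥ (p *ᵥ x)) = star x ⬝ᵥ ((A * p) *ᵥ x) := by
    rw [star_mulVec, ← dotProduct_mulVec, mulVec_mulVec, mulVec_mulVec, hp.eq,
      hc.eq, Matrix.mul_assoc, hp2]
  have h2 : star ((1 - p) *ᵥ x) ⬝ᵥ (A *ᵥ ((1 - p) *ᵥ x)) =
      star x ⬝ᵥ (A *ᵥ x) - star x ⬝ᵥ ((A * p) *ᵥ x) := by
    have e : (1 - p)ᴴ * A * (1 - p) = A - A * p := by
      rw [conjTranspose_sub, conjTranspose_one, hp.eq, Matrix.sub_mul, Matrix.one_mul, hc.eq,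
        Matrix.mul_sub, Matrix.mul_one, Matrix.sub_mul, Matrix.mul_assoc A p p, hp2]
      abel
    rw [star_mulVec, ← dotProduct_mulVec, mulVec_mulVec, mulVec_mulVec, e, sub_mulVec,
      dotProduct_sub]
  have h3 := hA.dotProduct_mulVec_nonneg ((1 - p) *ᵥ x)
  rw [h2] at h3
  have h4 := (Complex.le_def.1 h3).1
  simp only [Complex.zero_re, Complex.sub_re] at h4
  rw [h1]
  linarith

/-- conditioning on the label of `R` costs a factor `q⁻¹` -/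
theorem cp_postL_quad_le {a0 : ℝ} (hW : 𝔇.WF a0) (lam : Rep.Irr (Equiv.Perm κ))
    {s : Finset Λ × Finset Λ} (hs : Disjoint s.1 s.2) :
    (star (cmpVec (𝔇.mPostL lam)) ⬝ᵥ (𝔇.mBand κ s *ᵥ cmpVec (𝔇.mPostL lam))).re ≤
      (star (cmpVec (𝔇.mPost κ)) ⬝ᵥ (𝔇.mBand κ s *ᵥ cmpVec (𝔇.mPost κ))).re := by
  have e : cmpVec (𝔇.mPostL lam) =
      cmp (labP (io := rmIo io 𝔇.dst) {rmR} lam) *ᵥ cmpVec (𝔇.mPost κ) := by
    rw [cmp_mulVec_cmpVec (cp_labP_commute_symProj 𝔇 _ lam)]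
    rfl
  rw [e]
  refine cp_proj_quad_le (cp_band_posDef 𝔇 hW hs).posSemidef ?_ ?_
    (cp_band_commute_labR 𝔇 hW hs lam) _
  · rw [IsHermitian, cmp_conjTranspose, (labP_isHermitian _ lam).eq]
  · rw [← cmp_mul (cp_labP_commute_symProj 𝔇 _ lam), cp_labP_sq]

theorem cp_low_proj {a0 : ℝ} (hW : 𝔇.WF a0) (lam : Rep.Irr (Equiv.Perm κ)) :
    (𝔇.mLow lam).IsHermitian ∧ 𝔇.mLow lam * 𝔇.mLow lam = 𝔇.mLow lam := by
  obtain ⟨h1, h2, h3⟩ := cp_lowFull_proj 𝔇 hW lam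
  unfold RepData.mLow
  constructor
  · rw [IsHermitian, cmp_conjTranspose, h1.eq]
  · rw [← cmp_mul h3, h2]


theorem cp_quad_mono {n : Type*} [Fintype n] {X Y : Matrix n n ℂ} (h : X ≤ Y) (v : n → ℂ) :
    (star v ⬝ᵥ (X *ᵥ v)).re ≤ (star v ⬝ᵥ (Y *ᵥ v)).re := by
  have h1 := (Matrix.le_iff.1 h).dotProduct_mulVec_nonneg v
  rw [sub_mulVec, dotProduct_sub] at h1
  have h2 := (Complex.le_def.1 h1).1
  simp only [Complex.zero_re, Complex.sub_re] at h2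
  linarith

theorem cp_ev_posDef_of_all {n : Type} [Fintype n] [DecidableEq n] {A : α → Matrix n n ℂ}
    {G : α → Prop} (hA : ∀ a, G a → (A a).PosDef) {t : MTree α} (h : t.All G) :
    (t.ev A).PosDef := by
  induction t with
  | leaf a => exact hA a h
  | node p l r ihl ihr => exact gm_posDef p (ihl h.1) (ihr h.2)

theorem cp_leafB_posDef {a0 : ℝ} (hW : 𝔇.WF a0) (g : Fin 𝔇.K) (a : α) (ha : 𝔇.Al a) :
    (𝔇.mLeafB κ g a).PosDef :=
  cp_band_posDef 𝔇 hW (hW.st_disj a ha g)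

theorem cp_leafB_commute {a0 : ℝ} (hW : 𝔇.WF a0) (g g' : Fin 𝔇.K) (a a' : α) (hg : g ≠ g')
    (ha : 𝔇.Al a) (ha' : 𝔇.Al a') : Commute (𝔇.mLeafB κ g a) (𝔇.mLeafB κ g' a') := by
  rcases lt_or_gt_of_ne hg with h | h
  · exact cp_band_commute 𝔇 hW (hW.st_disj a ha g) (hW.st_disj a' ha' g') (hW.nest a a' ha ha' g g' h)
  · exact (cp_band_commute 𝔇 hW (hW.st_disj a' ha' g') (hW.st_disj a ha g)
      (hW.nest a' a ha' ha g' g h)).symm

theorem cp_root_posDef {a0 : ℝ} (hW : 𝔇.WF a0) {T : MTree α} (hT : T.All 𝔇.Al) :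
    (𝔇.mRoot κ T).PosDef :=
  cp_ev_posDef_of_all (fun _ ha => ca_prod_posDef (G := 𝔇.Al) (cp_leafB_posDef 𝔇 hW)
    (cp_leafB_commute 𝔇 hW) ha) hT

theorem cp_V_unit {a0 : ℝ} (hW : 𝔇.WF a0) (lam : Rep.Irr (Equiv.Perm κ))
    (hne : 𝔇.mPre lam ≠ 0) {T : MTree α} (hT : T.All 𝔇.Al) :
    star (𝔇.mV lam T) ⬝ᵥ 𝔇.mV lam T = 1 :=
  (ca_unit (cp_root_posDef 𝔇 hW hT) hne).2

theorem cp_V_labC {a0 : ℝ} (hW : 𝔇.WF a0) (lam : Rep.Irr (Equiv.Perm κ)) {T : MTree α}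
    (hT : T.All 𝔇.Al) :
    cmp (labP (io := rmIo io 𝔇.dst) {rmC} lam) *ᵥ 𝔇.mV lam T = 𝔇.mV lam T :=
  ca_sector (ca_commute_root (G := 𝔇.Al) (Ab := 𝔇.mLeafB κ)
    (fun g a ha => cp_band_commute_labC 𝔇 hW (hW.st_disj a ha g) lam) hT) (cp_pre_labC 𝔇 hW lam) _ _

theorem cp_V_labR {a0 : ℝ} (hW : 𝔇.WF a0) (lam : Rep.Irr (Equiv.Perm κ)) {T : MTree α}
    (hT : T.All 𝔇.Al) :
    cmp (labP (io := rmIo io 𝔇.dst) {rmR} lam) *ᵥ 𝔇.mV lam T = 𝔇.mV lam T :=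
  ca_sector (ca_commute_root (G := 𝔇.Al) (Ab := 𝔇.mLeafB κ)
    (fun g a ha => cp_band_commute_labR 𝔇 hW (hW.st_disj a ha g) lam) hT) (cp_pre_labR 𝔇 hW lam) _ _

theorem cp_low_V {a0 : ℝ} (hW : 𝔇.WF a0) (lam : Rep.Irr (Equiv.Perm κ)) {T : MTree α}
    (hT : T.All 𝔇.Al) : 𝔇.mLow lam *ᵥ 𝔇.mV lam T = cmp (𝔇.mDef κ) *ᵥ 𝔇.mV lam T := by
  unfold RepData.mLow RepData.mLowFull
  rw [cmp_mul' _ (cp_labP_commute_symProj 𝔇 _ lam), cmp_mul' _ (cp_labP_commute_symProj 𝔇 _ lam),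
    ← mulVec_mulVec, cp_V_labR 𝔇 hW lam hT, ← mulVec_mulVec, cp_V_labC 𝔇 hW lam hT]

/-- (comparator:defect-mass) and `E_def ≥ 0` -/
theorem cp_defect_mass [Nonempty κ] {a0 : ℝ} (hW : 𝔇.WF a0) (lam : Rep.Irr (Equiv.Perm κ))
    (hne : 𝔇.mPre lam ≠ 0) {T : MTree α} (hT : T.All 𝔇.Al) (hv : T.Valid) :
    0 ≤ 𝔇.mEd lam T ∧
      1 - 𝔇.mEd lam T / 𝔇.τ ≤ (star (𝔇.mV lam T) ⬝ᵥ (𝔇.mLow lam *ᵥ 𝔇.mV lam T)).re := by
  have := cp_nonempty 𝔇 hW
  set v := 𝔇.mV lam T with hvdef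
  have hunit : star v ⬝ᵥ v = 1 := cp_V_unit 𝔇 hW lam hne hT
  set x : ℝ := (star v ⬝ᵥ (cmp (copyAvg (κ := κ) (1 - 𝔇.mG1)) *ᵥ v)).re with hx
  have hx0 : 0 ≤ x := by
    have h1 := (cmp_posSemidef (copyAvg_posSemidef (κ := κ)
      (cp_Q1_posSemidef 𝔇 hW))).dotProduct_mulVec_nonneg v
    exact (Complex.le_def.1 h1).1
  have hgap : 𝔇.S.gap * x ≤ (star v ⬝ᵥ (𝔇.mH κ *ᵥ v)).re - 𝔇.S.E0 := by
    have h1 := cp_quad_mono (cmp_le_cmp (cp_gapK 𝔇 hW (κ := κ))) v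
    rw [cmp_smul, cmp_sub, cmp_smul, cmp_one, smul_mulVec, dotProduct_smul, sub_mulVec,
      dotProduct_sub, smul_mulVec, one_mulVec, dotProduct_smul, hunit] at h1
    simpa [RepData.mH, barOp, hx] using h1
  have hmark : 𝔇.τ * (1 - (star v ⬝ᵥ (cmp (𝔇.mDef κ) *ᵥ v)).re) ≤ x := by
    have h1 := cp_quad_mono (cmp_le_cmp (cp_def_markov 𝔇 hW (κ := κ))) v
    rw [cmp_smul, cmp_sub, cmp_one, smul_mulVec, dotProduct_smul, sub_mulVec, one_mulVec,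
      dotProduct_sub, hunit] at h1
    simpa [hx] using h1
  have hg := hW.sys.gap_pos
  have hτ := hW.tau_pos
  have hEd : x ≤ 𝔇.mEd lam T := by
    unfold RepData.mEd
    rw [le_div_iff₀ hg, mul_comm]
    exact hgap
  refine ⟨hx0.trans hEd, ?_⟩
  rw [cp_low_V 𝔇 hW lam hT]
  have h2 : x / 𝔇.τ ≤ 𝔇.mEd lam T / 𝔇.τ := div_le_div_of_nonneg_right hEd hτ.le
  have h3 : 1 - (star v ⬝ᵥ (cmp (𝔇.mDef κ) *ᵥ v)).re ≤ x / 𝔇.τ := by
    rw [le_div_iff₀ hτ, mul_comm]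
    exact hmark
  linarith

end Final

end Scan

end Claimed.Agent.R296
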