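import Claimed.Agent.R296.CmpLaw

/-!
# Row 296, P1 Section 7, package S7-UPP: the pinned metric (common part of the two upper comparisons)

Architect: helper218.  Prefix `cu_` (general), `cp_` (model).  ONE owner.   (Subsection "Upper comparisons".)

For a band status `s` with `X ⊆ s.1`, `Disjoint s.1 s.2` put `U = s.1 \ X`, `UY = s.2ᶜ \ X`,
`Y = (s.1 ∪ s.2)ᶜ` (physical sets disjoint from `X`).  On `Sym` the band metric is the compression of the NEAR FORM
`W_P^{-2} W_{P∪Y}^{-2} W_Y^{2}` (`bandMz_eq_near`), `P = mXC ∪ rmPh U`, `P ∪ Y = mXC ∪ rmPh UY`.  A vector `x` with `mPinK x = x` is fixed by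
`UQ mXC π` (`cp_UQ_pinK`), so `cenQ (mXC ∪ E) φ x = cenQ E φ x` for `E` disjoint from `mXC` (`cenQ_union_of_fixed`): (comparator:pinned-metric).
All the regions `rmPh U_g ⊆ rmPh UY_g ⊆ rmPh U_{g'}` (`g < g'`), `rmPh Y_g ⊆ rmPh UY_g`, `Y_g` disjoint from `U_g`, form a laminar family
(`hW.nest`), so all label functions commute on the full space; they commute with `mPinK`, `UQ mXC π`, `labP {rmR} lam`, `symProj`.
For the product leaf: `cmp` is multiplicative on operators commuting with `symProj` (`cmp_mul`), and each factor maps pinned symmetric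
vectors to pinned symmetric vectors, so the identity of one band can be iterated (induction on the list of bands).
-/

set_option autoImplicit false
set_option linter.unusedSectionVars false

namespace Claimed.Agent.R296

namespace Scan

open Matrix Finset
open scoped ComplexOrder MatrixOrder

/-! ### general system -/

section General

variable {s : Type} [DecidableEq s] [Fintype s] {io : s → Type}
  [∀ x, Fintype (io x)] [∀ x, DecidableEq (io x)] {κ : Type} [Fintype κ] [DecidableEq κ]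

theorem cu_cutQ_isHermitian (Q : Finset s) (c : ℝ) :
    (cutQ (io := io) (κ := κ) Q c).IsHermitian := by
  have h := cenQ_isHermitian (io := io) (κ := κ) Q
    fun i => if Real.log (Rep.dimI i) ≤ c then (1 : ℝ) else 0
  have e : (fun i : Rep.Irr (Equiv.Perm κ) =>
      (((if Real.log (Rep.dimI i) ≤ c then (1 : ℝ) else 0 : ℝ)) : ℂ))
      = fun i => if Real.log (Rep.dimI i) ≤ c then (1 : ℂ) else 0 := by
    funext i
    split_ifs <;> simp
  rw [e] at h
  exact h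

theorem cu_cutQ_sq (Q : Finset s) (c : ℝ) :
    cutQ (io := io) (κ := κ) Q c * cutQ Q c = cutQ Q c := by
  unfold cutQ
  rw [cenQ_mul]
  congr 1
  funext i
  split_ifs <;> simp

/-- compatible labels of `Q`, `E`, `Q ∪ E` -/
theorem cu_kron_of_triple {Q E : Finset s} (hQE : Disjoint Q E) (i j l : Rep.Irr (Equiv.Perm κ))
    (h0 : labP (io := io) Q i * labP E j * labP (Q ∪ E) l ≠ 0) : Rep.kronMult i j l ≠ 0 := by
  refine Rep.merge_compat (UQhom (io := io) Q) (UQhom E)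
    (fun g h => (UQ_commute_disjoint hQE g h).eq) i j l ?_
  rw [cen_mulRep_eq hQE]
  exact h0

/-- insert the resolution of the identity of the labels of `E` -/
theorem cu_exists_middle (Q E : Finset s) (i l : Rep.Irr (Equiv.Perm κ))
    (h0 : labP (io := io) Q i * labP (Q ∪ E) l ≠ 0) :
    ∃ j, labP (io := io) Q i * labP E j * labP (Q ∪ E) l ≠ 0 := by
  by_contra hcon
  push Not at hcon
  apply h0
  calc labP (io := io) Q i * labP (Q ∪ E) l
      = labP (io := io) Q i * (∑ j, labP E j) * labP (Q ∪ E) l := by rw [sum_labP, Matrix.mul_one]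
    _ = ∑ j, labP (io := io) Q i * labP E j * labP (Q ∪ E) l := by
        rw [Finset.mul_sum, Finset.sum_mul]
    _ = 0 := Finset.sum_eq_zero fun j _ => hcon j

/-- nested regions: compatible labels (`merge_compat`, `kron_dim_le`, `kron_dim_le'`, `cm_dimI_le`) -/
theorem cu_compat_nested {B Q : Finset s} (h : B ⊆ Q ∨ Q ⊆ B) (i j : Rep.Irr (Equiv.Perm κ))
    (hne : labP (io := io) B i * labP Q j ≠ 0) :
    Real.log (Rep.dimI j) ≤ Real.log (Rep.dimI i) + Fintype.card κ * Scan.ldim io (symmDiff B Q) := by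
  rcases h with h | h
  · have hd : Disjoint B (Q \ B) := Finset.disjoint_sdiff
    have hu : B ∪ Q \ B = Q := Finset.union_sdiff_of_subset h
    have hsd : symmDiff B Q = Q \ B := by
      rw [symmDiff_def, Finset.sup_eq_union, Finset.sdiff_eq_empty_iff_subset.2 h,
        Finset.empty_union]
    rw [← hu] at hne
    obtain ⟨l, hl⟩ := cu_exists_middle B (Q \ B) i j hne
    have hk := cu_kron_of_triple hd i l j hl
    have hl0 : labP (io := io) (Q \ B) l ≠ 0 := by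
      intro h0
      rw [h0, Matrix.mul_zero, Matrix.zero_mul] at hl
      exact hl rfl
    have h1 := cen_log_dim_le (Rep.dimI_pos j) (Rep.dimI_pos i) (Rep.dimI_pos l)
      (Rep.kron_dim_le i l j hk)
    have h2 := cm_dimI_le (Q \ B) l hl0
    rw [hsd]
    linarith
  · have hd : Disjoint Q (B \ Q) := Finset.disjoint_sdiff
    have hu : Q ∪ B \ Q = B := Finset.union_sdiff_of_subset h
    have hsd : symmDiff B Q = B \ Q := by
      rw [symmDiff_def, Finset.sup_eq_union, Finset.sdiff_eq_empty_iff_subset.2 h,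
        Finset.union_empty]
    have hc : Commute (labP (io := io) Q j) (labP B i) :=
      repQ_commute_subset h (cen_idem_central j) _
    rw [← hc.eq, ← hu] at hne
    obtain ⟨l, hl⟩ := cu_exists_middle Q (B \ Q) j i hne
    have hk := cu_kron_of_triple hd j l i hl
    have hl0 : labP (io := io) (B \ Q) l ≠ 0 := by
      intro h0
      rw [h0, Matrix.mul_zero, Matrix.zero_mul] at hl
      exact hl rfl
    have h1 := cen_log_dim_le (Rep.dimI_pos j) (Rep.dimI_pos i) (Rep.dimI_pos l)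
      (Rep.kron_dim_le' cen_perm_ambivalent j l i hk)
    have h2 := cm_dimI_le (B \ Q) l hl0
    rw [hsd]
    linarith

/-- a cutoff on `B` implies a cutoff on a nested region `Q` (comparator:actual-cutoffs) -/
theorem cu_cut_transfer {B Q : Finset s} (h : B ⊆ Q ∨ Q ⊆ B) {c c' : ℝ}
    (hc : c + Fintype.card κ * Scan.ldim io (symmDiff B Q) ≤ c') {x : RCfg io κ → ℂ}
    (hx : cutQ B c *ᵥ x = x) : cutQ Q c' *ᵥ x = x := by
  have key : cutQ (io := io) (κ := κ) Q c' * cutQ B c = cutQ B c := by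
    have e1 : cutQ (io := io) (κ := κ) Q c' * cutQ B c
        = ∑ j, ∑ i, ((if Real.log (Rep.dimI j) ≤ c' then (1 : ℂ) else 0) *
            (if Real.log (Rep.dimI i) ≤ c then (1 : ℂ) else 0)) • (labP Q j * labP B i) := by
      unfold cutQ
      rw [cenQ_eq_sum, cenQ_eq_sum, Finset.sum_mul_sum]
      refine Finset.sum_congr rfl fun j _ => Finset.sum_congr rfl fun i _ => ?_
      rw [smul_mul_smul_comm]
    have e2 : cutQ (io := io) (κ := κ) B c
        = ∑ j, ∑ i, (if Real.log (Rep.dimI i) ≤ c then (1 : ℂ) else 0) •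
            (labP Q j * labP B i) := by
      calc cutQ (io := io) (κ := κ) B c = (∑ j, labP Q j) * cutQ B c := by
            rw [sum_labP, Matrix.one_mul]
        _ = _ := by
            unfold cutQ
            rw [cenQ_eq_sum, Finset.sum_mul_sum]
            refine Finset.sum_congr rfl fun j _ => Finset.sum_congr rfl fun i _ => ?_
            rw [Matrix.mul_smul]
    rw [e1, e2]
    refine Finset.sum_congr rfl fun j _ => Finset.sum_congr rfl fun i _ => ?_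
    by_cases h0 : labP (io := io) Q j * labP B i = 0
    · rw [h0, smul_zero, smul_zero]
    · by_cases hi : Real.log (Rep.dimI i) ≤ c
      · have hcm : Commute (labP (io := io) B i) (labP Q j) := by
          rcases h with h | h
          · exact repQ_commute_subset h (cen_idem_central i) _
          · exact (repQ_commute_subset h (cen_idem_central j) _).symm
        have h1 := cu_compat_nested h i j (by rw [hcm.eq]; exact h0)
        have hj : Real.log (Rep.dimI j) ≤ c' := by linarith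
        rw [if_pos hj, one_mul]
      · rw [if_neg hi, mul_zero]
  calc cutQ Q c' *ᵥ x = cutQ Q c' *ᵥ (cutQ B c *ᵥ x) := by rw [hx]
    _ = cutQ B c *ᵥ x := by rw [mulVec_mulVec, key]
    _ = x := hx

theorem cu_proj_mul {n : Type} [Fintype n] {E P : Matrix n n ℂ} (hE : E.IsHermitian)
    (hP : P.IsHermitian) (hE2 : E * E = E) (hP2 : P * P = P) (hc : Commute E P) :
    (E * P).IsHermitian ∧ (E * P) * (E * P) = E * P := by
  constructor
  · rw [IsHermitian, conjTranspose_mul, hE.eq, hP.eq, hc.eq]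
  · calc E * P * (E * P) = E * (P * E) * P := by simp only [Matrix.mul_assoc]
      _ = E * (E * P) * P := by rw [hc.eq]
      _ = (E * E) * (P * P) := by simp only [Matrix.mul_assoc]
      _ = E * P := by rw [hE2, hP2]

theorem cu_list_proj {n : Type} [Fintype n] [DecidableEq n] (L : List (Matrix n n ℂ))
    (hH : ∀ E ∈ L, E.IsHermitian) (hI : ∀ E ∈ L, E * E = E)
    (hc : ∀ E ∈ L, ∀ E' ∈ L, Commute E E') :
    L.prod.IsHermitian ∧ L.prod * L.prod = L.prod := by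
  induction L with
  | nil => exact ⟨by simp, by simp⟩
  | cons E L ih =>
    obtain ⟨h1, h2⟩ := ih (fun E' h => hH E' (List.mem_cons_of_mem _ h))
      (fun E' h => hI E' (List.mem_cons_of_mem _ h))
      (fun E' h E'' h' => hc E' (List.mem_cons_of_mem _ h) E'' (List.mem_cons_of_mem _ h'))
    rw [List.prod_cons]
    exact cu_proj_mul (hH E List.mem_cons_self) h1 (hI E List.mem_cons_self) h2
      (Commute.list_prod_right _ _ fun E' h => hc E List.mem_cons_self E'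
        (List.mem_cons_of_mem _ h))

theorem cu_one_sub_proj {n : Type} [Fintype n] [DecidableEq n] {E : Matrix n n ℂ}
    (hE : E.IsHermitian) (hE2 : E * E = E) :
    (1 - E).IsHermitian ∧ (1 - E) * (1 - E) = 1 - E := by
  refine ⟨isHermitian_one.sub hE, ?_⟩
  rw [Matrix.sub_mul, Matrix.mul_sub, Matrix.mul_sub, hE2]
  simp

/-- union bound for commuting projectors -/
theorem cu_union_bound {n : Type} [Fintype n] [DecidableEq n] (L : List (Matrix n n ℂ))
    (hH : ∀ E ∈ L, E.IsHermitian) (hI : ∀ E ∈ L, E * E = E)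
    (hc : ∀ E ∈ L, ∀ E' ∈ L, Commute E E') (x : n → ℂ) :
    (star x ⬝ᵥ x).re - (L.map fun E => (star x ⬝ᵥ ((1 - E) *ᵥ x)).re).sum ≤
      (star (L.prod *ᵥ x) ⬝ᵥ (L.prod *ᵥ x)).re := by
  induction L with
  | nil => simp
  | cons E L ih =>
    have hH' : ∀ E' ∈ L, E'.IsHermitian := fun E' h => hH E' (List.mem_cons_of_mem _ h)
    have hI' : ∀ E' ∈ L, E' * E' = E' := fun E' h => hI E' (List.mem_cons_of_mem _ h)
    have hc' : ∀ E' ∈ L, ∀ E'' ∈ L, Commute E' E'' := fun E' h E'' h' =>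
      hc E' (List.mem_cons_of_mem _ h) E'' (List.mem_cons_of_mem _ h')
    have ihL := ih hH' hI' hc'
    obtain ⟨hPH, hP2⟩ := cu_list_proj L hH' hI' hc'
    have hEH := hH E List.mem_cons_self
    have hE2 := hI E List.mem_cons_self
    have hEP : Commute E L.prod := Commute.list_prod_right _ _ fun E' h =>
      hc E List.mem_cons_self E' (List.mem_cons_of_mem _ h)
    obtain ⟨hA, hA2⟩ := cu_proj_mul hEH hPH hE2 hP2 hEP
    obtain ⟨hE1, hE12⟩ := cu_one_sub_proj hEH hE2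
    obtain ⟨hP1, hP12⟩ := cu_one_sub_proj hPH hP2
    have hcc : Commute (1 - E) (1 - L.prod) := by
      have h1 : Commute (1 - E) L.prod := (Commute.one_left _).sub_left hEP
      exact (Commute.one_right _).sub_right h1
    obtain ⟨hB, hB2⟩ := cu_proj_mul hE1 hP1 hE12 hP12 hcc
    have h0 : 0 ≤ (star x ⬝ᵥ (((1 - E) * (1 - L.prod)) *ᵥ x)).re := by
      rw [← cp_proj_quad hB hB2 x]
      exact (Complex.le_def.1 (dotProduct_star_self_nonneg _)).1
    have e : (1 - E) * (1 - L.prod) = 1 - E - L.prod + E * L.prod := by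
      rw [Matrix.sub_mul, Matrix.mul_sub, Matrix.mul_sub]
      simp only [Matrix.one_mul, Matrix.mul_one]
      abel
    rw [e, add_mulVec, sub_mulVec, dotProduct_add, dotProduct_sub, Complex.add_re,
      Complex.sub_re] at h0
    rw [List.prod_cons, List.map_cons, List.sum_cons, cp_proj_quad hA hA2 x]
    rw [cp_proj_quad hPH hP2 x] at ihL
    linarith

/-- the square of a bounded real label function -/
theorem cu_cenQ_sq_le (Q : Finset s) (f : Rep.Irr (Equiv.Perm κ) → ℝ) (M : ℝ)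
    (h : ∀ i, 0 ≤ f i ∧ f i ≤ M) :
    (cenQ (io := io) Q fun i => (f i : ℂ))ᴴ * (cenQ Q fun i => (f i : ℂ)) ≤
      ((M ^ 2 : ℝ) : ℂ) • 1 := by
  rw [(cenQ_isHermitian Q f).eq, cenQ_mul, ← cenQ_one (io := io) (κ := κ) Q, cenQ_smul]
  have e1 : (fun i : Rep.Irr (Equiv.Perm κ) => (f i : ℂ) * (f i : ℂ))
      = fun i => ((f i ^ 2 : ℝ) : ℂ) := by
    funext i
    push_cast
    ring
  have e2 : (fun _ : Rep.Irr (Equiv.Perm κ) => ((M ^ 2 : ℝ) : ℂ) * 1)
      = fun _ => ((M ^ 2 : ℝ) : ℂ) := by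
    funext i
    rw [mul_one]
  rw [e1, e2]
  exact cenQ_le_cenQ Q _ _ fun i _ => pow_le_pow_left₀ (h i).1 (h i).2 2

/-- `‖W_Q^{z} 1[log d ≤ c]‖`, `z ≤ 0` -/
theorem cu_WQ_cut_le (io : s → Type) [∀ x, Fintype (io x)] [∀ x, DecidableEq (io x)]
    [∀ x, Nonempty (io x)] (t : ℝ) (ht0 : 0 < t) (ht1 : t ≤ 1) :
    ∃ (C : ℝ) (m : ℕ), 1 ≤ C ∧ ∀ (κ : Type) [Fintype κ] [DecidableEq κ] (Q : Finset s) (c : ℝ),
      0 ≤ c →
      (WQ (io := io) (κ := κ) t Q (-2) * cutQ Q c)ᴴ * (WQ t Q (-2) * cutQ Q c) ≤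
        (((C * ((Fintype.card κ : ℝ) + 1) ^ m * Real.exp (2 * t * c)) ^ 2 : ℝ) : ℂ) • 1 ∧
      (WQ (io := io) (κ := κ) t Q 2)ᴴ * WQ t Q 2 ≤
        (((C * ((Fintype.card κ : ℝ) + 1) ^ m) ^ 2 : ℝ) : ℂ) • 1 := by
  obtain ⟨C0, m0, hC0, h⟩ := abs_bandU_le (dV io) one_le_dV t ht0 ht1
  refine ⟨C0 ^ 2, 2 * m0, by nlinarith, ?_⟩
  intro κ _ _ Q c hc
  have hk1 : (1 : ℝ) ≤ ((Fintype.card κ : ℝ) + 1) ^ m0 :=
    one_le_pow₀ (by have : (0 : ℝ) ≤ Fintype.card κ := Nat.cast_nonneg _; linarith)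
  have hA : 0 < C0 * ((Fintype.card κ : ℝ) + 1) ^ m0 := by positivity
  have eA : C0 ^ 2 * ((Fintype.card κ : ℝ) + 1) ^ (2 * m0)
      = (C0 * ((Fintype.card κ : ℝ) + 1) ^ m0) ^ 2 := by
    rw [mul_pow, ← pow_mul, mul_comm m0 2]
  rw [eA]
  set A := C0 * ((Fintype.card κ : ℝ) + 1) ^ m0 with hAdef
  have hexp : ∀ (i : Rep.Irr (Equiv.Perm κ)) (z : ℝ), |z| ≤ 2 →
      Real.exp (z * bandU (dV io) t i) ≤ A ^ 2 := by
    intro i z hz
    have h1 : z * bandU (dV io) t i ≤ 2 * Real.log A := by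
      have h2 : |z * bandU (dV io) t i| ≤ 2 * Real.log A := by
        rw [abs_mul]
        exact mul_le_mul hz (h κ i) (abs_nonneg _) (by norm_num)
      exact (le_abs_self _).trans h2
    calc Real.exp (z * bandU (dV io) t i) ≤ Real.exp (2 * Real.log A) := Real.exp_le_exp.2 h1
      _ = A ^ 2 := by
          rw [two_mul, Real.exp_add, Real.exp_log hA, sq]
  have hd1 : ∀ i : Rep.Irr (Equiv.Perm κ), (1 : ℝ) ≤ ((Rep.dimI i : ℕ) : ℝ) := fun i => by
    exact_mod_cast Rep.dimI_pos i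
  constructor
  · have e : WQ (io := io) (κ := κ) t Q (-2) * cutQ Q c = cenQ Q fun i =>
        (((Rep.wIrr (dV io) t i) ^ (-2 : ℝ) *
          (if Real.log (Rep.dimI i) ≤ c then (1 : ℝ) else 0) : ℝ) : ℂ) := by
      rw [WQ_eq_cenQ, cutQ, cenQ_mul]
      congr 1
      funext i
      split_ifs <;> simp
    rw [e]
    refine cu_cenQ_sq_le Q _ _ fun i => ?_
    have hw := Rep.wIrr_pos (dV io) one_le_dV t ht0 i
    have hwz : 0 ≤ (Rep.wIrr (dV io) t i) ^ (-2 : ℝ) := Real.rpow_nonneg hw.le _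
    split_ifs with hi
    · rw [mul_one]
      refine ⟨hwz, ?_⟩
      rw [WQ_eq_exp t ht0]
      have hdpos : (0 : ℝ) < ((Rep.dimI i : ℕ) : ℝ) := lt_of_lt_of_le one_pos (hd1 i)
      have h2 : ((Rep.dimI i : ℕ) : ℝ) ^ (-(t * (-2 : ℝ))) ≤ Real.exp (2 * t * c) := by
        rw [Real.rpow_def_of_pos hdpos]
        refine Real.exp_le_exp.2 ?_
        have : Real.log (Rep.dimI i) * (2 * t) ≤ c * (2 * t) :=
          mul_le_mul_of_nonneg_right hi (by positivity)
        linarith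
      exact mul_le_mul (hexp i (-2) (by norm_num)) h2 (Real.rpow_nonneg hdpos.le _) (by positivity)
    · rw [mul_zero]
      exact ⟨le_refl _, by positivity⟩
  · rw [WQ_eq_cenQ]
    refine cu_cenQ_sq_le Q _ _ fun i => ?_
    have hw := Rep.wIrr_pos (dV io) one_le_dV t ht0 i
    refine ⟨Real.rpow_nonneg hw.le _, ?_⟩
    rw [WQ_eq_exp t ht0]
    have h2 : ((Rep.dimI i : ℕ) : ℝ) ^ (-(t * (2 : ℝ))) ≤ 1 :=
      Real.rpow_le_one_of_one_le_of_nonpos (hd1 i) (by linarith)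
    calc Real.exp (2 * bandU (dV io) t i) * ((Rep.dimI i : ℕ) : ℝ) ^ (-(t * (2 : ℝ)))
        ≤ A ^ 2 * 1 := mul_le_mul (hexp i 2 (by norm_num)) h2
          (Real.rpow_nonneg (Nat.cast_nonneg _) _) (by positivity)
      _ = A ^ 2 := mul_one _

end General

variable {Λ ι α : Type} [Fintype Λ] [DecidableEq Λ] [Fintype ι]
  {io : Λ → Type} [∀ x, Fintype (io x)] [∀ x, DecidableEq (io x)] [∀ x, Nonempty (io x)]
  (𝔇 : RepData Λ ι α io)

variable {κ : Type} [Fintype κ] [DecidableEq κ]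

/-! ### the pinned metric -/

section Pinned

/-- the pinned near form `W_U^{-2} W_{UY}^{-2} W_Y^{2}` of a band status -/
noncomputable def RepData.mNear (s : Finset Λ × Finset Λ) :
    Matrix (RCfg (rmIo io 𝔇.dst) κ) (RCfg (rmIo io 𝔇.dst) κ) ℂ :=
  WQ (𝔇.a / 2) (rmPh (s.1 \ 𝔇.X)) (-2) * WQ (𝔇.a / 2) (rmPh (s.2ᶜ \ 𝔇.X)) (-2) *
    WQ (𝔇.a / 2) (rmPh (s.1 ∪ s.2)ᶜ) 2

/-- the near form `W_P^{-2} W_{P ∪ Y}^{-2} W_Y^{2}` of a band status before pinning -/
noncomputable def RepData.mNear0 (s : Finset Λ × Finset Λ) :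
    Matrix (RCfg (rmIo io 𝔇.dst) κ) (RCfg (rmIo io 𝔇.dst) κ) ℂ :=
  WQ (𝔇.a / 2) (RepData.mP s) (-2) * WQ (𝔇.a / 2) (RepData.mP s ∪ RepData.mY s) (-2) *
    WQ (𝔇.a / 2) (RepData.mY s) 2

theorem cp_mP_eq {s : Finset Λ × Finset Λ} (hX : 𝔇.X ⊆ s.1) :
    RepData.mP s = 𝔇.mXC ∪ rmPh (s.1 \ 𝔇.X) := by
  ext x
  rcases x with y | b
  · simp only [RepData.mP, RepData.mXC, rmPh, Finset.mem_union, Finset.mem_map,
      Function.Embedding.inl_apply, Sum.inl.injEq, exists_eq_right, Finset.mem_singleton,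
      Finset.mem_sdiff, rmC, reduceCtorEq, or_false]
    constructor
    · intro h
      by_cases hy : y ∈ 𝔇.X
      · exact Or.inl hy
      · exact Or.inr ⟨h, hy⟩
    · rintro (h | h)
      · exact hX h
      · exact h.1
  · simp [RepData.mP, RepData.mXC, rmPh]

theorem cp_mPY_eq {s : Finset Λ × Finset Λ} (hs : Disjoint s.1 s.2) (hX : 𝔇.X ⊆ s.1) :
    RepData.mP s ∪ RepData.mY s = 𝔇.mXC ∪ rmPh (s.2ᶜ \ 𝔇.X) := by
  have hd := Finset.disjoint_left.1 hs
  ext x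
  rcases x with y | b
  · simp only [RepData.mP, RepData.mY, RepData.mXC, rmPh, Finset.mem_union, Finset.mem_map,
      Function.Embedding.inl_apply, Sum.inl.injEq, exists_eq_right, Finset.mem_singleton,
      Finset.mem_sdiff, Finset.mem_compl, rmC, reduceCtorEq, or_false, not_or]
    constructor
    · rintro (h | h)
      · by_cases hy : y ∈ 𝔇.X
        · exact Or.inl hy
        · exact Or.inr ⟨hd h, hy⟩
      · by_cases hy : y ∈ 𝔇.X
        · exact Or.inl hy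
        · exact Or.inr ⟨h.2, hy⟩
    · rintro (h | h)
      · exact Or.inl (hX h)
      · by_cases hy : y ∈ s.1
        · exact Or.inl hy
        · exact Or.inr ⟨hy, h.1⟩
  · simp [RepData.mP, RepData.mY, RepData.mXC, rmPh]

theorem cp_disjoint_mXC_rmPh {E : Finset Λ} (h : Disjoint 𝔇.X E) :
    Disjoint 𝔇.mXC (rmPh E) := by
  have hd := Finset.disjoint_left.1 h
  rw [Finset.disjoint_left]
  rintro (y | b) h1 h2
  · simp [RepData.mXC, rmPh] at h1 h2
    exact hd h1 h2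
  · simp [rmPh] at h2

/-- label functions of a region off `B` commute with the permutations of `B` -/
theorem cu_WQ_commute_UQ {s : Type} [DecidableEq s] [Fintype s] {io' : s → Type}
    [∀ x, Fintype (io' x)] [∀ x, DecidableEq (io' x)] {B Q : Finset s} (h : Disjoint B Q)
    (t z : ℝ) (π : Equiv.Perm κ) : Commute (WQ (io := io') (κ := κ) t Q z) (UQ B π) := by
  have h1 := cenQ_commute_repQ (io := io') (κ := κ) (Q := Q) (E := B)
    (fun i => (((Rep.wIrr (dV io') t i) ^ z : ℝ) : ℂ)) (Or.inr h.symm)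
    (MonoidAlgebra.single π 1)
  rw [repQ_single, one_smul] at h1
  exact h1

theorem cu_WQ_union_of_fixed {s : Type} [DecidableEq s] [Fintype s] {io' : s → Type}
    [∀ x, Fintype (io' x)] [∀ x, DecidableEq (io' x)] {B Q : Finset s} (h : Disjoint B Q)
    (t z : ℝ) {y : RCfg io' κ → ℂ} (hy : ∀ π : Equiv.Perm κ, UQ B π *ᵥ y = y) :
    WQ t (B ∪ Q) z *ᵥ y = WQ t Q z *ᵥ y :=
  cenQ_union_of_fixed Q _ h hy

theorem cu_fixed_mulVec {s : Type} [DecidableEq s] [Fintype s] {io' : s → Type}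
    [∀ x, Fintype (io' x)] [∀ x, DecidableEq (io' x)] {B : Finset s}
    {M : Matrix (RCfg io' κ) (RCfg io' κ) ℂ} (hM : ∀ π : Equiv.Perm κ, Commute M (UQ B π))
    {y : RCfg io' κ → ℂ} (hy : ∀ π : Equiv.Perm κ, UQ B π *ᵥ y = y) :
    ∀ π : Equiv.Perm κ, UQ B π *ᵥ (M *ᵥ y) = M *ᵥ y := by
  intro π
  rw [mulVec_mulVec, ← (hM π).eq, ← mulVec_mulVec, hy π]

theorem cp_disjoint_X_sets {s : Finset Λ × Finset Λ} (hX : 𝔇.X ⊆ s.1) :
    Disjoint 𝔇.X (s.1 \ 𝔇.X) ∧ Disjoint 𝔇.X (s.2ᶜ \ 𝔇.X) ∧ Disjoint 𝔇.X (s.1 ∪ s.2)ᶜ := by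
  refine ⟨Finset.disjoint_sdiff, Finset.disjoint_sdiff, ?_⟩
  rw [Finset.disjoint_left]
  intro y hy h
  rw [Finset.mem_compl, Finset.mem_union] at h
  exact h (Or.inl (hX hy))

/-- the pinned near form commutes with the permutations of `X ∪ C` -/
theorem cp_near_commute_UQ {s : Finset Λ × Finset Λ} (hX : 𝔇.X ⊆ s.1) (π : Equiv.Perm κ) :
    Commute (𝔇.mNear (κ := κ) s) (UQ 𝔇.mXC π) := by
  obtain ⟨h1, h2, h3⟩ := cp_disjoint_X_sets 𝔇 hX
  unfold RepData.mNear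
  exact ((cu_WQ_commute_UQ (cp_disjoint_mXC_rmPh 𝔇 h1) _ _ π).mul_left
    (cu_WQ_commute_UQ (cp_disjoint_mXC_rmPh 𝔇 h2) _ _ π)).mul_left
    (cu_WQ_commute_UQ (cp_disjoint_mXC_rmPh 𝔇 h3) _ _ π)

/-- on vectors fixed by the permutations of `X ∪ C` the near form is the pinned near form -/
theorem cp_near0_mulVec {s : Finset Λ × Finset Λ} (hs : Disjoint s.1 s.2) (hX : 𝔇.X ⊆ s.1)
    {y : RCfg (rmIo io 𝔇.dst) κ → ℂ} (hy : ∀ π : Equiv.Perm κ, UQ 𝔇.mXC π *ᵥ y = y) :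
    𝔇.mNear0 s *ᵥ y = 𝔇.mNear s *ᵥ y := by
  obtain ⟨h1, h2, h3⟩ := cp_disjoint_X_sets 𝔇 hX
  unfold RepData.mNear0 RepData.mNear
  rw [cp_mPY_eq 𝔇 hs hX, cp_mP_eq 𝔇 hX]
  have hy1 := cu_fixed_mulVec
    (fun π => cu_WQ_commute_UQ (κ := κ) (cp_disjoint_mXC_rmPh 𝔇 h3) (𝔇.a / 2) 2 π) hy
  have hy2 := cu_fixed_mulVec
    (fun π => cu_WQ_commute_UQ (κ := κ) (cp_disjoint_mXC_rmPh 𝔇 h2) (𝔇.a / 2) (-2) π) hy1
  rw [← mulVec_mulVec, ← mulVec_mulVec, ← mulVec_mulVec, ← mulVec_mulVec]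
  change WQ (𝔇.a / 2) (𝔇.mXC ∪ rmPh (s.1 \ 𝔇.X)) (-2) *ᵥ
    (WQ (𝔇.a / 2) (𝔇.mXC ∪ rmPh (s.2ᶜ \ 𝔇.X)) (-2) *ᵥ
      (WQ (𝔇.a / 2) (rmPh (s.1 ∪ s.2)ᶜ) 2 *ᵥ y)) = _
  rw [cu_WQ_union_of_fixed (cp_disjoint_mXC_rmPh 𝔇 h2) _ _ hy1,
    cu_WQ_union_of_fixed (cp_disjoint_mXC_rmPh 𝔇 h1) _ _ hy2]

theorem cp_near0_commute_symProj {a0 : ℝ} (hW : 𝔇.WF a0) (s : Finset Λ × Finset Λ) :
    Commute (𝔇.mNear0 (κ := κ) s) symProj := by
  have := cp_nonempty 𝔇 hW
  have ht := cp_t_pos 𝔇 hW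
  unfold RepData.mNear0
  exact ((WQ_commute_symProj _ ht _ _).mul_left (WQ_commute_symProj _ ht _ _)).mul_left
    (WQ_commute_symProj _ ht _ _)

theorem cp_band_eq_cmp_near0 {a0 : ℝ} (hW : 𝔇.WF a0) {s : Finset Λ × Finset Λ}
    (hs : Disjoint s.1 s.2) : 𝔇.mBand κ s = cmp (𝔇.mNear0 s) := by
  have := cp_nonempty 𝔇 hW
  rw [RepData.mBand, bandM, bandMz_eq_near _ (cp_t_pos 𝔇 hW) (cp_part3 hs), mul_one]
  rfl

/-- a pinned vector is fixed by the permutations of `X ∪ C` -/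
theorem cp_fixed_of_pinned {x : RCfg (rmIo io 𝔇.dst) κ → ℂ} (hpin : 𝔇.mPinK κ *ᵥ x = x)
    (π : Equiv.Perm κ) : UQ 𝔇.mXC π *ᵥ x = x := by
  calc UQ 𝔇.mXC π *ᵥ x = UQ 𝔇.mXC π *ᵥ (𝔇.mPinK κ *ᵥ x) := by rw [hpin]
    _ = 𝔇.mPinK κ *ᵥ x := by rw [mulVec_mulVec, cp_UQ_pinK]
    _ = x := hpin

/-- (comparator:pinned-metric), one band, as a quadratic form -/
theorem cp_band_quad_pinned {a0 : ℝ} (hW : 𝔇.WF a0) {s : Finset Λ × Finset Λ}
    (hs : Disjoint s.1 s.2) (hX : 𝔇.X ⊆ s.1) {x : RCfg (rmIo io 𝔇.dst) κ → ℂ} (hx : IsSymVec x)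
    (hpin : 𝔇.mPinK κ *ᵥ x = x) :
    star (cmpVec x) ⬝ᵥ (𝔇.mBand κ s *ᵥ cmpVec x) = star x ⬝ᵥ (𝔇.mNear s *ᵥ x) := by
  rw [cp_band_eq_cmp_near0 𝔇 hW hs, cmp_mulVec_cmpVec (cp_near0_commute_symProj 𝔇 hW s),
    cmpVec_dotProduct hx, cp_near0_mulVec 𝔇 hs hX (cp_fixed_of_pinned 𝔇 hpin)]

/-- `cmp` is multiplicative on lists of operators which commute with `symProj` -/
theorem cu_cmp_list_prod {s : Type} [DecidableEq s] [Fintype s] {io' : s → Type}
    [∀ x, Fintype (io' x)] [∀ x, DecidableEq (io' x)]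
    (L : List (Matrix (RCfg io' κ) (RCfg io' κ) ℂ)) (h : ∀ M ∈ L, Commute M symProj) :
    (L.map cmp).prod = cmp L.prod := by
  induction L with
  | nil => simp [cmp_one]
  | cons M L ih =>
    rw [List.map_cons, List.prod_cons, List.prod_cons, cmp_mul (h M List.mem_cons_self),
      ih fun M' h' => h M' (List.mem_cons_of_mem _ h')]

/-- iteration of `cp_near0_mulVec` -/
theorem cp_near0_list_mulVec (S : List (Finset Λ × Finset Λ))
    (hS : ∀ s ∈ S, Disjoint s.1 s.2 ∧ 𝔇.X ⊆ s.1)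
    {y : RCfg (rmIo io 𝔇.dst) κ → ℂ} (hy : ∀ π : Equiv.Perm κ, UQ 𝔇.mXC π *ᵥ y = y) :
    (S.map fun s => 𝔇.mNear0 (κ := κ) s).prod *ᵥ y = (S.map fun s => 𝔇.mNear (κ := κ) s).prod *ᵥ y ∧
      ∀ π : Equiv.Perm κ, UQ 𝔇.mXC π *ᵥ ((S.map fun s => 𝔇.mNear (κ := κ) s).prod *ᵥ y) =
        (S.map fun s => 𝔇.mNear (κ := κ) s).prod *ᵥ y := by
  induction S with
  | nil => simpa using hy
  | cons s S ih =>
    obtain ⟨h1, h2⟩ := ih fun s' h' => hS s' (List.mem_cons_of_mem _ h')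
    obtain ⟨hs, hX⟩ := hS s List.mem_cons_self
    simp only [List.map_cons, List.prod_cons]
    rw [← mulVec_mulVec, ← mulVec_mulVec, h1, cp_near0_mulVec 𝔇 hs hX h2]
    exact ⟨rfl, cu_fixed_mulVec (cp_near_commute_UQ 𝔇 hX) h2⟩

/-- (comparator:pinned-metric), the product leaf -/
theorem cp_leaf_quad_pinned {a0 : ℝ} (hW : 𝔇.WF a0) {l : α} (hl : 𝔇.Al l)
    {x : RCfg (rmIo io 𝔇.dst) κ → ℂ} (hx : IsSymVec x) (hpin : 𝔇.mPinK κ *ᵥ x = x) :
    star (cmpVec x) ⬝ᵥ (𝔇.mLeaf κ l *ᵥ cmpVec x) =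
      star x ⬝ᵥ ((List.ofFn fun g => 𝔇.mNear (κ := κ) (𝔇.st l g)).prod *ᵥ x) := by
  have hcm : ∀ M ∈ (List.ofFn fun g => 𝔇.st l g).map fun s => 𝔇.mNear0 (κ := κ) s,
      Commute M symProj := by
    intro M hM
    rw [List.mem_map] at hM
    obtain ⟨s, -, rfl⟩ := hM
    exact cp_near0_commute_symProj 𝔇 hW s
  have eL : (List.ofFn fun g => 𝔇.mLeafB κ g l)
      = List.ofFn fun g => cmp (𝔇.mNear0 (κ := κ) (𝔇.st l g)) :=
    congrArg List.ofFn (funext fun g => cp_band_eq_cmp_near0 𝔇 hW (hW.st_disj l hl g))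
  have e1 : 𝔇.mLeaf κ l
      = cmp (((List.ofFn fun g => 𝔇.st l g).map fun s => 𝔇.mNear0 (κ := κ) s).prod) := by
    rw [← cu_cmp_list_prod _ hcm, RepData.mLeaf, eL, List.map_map, List.map_ofFn]
    rfl
  have hc : Commute (((List.ofFn fun g => 𝔇.st l g).map fun s => 𝔇.mNear0 (κ := κ) s).prod)
      symProj := Commute.list_prod_left _ _ hcm
  have e2 := (cp_near0_list_mulVec 𝔇 (κ := κ) (List.ofFn fun g => 𝔇.st l g) (by
    intro s hs
    rw [List.mem_ofFn] at hs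
    obtain ⟨g, rfl⟩ := hs
    exact ⟨hW.st_disj l hl g, hW.st_X l hl g⟩) (cp_fixed_of_pinned 𝔇 hpin)).1
  rw [e1, cmp_mulVec_cmpVec hc, cmpVec_dotProduct hx, e2, List.map_ofFn]
  rfl

end Pinned

end Scan

end Claimed.Agent.R296
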