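import Claimed.Agent.R296.CmpUp

/-!
# Row 296, P1 Section 7, package S7-UPR: the rough upper comparison at the leaves

Architect: helper218.  Prefix `cp_`.  ONE owner.   (Subsection "Upper comparisons", rough part.)

`x = mRv lam = mCut *ᵥ mPostL lam`, `mCut` = product of the cutoffs `cutQ (rmPh B) (k (S(B)/z + 1))`, `B ∈ Rc` (a chain: they commute).
 * `‖x‖² ≥ q - #Rc · exp (-u k) ≥ q/2`  (`cp_cut_tail`, union bound `cu_union_bound`; `GoodLab` with `ε' < u`);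
 * `⟨x, mPreFull⟩ = (√z/d)^k ‖x‖²`   (`cp_pinK_preFull`, `mCut` is a projector commuting with `mPinK`);
 * `cutQ (rmPh Q) (k (Bsh/z + Bexc)) x = x` for `Q = U_g, UY_g`  (`cu_cut_transfer` from the matched prefix);
 * `⟨x, ∏_g near form_g x⟩ ≤ poly^{6K} exp (2 a K k (Bsh/z + Bexc)) ‖x‖²`  (`ca_prod_cutoff`, `cu_WQ_cut_le`).
`cp_rough_leaf`: `φ = cmpVec x / ‖x‖`.
-/

set_option autoImplicit false
set_option linter.unusedSectionVars false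

namespace Claimed.Agent.R296

namespace Scan

open Matrix Finset
open scoped ComplexOrder MatrixOrder

variable {Λ ι α : Type} [Fintype Λ] [DecidableEq Λ] [Fintype ι]
  {io : Λ → Type} [∀ x, Fintype (io x)] [∀ x, DecidableEq (io x)] [∀ x, Nonempty (io x)]
  (𝔇 : RepData Λ ι α io)

variable {κ : Type} [Fintype κ] [DecidableEq κ]

/-! ### auxiliary lemmas (helper116, prefix `cpr_`) -/

/-- a product of commuting Hermitian idempotents -/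
theorem cpr_list_proj {n : Type*} [Fintype n] [DecidableEq n] (L : List (Matrix n n ℂ))
    (hH : ∀ E ∈ L, E.IsHermitian) (hI : ∀ E ∈ L, E * E = E)
    (hc : ∀ E ∈ L, ∀ E' ∈ L, Commute E E') :
    L.prod.IsHermitian ∧ L.prod * L.prod = L.prod ∧ ∀ E ∈ L, E * L.prod = L.prod := by
  induction L with
  | nil =>
    refine ⟨?_, ?_, ?_⟩
    · simp [IsHermitian]
    · simp
    · intro E hE
      simp at hE
  | cons E L ih =>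
    obtain ⟨ih1, ih2, ih3⟩ := ih (fun E' h => hH E' (List.mem_cons_of_mem _ h))
      (fun E' h => hI E' (List.mem_cons_of_mem _ h))
      (fun E' h E'' h' => hc E' (List.mem_cons_of_mem _ h) E'' (List.mem_cons_of_mem _ h'))
    have hEP : Commute E L.prod := Commute.list_prod_right _ _ fun x hx =>
      hc E List.mem_cons_self x (List.mem_cons_of_mem _ hx)
    have hEE := hI E List.mem_cons_self
    rw [List.prod_cons]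
    refine ⟨?_, ?_, ?_⟩
    · rw [IsHermitian, conjTranspose_mul, ih1.eq, (hH E List.mem_cons_self).eq, hEP.eq]
    · calc E * L.prod * (E * L.prod) = E * (L.prod * E) * L.prod := by simp only [Matrix.mul_assoc]
        _ = E * E * (L.prod * L.prod) := by rw [← hEP.eq]; simp only [Matrix.mul_assoc]
        _ = E * L.prod := by rw [hEE, ih2]
    · intro E' hE'
      rcases List.mem_cons.1 hE' with rfl | h
      · rw [← Matrix.mul_assoc, hEE]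
      · have hc' : Commute E' E := hc E' hE' E List.mem_cons_self
        rw [← Matrix.mul_assoc, hc'.eq, Matrix.mul_assoc, ih3 E' h]

/-- `ca_prod_cutoff` for a product of `K` triples -/
theorem cpr_prod3_cutoff {n : Type} [Fintype n] [DecidableEq n] {K : ℕ}
    (T1 T2 T3 E1 E2 : Fin K → Matrix n n ℂ) (c1 c2 c3 : ℝ) (h1 : 0 ≤ c1) (h2 : 0 ≤ c2)
    (h3 : 0 ≤ c3) (φ : n → ℂ) (P : Matrix n n ℂ → Prop) (hP : ∀ A B, P A → P B → Commute A B)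
    (hT1 : ∀ g, P (T1 g)) (hT2 : ∀ g, P (T2 g)) (hT3 : ∀ g, P (T3 g)) (hE1 : ∀ g, P (E1 g))
    (hE2 : ∀ g, P (E2 g)) (hf1 : ∀ g, E1 g *ᵥ φ = φ) (hf2 : ∀ g, E2 g *ᵥ φ = φ)
    (hb1 : ∀ g, (T1 g * E1 g)ᴴ * (T1 g * E1 g) ≤ ((c1 ^ 2 : ℝ) : ℂ) • (1 : Matrix n n ℂ))
    (hb2 : ∀ g, (T2 g * E2 g)ᴴ * (T2 g * E2 g) ≤ ((c2 ^ 2 : ℝ) : ℂ) • (1 : Matrix n n ℂ))
    (hb3 : ∀ g, (T3 g)ᴴ * T3 g ≤ ((c3 ^ 2 : ℝ) : ℂ) • (1 : Matrix n n ℂ)) :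
    ‖star φ ⬝ᵥ ((List.ofFn fun g => T1 g * T2 g * T3 g).prod *ᵥ φ)‖
      ≤ (c1 * c2 * c3) ^ K * (star φ ⬝ᵥ φ).re := by
  set F : Fin K → List (Matrix n n ℂ × Matrix n n ℂ × ℝ) := fun g =>
    [(T1 g, E1 g, c1), (T2 g, E2 g, c2), (T3 g, 1, c3)] with hF
  set L := (List.ofFn F).flatten with hL
  have hmem : ∀ x ∈ L, ∃ g, x = (T1 g, E1 g, c1) ∨ x = (T2 g, E2 g, c2) ∨ x = (T3 g, 1, c3) := by
    intro x hx
    rw [hL, List.mem_flatten] at hx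
    obtain ⟨l, hl, hxl⟩ := hx
    rw [List.mem_ofFn] at hl
    obtain ⟨g, rfl⟩ := hl
    refine ⟨g, ?_⟩
    simpa [hF] using hxl
  have hQ : ∀ x ∈ L, P x.1 ∧ (P x.2.1 ∨ x.2.1 = 1) := by
    intro x hx
    obtain ⟨g, rfl | rfl | rfl⟩ := hmem x hx
    · exact ⟨hT1 g, Or.inl (hE1 g)⟩
    · exact ⟨hT2 g, Or.inl (hE2 g)⟩
    · exact ⟨hT3 g, Or.inr rfl⟩
  have h := ca_prod_cutoff L φ ?_ ?_ ?_ ?_
  · have e1 : (L.map fun x => x.1).prod = (List.ofFn fun g => T1 g * T2 g * T3 g).prod := by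
      rw [hL, List.map_flatten, List.prod_flatten, List.map_map, List.map_ofFn]
      congr 1
      congr 1
      funext g
      simp [hF, Matrix.mul_assoc]
    have e2 : (L.map fun x => x.2.2).prod = (c1 * c2 * c3) ^ K := by
      rw [hL, List.map_flatten, List.prod_flatten, List.map_map, List.map_ofFn, List.prod_ofFn]
      have : ∀ g, ((List.prod ∘ List.map fun x : Matrix n n ℂ × Matrix n n ℂ × ℝ => x.2.2) ∘ F) g
          = c1 * c2 * c3 := by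
        intro g
        simp [hF, mul_assoc]
      simp only [this, Finset.prod_const, Finset.card_univ, Fintype.card_fin]
    rw [e1, e2] at h
    exact h
  · intro x hx
    obtain ⟨g, rfl | rfl | rfl⟩ := hmem x hx
    · exact hf1 g
    · exact hf2 g
    · exact Matrix.one_mulVec φ
  · intro x hx y hy
    obtain ⟨-, hx2⟩ := hQ x hx
    obtain ⟨hy1, hy2⟩ := hQ y hy
    rcases hx2 with hx2 | hx2
    · refine ⟨hP _ _ hx2 hy1, ?_⟩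
      rcases hy2 with hy2 | hy2
      · exact hP _ _ hx2 hy2
      · rw [hy2]; exact Commute.one_right _
    · rw [hx2]
      exact ⟨Commute.one_left _, Commute.one_left _⟩
  · intro x hx
    obtain ⟨g, rfl | rfl | rfl⟩ := hmem x hx
    · exact h1
    · exact h2
    · exact h3
  · intro x hx
    obtain ⟨g, rfl | rfl | rfl⟩ := hmem x hx
    · exact hb1 g
    · exact hb2 g
    · simpa using hb3 g

theorem cpr_rmPh_mono {A B : Finset Λ} (h : A ⊆ B) : rmPh A ⊆ rmPh B :=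
  Finset.map_subset_map.2 h

theorem cpr_rmPh_disjoint {A B : Finset Λ} (h : Disjoint A B) : Disjoint (rmPh A) (rmPh B) :=
  (Finset.disjoint_map _).2 h

theorem cpr_rmPh_lam {A B : Finset Λ} (h : A ⊆ B ∨ B ⊆ A ∨ Disjoint A B) :
    rmPh A ⊆ rmPh B ∨ rmPh B ⊆ rmPh A ∨ Disjoint (rmPh A) (rmPh B) := by
  rcases h with h | h | h
  · exact Or.inl (cpr_rmPh_mono h)
  · exact Or.inr (Or.inl (cpr_rmPh_mono h))
  · exact Or.inr (Or.inr (cpr_rmPh_disjoint h))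

theorem cpr_rmPh_symmDiff (A B : Finset Λ) : symmDiff (rmPh A) (rmPh B) = rmPh (symmDiff A B) := by
  ext x
  rcases x with y | b
  · simp only [Finset.mem_symmDiff, co_mem_rmPh]
  · simp only [Finset.mem_symmDiff, co_inr_not_mem_rmPh, not_false_eq_true, and_true, or_self]

theorem cpr_ldim_rmPh (d : ℕ) (A : Finset Λ) : ldim (rmIo io d) (rmPh A) = ldim io A := by
  unfold ldim rmPh
  rw [Finset.sum_map]
  rfl

/-! ### S7-UPR -/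

section Rough

variable (κ) in
/-- the common cutoff of the rough comparison -/
noncomputable def RepData.mCut : Matrix (RCfg (rmIo io 𝔇.dst) κ) (RCfg (rmIo io 𝔇.dst) κ) ℂ :=
  (𝔇.Rc.toList.map fun B =>
    cutQ (rmPh B) (Fintype.card κ * (ent 𝔇.S.rho B / 𝔇.z + 1))).prod

/-- the (unnormalised) comparison vector of the rough bound -/
noncomputable def RepData.mRv (lam : Rep.Irr (Equiv.Perm κ)) : RCfg (rmIo io 𝔇.dst) κ → ℂ :=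
  𝔇.mCut κ *ᵥ 𝔇.mPostL lam

theorem cpr_mem_cutL {E : Matrix (RCfg (rmIo io 𝔇.dst) κ) (RCfg (rmIo io 𝔇.dst) κ) ℂ} :
    E ∈ (𝔇.Rc.toList.map fun B =>
      cutQ (io := rmIo io 𝔇.dst) (κ := κ) (rmPh B) (Fintype.card κ * (ent 𝔇.S.rho B / 𝔇.z + 1))) ↔
    ∃ B ∈ 𝔇.Rc, cutQ (rmPh B) (Fintype.card κ * (ent 𝔇.S.rho B / 𝔇.z + 1)) = E := by
  simp only [List.mem_map, Finset.mem_toList]

theorem cpr_cutL_hyps (hP : 𝔇.PrefixData) :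
    (∀ E ∈ (𝔇.Rc.toList.map fun B => cutQ (io := rmIo io 𝔇.dst) (κ := κ) (rmPh B)
        (Fintype.card κ * (ent 𝔇.S.rho B / 𝔇.z + 1))), E.IsHermitian) ∧
    (∀ E ∈ (𝔇.Rc.toList.map fun B => cutQ (io := rmIo io 𝔇.dst) (κ := κ) (rmPh B)
        (Fintype.card κ * (ent 𝔇.S.rho B / 𝔇.z + 1))), E * E = E) ∧
    (∀ E ∈ (𝔇.Rc.toList.map fun B => cutQ (io := rmIo io 𝔇.dst) (κ := κ) (rmPh B)
        (Fintype.card κ * (ent 𝔇.S.rho B / 𝔇.z + 1))),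
      ∀ E' ∈ (𝔇.Rc.toList.map fun B => cutQ (io := rmIo io 𝔇.dst) (κ := κ) (rmPh B)
        (Fintype.card κ * (ent 𝔇.S.rho B / 𝔇.z + 1))), Commute E E') := by
  refine ⟨fun E hE => ?_, fun E hE => ?_, fun E hE E' hE' => ?_⟩
  · obtain ⟨B, -, rfl⟩ := (cpr_mem_cutL 𝔇).1 hE
    exact cu_cutQ_isHermitian _ _
  · obtain ⟨B, -, rfl⟩ := (cpr_mem_cutL 𝔇).1 hE
    exact cu_cutQ_sq _ _
  · obtain ⟨B, hB, rfl⟩ := (cpr_mem_cutL 𝔇).1 hE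
    obtain ⟨B', hB', rfl⟩ := (cpr_mem_cutL 𝔇).1 hE'
    refine cenQ_commute_cenQ _ _ (cpr_rmPh_lam ?_)
    rcases hP.chain B hB B' hB' with h | h
    · exact Or.inl h
    · exact Or.inr (Or.inl h)

theorem cpr_cutL_proj (hP : 𝔇.PrefixData) :
    (𝔇.mCut κ).IsHermitian ∧ 𝔇.mCut κ * 𝔇.mCut κ = 𝔇.mCut κ ∧
      ∀ B ∈ 𝔇.Rc, cutQ (rmPh B) (Fintype.card κ * (ent 𝔇.S.rho B / 𝔇.z + 1)) * 𝔇.mCut κ
        = 𝔇.mCut κ := by
  obtain ⟨h1, h2, h3⟩ := cpr_cutL_hyps 𝔇 (κ := κ) hP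
  obtain ⟨g1, g2, g3⟩ := cpr_list_proj _ h1 h2 h3
  exact ⟨g1, g2, fun B hB => g3 _ ((cpr_mem_cutL 𝔇).2 ⟨B, hB, rfl⟩)⟩

theorem cp_cut_proj (hP : 𝔇.PrefixData) :
    (𝔇.mCut κ).IsHermitian ∧ 𝔇.mCut κ * 𝔇.mCut κ = 𝔇.mCut κ ∧ Commute (𝔇.mCut κ) symProj ∧
      Commute (𝔇.mCut κ) (𝔇.mPinK κ) ∧
      ∀ lam : Rep.Irr (Equiv.Perm κ), Commute (𝔇.mCut κ) (labP {rmR} lam) := by
  have hL := cpr_cutL_proj 𝔇 (κ := κ) hP
  refine ⟨hL.1, hL.2.1, ?_, ?_, ?_⟩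
  · refine Commute.list_prod_left _ _ fun E hE => ?_
    obtain ⟨B, -, rfl⟩ := (cpr_mem_cutL 𝔇).1 hE
    exact cenQ_commute_symProj _ _
  · refine Commute.list_prod_left _ _ fun E hE => ?_
    obtain ⟨B, hB, rfl⟩ := (cpr_mem_cutL 𝔇).1 hE
    exact cenQ_commute_topow _ _ (Or.inr (co_disjoint_mXC 𝔇 (hP.disj B hB)).symm) _
  · intro lam
    refine Commute.list_prod_left _ _ fun E hE => ?_
    obtain ⟨B, -, rfl⟩ := (cpr_mem_cutL 𝔇).1 hE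
    exact repQ_commute_disjoint (cp_disjoint_phys (by simp) B) _ _

theorem cp_rv_props {a0 : ℝ} (hW : 𝔇.WF a0) (hP : 𝔇.PrefixData) (lam : Rep.Irr (Equiv.Perm κ)) :
    IsSymVec (𝔇.mRv lam) ∧ 𝔇.mPinK κ *ᵥ 𝔇.mRv lam = 𝔇.mRv lam ∧
      (∀ B ∈ 𝔇.Rc, cutQ (rmPh B) (Fintype.card κ * (ent 𝔇.S.rho B / 𝔇.z + 1)) *ᵥ 𝔇.mRv lam
        = 𝔇.mRv lam) ∧
      star (𝔇.mRv lam) ⬝ᵥ 𝔇.mPreFull lam =
        (((Real.sqrt 𝔇.z / 𝔇.dst) ^ Fintype.card κ : ℝ) : ℂ) * (star (𝔇.mRv lam) ⬝ᵥ 𝔇.mRv lam) := by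
  obtain ⟨hH, hI, hS, hPin, -⟩ := cp_cut_proj 𝔇 (κ := κ) hP
  have hpin : 𝔇.mPinK κ *ᵥ 𝔇.mRv lam = 𝔇.mRv lam := by
    rw [RepData.mRv, mulVec_mulVec, ← hPin.eq, ← mulVec_mulVec, cp_pinK_postL 𝔇 hW]
  have hPH : (𝔇.mPinK κ)ᴴ = 𝔇.mPinK κ := by
    rw [RepData.mPinK, topow_conjTranspose, (co_pin1_isHermitian 𝔇 hW).eq]
  refine ⟨?_, hpin, fun B hB => ?_, ?_⟩
  · rw [isSymVec_iff, RepData.mRv, mulVec_mulVec, ← hS.eq, ← mulVec_mulVec,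
      (isSymVec_iff _).1 (cp_postL_isSym 𝔇 lam)]
  · rw [RepData.mRv, mulVec_mulVec, (cpr_cutL_proj 𝔇 hP).2.2 B hB]
  · calc star (𝔇.mRv lam) ⬝ᵥ 𝔇.mPreFull lam
        = star (𝔇.mPinK κ *ᵥ 𝔇.mRv lam) ⬝ᵥ 𝔇.mPreFull lam := by rw [hpin]
      _ = star (𝔇.mRv lam) ⬝ᵥ (𝔇.mPinK κ *ᵥ 𝔇.mPreFull lam) := by rw [ca_dot_mulVec, hPH]
      _ = (((Real.sqrt 𝔇.z / 𝔇.dst) ^ Fintype.card κ : ℝ) : ℂ) *
            (star (𝔇.mRv lam) ⬝ᵥ 𝔇.mPostL lam) := by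
          rw [cp_pinK_preFull 𝔇 hW, dotProduct_smul, smul_eq_mul]
      _ = _ := by
          congr 1
          rw [RepData.mRv, cp_proj_quad hH hI, ca_dot_mulVec, hH.eq]

theorem cpr_exists_u {a0 : ℝ} (hW : 𝔇.WF a0) (T : Finset (Finset Λ))
    (hT : ∀ B ∈ T, Disjoint B 𝔇.X) :
    ∃ u : ℝ, 0 < u ∧ ∀ B ∈ T, ∀ (κ : Type) [Fintype κ] [DecidableEq κ],
      (star (𝔇.mPost κ) ⬝ᵥ
        ((1 - cutQ (rmPh B) (Fintype.card κ * (ent 𝔇.S.rho B / 𝔇.z + 1))) *ᵥ 𝔇.mPost κ)).re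
        ≤ Real.exp (-(u * Fintype.card κ)) := by
  induction T using Finset.induction_on with
  | empty => exact ⟨1, one_pos, fun B hB => absurd hB (Finset.notMem_empty B)⟩
  | insert B T _ ih =>
    obtain ⟨u1, hu1, h1⟩ := ih fun B' hB' => hT B' (Finset.mem_insert_of_mem hB')
    obtain ⟨u2, hu2, h2⟩ := cp_cut_tail 𝔇 hW B (hT B (Finset.mem_insert_self _ _))
    refine ⟨min u1 u2, lt_min hu1 hu2, fun B' hB' κ _ _ => ?_⟩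
    have hk : (0 : ℝ) ≤ Fintype.card κ := Nat.cast_nonneg _
    rcases Finset.mem_insert.1 hB' with rfl | h
    · refine (h2 κ).trans (Real.exp_le_exp.2 ?_)
      have := mul_le_mul_of_nonneg_right (min_le_right u1 u2) hk
      linarith
    · refine (h1 B' h κ).trans (Real.exp_le_exp.2 ?_)
      have := mul_le_mul_of_nonneg_right (min_le_left u1 u2) hk
      linarith

/-- (comparator:rough-overlap) -/
theorem cp_rv_norm {a0 : ℝ} (hW : 𝔇.WF a0) (hP : 𝔇.PrefixData) :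
    ∃ u : ℝ, 0 < u ∧ ∀ (κ : Type) [Fintype κ] [DecidableEq κ] (lam : Rep.Irr (Equiv.Perm κ)),
      𝔇.mQ lam - 𝔇.Rc.card * Real.exp (-(u * Fintype.card κ)) ≤
        (star (𝔇.mRv lam) ⬝ᵥ 𝔇.mRv lam).re := by
  obtain ⟨u, hu, htail⟩ := cpr_exists_u 𝔇 hW 𝔇.Rc hP.disj
  refine ⟨u, hu, fun κ _ _ lam => ?_⟩
  obtain ⟨h1, h2, h3⟩ := cpr_cutL_hyps 𝔇 (κ := κ) hP
  have hub := cu_union_bound _ h1 h2 h3 (𝔇.mPostL lam)
  refine le_trans ?_ hub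
  have hsum : ((𝔇.Rc.toList.map fun B => cutQ (io := rmIo io 𝔇.dst) (κ := κ) (rmPh B)
      (Fintype.card κ * (ent 𝔇.S.rho B / 𝔇.z + 1))).map fun E =>
        (star (𝔇.mPostL lam) ⬝ᵥ ((1 - E) *ᵥ 𝔇.mPostL lam)).re).sum
      ≤ 𝔇.Rc.card * Real.exp (-(u * Fintype.card κ)) := by
    rw [List.map_map, Finset.sum_map_toList, ← nsmul_eq_mul]
    refine Finset.sum_le_card_nsmul _ _ _ fun B hB => ?_
    refine le_trans ?_ (htail B hB κ)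
    have hE := ca_one_sub_proj (cu_cutQ_isHermitian (io := rmIo io 𝔇.dst) (κ := κ) (rmPh B)
      (Fintype.card κ * (ent 𝔇.S.rho B / 𝔇.z + 1))) (cu_cutQ_sq _ _)
    refine cp_proj_quad_le (ca_proj_psd hE.1 hE.2) (labP_isHermitian _ lam) (cp_labP_sq 𝔇 _ lam)
      ?_ (𝔇.mPost κ)
    refine Commute.sub_right (Commute.one_right _) ?_
    exact (repQ_commute_disjoint (cp_disjoint_phys (by simp) B) _ _).symm
  have hq : 𝔇.mQ lam = (star (𝔇.mPostL lam) ⬝ᵥ 𝔇.mPostL lam).re := rfl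
  rw [hq]
  linarith

/-- (comparator:actual-cutoffs) -/
theorem cp_rv_cut {a0 : ℝ} (hW : 𝔇.WF a0) (hP : 𝔇.PrefixData) (lam : Rep.Irr (Equiv.Perm κ))
    {l : α} (hl : 𝔇.Al l) (g : Fin 𝔇.K) :
    cutQ (rmPh ((𝔇.st l g).1 \ 𝔇.X)) (Fintype.card κ * (𝔇.Bsh / 𝔇.z + 𝔇.Bexc)) *ᵥ 𝔇.mRv lam
        = 𝔇.mRv lam ∧
      cutQ (rmPh (((𝔇.st l g).2)ᶜ \ 𝔇.X)) (Fintype.card κ * (𝔇.Bsh / 𝔇.z + 𝔇.Bexc)) *ᵥ 𝔇.mRv lam
        = 𝔇.mRv lam := by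
  have hcut := (cp_rv_props 𝔇 hW hP lam).2.2.1
  have hz := co_z_pos 𝔇 hW
  have hk : (0 : ℝ) ≤ Fintype.card κ := Nat.cast_nonneg _
  have key : ∀ Q : Finset Λ, (∃ B ∈ 𝔇.Rc, (B ⊆ Q ∨ Q ⊆ B) ∧ 1 + ldim io (symmDiff B Q) ≤ 𝔇.Bexc) →
      cutQ (rmPh Q) (Fintype.card κ * (𝔇.Bsh / 𝔇.z + 𝔇.Bexc)) *ᵥ 𝔇.mRv lam = 𝔇.mRv lam := by
    rintro Q ⟨B, hB, hBQ, hd⟩
    refine cu_cut_transfer (B := rmPh B) (Q := rmPh Q) ?_ ?_ (hcut B hB)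
    · rcases hBQ with h | h
      · exact Or.inl (cpr_rmPh_mono h)
      · exact Or.inr (cpr_rmPh_mono h)
    · rw [cpr_rmPh_symmDiff, cpr_ldim_rmPh, ← mul_add]
      refine mul_le_mul_of_nonneg_left ?_ hk
      have := div_le_div_of_nonneg_right (hP.ent_le B hB) hz.le
      linarith
  exact ⟨key _ (hP.matchU l hl g), key _ (hP.matchUY l hl g)⟩

/-- the three physical regions of a band status -/
def RepData.IsReg (s : Finset Λ × Finset Λ) (A : Finset Λ) : Prop :=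
  A = s.1 \ 𝔇.X ∨ A = s.2ᶜ \ 𝔇.X ∨ A = (s.1 ∪ s.2)ᶜ

theorem cpr_U_sub_UY {s : Finset Λ × Finset Λ} (hs : Disjoint s.1 s.2) :
    s.1 \ 𝔇.X ⊆ s.2ᶜ \ 𝔇.X := by
  intro x hx
  rw [Finset.mem_sdiff] at hx ⊢
  exact ⟨Finset.mem_compl.2 (Finset.disjoint_left.1 hs hx.1), hx.2⟩

theorem cpr_Y_sub_UY {s : Finset Λ × Finset Λ} (hX : 𝔇.X ⊆ s.1) :
    (s.1 ∪ s.2)ᶜ ⊆ s.2ᶜ \ 𝔇.X := by
  intro x hx
  rw [Finset.mem_compl, Finset.mem_union, not_or] at hx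
  rw [Finset.mem_sdiff, Finset.mem_compl]
  exact ⟨hx.2, fun h => hx.1 (hX h)⟩

theorem cpr_U_disj_Y (s : Finset Λ × Finset Λ) : Disjoint (s.1 \ 𝔇.X) (s.1 ∪ s.2)ᶜ := by
  rw [Finset.disjoint_left]
  intro x hx hx'
  rw [Finset.mem_sdiff] at hx
  rw [Finset.mem_compl, Finset.mem_union, not_or] at hx'
  exact hx'.1 hx.1

theorem cpr_reg_sub_UY {s : Finset Λ × Finset Λ} (hs : Disjoint s.1 s.2) (hX : 𝔇.X ⊆ s.1)
    {A : Finset Λ} (hA : 𝔇.IsReg s A) : A ⊆ s.2ᶜ \ 𝔇.X := by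
  rcases hA with rfl | rfl | rfl
  · exact cpr_U_sub_UY 𝔇 hs
  · exact subset_rfl
  · exact cpr_Y_sub_UY 𝔇 hX

theorem cpr_lam_same {s : Finset Λ × Finset Λ} (hs : Disjoint s.1 s.2) (hX : 𝔇.X ⊆ s.1)
    {A A' : Finset Λ} (hA : 𝔇.IsReg s A) (hA' : 𝔇.IsReg s A') :
    A ⊆ A' ∨ A' ⊆ A ∨ Disjoint A A' := by
  rcases hA with rfl | rfl | rfl <;> rcases hA' with rfl | rfl | rfl
  · exact Or.inl subset_rfl
  · exact Or.inl (cpr_U_sub_UY 𝔇 hs)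
  · exact Or.inr (Or.inr (cpr_U_disj_Y 𝔇 s))
  · exact Or.inr (Or.inl (cpr_U_sub_UY 𝔇 hs))
  · exact Or.inl subset_rfl
  · exact Or.inr (Or.inl (cpr_Y_sub_UY 𝔇 hX))
  · exact Or.inr (Or.inr (cpr_U_disj_Y 𝔇 s).symm)
  · exact Or.inl (cpr_Y_sub_UY 𝔇 hX)
  · exact Or.inl subset_rfl

theorem cpr_lam_lt {s s' : Finset Λ × Finset Λ} (hs : Disjoint s.1 s.2) (hX : 𝔇.X ⊆ s.1)
    (hs' : Disjoint s'.1 s'.2) (hn : s.2ᶜ ⊆ s'.1)
    {A A' : Finset Λ} (hA : 𝔇.IsReg s A) (hA' : 𝔇.IsReg s' A') :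
    A ⊆ A' ∨ A' ⊆ A ∨ Disjoint A A' := by
  have h1 : A ⊆ s'.1 \ 𝔇.X := (cpr_reg_sub_UY 𝔇 hs hX hA).trans (Finset.sdiff_subset_sdiff hn subset_rfl)
  rcases hA' with rfl | rfl | rfl
  · exact Or.inl h1
  · exact Or.inl (h1.trans (cpr_U_sub_UY 𝔇 hs'))
  · exact Or.inr (Or.inr (Finset.disjoint_of_subset_left h1 (cpr_U_disj_Y 𝔇 s')))

/-- the regions of all bands of one label form a laminar family -/
theorem cpr_laminar {a0 : ℝ} (hW : 𝔇.WF a0) {l : α} (hl : 𝔇.Al l) (g g' : Fin 𝔇.K)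
    {A A' : Finset Λ} (hA : 𝔇.IsReg (𝔇.st l g) A) (hA' : 𝔇.IsReg (𝔇.st l g') A') :
    A ⊆ A' ∨ A' ⊆ A ∨ Disjoint A A' := by
  rcases lt_trichotomy g g' with h | rfl | h
  · exact cpr_lam_lt 𝔇 (hW.st_disj l hl g) (hW.st_X l hl g) (hW.st_disj l hl g')
      (hW.nest l l hl hl g g' h) hA hA'
  · exact cpr_lam_same 𝔇 (hW.st_disj l hl g) (hW.st_X l hl g) hA hA'
  · rcases cpr_lam_lt 𝔇 (hW.st_disj l hl g') (hW.st_X l hl g') (hW.st_disj l hl g)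
      (hW.nest l l hl hl g' g h) hA' hA with h | h | h
    · exact Or.inr (Or.inl h)
    · exact Or.inl h
    · exact Or.inr (Or.inr h.symm)

/-- the leaf expectation under cutoffs -/
theorem cp_leaf_cut_le {a0 : ℝ} (hW : 𝔇.WF a0) (ha : 𝔇.a ≤ 1) :
    ∃ (C : ℝ) (m : ℕ), 1 ≤ C ∧ ∀ (κ : Type) [Fintype κ] [DecidableEq κ] (l : α), 𝔇.Al l →
      ∀ (c : ℝ), 0 ≤ c → ∀ x : RCfg (rmIo io 𝔇.dst) κ → ℂ,
      (∀ g, cutQ (rmPh ((𝔇.st l g).1 \ 𝔇.X)) c *ᵥ x = x ∧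
        cutQ (rmPh (((𝔇.st l g).2)ᶜ \ 𝔇.X)) c *ᵥ x = x) →
      ‖star x ⬝ᵥ ((List.ofFn fun g => 𝔇.mNear (κ := κ) (𝔇.st l g)).prod *ᵥ x)‖ ≤
        C * ((Fintype.card κ : ℝ) + 1) ^ m * Real.exp (2 * 𝔇.a * 𝔇.K * c) * (star x ⬝ᵥ x).re := by
  have := cp_nonempty 𝔇 hW
  obtain ⟨C1, m1, hC1, hbd⟩ := cu_WQ_cut_le (rmIo io 𝔇.dst) (𝔇.a / 2) (cp_t_pos 𝔇 hW) (by linarith)
  refine ⟨C1 ^ (3 * 𝔇.K), m1 * (3 * 𝔇.K), one_le_pow₀ hC1, ?_⟩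
  intro κ _ _ l hl c hc x hx
  set p : ℝ := C1 * ((Fintype.card κ : ℝ) + 1) ^ m1 with hp
  have hp0 : 0 ≤ p := by positivity
  set e : ℝ := Real.exp (2 * (𝔇.a / 2) * c) with he
  have he0 : 0 ≤ e := (Real.exp_pos _).le
  have h := cpr_prod3_cutoff
    (fun g => WQ (io := rmIo io 𝔇.dst) (κ := κ) (𝔇.a / 2) (rmPh ((𝔇.st l g).1 \ 𝔇.X)) (-2))
    (fun g => WQ (𝔇.a / 2) (rmPh (((𝔇.st l g).2)ᶜ \ 𝔇.X)) (-2))
    (fun g => WQ (𝔇.a / 2) (rmPh ((𝔇.st l g).1 ∪ (𝔇.st l g).2)ᶜ) 2)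
    (fun g => cutQ (rmPh ((𝔇.st l g).1 \ 𝔇.X)) c)
    (fun g => cutQ (rmPh (((𝔇.st l g).2)ᶜ \ 𝔇.X)) c)
    (p * e) (p * e) p (mul_nonneg hp0 he0) (mul_nonneg hp0 he0) hp0 x
    (fun M => ∃ g A, 𝔇.IsReg (𝔇.st l g) A ∧ ∃ φ, M = cenQ (rmPh A) φ)
    (by
      rintro _ _ ⟨g, A, hA, φ, rfl⟩ ⟨g', A', hA', φ', rfl⟩
      exact cenQ_commute_cenQ _ _ (cpr_rmPh_lam (cpr_laminar 𝔇 hW hl g g' hA hA')))
    (fun g => ⟨g, _, Or.inl rfl, _, rfl⟩) (fun g => ⟨g, _, Or.inr (Or.inl rfl), _, rfl⟩)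
    (fun g => ⟨g, _, Or.inr (Or.inr rfl), _, rfl⟩) (fun g => ⟨g, _, Or.inl rfl, _, rfl⟩)
    (fun g => ⟨g, _, Or.inr (Or.inl rfl), _, rfl⟩) (fun g => (hx g).1) (fun g => (hx g).2)
    (fun g => (hbd κ _ c hc).1) (fun g => (hbd κ _ c hc).1) (fun g => (hbd κ _ c hc).2)
  refine le_trans h (le_of_eq ?_)
  congr 1
  have e1 : e ^ (2 * 𝔇.K) = Real.exp (2 * 𝔇.a * 𝔇.K * c) := by
    rw [he, ← Real.exp_nat_mul]
    congr 1
    push_cast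
    ring
  rw [← e1, hp]
  ring


theorem cp_rough_leaf {a0 : ℝ} (hW : 𝔇.WF a0) (ha : 𝔇.a ≤ 1) (hP : 𝔇.PrefixData)
    (ε : ℝ) (hε : 0 < ε) :
    ∃ ε' : ℝ, 0 < ε' ∧ ∃ k0 : ℕ, ∀ k : ℕ, k0 ≤ k → ∀ lam : Rep.Irr (Equiv.Perm (Fin k)),
      𝔇.GoodLab lam ε' → ∃ φ : 𝔇.MIx (Fin k) → ℂ, star φ ⬝ᵥ φ = 1 ∧
        star φ ⬝ᵥ 𝔇.mPre lam ≠ 0 ∧
        -Real.log (‖star φ ⬝ᵥ 𝔇.mPre lam‖ ^ 2) ≤ k * (2 * 𝔇.ld - Real.log 𝔇.z) + ε * k ∧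
        ∀ l, 𝔇.Al l → Real.log (star φ ⬝ᵥ (𝔇.mLeaf (Fin k) l *ᵥ φ)).re ≤
          2 * k * 𝔇.a * 𝔇.K * (𝔇.Bsh / 𝔇.z + 𝔇.Bexc) + ε * k := by
  obtain ⟨u, hu, hnorm⟩ := cp_rv_norm 𝔇 hW hP
  obtain ⟨C, m, hC, hleaf⟩ := cp_leaf_cut_le 𝔇 hW ha
  obtain ⟨k1, hk1⟩ := cp_poly_le_exp (2 * 𝔇.Rc.card + 1) 0 (by positivity) (u / 2) (by positivity)
  obtain ⟨k2, hk2⟩ := cp_poly_le_exp 2 0 (by norm_num) (ε / 2) (by positivity)
  obtain ⟨k3, hk3⟩ := cp_poly_le_exp C m (by linarith) ε hε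
  refine ⟨min (u / 2) (ε / 2), lt_min (by positivity) (by positivity), max k1 (max k2 k3), ?_⟩
  intro k hk lam hg
  have hk1' := hk1 k (le_trans (le_max_left _ _) hk)
  have hk2' := hk2 k (le_trans (le_trans (le_max_left _ _) (le_max_right _ _)) hk)
  have hk3' := hk3 k (le_trans (le_trans (le_max_right _ _) (le_max_right _ _)) hk)
  rw [pow_zero, mul_one] at hk1' hk2'
  have hkk : (0 : ℝ) ≤ k := Nat.cast_nonneg k
  have hz := co_z_pos 𝔇 hW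
  have hd : (0 : ℝ) < 𝔇.dst := by exact_mod_cast co_dst_pos 𝔇 hW
  obtain ⟨hsym, hpin, -, hov⟩ := cp_rv_props 𝔇 hW hP lam
  have hxx := ca_dot_self (𝔇.mRv lam)
  have hn := hnorm (Fin k) lam
  have hq := hg.1
  rw [Fintype.card_fin] at hn hq hov
  generalize hN : (star (𝔇.mRv lam) ⬝ᵥ 𝔇.mRv lam).re = N at hxx hn
  rw [hxx] at hov
  -- the norm of the comparison vector
  have hNge : Real.exp (-(ε * k)) ≤ N := by
    set E : ℝ := Real.exp (-(u / 2 * k)) with hE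
    have hE0 : 0 < E := Real.exp_pos _
    have e1 : Real.exp (-(u * k)) = E * E := by
      rw [hE, ← Real.exp_add]
      congr 1
      ring
    have e3 : (2 * (𝔇.Rc.card : ℝ) + 1) * E ≤ 1 := by
      rw [hE, Real.exp_neg, ← div_eq_mul_inv, div_le_one (Real.exp_pos _)]
      exact hk1'
    have hA0 : (0 : ℝ) ≤ 𝔇.Rc.card := Nat.cast_nonneg _
    have hAE : (𝔇.Rc.card : ℝ) * E ≤ 1 / 2 := by nlinarith
    have e4 : (𝔇.Rc.card : ℝ) * Real.exp (-(u * k)) ≤ E / 2 := by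
      rw [e1, ← mul_assoc]
      calc (𝔇.Rc.card : ℝ) * E * E ≤ 1 / 2 * E := mul_le_mul_of_nonneg_right hAE hE0.le
        _ = E / 2 := by ring
    set D : ℝ := Real.exp (-(min (u / 2) (ε / 2) * k)) with hD
    have e5 : E ≤ D := by
      refine Real.exp_le_exp.2 ?_
      have := mul_le_mul_of_nonneg_right (min_le_left (u / 2) (ε / 2)) hkk
      linarith
    set G : ℝ := Real.exp (-(ε / 2 * k)) with hG
    have hG0 : 0 < G := Real.exp_pos _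
    have e6 : G ≤ D := by
      refine Real.exp_le_exp.2 ?_
      have := mul_le_mul_of_nonneg_right (min_le_right (u / 2) (ε / 2)) hkk
      linarith
    have e7 : 2 * G ≤ 1 := by
      rw [hG, Real.exp_neg, ← div_eq_mul_inv, div_le_one (Real.exp_pos _)]
      exact hk2'
    have e8 : Real.exp (-(ε * k)) = G * G := by
      rw [hG, ← Real.exp_add]
      congr 1
      ring
    rw [e8]
    have : G * G ≤ G / 2 := by nlinarith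
    linarith
  have hN0 : 0 < N := lt_of_lt_of_le (Real.exp_pos _) hNge
  have hsq : ((Real.sqrt N)⁻¹) ^ 2 = N⁻¹ := by rw [inv_pow, Real.sq_sqrt hN0.le]
  have hcc : star (cmpVec (𝔇.mRv lam)) ⬝ᵥ cmpVec (𝔇.mRv lam) = (N : ℂ) := by
    rw [cmpVec_dotProduct hsym, hxx]
  have hunit : star ((((Real.sqrt N)⁻¹ : ℝ) : ℂ) • cmpVec (𝔇.mRv lam)) ⬝ᵥ
      ((((Real.sqrt N)⁻¹ : ℝ) : ℂ) • cmpVec (𝔇.mRv lam)) = 1 := by
    have h := ca_quad_smul (Real.sqrt N)⁻¹ 1 (cmpVec (𝔇.mRv lam))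
    rw [one_mulVec, one_mulVec] at h
    rw [h, hcc, hsq, ← Complex.ofReal_mul, inv_mul_cancel₀ hN0.ne', Complex.ofReal_one]
  have hover : star ((((Real.sqrt N)⁻¹ : ℝ) : ℂ) • cmpVec (𝔇.mRv lam)) ⬝ᵥ 𝔇.mPre lam
      = (((Real.sqrt N)⁻¹ * ((Real.sqrt 𝔇.z / 𝔇.dst) ^ k * N) : ℝ) : ℂ) := by
    rw [star_smul, smul_dotProduct, RepData.mPre, cmpVec_dotProduct hsym, hov, smul_eq_mul,
      Complex.star_def, Complex.conj_ofReal]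
    push_cast
    ring
  have hr0 : 0 < Real.sqrt 𝔇.z / 𝔇.dst := div_pos (Real.sqrt_pos.2 hz) hd
  have hval : ((Real.sqrt N)⁻¹ * ((Real.sqrt 𝔇.z / 𝔇.dst) ^ k * N)) ^ 2
      = (𝔇.z / (𝔇.dst : ℝ) ^ 2) ^ k * N := by
    have e1 : ((Real.sqrt 𝔇.z / 𝔇.dst) ^ k) ^ 2 = (𝔇.z / (𝔇.dst : ℝ) ^ 2) ^ k := by
      rw [← pow_mul, mul_comm, pow_mul, div_pow, Real.sq_sqrt hz.le]
    rw [mul_pow, mul_pow, hsq, e1]
    field_simp
  refine ⟨(((Real.sqrt N)⁻¹ : ℝ) : ℂ) • cmpVec (𝔇.mRv lam), hunit, ?_, ?_, ?_⟩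
  · rw [hover]
    have : (Real.sqrt N)⁻¹ * ((Real.sqrt 𝔇.z / 𝔇.dst) ^ k * N) ≠ 0 := by
      have := Real.sqrt_pos.2 hN0
      positivity
    exact_mod_cast this
  · rw [hover, Complex.norm_real, Real.norm_eq_abs, sq_abs, hval,
      Real.log_mul (by positivity) hN0.ne', Real.log_pow, Real.log_div hz.ne' (by positivity),
      Real.log_pow]
    have hld : 𝔇.ld = Real.log 𝔇.dst := rfl
    have hlogN : -(ε * k) ≤ Real.log N := by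
      rw [← Real.log_exp (-(ε * k))]
      exact Real.log_le_log (Real.exp_pos _) hNge
    rw [hld]
    push_cast
    linarith
  · intro l hl
    -- the cutoff level is nonnegative
    have hc : 0 ≤ (Fintype.card (Fin k) : ℝ) * (𝔇.Bsh / 𝔇.z + 𝔇.Bexc) := by
      obtain ⟨B, hB, -, hB2⟩ := hP.matchU l hl ⟨0, hW.K_pos⟩
      have h1 := ldim_nonneg (io := io) (symmDiff B ((𝔇.st l ⟨0, hW.K_pos⟩).1 \ 𝔇.X))
      have hρ : IsDensity 𝔇.S.rho := pureOp_isDensity (RepData.rm_unit_nsq hW.sys.unit)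
      have h2 := (ent_nonneg hρ B).trans (hP.ent_le B hB)
      have h3 : 0 ≤ 𝔇.Bsh / 𝔇.z := div_nonneg h2 hz.le
      exact mul_nonneg (Nat.cast_nonneg _) (by linarith)
    have hb := hleaf (Fin k) l hl _ hc (𝔇.mRv lam) (fun g => cp_rv_cut 𝔇 hW hP lam hl g)
    have hcard : (Fintype.card (Fin k) : ℝ) = k := by rw [Fintype.card_fin]
    rw [← cp_leaf_quad_pinned 𝔇 hW hl hsym hpin, hN, hcard] at hb
    have hq2 := ca_quad_smul (Real.sqrt N)⁻¹ (𝔇.mLeaf (Fin k) l) (cmpVec (𝔇.mRv lam))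
    have hpd : (𝔇.mLeaf (Fin k) l).PosDef :=
      ca_prod_posDef (G := 𝔇.Al) (fun g a ha => cp_leafB_posDef 𝔇 hW g a ha)
        (fun g g' a a' hgg ha ha' => cp_leafB_commute 𝔇 hW g g' a a' hgg ha ha') hl
    have hpos := MTree.tr_quad_pos hpd (ca_ne_zero_of_unit hunit)
    have hle : (star ((((Real.sqrt N)⁻¹ : ℝ) : ℂ) • cmpVec (𝔇.mRv lam)) ⬝ᵥ
        (𝔇.mLeaf (Fin k) l *ᵥ ((((Real.sqrt N)⁻¹ : ℝ) : ℂ) • cmpVec (𝔇.mRv lam)))).re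
        ≤ Real.exp (ε * k + 2 * 𝔇.a * 𝔇.K * (k * (𝔇.Bsh / 𝔇.z + 𝔇.Bexc))) := by
      rw [hq2, hsq, Complex.re_ofReal_mul, Real.exp_add]
      have h1 := (Complex.re_le_norm _).trans hb
      have hNi : 0 ≤ N⁻¹ := (inv_pos.2 hN0).le
      calc N⁻¹ * (star (cmpVec (𝔇.mRv lam)) ⬝ᵥ (𝔇.mLeaf (Fin k) l *ᵥ cmpVec (𝔇.mRv lam))).re
          ≤ N⁻¹ * (C * ((k : ℝ) + 1) ^ m *
              Real.exp (2 * 𝔇.a * 𝔇.K * (k * (𝔇.Bsh / 𝔇.z + 𝔇.Bexc))) * N) :=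
            mul_le_mul_of_nonneg_left h1 hNi
        _ = C * ((k : ℝ) + 1) ^ m * Real.exp (2 * 𝔇.a * 𝔇.K * (k * (𝔇.Bsh / 𝔇.z + 𝔇.Bexc))) := by
            field_simp
        _ ≤ _ := mul_le_mul_of_nonneg_right hk3' (Real.exp_pos _).le
    have := Real.log_le_log hpos hle
    rw [Real.log_exp] at this
    linarith


end Rough

end Scan

end Claimed.Agent.R296
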