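import Claimed.Agent.R296.MatPow

/-!
# Row 296, P1 Section 4: scalar leaves (no matrices)

Owner: helper14 (statements: helper9/helper57).  Every theorem of this file is an independent leaf;
proofs are sketched in the doc-strings.  All constants are universal.  Complete.
-/

set_option autoImplicit false

namespace Claimed.Agent.R296

open MeasureTheory Set

/-- `e^y ≤ 1 + y + y² e^{|y|}`. -/
theorem cds_exp_le (y : ℝ) : Real.exp y ≤ 1 + y + y ^ 2 * Real.exp |y| := by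
  have h1 : Real.exp y - 1 ≤ y * Real.exp y := by
    have h := Real.add_one_le_exp (-y)
    have h2 : (1 - y) * Real.exp y ≤ 1 := by
      calc (1 - y) * Real.exp y ≤ Real.exp (-y) * Real.exp y :=
            mul_le_mul_of_nonneg_right (by linarith) (Real.exp_pos y).le
        _ = 1 := by rw [← Real.exp_add]; simp
    linarith
  rcases le_total 0 y with hy | hy
  · rw [abs_of_nonneg hy]
    nlinarith [Real.exp_pos y]
  · rw [abs_of_nonpos hy]
    have h3 : 1 ≤ Real.exp (-y) := Real.one_le_exp (by linarith)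
    have h4 := Real.add_one_le_exp y
    have h5 : Real.exp y ≤ 1 := Real.exp_le_one_iff.2 hy
    -- e^y - 1 - y ≤ y (e^y - 1) = (-y)(1 - e^y) ≤ y²
    nlinarith [mul_nonneg (neg_nonneg.2 hy) (sub_nonneg.2 h5), sq_nonneg y]

/-- `x² ≤ 32 e^{x/4}` for `x ≥ 0`. -/
theorem cds_sq_le_exp {x : ℝ} (hx : 0 ≤ x) : x ^ 2 ≤ 32 * Real.exp (x / 4) := by
  have h := Real.quadratic_le_exp_of_nonneg (x := x / 4) (by positivity)
  nlinarith

theorem cds_exp_abs_le (x : ℝ) : Real.exp |x| ≤ Real.exp x + Real.exp (-x) := by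
  rcases le_total 0 x with hx | hx
  · rw [abs_of_nonneg hx]
    linarith [Real.exp_pos (-x)]
  · rw [abs_of_nonpos hx]
    linarith [Real.exp_pos x]

/-- pointwise bound behind the log-mgf estimate -/
theorem cds_pointwise {l b : ℝ} (hl : 1 ≤ l) (hb : |b| * l ≤ 1 / 4) (L : ℝ) :
    L ^ 2 * Real.exp |b * L| ≤
      12 * l ^ 2 + 32 * Real.exp (-l) * (Real.exp L + Real.exp (-L)) := by
  have hb0 : 0 ≤ |b| := abs_nonneg b
  have hL0 : 0 ≤ |L| := abs_nonneg L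
  have hpos : 0 ≤ 32 * Real.exp (-l) * (Real.exp L + Real.exp (-L)) := by positivity
  rw [abs_mul, ← sq_abs L]
  by_cases hc : |L| ≤ 2 * l
  · have h1 : |b| * |L| ≤ 1 := by nlinarith
    have h2 : Real.exp (|b| * |L|) ≤ 3 := by
      have := Real.exp_le_exp.2 h1
      have := Real.exp_one_lt_d9
      linarith
    have h3 : |L| ^ 2 ≤ 4 * l ^ 2 := by nlinarith
    have h4 : |L| ^ 2 * Real.exp (|b| * |L|) ≤ 4 * l ^ 2 * 3 :=
      mul_le_mul h3 h2 (Real.exp_pos _).le (by positivity)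
    linarith
  · push Not at hc
    have hb4 : |b| ≤ 1 / 4 := by nlinarith
    have h1 : |b| * |L| ≤ |L| / 4 := by nlinarith
    have h2 : Real.exp (|b| * |L|) ≤ Real.exp (|L| / 4) := Real.exp_le_exp.2 h1
    have h3 := cds_sq_le_exp hL0
    have h4 : |L| ^ 2 * Real.exp (|b| * |L|) ≤ 32 * Real.exp (|L| / 4) * Real.exp (|L| / 4) :=
      mul_le_mul h3 h2 (Real.exp_pos _).le (by positivity)
    have h5 : Real.exp (|L| / 4) * Real.exp (|L| / 4) ≤ Real.exp (-l) * Real.exp |L| := by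
      rw [← Real.exp_add, ← Real.exp_add]
      exact Real.exp_le_exp.2 (by linarith)
    have h6 := cds_exp_abs_le L
    have h7 : Real.exp (-l) * Real.exp |L| ≤ Real.exp (-l) * (Real.exp L + Real.exp (-L)) :=
      mul_le_mul_of_nonneg_left h6 (Real.exp_pos _).le
    have h8 : 0 ≤ 12 * l ^ 2 := by positivity
    nlinarith

theorem cds_second_moment (ι : Type) [Fintype ι] (w L : ι → ℝ) (d : ℝ) (hd : 1 ≤ d)
    (hw : ∀ i, 0 ≤ w i) (hw1 : ∑ i, w i = 1)
    (h1 : ∑ i, w i * Real.exp (L i) ≤ d) (h2 : ∑ i, w i * Real.exp (-L i) ≤ d) (b : ℝ)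
    (hb : |b| * Real.log (Real.exp 1 * d) ≤ 1 / 4) :
    ∑ i, w i * ((L i) ^ 2 * Real.exp |b * L i|) ≤ 44 * (Real.log (Real.exp 1 * d)) ^ 2 := by
  set l := Real.log (Real.exp 1 * d) with hl
  have hd0 : 0 < d := by linarith
  have hl1 : 1 ≤ l := by
    rw [hl, Real.log_mul (Real.exp_pos 1).ne' hd0.ne', Real.log_exp]
    linarith [Real.log_nonneg hd]
  have hexp : Real.exp (-l) * (2 * d) ≤ 1 := by
    rw [hl, Real.exp_neg, Real.exp_log (by positivity)]
    rw [inv_mul_le_iff₀ (by positivity), mul_one]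
    have : (2 : ℝ) ≤ Real.exp 1 := by
      have := Real.add_one_le_exp (1 : ℝ)
      linarith
    nlinarith
  calc ∑ i, w i * ((L i) ^ 2 * Real.exp |b * L i|)
      ≤ ∑ i, w i * (12 * l ^ 2 + 32 * Real.exp (-l) * (Real.exp (L i) + Real.exp (-L i))) :=
        Finset.sum_le_sum fun i _ => mul_le_mul_of_nonneg_left (cds_pointwise hl1 hb (L i)) (hw i)
    _ = 12 * l ^ 2 * ∑ i, w i + 32 * Real.exp (-l) *
          (∑ i, w i * Real.exp (L i) + ∑ i, w i * Real.exp (-L i)) := by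
        rw [Finset.mul_sum, ← Finset.sum_add_distrib, Finset.mul_sum, ← Finset.sum_add_distrib]
        exact Finset.sum_congr rfl fun i _ => by ring
    _ ≤ 12 * l ^ 2 * 1 + 32 * Real.exp (-l) * (d + d) := by
        rw [hw1]
        gcongr
    _ ≤ 44 * l ^ 2 := by nlinarith

/-- LEAF S4-s1 (eq:conditional-log-mgf, scalar core).  Finite probability distribution `w`, real
random variable `L` with `E e^{L} ≤ d`, `E e^{-L} ≤ d`; `ℓ = log (e d)`.
Proof (no tail integral): for `|b| ℓ ≤ c ≤ 1/4` pointwise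
`|L| ≤ 2ℓ ⟹ L² e^{|bL|} ≤ 4 e^{2c} ℓ²`, `|L| > 2ℓ ⟹ L² e^{|L|/4} ≤ C' e^{|L|/2} ≤ C' e^{|L|}/(e d)`,
so `E[L² e^{|bL|}] ≤ C ℓ²`; then `e^y ≤ 1 + y + y² e^{|y|}/2` and `log (1+y) ≤ y`. -/
theorem cd_logmgf_scalar :
    ∃ c C : ℝ, 0 < c ∧ 0 < C ∧
      ∀ (ι : Type) [Fintype ι] (w L : ι → ℝ) (d : ℝ), 1 ≤ d →
        (∀ i, 0 ≤ w i) → ∑ i, w i = 1 →
        ∑ i, w i * Real.exp (L i) ≤ d → ∑ i, w i * Real.exp (-L i) ≤ d →
        (∑ i, w i * (L i) ^ 2 ≤ C * (Real.log (Real.exp 1 * d)) ^ 2) ∧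
        ∀ b : ℝ, |b| * Real.log (Real.exp 1 * d) ≤ c →
          Real.log (∑ i, w i * Real.exp (b * L i)) ≤
            b * ∑ i, w i * L i + C * b ^ 2 * (Real.log (Real.exp 1 * d)) ^ 2 := by
  refine ⟨1 / 4, 44, by norm_num, by norm_num, ?_⟩
  intro ι _ w L d hd hw hw1 h1 h2
  constructor
  · have h := cds_second_moment ι w L d hd hw hw1 h1 h2 0 (by simp)
    simpa using h
  · intro b hb
    have h := cds_second_moment ι w L d hd hw hw1 h1 h2 b hb
    have hpos : 0 < ∑ i, w i * Real.exp (b * L i) := by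
      have hne : ∃ i, 0 < w i := by
        by_contra hcon
        push Not at hcon
        have : ∑ i, w i ≤ 0 := Finset.sum_nonpos fun i _ => hcon i
        linarith
      obtain ⟨i, hi⟩ := hne
      exact Finset.sum_pos' (fun j _ => mul_nonneg (hw j) (Real.exp_pos _).le)
        ⟨i, Finset.mem_univ i, mul_pos hi (Real.exp_pos _)⟩
    have h3 := Real.log_le_sub_one_of_pos hpos
    have h4 : ∑ i, w i * Real.exp (b * L i)
        ≤ 1 + b * ∑ i, w i * L i + b ^ 2 * ∑ i, w i * ((L i) ^ 2 * Real.exp |b * L i|) := by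
      calc ∑ i, w i * Real.exp (b * L i)
          ≤ ∑ i, w i * (1 + b * L i + (b * L i) ^ 2 * Real.exp |b * L i|) :=
            Finset.sum_le_sum fun i _ => mul_le_mul_of_nonneg_left (cds_exp_le _) (hw i)
        _ = ∑ i, w i + b * ∑ i, w i * L i
              + b ^ 2 * ∑ i, w i * ((L i) ^ 2 * Real.exp |b * L i|) := by
            rw [Finset.mul_sum, Finset.mul_sum, ← Finset.sum_add_distrib,
              ← Finset.sum_add_distrib]
            exact Finset.sum_congr rfl fun i _ => by ring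
        _ = _ := by rw [hw1]
    have h5 : b ^ 2 * ∑ i, w i * ((L i) ^ 2 * Real.exp |b * L i|)
        ≤ b ^ 2 * (44 * (Real.log (Real.exp 1 * d)) ^ 2) :=
      mul_le_mul_of_nonneg_left h (sq_nonneg b)
    nlinarith

/-- LEAF S4-s2 (Jensen).  `E e^{bL} ≥ e^{b E L}`. -/
theorem cd_jensen_exp (ι : Type) [Fintype ι] (w L : ι → ℝ) (hw : ∀ i, 0 ≤ w i)
    (hw1 : ∑ i, w i = 1) (b : ℝ) :
    Real.exp (b * ∑ i, w i * L i) ≤ ∑ i, w i * Real.exp (b * L i) := by
  have h := convexOn_exp.map_sum_le (t := Finset.univ) (w := w) (p := fun i => b * L i)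
    (fun i _ => hw i) hw1 (fun i _ => Set.mem_univ _)
  simp only [smul_eq_mul] at h
  have e : b * ∑ i, w i * L i = ∑ i, w i * (b * L i) := by
    rw [Finset.mul_sum]
    exact Finset.sum_congr rfl fun i _ => by ring
  rw [e]
  exact h

theorem cds_norm_exp_sub_exp_le (x y : ℝ) :
    ‖Complex.exp ((x : ℂ) * Complex.I) - Complex.exp ((y : ℂ) * Complex.I)‖ ≤ |x - y| := by
  have h1 : Complex.exp ((x : ℂ) * Complex.I) - Complex.exp ((y : ℂ) * Complex.I)
      = Complex.exp ((y : ℂ) * Complex.I) * (Complex.exp (Complex.I * ((x - y : ℝ) : ℂ)) - 1) := by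
    rw [mul_sub, ← Complex.exp_add, mul_one]
    congr 2
    push_cast
    ring
  rw [h1, norm_mul, Complex.norm_exp_ofReal_mul_I, one_mul]
  exact Real.norm_exp_I_mul_ofReal_sub_one_le

/-- LEAF S4-s4.  `|α^{is} - β^{is}|² ≤ s² (log α - log β)²` for `α, β > 0`.
(The companion inequality `|α^{ib} - β^{ib}| √β ≤ C (1+|b|) |√α - √β|` is
`exists_phase_hellinger_const` of TwoBasis.lean.) -/
theorem cd_phase_log (s α β : ℝ) (hα : 0 < α) (hβ : 0 < β) :
    ‖hpowS ((s : ℂ) * Complex.I) α - hpowS ((s : ℂ) * Complex.I) β‖ ^ 2 ≤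
      s ^ 2 * (Real.log α - Real.log β) ^ 2 := by
  rw [hpowS_pos hα, hpowS_pos hβ]
  have e : ∀ x : ℝ, (s : ℂ) * Complex.I * (x : ℂ) = ((s * x : ℝ) : ℂ) * Complex.I := fun x => by
    push_cast; ring
  rw [e, e]
  have h := cds_norm_exp_sub_exp_le (s * Real.log α) (s * Real.log β)
  calc _ ≤ |s * Real.log α - s * Real.log β| ^ 2 := by gcongr
    _ = s ^ 2 * (Real.log α - Real.log β) ^ 2 := by rw [sq_abs]; ring

theorem cds_phase_sq_le (φ : ℝ) : ‖1 - Complex.exp ((φ : ℂ) * Complex.I)‖ ^ 2 ≤ φ ^ 2 := by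
  have h := cds_norm_exp_sub_exp_le 0 φ
  simp only [Complex.ofReal_zero, zero_mul, Complex.exp_zero, zero_sub, abs_neg] at h
  calc _ ≤ |φ| ^ 2 := by gcongr
    _ = φ ^ 2 := sq_abs φ

theorem cds_phase_sq_le_four (φ : ℝ) : ‖1 - Complex.exp ((φ : ℂ) * Complex.I)‖ ^ 2 ≤ 4 := by
  have h : ‖1 - Complex.exp ((φ : ℂ) * Complex.I)‖ ≤ 2 := by
    refine (norm_sub_le _ _).trans ?_
    rw [Complex.norm_exp_ofReal_mul_I, norm_one]
    norm_num
  calc _ ≤ (2 : ℝ) ^ 2 := by gcongr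
    _ = 4 := by norm_num

/-- `1 - e^{-s} ≥ s/(1+s)`, in the form `s ≤ (1+s)(1-e^{-s})`. -/
theorem cds_one_sub_exp_neg {s : ℝ} (hs : 0 ≤ s) : s ≤ (1 + s) * (1 - Real.exp (-s)) := by
  have h1 := Real.add_one_le_exp s
  have h2 : (1 + s) * Real.exp (-s) ≤ 1 := by
    calc (1 + s) * Real.exp (-s) ≤ Real.exp s * Real.exp (-s) :=
          mul_le_mul_of_nonneg_right (by linarith) (Real.exp_pos _).le
      _ = 1 := by rw [← Real.exp_add]; simp
  linarith

theorem cds_slack_pointwise {a : ℝ} (ha : 0 < a) (ha4 : a ≤ 1 / 4) (u v : ℝ) :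
    ‖1 - Complex.exp ((-(a * u * v) : ℝ) * Complex.I)‖ ^ 2 ≤
      8 * (1 + u ^ 2) * ((1 - Real.exp (2 * a * v)) + 2 * a * Real.exp v)
        + 2 * a * u ^ 2 * Real.exp v := by
  have hev := Real.exp_pos v
  rcases le_or_gt v 0 with hv | hv
  · set s := -(2 * a * v) with hs
    have hs0 : 0 ≤ s := by
      rw [hs]
      nlinarith
    have h1 := cds_one_sub_exp_neg hs0
    have e1 : Real.exp (2 * a * v) = Real.exp (-s) := by rw [hs, neg_neg]
    rw [e1]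
    set E := 1 - Real.exp (-s) with hE
    have hE0 : 0 ≤ E := by
      have : Real.exp (-s) ≤ 1 := Real.exp_le_one_iff.2 (by linarith)
      linarith
    have hx1 : 0 ≤ 8 * (1 + u ^ 2) * (2 * a * Real.exp v) := by positivity
    have hx2 : 0 ≤ 2 * a * u ^ 2 * Real.exp v := by positivity
    have key : ‖1 - Complex.exp ((-(a * u * v) : ℝ) * Complex.I)‖ ^ 2 ≤ 8 * (1 + u ^ 2) * E := by
      by_cases hs1 : s ≤ 1
      · have h2 := cds_phase_sq_le (-(a * u * v))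
        have h3 : (-(a * u * v)) ^ 2 = u ^ 2 * s ^ 2 / 4 := by rw [hs]; ring
        have h4 : s ≤ 2 * E := by nlinarith
        have h5 : s ^ 2 ≤ s := by nlinarith
        have h6 : u ^ 2 * s ^ 2 / 4 ≤ u ^ 2 * (2 * E) / 4 := by
          have : u ^ 2 * s ^ 2 ≤ u ^ 2 * (2 * E) :=
            mul_le_mul_of_nonneg_left (h5.trans h4) (sq_nonneg u)
          linarith
        have h7 : 0 ≤ u ^ 2 * E := by positivity
        rw [h3] at h2
        nlinarith
      · push Not at hs1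
        have h2 := cds_phase_sq_le_four (-(a * u * v))
        have h4 : 1 ≤ 2 * E := by nlinarith
        have h7 : 0 ≤ u ^ 2 * E := by positivity
        nlinarith
    calc _ ≤ 8 * (1 + u ^ 2) * E := key
      _ ≤ 8 * (1 + u ^ 2) * (E + 2 * a * Real.exp v) + 2 * a * u ^ 2 * Real.exp v := by
          nlinarith
  · have hconv : Real.exp (2 * a * v) ≤ 2 * a * Real.exp v + (1 - 2 * a) := by
      have h := convexOn_exp.2 (Set.mem_univ v) (Set.mem_univ (0 : ℝ))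
        (show (0 : ℝ) ≤ 2 * a by positivity) (show (0 : ℝ) ≤ 1 - 2 * a by linarith) (by ring)
      simpa [smul_eq_mul] using h
    have h2 := cds_phase_sq_le (-(a * u * v))
    have h3 : v ^ 2 ≤ 2 * Real.exp v := by
      have := Real.quadratic_le_exp_of_nonneg hv.le
      nlinarith
    have h4 : (-(a * u * v)) ^ 2 ≤ 2 * a * u ^ 2 * Real.exp v := by
      have e : (-(a * u * v)) ^ 2 = a ^ 2 * u ^ 2 * v ^ 2 := by ring
      rw [e]
      have h5 : a ^ 2 ≤ a := by nlinarith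
      calc a ^ 2 * u ^ 2 * v ^ 2 ≤ a * u ^ 2 * (2 * Real.exp v) := by gcongr
        _ = 2 * a * u ^ 2 * Real.exp v := by ring
    have h6 : 0 ≤ (1 - Real.exp (2 * a * v)) + 2 * a * Real.exp v := by linarith
    have h7 : 0 ≤ 8 * (1 + u ^ 2) * ((1 - Real.exp (2 * a * v)) + 2 * a * Real.exp v) := by
      positivity
    linarith

/-- LEAF S4-s5 (scalar core of the comparison of `τ_u` and `ξ` in lem:movement).
Probability `w`, `v` real, `E e^v ≤ 1`, `E e^{2av} ≥ e^{-2λ}`, `0 < a ≤ 1/4`, `λ ≥ 0`: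
`E |1 - e^{-i a u v}|² ≤ C (1+u²)(λ + a)`.
Proof: on `v ≤ 0`: `|1-e^{iφ}|² ≤ min(4, φ²) ≤ C(1+u²)(1 - e^{2av})` and
`E[(1-e^{2av}) 1_{v≤0}] ≤ 1 - e^{-2λ} + E[(e^{2av}-1) 1_{v>0}] ≤ 2λ + 2a` by `e^{2av}-1 ≤ 2a(e^v-1)`;
on `v > 0`: `|..|² ≤ a²u²v² ≤ 2a²u² e^v`. -/
theorem cd_slack_phase :
    ∃ C : ℝ, 0 < C ∧
      ∀ (ι : Type) [Fintype ι] (w v : ι → ℝ) (a lam u : ℝ), 0 < a → a ≤ 1 / 4 → 0 ≤ lam →
        (∀ i, 0 ≤ w i) → ∑ i, w i = 1 → ∑ i, w i * Real.exp (v i) ≤ 1 →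
        Real.exp (-(2 * lam)) ≤ ∑ i, w i * Real.exp (2 * a * v i) →
        ∑ i, w i * ‖1 - Complex.exp ((-(a * u * v i) : ℝ) * Complex.I)‖ ^ 2 ≤
          C * (1 + u ^ 2) * (lam + a) := by
  refine ⟨18, by norm_num, ?_⟩
  intro ι _ w v a lam u ha ha4 hlam hw hw1 h1 h2
  have h3 := Real.add_one_le_exp (-(2 * lam))
  set S1 := ∑ i, w i * Real.exp (v i) with hS1
  set S2 := ∑ i, w i * Real.exp (2 * a * v i) with hS2
  have hS10 : 0 ≤ S1 := Finset.sum_nonneg fun i _ => mul_nonneg (hw i) (Real.exp_pos _).le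
  calc ∑ i, w i * ‖1 - Complex.exp ((-(a * u * v i) : ℝ) * Complex.I)‖ ^ 2
      ≤ ∑ i, w i * (8 * (1 + u ^ 2) * ((1 - Real.exp (2 * a * v i)) + 2 * a * Real.exp (v i))
        + 2 * a * u ^ 2 * Real.exp (v i)) :=
        Finset.sum_le_sum fun i _ =>
          mul_le_mul_of_nonneg_left (cds_slack_pointwise ha ha4 u (v i)) (hw i)
    _ = 8 * (1 + u ^ 2) * ((∑ i, w i - S2) + 2 * a * S1) + 2 * a * u ^ 2 * S1 := by
        rw [hS1, hS2, ← Finset.sum_sub_distrib, Finset.mul_sum, ← Finset.sum_add_distrib,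
          Finset.mul_sum, Finset.mul_sum, ← Finset.sum_add_distrib]
        exact Finset.sum_congr rfl fun i _ => by ring
    _ ≤ 8 * (1 + u ^ 2) * ((1 - Real.exp (-(2 * lam))) + 2 * a * 1) + 2 * a * u ^ 2 * 1 := by
        rw [hw1]
        gcongr
    _ ≤ 18 * (1 + u ^ 2) * (lam + a) := by
        have h5 : 1 - Real.exp (-(2 * lam)) ≤ 2 * lam := by linarith
        have h6 : 8 * (1 + u ^ 2) * ((1 - Real.exp (-(2 * lam))) + 2 * a * 1)
            ≤ 8 * (1 + u ^ 2) * (2 * lam + 2 * a * 1) := by gcongr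
        have h7 : 0 ≤ u ^ 2 * lam := by positivity
        have h8 : 0 ≤ u ^ 2 * a := by positivity
        nlinarith

/-- LEAF S4-s7 (Young + exponent bookkeeping of lem:movement, in the form used with the paired
three-lines theorem `StripNice.paired_three_lines_vec`).  For every constant `A` there is `C` with:
if `0 < a`, `1 ≤ ℓ`, `a ℓ ≤ 1`, `λ ≥ 0`, then for all real `u`
`A a²ℓ² - λ + A a ℓ (1+|u|)^{1/2} (λ^{1/4} + a^{1/4} ℓ^{1/2}) ≤ C a^{5/4} ℓ² (1 + u²)`. -/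
theorem cd_young_bookkeeping (A : ℝ) (hA : 0 ≤ A) :
    ∃ C : ℝ, 0 < C ∧ ∀ a l lam u : ℝ, 0 < a → 1 ≤ l → a * l ≤ 1 → 0 ≤ lam →
      A * a ^ 2 * l ^ 2 - lam +
          A * a * l * (1 + |u|) ^ (1 / 2 : ℝ) *
            (lam ^ (1 / 4 : ℝ) + a ^ (1 / 4 : ℝ) * l ^ (1 / 2 : ℝ)) ≤
        C * a ^ (5 / 4 : ℝ) * l ^ 2 * (1 + u ^ 2) := by
  refine ⟨3 * A + 2 * A ^ (4 / 3 : ℝ) + 1, by positivity, ?_⟩
  intro a l lam u ha hl hal hlam
  have ha1 : a ≤ 1 := by nlinarith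
  have hl0 : 0 < l := by linarith
  have hu1 : 1 ≤ 1 + |u| := by linarith [abs_nonneg u]
  have hu0 : 0 ≤ 1 + |u| := by linarith
  set U := (1 + |u|) ^ (1 / 2 : ℝ) with hU
  set V := 1 + u ^ 2 with hV
  have hV1 : 1 ≤ V := by rw [hV]; nlinarith [sq_nonneg u]
  have huV : 1 + |u| ≤ 2 * V := by
    rw [hV, ← sq_abs u]
    nlinarith [sq_nonneg (|u| - 1), abs_nonneg u]
  have hU0 : 0 ≤ U := by positivity
  have hU1 : U ≤ 2 * V := by
    calc U ≤ (1 + |u|) ^ (1 : ℝ) := Real.rpow_le_rpow_of_exponent_le hu1 (by norm_num)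
      _ = 1 + |u| := Real.rpow_one _
      _ ≤ 2 * V := huV
  have hU43 : U ^ (4 / 3 : ℝ) ≤ 2 * V := by
    rw [hU, ← Real.rpow_mul hu0]
    calc (1 + |u|) ^ ((1 / 2 : ℝ) * (4 / 3)) ≤ (1 + |u|) ^ (1 : ℝ) :=
          Real.rpow_le_rpow_of_exponent_le hu1 (by norm_num)
      _ = 1 + |u| := Real.rpow_one _
      _ ≤ 2 * V := huV
  set p := a ^ (5 / 4 : ℝ) with hp
  have hp0 : 0 < p := by positivity
  have ha2 : a ^ 2 ≤ p := by
    rw [← Real.rpow_natCast]
    exact Real.rpow_le_rpow_of_exponent_ge ha ha1 (by norm_num)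
  have ha43 : a ^ (4 / 3 : ℝ) ≤ p := Real.rpow_le_rpow_of_exponent_ge ha ha1 (by norm_num)
  have ha54 : a * a ^ (1 / 4 : ℝ) = p := by
    rw [hp, show (5 / 4 : ℝ) = 1 + 1 / 4 by norm_num, Real.rpow_add ha, Real.rpow_one]
  have hl12 : l ^ (1 / 2 : ℝ) ≤ l := by
    calc l ^ (1 / 2 : ℝ) ≤ l ^ (1 : ℝ) := Real.rpow_le_rpow_of_exponent_le hl (by norm_num)
      _ = l := Real.rpow_one l
  have hl120 : 0 ≤ l ^ (1 / 2 : ℝ) := by positivity
  have hl43 : l ^ (4 / 3 : ℝ) ≤ l ^ 2 := by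
    rw [← Real.rpow_natCast]
    exact Real.rpow_le_rpow_of_exponent_le hl (by norm_num)
  set x := A * a * l * U with hx
  have hx0 : 0 ≤ x := by positivity
  have hyoung : x * lam ^ (1 / 4 : ℝ) ≤ x ^ (4 / 3 : ℝ) + lam := by
    have hpq : (4 / 3 : ℝ).HolderConjugate 4 := by
      rw [Real.holderConjugate_iff]
      norm_num
    have h := Real.young_inequality_of_nonneg hx0 (Real.rpow_nonneg hlam (1 / 4)) hpq
    have e : (lam ^ (1 / 4 : ℝ)) ^ (4 : ℝ) = lam := by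
      rw [← Real.rpow_mul hlam]
      norm_num
    rw [e] at h
    have h2 : 0 ≤ x ^ (4 / 3 : ℝ) := by positivity
    linarith
  have hx43 : x ^ (4 / 3 : ℝ) ≤ A ^ (4 / 3 : ℝ) * p * l ^ 2 * (2 * V) := by
    rw [hx, Real.mul_rpow (by positivity) hU0, Real.mul_rpow (by positivity) hl0.le,
      Real.mul_rpow hA ha.le]
    gcongr
  have hT3 : x * (a ^ (1 / 4 : ℝ) * l ^ (1 / 2 : ℝ)) ≤ A * p * l ^ 2 * (2 * V) := by
    have e : x * (a ^ (1 / 4 : ℝ) * l ^ (1 / 2 : ℝ)) = A * p * (l * l ^ (1 / 2 : ℝ)) * U := by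
      rw [hx, ← ha54]; ring
    rw [e]
    have h1 : l * l ^ (1 / 2 : ℝ) ≤ l ^ 2 := by nlinarith
    gcongr
  have hT1 : A * a ^ 2 * l ^ 2 ≤ A * p * l ^ 2 * V := by
    have h1 : A * a ^ 2 * l ^ 2 ≤ A * p * l ^ 2 := by gcongr
    have h2 : 0 ≤ A * p * l ^ 2 := by positivity
    nlinarith
  have hB : 0 ≤ p * l ^ 2 * V := by positivity
  calc A * a ^ 2 * l ^ 2 - lam + x * (lam ^ (1 / 4 : ℝ) + a ^ (1 / 4 : ℝ) * l ^ (1 / 2 : ℝ))
      = A * a ^ 2 * l ^ 2 + (x * lam ^ (1 / 4 : ℝ) - lam)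
        + x * (a ^ (1 / 4 : ℝ) * l ^ (1 / 2 : ℝ)) := by ring
    _ ≤ A * p * l ^ 2 * V + A ^ (4 / 3 : ℝ) * p * l ^ 2 * (2 * V) + A * p * l ^ 2 * (2 * V) := by
        linarith
    _ = (3 * A + 2 * A ^ (4 / 3 : ℝ)) * (p * l ^ 2 * V) := by ring
    _ ≤ (3 * A + 2 * A ^ (4 / 3 : ℝ) + 1) * (p * l ^ 2 * V) := by nlinarith
    _ = (3 * A + 2 * A ^ (4 / 3 : ℝ) + 1) * p * l ^ 2 * V := by ring

/-- `R_η = √y + √(η log (e d / y))`, `y = min 1 η`; `R_0 = 0`. -/
noncomputable def cd_R (d : ℕ) (η : ℝ) : ℝ :=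
  if η ≤ 0 then 0
  else Real.sqrt (min 1 η) + Real.sqrt (η * Real.log (Real.exp 1 * (d : ℝ) / min 1 η))

theorem cds_add_sq_le (x y : ℝ) : (x + y) ^ 2 ≤ 2 * x ^ 2 + 2 * y ^ 2 := by
  nlinarith [sq_nonneg (x - y)]

/-- LEAF S4-s11 (last display of lem:skew).  `m = min 1 R_η`, `1 ≤ d ≤ d_h`, `ℓ = log (e d_h)`,
`0 ≤ η ≤ 2 log d`:   `ℓ² m^{1/2} + R_η² ≤ C ℓ⁴ η^{1/8}`. -/
theorem cd_skew_scalar :
    ∃ C : ℝ, 0 < C ∧ ∀ (d dh : ℕ) (η : ℝ), 1 ≤ d → d ≤ dh → 0 ≤ η → η ≤ 2 * Real.log d →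
      (Real.log (Real.exp 1 * dh)) ^ 2 * Real.sqrt (min 1 (cd_R d η)) + (cd_R d η) ^ 2 ≤
        C * (Real.log (Real.exp 1 * dh)) ^ 4 * η ^ (1 / 8 : ℝ) := by
  refine ⟨10, by norm_num, ?_⟩
  intro d dh η hd hdh hη hη2
  have hd1 : (1 : ℝ) ≤ d := by exact_mod_cast hd
  have hddh : (d : ℝ) ≤ dh := by exact_mod_cast hdh
  have hd0 : (0 : ℝ) < d := by linarith
  have hdh0 : (0 : ℝ) < dh := by linarith
  set l := Real.log (Real.exp 1 * dh) with hl
  set ld := Real.log (Real.exp 1 * d) with hld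
  have hld_eq : ld = 1 + Real.log d := by
    rw [hld, Real.log_mul (Real.exp_pos 1).ne' hd0.ne', Real.log_exp]
  have hlogd : 0 ≤ Real.log d := Real.log_nonneg hd1
  have hld1 : 1 ≤ ld := by linarith
  have hldl : ld ≤ l := Real.log_le_log (by positivity) (by gcongr)
  have hl1 : 1 ≤ l := hld1.trans hldl
  have hl2 : l ≤ l ^ 2 := by nlinarith
  have hl3 : l ^ 2 ≤ l ^ 3 := by nlinarith [sq_nonneg l]
  have hl4 : l ^ 3 ≤ l ^ 4 := by nlinarith [pow_pos (by linarith : (0 : ℝ) < l) 3]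
  rcases hη.eq_or_lt with h0 | hpos
  · rw [← h0]
    simp [cd_R]
  set q := η ^ (1 / 8 : ℝ) with hq
  have hq0 : 0 < q := by positivity
  have hq8 : q ^ 8 = η := by
    rw [hq, ← Real.rpow_natCast, ← Real.rpow_mul hη]
    norm_num
  have hR : cd_R d η
      = Real.sqrt (min 1 η) + Real.sqrt (η * Real.log (Real.exp 1 * (d : ℝ) / min 1 η)) := by
    rw [cd_R, if_neg (not_le.2 hpos)]
  set t := Real.sqrt (min 1 (cd_R d η)) with ht
  have ht0 : 0 ≤ t := Real.sqrt_nonneg _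
  rcases le_or_gt η 1 with h1 | h1
  · -- small `η`
    have hq1 : q ≤ 1 := by
      by_contra hcon
      push Not at hcon
      have : 1 < q ^ 8 := one_lt_pow₀ hcon (by norm_num)
      linarith
    rw [min_eq_right h1] at hR
    have hr : Real.sqrt η = q ^ 4 := by
      rw [← hq8, show q ^ 8 = (q ^ 4) ^ 2 by ring, Real.sqrt_sq (by positivity)]
    set r := q ^ 4 with hrdef
    have hr0 : 0 < r := by positivity
    have hr1 : r ≤ 1 := pow_le_one₀ hq0.le hq1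
    have hηr : η = r ^ 2 := by rw [hrdef, ← hq8]; ring
    have hlog : Real.log (Real.exp 1 * (d : ℝ) / η) ≤ ld + 2 / r := by
      rw [Real.log_div (by positivity) hpos.ne', ← hld, hηr, Real.log_pow]
      have h2 : -Real.log r ≤ 1 / r := by
        have h3 := Real.log_le_sub_one_of_pos (inv_pos.2 hr0)
        rw [Real.log_inv] at h3
        have : r⁻¹ = 1 / r := by rw [one_div]
        linarith
      have e : (2 : ℝ) / r = 2 * (1 / r) := by ring
      push_cast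
      linarith
    have hX : η * Real.log (Real.exp 1 * (d : ℝ) / η) ≤ 3 * r * l := by
      calc η * Real.log (Real.exp 1 * (d : ℝ) / η) ≤ η * (ld + 2 / r) :=
            mul_le_mul_of_nonneg_left hlog hη
        _ = r ^ 2 * ld + 2 * r := by
            rw [hηr]
            field_simp
        _ ≤ 3 * r * l := by
            have a1 : r ^ 2 * ld ≤ r * l := by
              calc r ^ 2 * ld = r * (r * ld) := by ring
                _ ≤ r * (1 * l) := by gcongr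
                _ = r * l := by ring
            have a2 : r ≤ r * l := le_mul_of_one_le_right hr0.le hl1
            linarith
    have hRsq : (cd_R d η) ^ 2 ≤ 8 * r * l := by
      rw [hR, hr]
      have h2 : Real.sqrt (η * Real.log (Real.exp 1 * (d : ℝ) / η)) ^ 2 ≤ 3 * r * l := by
        calc Real.sqrt (η * Real.log (Real.exp 1 * (d : ℝ) / η)) ^ 2
            ≤ Real.sqrt (3 * r * l) ^ 2 := by
              gcongr
          _ = 3 * r * l := Real.sq_sqrt (by positivity)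
      have h3 := cds_add_sq_le r (Real.sqrt (η * Real.log (Real.exp 1 * (d : ℝ) / η)))
      nlinarith
    have hR0 : 0 ≤ cd_R d η := by rw [hR]; positivity
    have ht2 : t ^ 2 ≤ cd_R d η := by
      rw [ht, Real.sq_sqrt (le_min zero_le_one hR0)]
      exact min_le_right _ _
    have ht4 : t ^ 4 ≤ (2 * q * l) ^ 4 := by
      calc t ^ 4 = (t ^ 2) ^ 2 := by ring
        _ ≤ (cd_R d η) ^ 2 := by gcongr
        _ ≤ 8 * r * l := hRsq
        _ ≤ 16 * r * l ^ 4 := by nlinarith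
        _ = (2 * q * l) ^ 4 := by rw [hrdef]; ring
    have ht' : t ≤ 2 * q * l :=
      (pow_le_pow_iff_left₀ ht0 (by positivity) (by norm_num : (4 : ℕ) ≠ 0)).1 ht4
    have hrq : r ≤ q := by
      rw [hrdef]
      calc q ^ 4 = q * q ^ 3 := by ring
        _ ≤ q * 1 := by
            gcongr
            exact pow_le_one₀ hq0.le hq1
        _ = q := mul_one q
    have hA : l ^ 2 * t ≤ 2 * l ^ 4 * q := by
      calc l ^ 2 * t ≤ l ^ 2 * (2 * q * l) := by gcongr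
        _ = 2 * l ^ 3 * q := by ring
        _ ≤ 2 * l ^ 4 * q := by gcongr
    have hB : (cd_R d η) ^ 2 ≤ 8 * l ^ 4 * q := by
      calc (cd_R d η) ^ 2 ≤ 8 * r * l := hRsq
        _ ≤ 8 * q * l ^ 4 := by
            have : l ≤ l ^ 4 := by linarith
            gcongr
        _ = 8 * l ^ 4 * q := by ring
    linarith
  · -- large `η`
    have hq1 : 1 ≤ q := by
      by_contra hcon
      push Not at hcon
      have : q ^ 8 < 1 := pow_lt_one₀ hq0.le hcon (by norm_num)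
      linarith
    rw [min_eq_left h1.le, Real.sqrt_one, div_one, ← hld] at hR
    have hX : η * ld ≤ 2 * l ^ 2 := by
      have h2 : η ≤ 2 * l := by linarith
      calc η * ld ≤ (2 * l) * l := by gcongr
        _ = 2 * l ^ 2 := by ring
    have hRsq : (cd_R d η) ^ 2 ≤ 6 * l ^ 4 := by
      rw [hR]
      have h2 : Real.sqrt (η * ld) ^ 2 = η * ld := Real.sq_sqrt (by positivity)
      have h3 := cds_add_sq_le 1 (Real.sqrt (η * ld))
      nlinarith
    have ht1 : t ≤ 1 := by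
      rw [ht]
      calc Real.sqrt (min 1 (cd_R d η)) ≤ Real.sqrt 1 := Real.sqrt_le_sqrt (min_le_left _ _)
        _ = 1 := Real.sqrt_one
    have hl40 : 0 ≤ l ^ 4 := by positivity
    have hA : l ^ 2 * t ≤ l ^ 4 := by
      calc l ^ 2 * t ≤ l ^ 2 * 1 := by gcongr
        _ ≤ l ^ 4 := by linarith
    have hB : l ^ 4 ≤ l ^ 4 * q := le_mul_of_one_le_right hl40 hq1
    linarith

/-- LEAF S4-s12 (from the analytic data to the skew bound; pure complex numbers).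
`p ≥ 0`, `b₁` real, `|b₁| ≤ A √p R`, remainder `|ρ| ≤ ε`:
`|p + i t b₁ + ρ| - Re (p + i t b₁ + ρ) ≤ A² t² R² + 2 ε`. -/
theorem cd_skew_complex (p b₁ t A R ε : ℝ) (ρ : ℂ) (hp : 0 ≤ p) (hA : 0 ≤ A) (hR : 0 ≤ R)
    (hb : |b₁| ≤ A * Real.sqrt p * R) (hρ : ‖ρ‖ ≤ ε) :
    ‖(p : ℂ) + (t * b₁ : ℝ) * Complex.I + ρ‖ - ((p : ℂ) + (t * b₁ : ℝ) * Complex.I + ρ).re ≤
      A ^ 2 * t ^ 2 * R ^ 2 + 2 * ε := by
  set K := A ^ 2 * t ^ 2 * R ^ 2 with hK
  have hK0 : 0 ≤ K := by positivity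
  have hb2 : b₁ ^ 2 ≤ A ^ 2 * p * R ^ 2 := by
    have h1 : |b₁| ^ 2 ≤ (A * Real.sqrt p * R) ^ 2 := by gcongr
    rw [sq_abs] at h1
    calc b₁ ^ 2 ≤ (A * Real.sqrt p * R) ^ 2 := h1
      _ = A ^ 2 * (Real.sqrt p) ^ 2 * R ^ 2 := by ring
      _ = A ^ 2 * p * R ^ 2 := by rw [Real.sq_sqrt hp]
  have h0 : ‖(p : ℂ) + (t * b₁ : ℝ) * Complex.I‖ ≤ p + K := by
    have e : ‖(p : ℂ) + (t * b₁ : ℝ) * Complex.I‖ ^ 2 = p ^ 2 + (t * b₁) ^ 2 := by
      rw [Complex.sq_norm, Complex.normSq_add_mul_I]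
    refine (pow_le_pow_iff_left₀ (norm_nonneg _) (by positivity) two_ne_zero).1 ?_
    rw [e]
    have h2 : (t * b₁) ^ 2 ≤ p * K := by
      calc (t * b₁) ^ 2 = t ^ 2 * b₁ ^ 2 := by ring
        _ ≤ t ^ 2 * (A ^ 2 * p * R ^ 2) := by gcongr
        _ = p * K := by rw [hK]; ring
    nlinarith [mul_nonneg hp hK0, sq_nonneg K]
  have h1 : ‖(p : ℂ) + (t * b₁ : ℝ) * Complex.I + ρ‖ ≤ p + K + ε :=
    (norm_add_le _ _).trans (add_le_add h0 hρ)
  have h2 : ((p : ℂ) + (t * b₁ : ℝ) * Complex.I + ρ).re = p + ρ.re := by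
    simp
  have h3 : -ε ≤ ρ.re := by
    have := Complex.abs_re_le_norm ρ
    have := neg_abs_le ρ.re
    linarith
  rw [h2]
  linarith

end Claimed.Agent.R296
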