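import Claimed.Agent.R296.Defs
import Claimed.Agent.R296.HS
import Claimed.Agent.R296.EntPtrE
import Claimed.Agent.R296.CondScalar
import Claimed.Agent.R296.EntSiteChange

/-!
# Row 296, P1 Section 4: definitions of the site-level statements + bridge to splittings

Owner: helper9.  Prefix `cd_`.
* `cd_dim io x`, `cd_ell io x = log (e dim x)`, `cd_Four P x U F` (four disjoint systems covering all sites);
* `cd_split x U h : CfgOn io (x ∪ U) ≃ CfgOn io U × CfgOn io x`: the subsystem `xU` split into `U` and `x`,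
  so that the two-party layer (`CondTwo.lean`, written for `e : n ≃ m × r`) applies to `ptr (x ∪ U) ρ`.
-/

set_option autoImplicit false
set_option linter.unusedSectionVars false

namespace Claimed.Agent.R296

open Matrix
open scoped MatrixOrder Matrix.Norms.L2Operator ComplexOrder

section Sites

variable {s : Type} [DecidableEq s] [Fintype s] (io : s → Type)
  [∀ y, Fintype (io y)] [∀ y, DecidableEq (io y)]

/-- Hilbert space dimension of the subsystem `x` -/
def cd_dim (x : Finset s) : ℕ := ∏ y ∈ x, Fintype.card (io y)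

/-- `ℓ = log (e · dim x)` -/
noncomputable def cd_ell (x : Finset s) : ℝ := Real.log (Real.exp 1 * (cd_dim io x : ℝ))

end Sites

/-- the four systems `P, x, U, F` are pairwise disjoint and exhaust all sites -/
structure cd_Four {s : Type} [DecidableEq s] [Fintype s] (P x U F : Finset s) : Prop where
  dPx : Disjoint P x
  dPU : Disjoint P U
  dPF : Disjoint P F
  dxU : Disjoint x U
  dxF : Disjoint x F
  dUF : Disjoint U F
  cover : P ∪ x ∪ U ∪ F = Finset.univ

section Split

variable {s : Type} [DecidableEq s] [Fintype s] {io : s → Type}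
  [∀ y, Fintype (io y)] [∀ y, DecidableEq (io y)]

/-- the subsystem `x ∪ U` (disjoint union) split into `U` (kept factor) and `x` (traced factor) -/
def cd_split (x U : Finset s) (h : Disjoint x U) : CfgOn io (x ∪ U) ≃ CfgOn io U × CfgOn io x where
  toFun c := (fun y => c ⟨y.1, Finset.mem_union_right x y.2⟩,
    fun y => c ⟨y.1, Finset.mem_union_left U y.2⟩)
  invFun p := fun y =>
    if hy : y.1 ∈ U then p.1 ⟨y.1, hy⟩
    else p.2 ⟨y.1, (Finset.mem_union.1 y.2).resolve_right hy⟩
  left_inv c := by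
    funext y
    by_cases hy : y.1 ∈ U <;> simp [hy]
  right_inv p := by
    rcases p with ⟨a, b⟩
    refine Prod.ext ?_ ?_
    · funext y
      simp [y.2]
    · funext y
      have hy : y.1 ∉ U := fun hU => (Finset.disjoint_left.1 h y.2) hU
      simp [hy]

/-- LEAF S4-b1.  `Tr_x ρ_{xU} = ρ_U`. -/
theorem cd_split_ptr (x U : Finset s) (h : Disjoint x U) (ρ : Matrix (Cfg io) (Cfg io) ℂ) :
    ptrE (cd_split x U h) (ptr (x ∪ U) ρ) = ptr U ρ := by
  rw [ptr_eq_ptrE, ptr_eq_ptrE, ptrE_ptrE]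
  refine ptrE_congr _ _ ?_ ?_ ρ
  · intro σ
    rfl
  · intro σ τ
    have e1 : ∀ σ : Cfg io, (((cfgSplit (x ∪ U)).trans
        (((cd_split x U h).prodCongr (Equiv.refl (CfgOff io (x ∪ U)))).trans
          (Equiv.prodAssoc (CfgOn io U) (CfgOn io x) (CfgOff io (x ∪ U))))) σ).2
        = (crOn x σ, crOff (x ∪ U) σ) := fun σ => rfl
    have e2 : ∀ σ : Cfg io, ((cfgSplit U) σ).2 = crOff U σ := fun σ => rfl
    rw [e1, e1, e2, e2, Prod.mk.injEq, br_crOn_eq_iff, br_crOff_eq_iff, br_crOff_eq_iff]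
    constructor
    · rintro ⟨h1, h2⟩ y hy
      by_cases hx : y ∈ x
      · exact h1 y hx
      · exact h2 y (by simp [hx, hy])
    · intro h1
      refine ⟨fun y hy => h1 y (Finset.disjoint_left.1 h hy), fun y hy => h1 y ?_⟩
      intro hU
      exact hy (Finset.mem_union_right x hU)

/-- LEAF S4-b2.  `(1_x ⊗ Y) ⊗ 1_rest = Y ⊗ 1_rest`. -/
theorem cd_split_emb (x U : Finset s) (h : Disjoint x U) (Y : Matrix (CfgOn io U) (CfgOn io U) ℂ) :
    emb (x ∪ U) (embE (cd_split x U h) Y) = emb U Y := by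
  ext σ τ
  have e1 : ∀ σ : Cfg io, (cd_split x U h (crOn (x ∪ U) σ)).1 = crOn U σ := fun σ => rfl
  have e2 : ∀ σ : Cfg io, (cd_split x U h (crOn (x ∪ U) σ)).2 = crOn x σ := fun σ => rfl
  simp only [emb, embE_apply, Matrix.of_apply, e1, e2, br_crOn_eq_iff, br_crOff_eq_iff]
  by_cases h3 : ∀ y, y ∉ U → σ y = τ y
  · have h1 : ∀ y, y ∉ x ∪ U → σ y = τ y := fun y hy =>
      h3 y (fun hU => hy (Finset.mem_union_right x hU))
    have h2 : ∀ y, y ∈ x → σ y = τ y := fun y hy => h3 y (Finset.disjoint_left.1 h hy)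
    rw [if_pos h1, if_pos h2, if_pos h3]
  · rw [if_neg h3]
    by_cases h1 : ∀ y, y ∉ x ∪ U → σ y = τ y
    · rw [if_pos h1, if_neg]
      intro h2
      apply h3
      intro y hy
      by_cases hx : y ∈ x
      · exact h2 y hx
      · exact h1 y (by simp [hx, hy])
    · rw [if_neg h1]

/-- LEAF S4-b3. -/
theorem cd_card_cfgOn (x : Finset s) : Fintype.card (CfgOn io x) = cd_dim io x := by
  unfold cd_dim
  rw [Fintype.card_pi, ← Finset.prod_coe_sort x]

/-- LEAF S4-b4 (a local unitary does not change the marginal of a disjoint region).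
`W` supported on `A`, `Wᴴ W = 1`, `B` disjoint from `A`. -/
theorem cd_ptr_unitary_disjoint {A B : Finset s} (hAB : Disjoint A B)
    (W : Matrix (CfgOn io A) (CfgOn io A) ℂ) (hW : Wᴴ * W = 1) (θ : Cfg io → ℂ) :
    ptr B (pureOp (emb A W *ᵥ θ)) = ptr B (pureOp θ) := by
  have hU : (emb A W)ᴴ * emb A W = 1 := by
    rw [emb_eq_embE, ← embE_conjTranspose, ← embE_mul, hW, embE_one]
  obtain ⟨K, hK⟩ := (SuppIn.sp_off (⟨W, rfl⟩ : SuppIn A (emb A W)) hAB)
  rw [pureOp_mulVec, ptr_eq_ptrE, ptr_eq_ptrE]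
  rw [hK, embOff_eq_embE] at hU ⊢
  exact ptrE_conj_swap _ _ hU

end Split

end Claimed.Agent.R296
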