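/-
Row 296, black-box chain INTERP: paired three lines by reflection (Strip-2, Strip-3).
Statements fixed by helper57 (architect).  Proofs: helper70.
-/
import Claimed.Agent.R296.Strip

set_option autoImplicit false
set_option linter.unusedSectionVars false

namespace Claimed.Agent.R296

open Complex

variable {E : Type*} [NormedAddCommGroup E] [NormedSpace ℂ E]

/-- LEAF Strip-2 (replaces the harmonic-measure three-lines theorem in lem:movement).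
Reflection trick: `p z = g z * conj (g (conj (1 - z))) * exp (2 κ (z - 1/2)^2)` is `StripNice`,
`‖p (i u)‖ = ‖p (1 + i u)‖ = ‖g (i u)‖ ‖g (1 + i u)‖ exp (2 κ (1/4 - u^2))`, `‖p (1/2)‖ = ‖g (1/2)‖^2`. -/
theorem StripNice.paired_three_lines {g : ℂ → ℂ} (hg : StripNice g) {κ B : ℝ} (hκ : 0 ≤ κ)
    (h : ∀ u : ℝ, ‖g ((u : ℂ) * I)‖ * ‖g (1 + (u : ℂ) * I)‖ ≤ B * Real.exp (2 * κ * u ^ 2)) :
    ‖g (1 / 2)‖ ^ 2 ≤ B * Real.exp (κ / 2) := by
  have hB : 0 ≤ B := by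
    have := h 0
    simp only [ne_eq, OfNat.ofNat_ne_zero, not_false_eq_true, zero_pow, mul_zero, Real.exp_zero,
      mul_one] at this
    exact (mul_nonneg (norm_nonneg _) (norm_nonneg _)).trans this
  set A : ℝ := B * Real.exp (κ / 2) with hA
  have hA0 : 0 ≤ A := mul_nonneg hB (Real.exp_pos _).le
  set p : ℂ → ℂ := fun z => g z *
    (starRingEnd ℂ) (g ((starRingEnd ℂ) ((((-1 : ℝ)) : ℂ) * z + 1))) *
      Complex.exp ((((2 * κ : ℝ)) : ℂ) * (z - (((1 / 2 : ℝ)) : ℂ)) ^ 2) with hp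
  have hpn : StripNice p :=
    (hg.mul (hg.conj_conj.comp_affine (-1) 1)).mul
      (StripNice.gaussian (by positivity : (0 : ℝ) ≤ 2 * κ) (1 / 2))
  have hgauss : ∀ z : ℂ, ‖Complex.exp ((((2 * κ : ℝ)) : ℂ) * (z - (((1 / 2 : ℝ)) : ℂ)) ^ 2)‖
      = Real.exp (2 * κ * ((z.re - 1 / 2) ^ 2 - z.im ^ 2)) := by
    intro z
    rw [Complex.norm_exp]
    congr 1
    simp [pow_two, mul_re, sub_re, sub_im]
  have hexp : ∀ u : ℝ, Real.exp (2 * κ * u ^ 2) * Real.exp (2 * κ * (1 / 4 - u ^ 2))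
      = Real.exp (κ / 2) := by
    intro u
    rw [← Real.exp_add]
    congr 1
    ring
  have hbd : ∀ u : ℝ, ‖g ((u : ℂ) * I)‖ * ‖g (1 + (u : ℂ) * I)‖ *
      Real.exp (2 * κ * (1 / 4 - u ^ 2)) ≤ A := by
    intro u
    calc ‖g ((u : ℂ) * I)‖ * ‖g (1 + (u : ℂ) * I)‖ * Real.exp (2 * κ * (1 / 4 - u ^ 2))
        ≤ (B * Real.exp (2 * κ * u ^ 2)) * Real.exp (2 * κ * (1 / 4 - u ^ 2)) :=
          mul_le_mul_of_nonneg_right (h u) (Real.exp_pos _).le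
      _ = A := by rw [mul_assoc, hexp]
  have h0 : ∀ z : ℂ, z.re = 0 → ‖p z‖ ≤ A := by
    intro z hz
    obtain ⟨u, rfl⟩ : ∃ u : ℝ, z = (u : ℂ) * I := ⟨z.im, by apply Complex.ext <;> simp [hz]⟩
    have hc : (starRingEnd ℂ) ((((-1 : ℝ)) : ℂ) * ((u : ℂ) * I) + 1) = 1 + (u : ℂ) * I := by
      apply Complex.ext <;> simp
    have he : (((u : ℂ) * I).re - 1 / 2) ^ 2 - ((u : ℂ) * I).im ^ 2 = 1 / 4 - u ^ 2 := by
      simp; norm_num
    simp only [hp, norm_mul, hgauss, RCLike.norm_conj, hc, he]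
    exact hbd u
  have h1 : ∀ z : ℂ, z.re = 1 → ‖p z‖ ≤ A := by
    intro z hz
    obtain ⟨u, rfl⟩ : ∃ u : ℝ, z = 1 + (u : ℂ) * I := ⟨z.im, by apply Complex.ext <;> simp [hz]⟩
    have hc : (starRingEnd ℂ) ((((-1 : ℝ)) : ℂ) * (1 + (u : ℂ) * I) + 1) = (u : ℂ) * I := by
      apply Complex.ext <;> simp
    have he : ((1 + (u : ℂ) * I).re - 1 / 2) ^ 2 - (1 + (u : ℂ) * I).im ^ 2 = 1 / 4 - u ^ 2 := by
      simp; norm_num
    simp only [hp, norm_mul, hgauss, RCLike.norm_conj, hc, he]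
    rw [mul_comm ‖g (1 + (u : ℂ) * I)‖]
    exact hbd u
  have h3 := hpn.three_lines (l := 0) (u := 1) one_pos h0 h1 (z := (1 / 2 : ℂ))
    (by norm_num) (by norm_num)
  have hre : ((1 / 2 : ℂ)).re = 1 / 2 := by norm_num
  rw [hre, ← Real.rpow_add' hA0 (by norm_num)] at h3
  have h4 : (1 - (1 / 2 - 0) / (1 - 0) + (1 / 2 - 0) / (1 - 0) : ℝ) = 1 := by norm_num
  rw [h4, Real.rpow_one] at h3
  have hc : (starRingEnd ℂ) ((((-1 : ℝ)) : ℂ) * (1 / 2 : ℂ) + 1) = 1 / 2 := by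
    apply Complex.ext <;> simp
    norm_num
  have h5 : ‖p (1 / 2)‖ = ‖g (1 / 2)‖ ^ 2 := by
    simp only [hp, norm_mul, hgauss, RCLike.norm_conj, hc, hre]
    simp [sq]
  rw [← h5]
  exact h3

/-- LEAF Strip-3: vector valued version of Strip-2 (test against a norming functional,
`exists_dual_vector''`, and use `StripNice.clm`). -/
theorem StripNice.paired_three_lines_vec {g : ℂ → E} (hg : StripNice g) {κ B : ℝ} (hκ : 0 ≤ κ)
    (h : ∀ u : ℝ, ‖g ((u : ℂ) * I)‖ * ‖g (1 + (u : ℂ) * I)‖ ≤ B * Real.exp (2 * κ * u ^ 2)) :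
    ‖g (1 / 2)‖ ^ 2 ≤ B * Real.exp (κ / 2) := by
  obtain ⟨L, hL1, hL2⟩ := exists_dual_vector'' ℂ (g (1 / 2))
  have hLn : ∀ v : E, ‖L v‖ ≤ ‖v‖ := fun v =>
    (L.le_opNorm v).trans (by simpa using mul_le_mul_of_nonneg_right hL1 (norm_nonneg v))
  have key := (hg.clm L).paired_three_lines hκ (B := B) (fun u =>
    (mul_le_mul (hLn _) (hLn _) (norm_nonneg _) (norm_nonneg _)).trans (h u))
  rw [hL2] at key
  simpa using key

end Claimed.Agent.R296
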