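import Claimed.Agent.R296.CondMoveA
import Claimed.Agent.R296.StripB
import Claimed.Agent.R296.MatPowAn

/-!
# Row 296, P1 Section 4.2: lem:movement, part B (PACKAGE S4-MOVE-B): the analytic family `G`

Statements: helper9 + helper57 (Sec 4 sub-captain).  The OWNER of this file (see `subtask`) replaces the `sorry`s;
new auxiliary lemmas carry the prefix `cdg_`.  Do not change statements without telling helper57.
Proofs: helper167.
The harmonic-measure three-lines theorem of the paper is replaced by `StripNice.paired_three_lines_vec`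
(reflection trick + Gaussian damping; PROVED in StripB).

Chain: m4a (StripNice), m4b/m4c (the two boundary lines of `G`), m4d-f (`θ_u`) → m5a (`cd_G_lines`: the two boundary
bounds with a common slack) → m5 (faithful `σ, τ`; `cd_young_bookkeeping` + paired three lines) → m6 = `cd_movement`.
-/

set_option autoImplicit false

namespace Claimed.Agent.R296

open Matrix
open scoped MatrixOrder Matrix.Norms.L2Operator ComplexOrder

section G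

variable {s : Type} [DecidableEq s] [Fintype s] {io : s → Type}
  [∀ y, Fintype (io y)] [∀ y, DecidableEq (io y)]

/-- the analytic family `G(z) = σ^{az} ρ̂_P^{-az} τ^{a(1-z)} ρ̂_U^{-a(1-z)} θ` -/
noncomputable def cd_G (θ : Cfg io → ℂ) (P x U : Finset s) (a : ℝ)
    (σ : Matrix (CfgOn io (x ∪ P)) (CfgOn io (x ∪ P)) ℂ)
    (τ : Matrix (CfgOn io (x ∪ U)) (CfgOn io (x ∪ U)) ℂ) (z : ℂ) : EuclideanSpace ℂ (Cfg io) :=
  WithLp.toLp 2 ((emb (x ∪ P) (spow σ ((a : ℂ) * z)) * emb P (hpow (ptr P (pureOp θ)) (-((a : ℂ) * z))) *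
    emb (x ∪ U) (spow τ ((a : ℂ) * (1 - z))) *
    emb U (hpow (ptr U (pureOp θ)) (-((a : ℂ) * (1 - z))))) *ᵥ θ)

/-- `τ_v = Q_U^{-iv} τ Q_U^{iv}`, `Q_U = 1_x ⊗ ρ̂_U`, as a matrix on `x ∪ U` -/
noncomputable def cd_rot (θ : Cfg io → ℂ) (x U : Finset s) (h : Disjoint x U)
    (τ : Matrix (CfgOn io (x ∪ U)) (CfgOn io (x ∪ U)) ℂ) (v : ℝ) :
    Matrix (CfgOn io (x ∪ U)) (CfgOn io (x ∪ U)) ℂ :=
  embE (cd_split x U h) (hpow (ptr U (pureOp θ)) (-(v : ℂ) * Complex.I)) * τ *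
    embE (cd_split x U h) (hpow (ptr U (pureOp θ)) ((v : ℂ) * Complex.I))

/-- `θ_v = τ^{-iv} Q_U^{iv} θ` -/
noncomputable def cd_thetaU (θ : Cfg io → ℂ) (x U : Finset s)
    (τ : Matrix (CfgOn io (x ∪ U)) (CfgOn io (x ∪ U)) ℂ) (v : ℝ) : Cfg io → ℂ :=
  (emb (x ∪ U) (hpow τ (-(v : ℂ) * Complex.I)) *
    emb U (hpow (ptr U (pureOp θ)) ((v : ℂ) * Complex.I))) *ᵥ θ

theorem cdg_ptr_posSemidef (θ : Cfg io → ℂ) (A : Finset s) : (ptr A (pureOp θ)).PosSemidef := by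
  rw [ptr_eq_ptrE]
  exact ptrE_posSemidef _ (pureOp_posSemidef θ)

theorem cdg_ptr_isHermitian (θ : Cfg io → ℂ) (A : Finset s) : (ptr A (pureOp θ)).IsHermitian :=
  (cdg_ptr_posSemidef θ A).1

theorem cdg_re_mul_I (v : ℂ) (hv : v.im = 0) : (v * Complex.I).re = 0 := by
  simp [Complex.mul_re, hv]

/-- the unitary `1_x ⊗ ρ̂_U^{iv}` on `x ∪ U` -/
noncomputable def cdg_Q (θ : Cfg io → ℂ) (x U : Finset s) (h : Disjoint x U) (v : ℝ) :
    Matrix (CfgOn io (x ∪ U)) (CfgOn io (x ∪ U)) ℂ :=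
  embE (cd_split x U h) (hpow (ptr U (pureOp θ)) ((v : ℂ) * Complex.I))

theorem cdg_Q_conjTranspose (θ : Cfg io → ℂ) (x U : Finset s) (h : Disjoint x U) (v : ℝ) :
    (cdg_Q θ x U h v)ᴴ = embE (cd_split x U h) (hpow (ptr U (pureOp θ)) (-(v : ℂ) * Complex.I)) := by
  rw [cdg_Q, ← embE_conjTranspose, hpow_conjTranspose]
  congr 2
  simp

theorem cdg_Q_unitary (θ : Cfg io → ℂ) (x U : Finset s) (h : Disjoint x U) (v : ℝ) :
    (cdg_Q θ x U h v)ᴴ * cdg_Q θ x U h v = 1 ∧ cdg_Q θ x U h v * (cdg_Q θ x U h v)ᴴ = 1 := by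
  have hu := hpow_unitary (cdg_ptr_isHermitian θ U) (z := (v : ℂ) * Complex.I)
    (cdg_re_mul_I _ (by simp))
  rw [cdg_Q, ← embE_conjTranspose, ← embE_mul, ← embE_mul, hu.1, hu.2, embE_one]
  exact ⟨rfl, rfl⟩

theorem cd_rot_eq (θ : Cfg io → ℂ) (x U : Finset s) (h : Disjoint x U)
    (τ : Matrix (CfgOn io (x ∪ U)) (CfgOn io (x ∪ U)) ℂ) (v : ℝ) :
    cd_rot θ x U h τ v = (cdg_Q θ x U h v)ᴴ * τ * ((cdg_Q θ x U h v)ᴴ)ᴴ := by
  rw [conjTranspose_conjTranspose, cdg_Q_conjTranspose]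
  rfl

/-- the rotated matrix is again positive definite with the same trace; its powers are the rotated powers
(`spow_unitary_conj`, `hpow_unitary_conj` of MatPow; `hpow_unitary`, `embE_mul`, `embE_conjTranspose`). -/
theorem cd_rot_props (θ : Cfg io → ℂ) (x U : Finset s) (h : Disjoint x U)
    {τ : Matrix (CfgOn io (x ∪ U)) (CfgOn io (x ∪ U)) ℂ} (hτ : τ.PosDef) (v : ℝ) :
    (cd_rot θ x U h τ v).PosDef ∧ (cd_rot θ x U h τ v).trace = τ.trace ∧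
    (∀ z : ℂ, spow (cd_rot θ x U h τ v) z = cd_rot θ x U h (spow τ z) v) ∧
    (∀ z : ℂ, hpow (cd_rot θ x U h τ v) z = cd_rot θ x U h (hpow τ z) v) := by
  obtain ⟨hu1, hu2⟩ := cdg_Q_unitary θ x U h v
  set V := (cdg_Q θ x U h v)ᴴ with hV
  have hV1 : Vᴴ * V = 1 := by rw [hV, conjTranspose_conjTranspose]; exact hu2
  have hV2 : V * Vᴴ = 1 := by rw [hV, conjTranspose_conjTranspose]; exact hu1
  refine ⟨?_, ?_, ?_, ?_⟩
  · rw [cd_rot_eq]
    refine hτ.mul_mul_conjTranspose_same ?_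
    intro a b hab
    have h3 : (a ᵥ* V) ᵥ* Vᴴ = (b ᵥ* V) ᵥ* Vᴴ := congrArg (fun w => w ᵥ* Vᴴ) hab
    rwa [Matrix.vecMul_vecMul, Matrix.vecMul_vecMul, hV2, Matrix.vecMul_one,
      Matrix.vecMul_one] at h3
  · rw [cd_rot_eq, Matrix.trace_mul_comm, ← Matrix.mul_assoc, hV1, Matrix.one_mul]
  · intro z
    rw [cd_rot_eq, cd_rot_eq, spow_isometry_conj V hV1 hτ.1]
  · intro z
    rw [cd_rot_eq, cd_rot_eq, hpow_unitary_conj V hV1 hV2]


/-- LEAF S4-m4a.  (`stripNice_spow`, `stripNice_hpow`, `StripNice.comp_affine`, `.emb`, `.matMul`, `.mulVec`.) -/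
theorem cd_G_stripNice (θ : Cfg io → ℂ) (P x U : Finset s) (a : ℝ)
    (σ : Matrix (CfgOn io (x ∪ P)) (CfgOn io (x ∪ P)) ℂ)
    (τ : Matrix (CfgOn io (x ∪ U)) (CfgOn io (x ∪ U)) ℂ) : StripNice (cd_G θ P x U a σ τ) := by
  have h1 : StripNice (fun z : ℂ => spow σ ((a : ℂ) * z)) := by
    simpa using (stripNice_spow σ).comp_affine a 0
  have h2 : StripNice (fun z : ℂ => hpow (ptr P (pureOp θ)) (-((a : ℂ) * z))) := by
    have := (stripNice_hpow (ptr P (pureOp θ))).comp_affine (-a) 0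
    simpa using this
  have h3 : StripNice (fun z : ℂ => spow τ ((a : ℂ) * (1 - z))) := by
    have := (stripNice_spow τ).comp_affine (-a) (a : ℂ)
    have e : (fun z : ℂ => spow τ ((((-a : ℝ)) : ℂ) * z + (a : ℂ)))
        = fun z : ℂ => spow τ ((a : ℂ) * (1 - z)) := by
      funext z; congr 1; push_cast; ring
    rwa [e] at this
  have h4 : StripNice (fun z : ℂ => hpow (ptr U (pureOp θ)) (-((a : ℂ) * (1 - z)))) := by
    have := (stripNice_hpow (ptr U (pureOp θ))).comp_affine a (-(a : ℂ))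
    have e : (fun z : ℂ => hpow (ptr U (pureOp θ)) ((a : ℂ) * z + (-(a : ℂ))))
        = fun z : ℂ => hpow (ptr U (pureOp θ)) (-((a : ℂ) * (1 - z))) := by
      funext z; congr 1; ring
    rwa [e] at this
  exact ((((h1.emb (x ∪ P)).matMul (h2.emb P)).matMul (h3.emb (x ∪ U))).matMul (h4.emb U)).mulVec θ


theorem cdg_l2n_emb_unitary (A : Finset s) (K : Matrix (CfgOn io A) (CfgOn io A) ℂ)
    (hK : Kᴴ * K = 1) (v : Cfg io → ℂ) : l2n (emb A K *ᵥ v) = l2n v := by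
  refine l2n_isometry_mulVec _ ?_ v
  rw [← emb_conjTranspose, ← emb_mul, hK, emb_one]

theorem cdg_spow_unitary {n : Type} [Fintype n] [DecidableEq n] {σ : Matrix n n ℂ} (hσ : σ.PosDef)
    {z : ℂ} (hz : z.re = 0) : (spow σ z)ᴴ * spow σ z = 1 := by
  rw [spow_eq_hpow_of_posDef hσ]
  exact (hpow_unitary hσ.1 hz).1

theorem cdg_emb_Q (θ : Cfg io → ℂ) (x U : Finset s) (h : Disjoint x U) (v : ℝ) :
    emb (x ∪ U) (cdg_Q θ x U h v) = emb U (hpow (ptr U (pureOp θ)) ((v : ℂ) * Complex.I)) := by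
  rw [cdg_Q, cd_split_emb]

/-- LEAF S4-m4b (left line).  `‖G(iu)‖ = ‖τ_u^a Q_U^{-a} θ‖`, `τ_u = Q_U^{-iau} τ Q_U^{iau}`.
`G(iu) = [σ^{iau} ρ̂_P^{-iau} τ^{-iau}] τ^a Q_U^{iau} Q_U^{-a} θ`; the bracket is unitary;
multiply by the unitary `Q_U^{-iau}`. -/
theorem cd_G_left (θ : Cfg io → ℂ) {P x U F : Finset s} (h4 : cd_Four P x U F) (a u : ℝ)
    {σ : Matrix (CfgOn io (x ∪ P)) (CfgOn io (x ∪ P)) ℂ} (hσ : σ.PosDef)
    {τ : Matrix (CfgOn io (x ∪ U)) (CfgOn io (x ∪ U)) ℂ} (hτ : τ.PosDef) :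
    ‖cd_G θ P x U a σ τ ((u : ℂ) * Complex.I)‖ =
      l2n ((emb (x ∪ U) (spow (cd_rot θ x U h4.dxU τ (a * u)) (a : ℂ)) *
        emb U (hpow (ptr U (pureOp θ)) (-(a : ℂ)))) *ᵥ θ) := by
  set w : Cfg io → ℂ := emb (x ∪ U) (spow τ (a : ℂ)) *ᵥ
    (emb U (hpow (ptr U (pureOp θ)) (((a * u : ℝ) : ℂ) * Complex.I)) *ᵥ
      (emb U (hpow (ptr U (pureOp θ)) (-(a : ℂ))) *ᵥ θ)) with hw
  have hL : ‖cd_G θ P x U a σ τ ((u : ℂ) * Complex.I)‖ = l2n w := by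
    have e1 : (a : ℂ) * (1 - (u : ℂ) * Complex.I)
        = (-(((a * u : ℝ) : ℂ) * Complex.I)) + (a : ℂ) := by push_cast; ring
    have e2 : -((a : ℂ) * (1 - (u : ℂ) * Complex.I))
        = (((a * u : ℝ) : ℂ) * Complex.I) + (-(a : ℂ)) := by push_cast; ring
    change l2n _ = _
    rw [e2, e1, spow_add, hpow_add, emb_mul, emb_mul]
    have e3 : (emb (x ∪ P) (spow σ ((a : ℂ) * ((u : ℂ) * Complex.I))) *
        emb P (hpow (ptr P (pureOp θ)) (-((a : ℂ) * ((u : ℂ) * Complex.I)))) *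
        (emb (x ∪ U) (spow τ (-(((a * u : ℝ) : ℂ) * Complex.I))) * emb (x ∪ U) (spow τ (a : ℂ))) *
        (emb U (hpow (ptr U (pureOp θ)) (((a * u : ℝ) : ℂ) * Complex.I)) *
          emb U (hpow (ptr U (pureOp θ)) (-(a : ℂ))))) *ᵥ θ
        = emb (x ∪ P) (spow σ ((a : ℂ) * ((u : ℂ) * Complex.I))) *ᵥ
          (emb P (hpow (ptr P (pureOp θ)) (-((a : ℂ) * ((u : ℂ) * Complex.I)))) *ᵥ
            (emb (x ∪ U) (spow τ (-(((a * u : ℝ) : ℂ) * Complex.I))) *ᵥ w)) := by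
      rw [hw]
      simp only [Matrix.mulVec_mulVec, Matrix.mul_assoc]
    rw [e3, cdg_l2n_emb_unitary _ _ (cdg_spow_unitary hσ (by simp)),
      cdg_l2n_emb_unitary _ _ (hpow_unitary (cdg_ptr_isHermitian θ P) (by simp)).1,
      cdg_l2n_emb_unitary _ _ (cdg_spow_unitary hτ (by simp))]
  have hR : l2n ((emb (x ∪ U) (spow (cd_rot θ x U h4.dxU τ (a * u)) (a : ℂ)) *
        emb U (hpow (ptr U (pureOp θ)) (-(a : ℂ)))) *ᵥ θ) = l2n w := by
    rw [(cd_rot_props θ x U h4.dxU hτ (a * u)).2.2.1, cd_rot_eq, conjTranspose_conjTranspose,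
      emb_mul, emb_mul, cdg_emb_Q]
    have e3 : (emb (x ∪ U) (cdg_Q θ x U h4.dxU (a * u))ᴴ * emb (x ∪ U) (spow τ (a : ℂ)) *
        emb U (hpow (ptr U (pureOp θ)) (((a * u : ℝ) : ℂ) * Complex.I)) *
        emb U (hpow (ptr U (pureOp θ)) (-(a : ℂ)))) *ᵥ θ
        = emb (x ∪ U) (cdg_Q θ x U h4.dxU (a * u))ᴴ *ᵥ w := by
      rw [hw]
      simp only [Matrix.mulVec_mulVec, Matrix.mul_assoc]
    rw [e3]
    refine cdg_l2n_emb_unitary _ _ ?_ _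
    rw [conjTranspose_conjTranspose]
    exact (cdg_Q_unitary θ x U h4.dxU (a * u)).2
  rw [hL, hR]


/-- LEAF S4-m4c (right line).  `‖G(1+iu)‖ = ‖σ_u^a Q_P^{-a} θ_u‖`, `θ_u = τ^{-iau} Q_U^{iau} θ`,
`σ_u = Q_P^{iau} σ Q_P^{-iau}` (= `cd_rot` with `v = -(a u)`). -/
theorem cd_G_right (θ : Cfg io → ℂ) {P x U F : Finset s} (h4 : cd_Four P x U F) (a u : ℝ)
    {σ : Matrix (CfgOn io (x ∪ P)) (CfgOn io (x ∪ P)) ℂ} (hσ : σ.PosDef)
    {τ : Matrix (CfgOn io (x ∪ U)) (CfgOn io (x ∪ U)) ℂ} (hτ : τ.PosDef) :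
    ‖cd_G θ P x U a σ τ (1 + (u : ℂ) * Complex.I)‖ =
      l2n ((emb (x ∪ P) (spow (cd_rot θ x P h4.dPx.symm σ (-(a * u))) (a : ℂ)) *
        emb P (hpow (ptr P (pureOp θ)) (-(a : ℂ)))) *ᵥ cd_thetaU θ x U τ (a * u)) := by
  set θu := cd_thetaU θ x U τ (a * u) with hθu
  set w : Cfg io → ℂ := emb (x ∪ P) (spow σ (a : ℂ)) *ᵥ
    (emb P (hpow (ptr P (pureOp θ)) (((-(a * u) : ℝ) : ℂ) * Complex.I)) *ᵥ
      (emb P (hpow (ptr P (pureOp θ)) (-(a : ℂ))) *ᵥ θu)) with hw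
  have hL : ‖cd_G θ P x U a σ τ (1 + (u : ℂ) * Complex.I)‖ = l2n w := by
    have e1 : (a : ℂ) * (1 + (u : ℂ) * Complex.I)
        = (((a * u : ℝ) : ℂ) * Complex.I) + (a : ℂ) := by push_cast; ring
    have e2 : -((a : ℂ) * (1 + (u : ℂ) * Complex.I))
        = (((-(a * u) : ℝ) : ℂ) * Complex.I) + (-(a : ℂ)) := by push_cast; ring
    have e3 : (a : ℂ) * (1 - (1 + (u : ℂ) * Complex.I)) = -((a * u : ℝ) : ℂ) * Complex.I := by
      push_cast; ring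
    have e4 : -((a : ℂ) * (1 - (1 + (u : ℂ) * Complex.I))) = ((a * u : ℝ) : ℂ) * Complex.I := by
      push_cast; ring
    change l2n _ = _
    rw [e4, e3, e2, e1, spow_add, hpow_add, emb_mul, emb_mul, spow_eq_hpow_of_posDef hτ]
    have e5 : (emb (x ∪ P) (spow σ (((a * u : ℝ) : ℂ) * Complex.I)) * emb (x ∪ P) (spow σ (a : ℂ)) *
        (emb P (hpow (ptr P (pureOp θ)) (((-(a * u) : ℝ) : ℂ) * Complex.I)) *
          emb P (hpow (ptr P (pureOp θ)) (-(a : ℂ)))) *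
        emb (x ∪ U) (hpow τ (-((a * u : ℝ) : ℂ) * Complex.I)) *
        emb U (hpow (ptr U (pureOp θ)) (((a * u : ℝ) : ℂ) * Complex.I))) *ᵥ θ
        = emb (x ∪ P) (spow σ (((a * u : ℝ) : ℂ) * Complex.I)) *ᵥ w := by
      rw [hw, hθu, cd_thetaU]
      simp only [Matrix.mulVec_mulVec, Matrix.mul_assoc]
    rw [e5, cdg_l2n_emb_unitary _ _ (cdg_spow_unitary hσ (by simp))]
  have hR : l2n ((emb (x ∪ P) (spow (cd_rot θ x P h4.dPx.symm σ (-(a * u))) (a : ℂ)) *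
        emb P (hpow (ptr P (pureOp θ)) (-(a : ℂ)))) *ᵥ θu) = l2n w := by
    rw [(cd_rot_props θ x P h4.dPx.symm hσ (-(a * u))).2.2.1, cd_rot_eq,
      conjTranspose_conjTranspose, emb_mul, emb_mul, cdg_emb_Q]
    have e3 : (emb (x ∪ P) (cdg_Q θ x P h4.dPx.symm (-(a * u)))ᴴ * emb (x ∪ P) (spow σ (a : ℂ)) *
        emb P (hpow (ptr P (pureOp θ)) (((-(a * u) : ℝ) : ℂ) * Complex.I)) *
        emb P (hpow (ptr P (pureOp θ)) (-(a : ℂ)))) *ᵥ θu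
        = emb (x ∪ P) (cdg_Q θ x P h4.dPx.symm (-(a * u)))ᴴ *ᵥ w := by
      rw [hw]
      simp only [Matrix.mulVec_mulVec, Matrix.mul_assoc]
    rw [e3]
    refine cdg_l2n_emb_unitary _ _ ?_ _
    rw [conjTranspose_conjTranspose]
    exact (cdg_Q_unitary θ x P h4.dPx.symm (-(a * u))).2
  rw [hL, hR]

/-- LEAF S4-m4d.  `θ_v` is a unit vector with the same `P` marginal as `θ`
(`cd_ptr_unitary_disjoint` with `A = x ∪ U`, `W = τ^{-iv} (1_x ⊗ ρ̂_U^{iv})`, `cd_split_emb`). -/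
theorem cd_thetaU_props {θ : Cfg io → ℂ} (hθ : star θ ⬝ᵥ θ = 1) {P x U F : Finset s}
    (h4 : cd_Four P x U F) {τ : Matrix (CfgOn io (x ∪ U)) (CfgOn io (x ∪ U)) ℂ} (hτ : τ.PosDef) (v : ℝ) :
    star (cd_thetaU θ x U τ v) ⬝ᵥ cd_thetaU θ x U τ v = 1 ∧
    ptr P (pureOp (cd_thetaU θ x U τ v)) = ptr P (pureOp θ) := by
  set W : Matrix (CfgOn io (x ∪ U)) (CfgOn io (x ∪ U)) ℂ :=
    hpow τ (-(v : ℂ) * Complex.I) * cdg_Q θ x U h4.dxU v with hW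
  have hWu : Wᴴ * W = 1 := by
    rw [hW, conjTranspose_mul]
    calc (cdg_Q θ x U h4.dxU v)ᴴ * (hpow τ (-(v : ℂ) * Complex.I))ᴴ
          * (hpow τ (-(v : ℂ) * Complex.I) * cdg_Q θ x U h4.dxU v)
        = (cdg_Q θ x U h4.dxU v)ᴴ * ((hpow τ (-(v : ℂ) * Complex.I))ᴴ
          * hpow τ (-(v : ℂ) * Complex.I)) * cdg_Q θ x U h4.dxU v := by
          simp only [Matrix.mul_assoc]
      _ = 1 := by
          rw [(hpow_unitary hτ.1 (by simp)).1, Matrix.mul_one, (cdg_Q_unitary θ x U h4.dxU v).1]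
  have hth : cd_thetaU θ x U τ v = emb (x ∪ U) W *ᵥ θ := by
    rw [cd_thetaU, hW, emb_mul, cdg_emb_Q]
  refine ⟨?_, ?_⟩
  · rw [← l2n_eq_one_iff, hth, cdg_l2n_emb_unitary _ _ hWu, l2n_eq_one_iff]
    exact hθ
  · rw [hth]
    refine cd_ptr_unitary_disjoint ?_ W hWu θ
    rw [Finset.disjoint_union_left]
    exact ⟨h4.dPx.symm, h4.dPU.symm⟩


theorem cdg_Q_conjTranspose' (θ : Cfg io → ℂ) (x U : Finset s) (h : Disjoint x U) (v : ℝ) :
    emb (x ∪ U) (cdg_Q θ x U h v)ᴴ = emb U (hpow (ptr U (pureOp θ)) (-(v : ℂ) * Complex.I)) := by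
  rw [cdg_Q_conjTranspose, cd_split_emb]

/-- LEAF S4-m4e.  `‖θ_v - θ‖ = ‖(τ_v^{-iv} - Q_U^{-iv}) θ‖` because `θ_v = Q_U^{iv} τ_v^{-iv} θ`. -/
theorem cd_thetaU_dist (θ : Cfg io → ℂ) (x U : Finset s) (h : Disjoint x U)
    {τ : Matrix (CfgOn io (x ∪ U)) (CfgOn io (x ∪ U)) ℂ} (hτ : τ.PosDef) (v : ℝ) :
    l2n (cd_thetaU θ x U τ v - θ) =
      l2n ((emb (x ∪ U) (hpow (cd_rot θ x U h τ v) (-(v : ℂ) * Complex.I)) -
        emb U (hpow (ptr U (pureOp θ)) (-(v : ℂ) * Complex.I))) *ᵥ θ) := by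
  obtain ⟨hu1, hu2⟩ := cdg_Q_unitary θ x U h v
  have hu2' : emb (x ∪ U) (cdg_Q θ x U h v) * emb (x ∪ U) (cdg_Q θ x U h v)ᴴ
      = (1 : Matrix (Cfg io) (Cfg io) ℂ) := by
    rw [← emb_mul, hu2, emb_one]
  have e0 : emb (x ∪ U) (hpow (cd_rot θ x U h τ v) (-(v : ℂ) * Complex.I))
      = emb (x ∪ U) (cdg_Q θ x U h v)ᴴ * emb (x ∪ U) (hpow τ (-(v : ℂ) * Complex.I)) *
        emb (x ∪ U) (cdg_Q θ x U h v) := by
    rw [(cd_rot_props θ x U h hτ v).2.2.2, cd_rot_eq, conjTranspose_conjTranspose, emb_mul, emb_mul]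
  have e2 : cd_thetaU θ x U τ v - θ
      = emb (x ∪ U) (cdg_Q θ x U h v) *ᵥ
        ((emb (x ∪ U) (hpow (cd_rot θ x U h τ v) (-(v : ℂ) * Complex.I)) -
        emb U (hpow (ptr U (pureOp θ)) (-(v : ℂ) * Complex.I))) *ᵥ θ) := by
    rw [e0, ← cdg_Q_conjTranspose' θ x U h v, Matrix.mulVec_mulVec, Matrix.mul_sub, hu2',
      ← Matrix.mul_assoc, ← Matrix.mul_assoc, hu2', Matrix.one_mul,
      Matrix.sub_mulVec, Matrix.one_mulVec, cd_thetaU, cdg_emb_Q]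
  rw [e2, cdg_l2n_emb_unitary _ _ hu1]

end G
theorem cdg_rpow_add_le {p q r : ℝ} (hp : 0 ≤ p) (hq : 0 ≤ q) (hr : 0 ≤ r) (hr1 : r ≤ 1) :
    (p + q) ^ r ≤ p ^ r + q ^ r := by
  have := NNReal.rpow_add_le_add_rpow ⟨p, hp⟩ ⟨q, hq⟩ hr hr1
  exact_mod_cast this

theorem cdg_quarter {C u lam a l δ : ℝ} (hC : 0 ≤ C) (hlam : 0 ≤ lam) (ha : 0 ≤ a) (hl : 0 ≤ l)
    (hδ0 : 0 ≤ δ) (h : δ ^ 2 ≤ C * (1 + u ^ 2) * (lam + a * l ^ 2)) :
    Real.sqrt δ ≤ C ^ (1 / 4 : ℝ) * (1 + |u|) ^ (1 / 2 : ℝ) *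
      (lam ^ (1 / 4 : ℝ) + a ^ (1 / 4 : ℝ) * l ^ (1 / 2 : ℝ)) := by
  have hu0 : 0 ≤ 1 + |u| := by positivity
  have h1 : Real.sqrt δ = (δ ^ 2) ^ (1 / 4 : ℝ) := by
    rw [Real.sqrt_eq_rpow, ← Real.rpow_natCast δ 2, ← Real.rpow_mul hδ0]
    norm_num
  have h2 : (1 + u ^ 2) ^ (1 / 4 : ℝ) ≤ (1 + |u|) ^ (1 / 2 : ℝ) := by
    have e : (1 + |u|) ^ (1 / 2 : ℝ) = ((1 + |u|) ^ 2) ^ (1 / 4 : ℝ) := by
      rw [← Real.rpow_natCast (1 + |u|) 2, ← Real.rpow_mul hu0]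
      norm_num
    rw [e]
    refine Real.rpow_le_rpow (by positivity) ?_ (by norm_num)
    have := abs_nonneg u
    nlinarith [sq_abs u]
  have h3 : (lam + a * l ^ 2) ^ (1 / 4 : ℝ) ≤ lam ^ (1 / 4 : ℝ) + a ^ (1 / 4 : ℝ) * l ^ (1 / 2 : ℝ) := by
    have e : a ^ (1 / 4 : ℝ) * l ^ (1 / 2 : ℝ) = (a * l ^ 2) ^ (1 / 4 : ℝ) := by
      rw [Real.mul_rpow ha (by positivity), ← Real.rpow_natCast l 2, ← Real.rpow_mul hl]
      norm_num
    rw [e]
    exact cdg_rpow_add_le hlam (by positivity) (by norm_num) (by norm_num)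
  rw [h1]
  calc (δ ^ 2) ^ (1 / 4 : ℝ) ≤ (C * (1 + u ^ 2) * (lam + a * l ^ 2)) ^ (1 / 4 : ℝ) :=
        Real.rpow_le_rpow (by positivity) h (by norm_num)
    _ = C ^ (1 / 4 : ℝ) * (1 + u ^ 2) ^ (1 / 4 : ℝ) * (lam + a * l ^ 2) ^ (1 / 4 : ℝ) := by
        rw [Real.mul_rpow (by positivity) (by positivity), Real.mul_rpow hC (by positivity)]
    _ ≤ _ := by gcongr

/-- LEAF S4-m5a (the two boundary bounds with a common slack `λ = λ(u) ≥ 0`).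
Left: m4b + m2 applied to `τ_u` (`λ` := the slack of m2, so the left bound is an equality).
Right: m4c + m1 on the pair `(x, P)` for the unit vector `θ_u` (same `P` marginal: m4d) and `σ_u`;
m3: `S(x|P)_{θ_u} ≥ S(x|P)_θ - C ℓ √‖θ_u - θ‖`; m4e + m2: `‖θ_u - θ‖² ≤ C (1+u²)(λ + a ℓ²)`;
`(C (1+u²)(λ + aℓ²))^{1/4} ≤ C' (1+|u|)^{1/2} (λ^{1/4} + a^{1/4} ℓ^{1/2})`. -/
theorem cd_G_lines :
    ∃ c A : ℝ, 0 < c ∧ 0 < A ∧
      ∀ (s : Type) [DecidableEq s] [Fintype s] (io : s → Type)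
        [∀ y, Fintype (io y)] [∀ y, DecidableEq (io y)]
        (θ : Cfg io → ℂ) (P x U F : Finset s), star θ ⬝ᵥ θ = 1 → cd_Four P x U F →
        ∀ a : ℝ, 0 < a → a * cd_ell io x ≤ c →
        ∀ (σ : Matrix (CfgOn io (x ∪ P)) (CfgOn io (x ∪ P)) ℂ)
          (τ : Matrix (CfgOn io (x ∪ U)) (CfgOn io (x ∪ U)) ℂ),
          σ.PosDef → σ.trace.re ≤ 1 → τ.PosDef → τ.trace.re ≤ 1 →
          ∀ u : ℝ, ∃ lam : ℝ, 0 ≤ lam ∧
            ‖cd_G θ P x U a σ τ ((u : ℂ) * Complex.I)‖ ≤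
              Real.exp (-(a * centr (pureOp θ) x U) + A * a ^ 2 * (cd_ell io x) ^ 2 - lam) ∧
            ‖cd_G θ P x U a σ τ (1 + (u : ℂ) * Complex.I)‖ ≤
              Real.exp (-(a * centr (pureOp θ) x P) + A * a ^ 2 * (cd_ell io x) ^ 2 +
                A * a * cd_ell io x * (1 + |u|) ^ (1 / 2 : ℝ) *
                  (lam ^ (1 / 4 : ℝ) + a ^ (1 / 4 : ℝ) * (cd_ell io x) ^ (1 / 2 : ℝ))) := by
  obtain ⟨c1, Cb, hc1, hCb, Hb⟩ := cd_boundary_bound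
  obtain ⟨c2, C₀, C, hc2, hC₀, hC, Hs⟩ := cd_state_movement
  obtain ⟨Ca, hCa, Ha⟩ := cd_afw_pure
  refine ⟨min c1 c2, max (max C₀ Cb) (Ca * C ^ (1 / 4 : ℝ)), lt_min hc1 hc2,
    lt_max_of_lt_left (lt_max_of_lt_left hC₀), ?_⟩
  intro s _ _ io _ _ θ P x U F hθ h4 a ha hac σ τ hσ hσ1 hτ hτ1 u
  set A := max (max C₀ Cb) (Ca * C ^ (1 / 4 : ℝ)) with hA
  have hA0 : C₀ ≤ A := (le_max_left _ _).trans (le_max_left _ _)
  have hAb : Cb ≤ A := (le_max_right _ _).trans (le_max_left _ _)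
  have hAa : Ca * C ^ (1 / 4 : ℝ) ≤ A := le_max_right _ _
  set l := cd_ell io x with hl
  have hl1 : 1 ≤ l := cd_one_le_ell hθ x
  have hl0 : 0 ≤ l := by linarith
  -- the rotated matrices
  obtain ⟨hτu, hτut, -, -⟩ := cd_rot_props θ x U h4.dxU hτ (a * u)
  obtain ⟨hσu, hσut, -, -⟩ := cd_rot_props θ x P h4.dPx.symm hσ (-(a * u))
  obtain ⟨hM0, hlam, hmove⟩ := Hs s io θ x U hθ h4.dxU a u ha (hac.trans (min_le_right _ _))
    (cd_rot θ x U h4.dxU τ (a * u)) hτu (by rw [hτut]; exact hτ1)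
  rw [← cd_thetaU_dist θ x U h4.dxU hτ (a * u), ← cd_G_left θ h4 a u hσ hτ] at hmove
  rw [← cd_G_left θ h4 a u hσ hτ] at hM0 hlam
  set M := ‖cd_G θ P x U a σ τ ((u : ℂ) * Complex.I)‖ with hM
  set lam := -(a * centr (pureOp θ) x U) + C₀ * a ^ 2 * l ^ 2 - Real.log M with hlamdef
  refine ⟨lam, hlam, ?_, ?_⟩
  · have e : M = Real.exp (-(a * centr (pureOp θ) x U) + C₀ * a ^ 2 * l ^ 2 - lam) := by
      rw [hlamdef, sub_sub_cancel, Real.exp_log hM0]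
    rw [e]
    apply Real.exp_le_exp.2
    have : C₀ * a ^ 2 * l ^ 2 ≤ A * a ^ 2 * l ^ 2 := by gcongr
    linarith
  · obtain ⟨hθu1, hθuP⟩ := cd_thetaU_props hθ h4 hτ (a * u)
    rw [cd_G_right θ h4 a u hσ hτ, ← hθuP]
    refine (Hb s io (cd_thetaU θ x U τ (a * u)) x P hθu1 h4.dPx.symm a ha
      (hac.trans (min_le_left _ _)) _ hσu.posSemidef (by rw [hσut]; exact hσ1)).trans ?_
    apply Real.exp_le_exp.2
    have h5 := Ha s io θ (cd_thetaU θ x U τ (a * u)) x P hθ hθu1 h4.dPx.symm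
    have h6 := cdg_quarter hC.le hlam ha.le hl0 (l2n_nonneg _) hmove
    rw [← hl] at h5
    set δ := l2n (cd_thetaU θ x U τ (a * u) - θ) with hδ
    set R := (1 + |u|) ^ (1 / 2 : ℝ) * (lam ^ (1 / 4 : ℝ) + a ^ (1 / 4 : ℝ) * l ^ (1 / 2 : ℝ)) with hR
    have hR0 : 0 ≤ R := by positivity
    have h7 : Ca * l * Real.sqrt δ ≤ A * l * R := by
      calc Ca * l * Real.sqrt δ ≤ Ca * l * (C ^ (1 / 4 : ℝ) * R) := by
            rw [hR, ← mul_assoc (C ^ (1 / 4 : ℝ))]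
            gcongr
        _ = (Ca * C ^ (1 / 4 : ℝ)) * l * R := by ring
        _ ≤ A * l * R := by gcongr
    have h8 : centr (pureOp θ) x P - A * l * R ≤ centr (pureOp (cd_thetaU θ x U τ (a * u))) x P := by
      have := (abs_le.1 h5).1
      linarith
    have h9 : Cb * a ^ 2 * l ^ 2 ≤ A * a ^ 2 * l ^ 2 := by gcongr
    have h10 : a * (centr (pureOp θ) x P - A * l * R)
        ≤ a * centr (pureOp (cd_thetaU θ x U τ (a * u))) x P := by gcongr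
    have h11 : A * a * l * (1 + |u|) ^ (1 / 2 : ℝ) *
        (lam ^ (1 / 4 : ℝ) + a ^ (1 / 4 : ℝ) * l ^ (1 / 2 : ℝ)) = a * (A * l * R) := by
      rw [hR]; ring
    rw [h11]
    linarith

/-- LEAF S4-m5 (faithful case).  m5a, `cd_young_bookkeeping (2 A)`, m4a and
`StripNice.paired_three_lines_vec` with `B = exp (-a(d_U + d_P) + C' a^{5/4} ℓ²)`, `2 κ = C' a^{5/4} ℓ²`. -/
theorem cd_movement_faithful :
    ∃ c C : ℝ, 0 < c ∧ 0 < C ∧
      ∀ (s : Type) [DecidableEq s] [Fintype s] (io : s → Type)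
        [∀ y, Fintype (io y)] [∀ y, DecidableEq (io y)]
        (θ : Cfg io → ℂ) (P x U F : Finset s), star θ ⬝ᵥ θ = 1 → cd_Four P x U F →
        ∀ a : ℝ, 0 < a → a * cd_ell io x ≤ c →
        ∀ (σ : Matrix (CfgOn io (x ∪ P)) (CfgOn io (x ∪ P)) ℂ)
          (τ : Matrix (CfgOn io (x ∪ U)) (CfgOn io (x ∪ U)) ℂ),
          σ.PosDef → σ.trace.re ≤ 1 → τ.PosDef → τ.trace.re ≤ 1 →
          ‖cd_G θ P x U a σ τ (1 / 2)‖ ≤
            Real.exp (-(a / 2 * (centr (pureOp θ) x P + centr (pureOp θ) x U)) +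
              C * a ^ (5 / 4 : ℝ) * (cd_ell io x) ^ 2) := by
  obtain ⟨c, A, hc, hA, H⟩ := cd_G_lines
  obtain ⟨C', hC', HY⟩ := cd_young_bookkeeping (2 * A) (by positivity)
  refine ⟨min c 1, 5 * C' / 8, lt_min hc one_pos, by positivity, ?_⟩
  intro s _ _ io _ _ θ P x U F hθ h4 a ha hac σ τ hσ hσ1 hτ hτ1
  set l := cd_ell io x with hl
  have hl1 : 1 ≤ l := cd_one_le_ell hθ x
  set dP := centr (pureOp θ) x P with hdP
  set dU := centr (pureOp θ) x U with hdU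
  set K := C' * a ^ (5 / 4 : ℝ) * l ^ 2 with hK
  have hK0 : 0 ≤ K := by positivity
  have key := (cd_G_stripNice θ P x U a σ τ).paired_three_lines_vec (κ := K / 2)
    (B := Real.exp (-(a * (dU + dP)) + K)) (by positivity) (fun u => by
      obtain ⟨lam, hlam, h1, h2⟩ := H s io θ P x U F hθ h4 a ha (hac.trans (min_le_left _ _))
        σ τ hσ hσ1 hτ hτ1 u
      have h3 := HY a l lam u ha hl1 (hac.trans (min_le_right _ _)) hlam
      refine (mul_le_mul h1 h2 (norm_nonneg _) (Real.exp_pos _).le).trans ?_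
      rw [← Real.exp_add, ← Real.exp_add]
      apply Real.exp_le_exp.2
      rw [← hl, ← hdP, ← hdU]
      set R := (1 + |u|) ^ (1 / 2 : ℝ) * (lam ^ (1 / 4 : ℝ) + a ^ (1 / 4 : ℝ) * l ^ (1 / 2 : ℝ))
        with hR
      have hR0 : 0 ≤ R := by positivity
      have e1 : A * a * l * (1 + |u|) ^ (1 / 2 : ℝ) *
          (lam ^ (1 / 4 : ℝ) + a ^ (1 / 4 : ℝ) * l ^ (1 / 2 : ℝ)) = A * a * l * R := by
        rw [hR]; ring
      have e2 : 2 * A * a * l * (1 + |u|) ^ (1 / 2 : ℝ) *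
          (lam ^ (1 / 4 : ℝ) + a ^ (1 / 4 : ℝ) * l ^ (1 / 2 : ℝ)) = 2 * (A * a * l * R) := by
        rw [hR]; ring
      rw [e2] at h3
      rw [e1]
      have h4 : 0 ≤ A * a * l * R := by positivity
      have e3 : C' * a ^ (5 / 4 : ℝ) * l ^ 2 * (1 + u ^ 2) = K + 2 * (K / 2) * u ^ 2 := by
        rw [hK]; ring
      rw [e3] at h3
      linarith)
  rw [← Real.exp_add] at key
  have e4 : Real.exp (-(a * (dU + dP)) + K + K / 2 / 2)
      = Real.exp (-(a / 2 * (dP + dU)) + 5 * C' / 8 * a ^ (5 / 4 : ℝ) * l ^ 2) ^ 2 := by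
    rw [← Real.exp_nat_mul]
    congr 1
    rw [hK]; push_cast; ring
  rw [e4] at key
  exact (pow_le_pow_iff_left₀ (norm_nonneg _) (Real.exp_pos _).le two_ne_zero).1 key

theorem cdg_spowS_ofReal_nonneg {x t : ℝ} (hx : 0 ≤ x) (ht : 0 < t) :
    spowS (t : ℂ) x = ((x ^ t : ℝ) : ℂ) := by
  rcases hx.lt_or_eq with h | h
  · exact spowS_ofReal h t
  · subst h
    rw [spowS_nonpos le_rfl, Real.zero_rpow ht.ne']
    simp

/-- LEAF S4-m6a (mollification).  For PSD `σ` with `Tr σ ≤ 1` the matrices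
`σ_ε = (1 + ε card)⁻¹ (σ + ε 1)`, `ε > 0`, are PD with `Tr σ_ε ≤ 1`, and `spow σ_ε t → spow σ t` as `ε → 0+`
for every real `t > 0` (`σ_ε = mfun (affine) σ`, `mfun_mfun`-type composition, `tendsto_mfun`;
scalar fact: `((x + ε)/(1 + ε N))^t → x^t`, also at `x = 0`). -/
theorem cd_mollify {n : Type} [Fintype n] [DecidableEq n] {σ : Matrix n n ℂ} (hσ : σ.PosSemidef)
    (h1 : σ.trace.re ≤ 1) {t : ℝ} (ht : 0 < t) :
    ∃ σε : ℝ → Matrix n n ℂ, (∀ ε : ℝ, 0 < ε → (σε ε).PosDef ∧ (σε ε).trace.re ≤ 1) ∧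
      Filter.Tendsto (fun ε => spow (σε ε) (t : ℂ)) (nhdsWithin 0 (Set.Ioi 0)) (nhds (spow σ (t : ℂ))) := by
  set N : ℝ := (Fintype.card n : ℝ) with hN
  have hN0 : 0 ≤ N := by positivity
  refine ⟨fun ε => (((1 + ε * N)⁻¹ : ℝ) : ℂ) • σ + ((ε * (1 + ε * N)⁻¹ : ℝ) : ℂ) • 1, ?_, ?_⟩
  · intro ε hε
    have hp : 0 < 1 + ε * N := by positivity
    refine ⟨?_, ?_⟩
    · refine Matrix.PosDef.posSemidef_add (hσ.smul ?_) (Matrix.PosDef.one.smul ?_)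
      · exact_mod_cast (inv_pos.2 hp).le
      · exact_mod_cast mul_pos hε (inv_pos.2 hp)
    · rw [Matrix.trace_add, Matrix.trace_smul, Matrix.trace_smul, Matrix.trace_one, smul_eq_mul,
        smul_eq_mul, Complex.add_re, Complex.re_ofReal_mul, Complex.re_ofReal_mul, Complex.natCast_re,
        ← hN]
      have h2 : (1 + ε * N)⁻¹ * σ.trace.re ≤ (1 + ε * N)⁻¹ * 1 := by gcongr
      have h3 : (1 + ε * N)⁻¹ * 1 + ε * (1 + ε * N)⁻¹ * N = 1 := by field_simp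
      linarith
  · have e : (fun ε : ℝ => spow ((((1 + ε * N)⁻¹ : ℝ) : ℂ) • σ + ((ε * (1 + ε * N)⁻¹ : ℝ) : ℂ) • 1)
        (t : ℂ)) = fun ε : ℝ =>
          mfun (fun y => spowS (t : ℂ) ((1 + ε * N)⁻¹ * y + ε * (1 + ε * N)⁻¹)) σ := by
      funext ε
      exact mfun_affine (spowS (t : ℂ)) hσ.1 _ _
    rw [e]
    refine tendsto_mfun hσ.1 _ (spowS (t : ℂ)) fun i => ?_
    set y := hσ.1.eigenvalues i with hy
    have hy0 : 0 ≤ y := hσ.eigenvalues_nonneg i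
    rw [cdg_spowS_ofReal_nonneg hy0 ht]
    have hev : (fun ε : ℝ => (((((1 + ε * N)⁻¹ * y + ε * (1 + ε * N)⁻¹) ^ t : ℝ)) : ℂ))
        =ᶠ[nhdsWithin 0 (Set.Ioi 0)]
        fun ε : ℝ => spowS (t : ℂ) ((1 + ε * N)⁻¹ * y + ε * (1 + ε * N)⁻¹) := by
      filter_upwards [self_mem_nhdsWithin] with ε hε
      have hε' : (0 : ℝ) < ε := hε
      rw [cdg_spowS_ofReal_nonneg (by positivity) ht]
    refine Filter.Tendsto.congr' hev ?_
    refine (Complex.continuous_ofReal.tendsto _).comp ?_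
    have hc : ContinuousAt (fun ε : ℝ => ((1 + ε * N)⁻¹ * y + ε * (1 + ε * N)⁻¹) ^ t) 0 := by
      refine ContinuousAt.rpow_const ?_ (Or.inr ht.le)
      have h0 : (1 + (0 : ℝ) * N) ≠ 0 := by norm_num
      fun_prop (disch := assumption)
    have := hc.tendsto
    simp only [zero_mul, add_zero, inv_one, one_mul] at this
    exact this.mono_left nhdsWithin_le_nhds

theorem cdg_G_half {s : Type} [DecidableEq s] [Fintype s] {io : s → Type}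
    [∀ y, Fintype (io y)] [∀ y, DecidableEq (io y)] (θ : Cfg io → ℂ) (P x U : Finset s) (a : ℝ)
    (σ : Matrix (CfgOn io (x ∪ P)) (CfgOn io (x ∪ P)) ℂ)
    (τ : Matrix (CfgOn io (x ∪ U)) (CfgOn io (x ∪ U)) ℂ) :
    ‖cd_G θ P x U a σ τ (1 / 2)‖ =
      l2n ((emb (x ∪ P) (spow σ ((a / 2 : ℝ) : ℂ)) *
                emb P (hpow (ptr P (pureOp θ)) (-((a / 2 : ℝ) : ℂ))) *
                emb (x ∪ U) (spow τ ((a / 2 : ℝ) : ℂ)) *
                emb U (hpow (ptr U (pureOp θ)) (-((a / 2 : ℝ) : ℂ)))) *ᵥ θ) := by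
  have e1 : (a : ℂ) * (1 - 1 / 2) = ((a / 2 : ℝ) : ℂ) := by push_cast; ring
  have e2 : (a : ℂ) * (1 / 2) = ((a / 2 : ℝ) : ℂ) := by push_cast; ring
  change l2n _ = _
  rw [e1, e2]

theorem cdg_continuous_emb {s : Type} [DecidableEq s] [Fintype s] {io : s → Type}
    [∀ y, Fintype (io y)] [∀ y, DecidableEq (io y)] (A : Finset s) :
    Continuous (fun K : Matrix (CfgOn io A) (CfgOn io A) ℂ => emb A K) :=
  LinearMap.continuous_of_finiteDimensional (embEHom (cfgSplit A)).toLinearMap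

theorem cdg_continuous_l2n {n : Type} [Fintype n] : Continuous (fun v : n → ℂ => l2n v) := by
  unfold l2n
  exact continuous_norm.comp (PiLp.continuous_toLp 2 _)

theorem cdg_le_of_tendsto {s : Type} [DecidableEq s] [Fintype s] {io : s → Type}
    [∀ y, Fintype (io y)] [∀ y, DecidableEq (io y)] {α : Type} {lf : Filter α} [lf.NeBot]
    (A B : Finset s) (S : α → Matrix (CfgOn io A) (CfgOn io A) ℂ)
    (T : α → Matrix (CfgOn io B) (CfgOn io B) ℂ) (S0 : Matrix (CfgOn io A) (CfgOn io A) ℂ)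
    (T0 : Matrix (CfgOn io B) (CfgOn io B) ℂ) (hS : Filter.Tendsto S lf (nhds S0))
    (hT : Filter.Tendsto T lf (nhds T0)) (X Y : Matrix (Cfg io) (Cfg io) ℂ) (θ : Cfg io → ℂ) (b : ℝ)
    (h : ∀ᶠ k in lf, l2n ((emb A (S k) * X * emb B (T k) * Y) *ᵥ θ) ≤ b) :
    l2n ((emb A S0 * X * emb B T0 * Y) *ᵥ θ) ≤ b := by
  have hΦ : Continuous (fun p : Matrix (CfgOn io A) (CfgOn io A) ℂ ×
      Matrix (CfgOn io B) (CfgOn io B) ℂ => l2n ((emb A p.1 * X * emb B p.2 * Y) *ᵥ θ)) := by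
    refine cdg_continuous_l2n.comp ?_
    refine Continuous.matrix_mulVec ?_ continuous_const
    exact Continuous.matrix_mul (Continuous.matrix_mul (Continuous.matrix_mul
      ((cdg_continuous_emb _).comp continuous_fst) continuous_const)
      ((cdg_continuous_emb _).comp continuous_snd)) continuous_const
  have hlim := (hΦ.tendsto (S0, T0)).comp (hS.prodMk_nhds hT)
  exact le_of_tendsto hlim h

/-- **lem:movement** (conditional movement estimate).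
LEAF S4-m6: from m5 and m6a (`t = a/2`): the left side is a continuous function of the two matrices
`spow σ (a/2)`, `spow τ (a/2)`; `le_of_tendsto`. -/
theorem cd_movement :
    ∃ c C : ℝ, 0 < c ∧ 0 < C ∧
      ∀ (s : Type) [DecidableEq s] [Fintype s] (io : s → Type)
        [∀ y, Fintype (io y)] [∀ y, DecidableEq (io y)]
        (θ : Cfg io → ℂ) (P x U F : Finset s), star θ ⬝ᵥ θ = 1 → cd_Four P x U F →
        ∀ a : ℝ, 0 < a → a * cd_ell io x ≤ c →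
        ∀ (σ : Matrix (CfgOn io (x ∪ P)) (CfgOn io (x ∪ P)) ℂ)
          (τ : Matrix (CfgOn io (x ∪ U)) (CfgOn io (x ∪ U)) ℂ),
          σ.PosSemidef → σ.trace.re ≤ 1 → τ.PosSemidef → τ.trace.re ≤ 1 →
          l2n ((emb (x ∪ P) (spow σ ((a / 2 : ℝ) : ℂ)) *
                emb P (hpow (ptr P (pureOp θ)) (-((a / 2 : ℝ) : ℂ))) *
                emb (x ∪ U) (spow τ ((a / 2 : ℝ) : ℂ)) *
                emb U (hpow (ptr U (pureOp θ)) (-((a / 2 : ℝ) : ℂ)))) *ᵥ θ) ≤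
            Real.exp (-(a / 2 * (centr (pureOp θ) x P + centr (pureOp θ) x U)) +
              C * a ^ (5 / 4 : ℝ) * (cd_ell io x) ^ 2) := by
  obtain ⟨c, C, hc, hC, H⟩ := cd_movement_faithful
  refine ⟨c, C, hc, hC, ?_⟩
  intro s _ _ io _ _ θ P x U F hθ h4 a ha hac σ τ hσ hσ1 hτ hτ1
  obtain ⟨σε, hσε, hσt⟩ := cd_mollify hσ hσ1 (t := a / 2) (by positivity)
  obtain ⟨τε, hτε, hτt⟩ := cd_mollify hτ hτ1 (t := a / 2) (by positivity)
  refine cdg_le_of_tendsto (x ∪ P) (x ∪ U) _ _ _ _ hσt hτt _ _ θ _ ?_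
  filter_upwards [self_mem_nhdsWithin] with ε hε
  have hε' : (0 : ℝ) < ε := hε
  rw [← cdg_G_half]
  exact H s io θ P x U F hθ h4 a ha hac (σε ε) (τε ε) (hσε ε hε').1 (hσε ε hε').2
    (hτε ε hε').1 (hτε ε hε').2

end Claimed.Agent.R296
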