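import Claimed.Agent.R296.CondTwoB
import Claimed.Agent.R296.PurePow
import Claimed.Agent.R296.LocEmb
import Claimed.Agent.R296.EntSiteAFW

/-!
# Row 296, P1 Section 4.2: lem:movement, part A (PACKAGE S4-MOVE-A): from the two-party layer to sites

Statements: helper9 + helper57 (Sec 4 sub-captain).  The OWNER of this file (see `subtask`) replaces the `sorry`s;
new auxiliary lemmas carry the prefix `cdm_`.  Do not change statements without telling helper57.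
Proofs: helper98.
Bridge lemmas (sites ↔ splitting `cd_split x U h`), then m1 (boundary bound), m2 (state movement),
m3 (AFW for pure states, from ENT: `centr_afw`, `trDist_pureOp_le`, `afwFun_le_sqrt`, `abs_centr_le`).
-/

set_option autoImplicit false
set_option linter.unusedSectionVars false

namespace Claimed.Agent.R296

open Matrix
open scoped MatrixOrder Matrix.Norms.L2Operator ComplexOrder

section Bridge

variable {s : Type} [DecidableEq s] [Fintype s] {io : s → Type}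
  [∀ y, Fintype (io y)] [∀ y, DecidableEq (io y)]

theorem cd_ell_eq (x : Finset s) : cd_ell io x = cd_l (CfgOn io x) := by
  unfold cd_ell cd_l; rw [cd_card_cfgOn]

theorem cd_centr_eq (ρ : Matrix (Cfg io) (Cfg io) ℂ) (x U : Finset s) (h : Disjoint x U) :
    centr ρ x U = cd_S (cd_split x U h) (ptr (x ∪ U) ρ) := by
  unfold centr cd_S ent; rw [cd_split_ptr]

/-- unit vector in the two normalisations used in R296 -/
theorem cd_unit_iff (θ : Cfg io → ℂ) : star θ ⬝ᵥ θ = 1 ↔ ∑ i, ‖θ i‖ ^ 2 = 1 := by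
  rw [star_dotProduct_self_eq]
  exact_mod_cast Iff.rfl

theorem cd_l2n_unit {θ : Cfg io → ℂ} (hθ : star θ ⬝ᵥ θ = 1) : l2n θ = 1 :=
  (l2n_eq_one_iff θ).2 hθ

theorem cd_isDensity_ptr {θ : Cfg io → ℂ} (hθ : star θ ⬝ᵥ θ = 1) (A : Finset s) :
    IsDensity (ptr A (pureOp θ)) :=
  ptr_isDensity (pureOp_isDensity ((cd_unit_iff θ).1 hθ)) A

/-- a unit vector lives on a nonempty configuration space -/
theorem cdm_nonempty_cfg {θ : Cfg io → ℂ} (hθ : star θ ⬝ᵥ θ = 1) : Nonempty (Cfg io) := by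
  by_contra hne
  rw [not_nonempty_iff] at hne
  have : star θ ⬝ᵥ θ = 0 := by simp [dotProduct]
  rw [this] at hθ
  exact zero_ne_one hθ

/-- `1 ≤ ℓ` as soon as there is a unit vector (all local dimensions are then positive) -/
theorem cd_one_le_ell {θ : Cfg io → ℂ} (hθ : star θ ⬝ᵥ θ = 1) (x : Finset s) : 1 ≤ cd_ell io x := by
  obtain ⟨σ⟩ := cdm_nonempty_cfg hθ
  have : Nonempty (CfgOn io x) := ⟨crOn x σ⟩
  rw [cd_ell_eq]
  exact cd_l_ge_one _

/-- `ℓ = 1 + log dim x` -/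
theorem cdm_ell_eq_logDim {θ : Cfg io → ℂ} (hθ : star θ ⬝ᵥ θ = 1) (x : Finset s) :
    cd_ell io x = 1 + logDim io x := by
  obtain ⟨σ⟩ := cdm_nonempty_cfg hθ
  have hne : ∀ y ∈ x, ((Fintype.card (io y) : ℕ) : ℝ) ≠ 0 := fun y _ => by
    have : Nonempty (io y) := ⟨σ y⟩
    exact_mod_cast Fintype.card_ne_zero
  unfold cd_ell cd_dim logDim
  rw [Nat.cast_prod, Real.log_mul (Real.exp_pos 1).ne' (Finset.prod_ne_zero_iff.2 hne), Real.log_exp,
    Real.log_prod hne]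

/-- NORM RULE on `x ∪ U` with one factor living on `U`:
`‖T (1_x ⊗ Y) θ‖ = ‖T (1_x ⊗ Y) √ρ_{xU}‖₂`.  (`cd_split_emb`, `emb_mul`, `l2n_emb_mulVec_eq_hsn`.) -/
theorem cd_norm_rule (θ : Cfg io → ℂ) (x U : Finset s) (h : Disjoint x U)
    (T : Matrix (CfgOn io (x ∪ U)) (CfgOn io (x ∪ U)) ℂ) (Y : Matrix (CfgOn io U) (CfgOn io U) ℂ) :
    l2n ((emb (x ∪ U) T * emb U Y) *ᵥ θ) =
      hsn (T * embE (cd_split x U h) Y * spow (ptr (x ∪ U) (pureOp θ)) (1 / 2)) := by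
  rw [← cd_split_emb x U h Y, ← emb_mul, l2n_emb_mulVec_eq_hsn]

/-- the same for a difference -/
theorem cd_norm_rule_sub (θ : Cfg io → ℂ) (x U : Finset s) (h : Disjoint x U)
    (T : Matrix (CfgOn io (x ∪ U)) (CfgOn io (x ∪ U)) ℂ) (Y : Matrix (CfgOn io U) (CfgOn io U) ℂ) :
    l2n ((emb (x ∪ U) T - emb U Y) *ᵥ θ) =
      hsn ((T - embE (cd_split x U h) Y) * spow (ptr (x ∪ U) (pureOp θ)) (1 / 2)) := by
  rw [← cd_split_emb x U h Y, emb_eq_embE, emb_eq_embE, ← embE_sub, ← emb_eq_embE,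
    l2n_emb_mulVec_eq_hsn]

/-- `‖τ^a Q^{-a} θ‖² = Tr τ^{2a} K` -/
theorem cd_norm_sq_eq_trace (θ : Cfg io → ℂ) (x U : Finset s) (h : Disjoint x U) (a : ℝ)
    {τ : Matrix (CfgOn io (x ∪ U)) (CfgOn io (x ∪ U)) ℂ} (hτ : τ.PosSemidef) :
    l2n ((emb (x ∪ U) (spow τ (a : ℂ)) * emb U (hpow (ptr U (pureOp θ)) (-(a : ℂ)))) *ᵥ θ) ^ 2 =
      (spow τ ((2 * a : ℝ) : ℂ) * cd_K (cd_split x U h) (ptr (x ∪ U) (pureOp θ)) a).trace.re := by
  have hρ : (ptr (x ∪ U) (pureOp θ)).PosSemidef := by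
    rw [ptr_eq_ptrE]; exact ptrE_posSemidef _ (pureOp_posSemidef θ)
  rw [cd_norm_rule θ x U h, hsn_sq, cd_trace_spow_mul_K _ hρ hτ a]
  unfold cd_Q
  rw [cd_split_ptr]

end Bridge

/-- LEAF S4-m1 (boundary bound = Hölder + eq:conditional-schatten on a purification).
`‖τ^a (1⊗ρ̂_U)^{-a} θ‖² = Tr τ^{2a} K ≤ Z ≤ exp(-2a S(x|U) + C a² ℓ²)`.
NORM RULE on `A = x ∪ U`, `cd_split_ptr/emb`, `trace_spow_mul_le`, `cd_two_schatten`. -/
theorem cd_boundary_bound :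
    ∃ c C : ℝ, 0 < c ∧ 0 < C ∧
      ∀ (s : Type) [DecidableEq s] [Fintype s] (io : s → Type)
        [∀ y, Fintype (io y)] [∀ y, DecidableEq (io y)]
        (θ : Cfg io → ℂ) (x U : Finset s), star θ ⬝ᵥ θ = 1 → Disjoint x U →
        ∀ a : ℝ, 0 < a → a * cd_ell io x ≤ c →
        ∀ τ : Matrix (CfgOn io (x ∪ U)) (CfgOn io (x ∪ U)) ℂ, τ.PosSemidef → τ.trace.re ≤ 1 →
          l2n ((emb (x ∪ U) (spow τ (a : ℂ)) * emb U (hpow (ptr U (pureOp θ)) (-(a : ℂ)))) *ᵥ θ) ≤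
            Real.exp (-(a * centr (pureOp θ) x U) + C * a ^ 2 * (cd_ell io x) ^ 2) := by
  obtain ⟨c, C, hc, hC, H⟩ := cd_two_schatten
  refine ⟨min c (1 / 4), C, lt_min hc (by norm_num), hC, ?_⟩
  intro s _ _ io _ _ θ x U hθ hxU a ha hac τ hτ hτ1
  have hℓ := cd_one_le_ell hθ x
  have hρ := cd_isDensity_ptr hθ (x ∪ U)
  have ha4 : a ≤ 1 / 4 := by
    have h1 : a * cd_ell io x ≤ 1 / 4 := hac.trans (min_le_right _ _)
    nlinarith
  have hac' : a * cd_l (CfgOn io x) ≤ c := by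
    rw [← cd_ell_eq]; exact hac.trans (min_le_left _ _)
  obtain ⟨_, hZ⟩ := H _ _ _ (cd_split x U hxU) _ hρ a ha hac'
  have hH := cd_two_holder (cd_split x U hxU) hρ hτ hτ1 ha (by linarith)
  rw [← cd_norm_sq_eq_trace θ x U hxU a hτ, ← cd_centr_eq, ← cd_ell_eq] at *
  have hle := hH.trans hZ
  have hsq : Real.exp (-(2 * a * centr (pureOp θ) x U) + C * a ^ 2 * cd_ell io x ^ 2) ≤
      Real.exp (-(a * centr (pureOp θ) x U) + C * a ^ 2 * (cd_ell io x) ^ 2) ^ 2 := by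
    rw [← Real.exp_nat_mul]
    apply Real.exp_le_exp.2
    have : 0 ≤ C * a ^ 2 * cd_ell io x ^ 2 := by positivity
    push_cast
    linarith
  exact (pow_le_pow_iff_left₀ (l2n_nonneg _) (Real.exp_pos _).le two_ne_zero).1 (hle.trans hsq)

/-- LEAF S4-m2 (eq:conditional-state-movement).  `τ` PD on `x ∪ U`, `Tr τ ≤ 1`,
`M = ‖τ^a Q^{-a} θ‖`, `λ = -a S(x|U) + C₀ a² ℓ² - log M`.  Then `M > 0`, `λ ≥ 0` and
`‖τ^{-iau} θ - Q^{-iau} θ‖² ≤ C (1+u²)(λ + a ℓ²)`.   (= `cd_two_stability` + NORM RULE.) -/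
theorem cd_state_movement :
    ∃ c C₀ C : ℝ, 0 < c ∧ 0 < C₀ ∧ 0 < C ∧
      ∀ (s : Type) [DecidableEq s] [Fintype s] (io : s → Type)
        [∀ y, Fintype (io y)] [∀ y, DecidableEq (io y)]
        (θ : Cfg io → ℂ) (x U : Finset s), star θ ⬝ᵥ θ = 1 → Disjoint x U →
        ∀ a u : ℝ, 0 < a → a * cd_ell io x ≤ c →
        ∀ τ : Matrix (CfgOn io (x ∪ U)) (CfgOn io (x ∪ U)) ℂ, τ.PosDef → τ.trace.re ≤ 1 →
          0 < l2n ((emb (x ∪ U) (spow τ (a : ℂ)) * emb U (hpow (ptr U (pureOp θ)) (-(a : ℂ)))) *ᵥ θ) ∧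
          0 ≤ -(a * centr (pureOp θ) x U) + C₀ * a ^ 2 * (cd_ell io x) ^ 2 -
            Real.log (l2n ((emb (x ∪ U) (spow τ (a : ℂ)) *
              emb U (hpow (ptr U (pureOp θ)) (-(a : ℂ)))) *ᵥ θ)) ∧
          l2n ((emb (x ∪ U) (hpow τ (-((a * u : ℝ) : ℂ) * Complex.I)) -
              emb U (hpow (ptr U (pureOp θ)) (-((a * u : ℝ) : ℂ) * Complex.I))) *ᵥ θ) ^ 2 ≤
            C * (1 + u ^ 2) *
              ((-(a * centr (pureOp θ) x U) + C₀ * a ^ 2 * (cd_ell io x) ^ 2 -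
                Real.log (l2n ((emb (x ∪ U) (spow τ (a : ℂ)) *
                  emb U (hpow (ptr U (pureOp θ)) (-(a : ℂ)))) *ᵥ θ))) + a * (cd_ell io x) ^ 2) := by
  obtain ⟨c, C₀, C, hc, hC₀, hC, H⟩ := cd_two_stability
  refine ⟨c, C₀, C, hc, hC₀, hC, ?_⟩
  intro s _ _ io _ _ θ x U hθ hxU a u ha hac τ hτ hτ1
  have hρ := cd_isDensity_ptr hθ (x ∪ U)
  have hac' : a * cd_l (CfgOn io x) ≤ c := by rw [← cd_ell_eq]; exact hac
  obtain ⟨h1, h2, h3⟩ := H _ _ _ (cd_split x U hxU) _ τ hρ hτ hτ1 a u ha hac'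
  rw [← cd_norm_sq_eq_trace θ x U hxU a hτ.posSemidef] at h1
  rw [← cd_norm_sq_eq_trace θ x U hxU a hτ.posSemidef, ← cd_centr_eq, ← cd_ell_eq] at h2 h3
  set M := l2n ((emb (x ∪ U) (spow τ (a : ℂ)) * emb U (hpow (ptr U (pureOp θ)) (-(a : ℂ)))) *ᵥ θ)
    with hM
  have hM0 : 0 < M := by
    have hM1 : 0 ≤ M := l2n_nonneg _
    rcases hM1.lt_or_eq with h | h
    · exact h
    · rw [← h] at h1; norm_num at h1
  have hlog : Real.log (M ^ 2) / 2 = Real.log M := by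
    rw [Real.log_pow]; push_cast; ring
  rw [hlog] at h2 h3
  refine ⟨hM0, h2, ?_⟩
  rw [cd_norm_rule_sub θ x U hxU, hsn_sq]
  unfold cd_Q at h3
  rw [cd_split_ptr] at h3
  exact h3

/-- INPUT from BB_Entropy (helper46, lem:continuity): AFW for pure states, only `dim x` enters.
LEAF S4-m3 = derive this form from the ENT interface (E3). -/
theorem cd_afw_pure :
    ∃ C : ℝ, 0 < C ∧
      ∀ (s : Type) [DecidableEq s] [Fintype s] (io : s → Type)
        [∀ y, Fintype (io y)] [∀ y, DecidableEq (io y)]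
        (θ θ' : Cfg io → ℂ) (x P : Finset s), star θ ⬝ᵥ θ = 1 → star θ' ⬝ᵥ θ' = 1 → Disjoint x P →
          |centr (pureOp θ') x P - centr (pureOp θ) x P| ≤
            C * cd_ell io x * Real.sqrt (l2n (θ' - θ)) := by
  refine ⟨2, by norm_num, ?_⟩
  intro s _ _ io _ _ θ θ' x P hθ hθ' _
  have hℓ : cd_ell io x = 1 + logDim io x := cdm_ell_eq_logDim hθ x
  have hL := logDim_nonneg (io := io) x
  have hρ := pureOp_isDensity ((cd_unit_iff θ).1 hθ)
  have hρ' := pureOp_isDensity ((cd_unit_iff θ').1 hθ')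
  set δ := l2n (θ' - θ) with hδ
  have hδ0 : 0 ≤ δ := l2n_nonneg _
  have htr : trDist (pureOp θ') (pureOp θ) ≤ δ := by
    refine (trDist_pureOp_le ((cd_unit_iff θ').1 hθ') ((cd_unit_iff θ).1 hθ)).trans (le_of_eq ?_)
    rw [hδ, ← Real.sqrt_sq (l2n_nonneg (θ' - θ)), l2n_sq]
    rfl
  rw [hℓ]
  rcases le_total δ 1 with h1 | h1
  · refine (centr_afw hρ' hρ htr x P).trans ((afwFun_le_sqrt hδ0 h1 hL).trans (le_of_eq ?_))
    ring
  · have ha := abs_centr_le hρ x P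
    have ha' := abs_centr_le hρ' x P
    have hs : 1 ≤ Real.sqrt δ := by
      rw [← Real.sqrt_one]; exact Real.sqrt_le_sqrt h1
    have hb : |centr (pureOp θ') x P - centr (pureOp θ) x P| ≤ 2 * logDim io x := by
      refine (abs_sub _ _).trans ?_
      unfold logDim
      linarith
    nlinarith

end Claimed.Agent.R296
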