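import Claimed.Agent.R296.PhaseMain
import Claimed.Agent.R296.LocCexp
import Claimed.Agent.R296.EntSSA

/-!
# Row 296: marginal-phase comparison on sites (full space route)

`ρ = ρ_W ⊗ 1`, `σ = ρ_V ⊗ 1`, splitting `cfgSplit Z` with `V ⊆ W`, `Z ∪ V = univ`.
All identities between marginals come from the tower property `cexp_cexp`.
Owner: helper19.  Prefix `ps_`.
-/

set_option autoImplicit false
set_option linter.unusedSectionVars false
set_option linter.unusedDecidableInType false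
set_option linter.unusedFintypeInType false

namespace Claimed.Agent.R296

open Matrix
open scoped ComplexOrder

section Abs

variable {n m r : Type} [Fintype n] [DecidableEq n] [Fintype m] [DecidableEq m]
  [Fintype r] [DecidableEq r]

theorem relEnt_embE_embE (e : n ≃ m × r) {A B : Matrix m m ℂ} (hA : A.IsHermitian)
    (hB : B.IsHermitian) : relEnt (embE e A) (embE e B) = Fintype.card r * relEnt A B := by
  unfold relEnt mlog
  rw [mfun_embE _ e hA, mfun_embE _ e hB, ← embE_sub, ← embE_mul, trace_embE]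
  simp

theorem hsSq_embE (e : n ≃ m × r) (Y : Matrix m m ℂ) :
    hsSq (embE e Y) = Fintype.card r * hsSq Y := by
  have h1 := hsSq_eq_trace (embE e Y)
  rw [← embE_conjTranspose, ← embE_mul, trace_embE, ← hsSq_eq_trace] at h1
  exact_mod_cast h1

theorem hsn_embE (e : n ≃ m × r) (Y : Matrix m m ℂ) :
    hsn (embE e Y) = Real.sqrt (Fintype.card r) * hsn Y := by
  unfold hsn
  rw [hsSq_embE, Real.sqrt_mul (Nat.cast_nonneg _)]

theorem vnEnt_embE (e : n ≃ m × r) {A : Matrix m m ℂ} (hA : A.IsHermitian) :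
    (embE e A * mlog (embE e A)).trace.re = - (Fintype.card r * vnEnt A) := by
  unfold mlog
  rw [mfun_embE _ e hA, ← embE_mul, trace_embE]
  have := re_trace_mul_mlog_self hA
  unfold mlog at this
  simp [this]

end Abs

section Sites

variable {s : Type} [DecidableEq s] [Fintype s] {io : s → Type}
  [∀ y, Fintype (io y)] [∀ y, DecidableEq (io y)]

theorem ps_card_cfgOff (A : Finset s) :
    Fintype.card (CfgOff io A) = ∏ y ∈ Aᶜ, Fintype.card (io y) := by
  rw [Fintype.card_pi]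
  exact (Finset.prod_subtype (Aᶜ) (p := fun x => x ∉ A) (by simp)
    (fun y => Fintype.card (io y))).symm

theorem ps_card_mul (X Y : Finset s) :
    Fintype.card (CfgOff io X) * Fintype.card (CfgOff io Y)
      = Fintype.card (CfgOff io (X ∩ Y)) * Fintype.card (CfgOff io (X ∪ Y)) := by
  simp only [ps_card_cfgOff]
  rw [Finset.compl_inter, Finset.compl_union]
  exact (Finset.prod_union_inter).symm

theorem ps_card_univ : Fintype.card (CfgOff io (Finset.univ : Finset s)) = 1 := by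
  rw [ps_card_cfgOff]
  simp

theorem ps_card_pos [∀ x, Nonempty (io x)] (A : Finset s) : 0 < Fintype.card (CfgOff io A) :=
  Fintype.card_pos

theorem ps_emb_ptr_emb_ptr [∀ x, Nonempty (io x)] (X Y : Finset s)
    (M : Matrix (Cfg io) (Cfg io) ℂ) :
    emb X (ptr X (emb Y (ptr Y M)))
      = (Fintype.card (CfgOff io (X ∪ Y)) : ℂ) • emb (X ∩ Y) (ptr (X ∩ Y) M) := by
  have h := cexp_cexp X Y M
  rw [cexp_eq_emb_ptr, cexp_eq_emb_ptr, cexp_eq_emb_ptr, ptr_eq_ptrE X, ptrE_smul, emb_smul,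
    smul_smul] at h
  have hX : (Fintype.card (CfgOff io X) : ℂ) ≠ 0 := by exact_mod_cast (ps_card_pos X).ne'
  have hY : (Fintype.card (CfgOff io Y) : ℂ) ≠ 0 := by exact_mod_cast (ps_card_pos Y).ne'
  have hI : (Fintype.card (CfgOff io (X ∩ Y)) : ℂ) ≠ 0 := by
    exact_mod_cast (ps_card_pos (X ∩ Y)).ne'
  have hc : (Fintype.card (CfgOff io X) : ℂ) * Fintype.card (CfgOff io Y)
      = Fintype.card (CfgOff io (X ∩ Y)) * Fintype.card (CfgOff io (X ∪ Y)) := by
    exact_mod_cast ps_card_mul X Y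
  have h2 := congrArg
    (fun T => ((Fintype.card (CfgOff io X) : ℂ) * Fintype.card (CfgOff io Y)) • T) h
  simp only [smul_smul] at h2
  rw [show (Fintype.card (CfgOff io X) : ℂ) * Fintype.card (CfgOff io Y)
      * ((Fintype.card (CfgOff io X) : ℂ)⁻¹ * (Fintype.card (CfgOff io Y) : ℂ)⁻¹) = 1 by
      field_simp, one_smul] at h2
  rw [ptr_eq_ptrE X, h2, hc]
  congr 1
  field_simp

/-- nested regions -/
theorem ps_ptr_emb_ptr [∀ x, Nonempty (io x)] {X Y : Finset s} (hXY : X ⊆ Y)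
    (M : Matrix (Cfg io) (Cfg io) ℂ) :
    ptr X (emb Y (ptr Y M)) = (Fintype.card (CfgOff io Y) : ℂ) • ptr X M := by
  apply emb_injective X
  rw [ps_emb_ptr_emb_ptr, emb_smul, Finset.union_eq_right.2 hXY, Finset.inter_eq_left.2 hXY]

/-- covering regions -/
theorem ps_emb_ptr_cover [∀ x, Nonempty (io x)] {X Y : Finset s} (hXY : X ∪ Y = Finset.univ)
    (M : Matrix (Cfg io) (Cfg io) ℂ) :
    emb X (ptr X (emb Y (ptr Y M))) = emb (X ∩ Y) (ptr (X ∩ Y) M) := by
  rw [ps_emb_ptr_emb_ptr, hXY, ps_card_univ]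
  simp

theorem ps_ptr_isHermitian (A : Finset s) {M : Matrix (Cfg io) (Cfg io) ℂ} (hM : M.IsHermitian) :
    (ptr A M).IsHermitian := ptrE_isHermitian (cfgSplit A) hM

theorem ps_emb_isHermitian (A : Finset s) {K : Matrix (CfgOn io A) (CfgOn io A) ℂ}
    (hK : K.IsHermitian) : (emb A K).IsHermitian := embE_isHermitian (cfgSplit A) hK

/-- relative entropy of two lifted marginals of nested regions -/
theorem ps_relEnt_nested [∀ x, Nonempty (io x)] {X Y : Finset s} (hXY : X ⊆ Y)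
    {M : Matrix (Cfg io) (Cfg io) ℂ} (hM : M.IsHermitian) :
    relEnt (emb Y (ptr Y M)) (emb X (ptr X M))
      = Fintype.card (CfgOff io Y) * (ent M X - ent M Y) := by
  have hY := ps_ptr_isHermitian Y hM
  have hX := ps_ptr_isHermitian X hM
  have h1 := relEnt_embE_right (cfgSplit X) (ps_emb_isHermitian Y hY) hX
  rw [← emb_eq_embE, ← ptr_eq_ptrE, ps_ptr_emb_ptr hXY, ← re_trace_mul_mlog_self
    (ps_emb_isHermitian Y hY), emb_eq_embE Y, vnEnt_embE _ hY, Matrix.smul_mul,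
    Matrix.trace_smul] at h1
  rw [emb_eq_embE Y, h1]
  have h2 := re_trace_mul_mlog_self hX
  simp only [smul_eq_mul, Complex.mul_re, Complex.natCast_re, Complex.natCast_im, zero_mul,
    sub_zero, h2, ent]
  ring

theorem ps_hpow_emb (A : Finset s) {K : Matrix (CfgOn io A) (CfgOn io A) ℂ}
    (hK : K.IsHermitian) (z : ℂ) : hpow (emb A K) z = emb A (hpow K z) :=
  mfun_embE _ (cfgSplit A) hK

theorem ps_spow_emb (A : Finset s) {K : Matrix (CfgOn io A) (CfgOn io A) ℂ}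
    (hK : K.IsHermitian) (z : ℂ) : spow (emb A K) z = emb A (spow K z) :=
  mfun_embE _ (cfgSplit A) hK

theorem ps_hpow_marg [∀ x, Nonempty (io x)] {X Y : Finset s} (hXY : X ∪ Y = Finset.univ)
    {M : Matrix (Cfg io) (Cfg io) ℂ} (hM : M.IsHermitian) (z : ℂ) :
    embE (cfgSplit X) (hpow (ptrE (cfgSplit X) (emb Y (ptr Y M))) z)
      = emb (X ∩ Y) (hpow (ptr (X ∩ Y) M) z) := by
  rw [← emb_eq_embE, ← ps_hpow_emb X (ptrE_isHermitian _
    (ps_emb_isHermitian Y (ps_ptr_isHermitian Y hM))), ← ptr_eq_ptrE, ps_emb_ptr_cover hXY,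
    ps_hpow_emb _ (ps_ptr_isHermitian _ hM)]

/-- the site operator -/
noncomputable def psT (M : Matrix (Cfg io) (Cfg io) ℂ) (W V Z : Finset s) (u : ℝ) :
    Matrix (Cfg io) (Cfg io) ℂ :=
  emb (Z ∩ V) (hpow (ptr (Z ∩ V) M) (-((u : ℂ) * Complex.I))) *
      emb (Z ∩ W) (hpow (ptr (Z ∩ W) M) ((u : ℂ) * Complex.I))
    - emb V (hpow (ptr V M) (-((u : ℂ) * Complex.I))) *
      emb W (hpow (ptr W M) ((u : ℂ) * Complex.I))

theorem ps_phT_eq [∀ x, Nonempty (io x)] {W V Z : Finset s} (hZV : Z ∪ V = Finset.univ)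
    (hZW : Z ∪ W = Finset.univ) {M : Matrix (Cfg io) (Cfg io) ℂ} (hM : M.IsHermitian) (u : ℝ) :
    phT (cfgSplit Z) (emb W (ptr W M)) (emb V (ptr V M)) u = - psT M W V Z u := by
  unfold phT psT
  rw [embE_mul, ps_hpow_marg hZV hM, ps_hpow_marg hZW hM,
    ps_hpow_emb V (ps_ptr_isHermitian V hM), ps_hpow_emb W (ps_ptr_isHermitian W hM), neg_sub]

theorem ps_suppIn_psT (M : Matrix (Cfg io) (Cfg io) ℂ) {W V : Finset s} (hVW : V ⊆ W)
    (Z : Finset s) (u : ℝ) : SuppIn W (psT M W V Z u) := by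
  unfold psT
  refine SuppIn.sub (SuppIn.mul (SuppIn.mono ?_ ⟨_, rfl⟩) (SuppIn.mono ?_ ⟨_, rfl⟩))
    (SuppIn.mul (SuppIn.mono hVW ⟨_, rfl⟩) ⟨_, rfl⟩)
  · exact Finset.inter_subset_right.trans hVW
  · exact Finset.inter_subset_right

theorem ps_union_mono {W V Z : Finset s} (hVW : V ⊆ W) (hZV : Z ∪ V = Finset.univ) :
    Z ∪ W = Finset.univ := by
  apply Finset.eq_univ_of_forall
  intro y
  have := Finset.mem_univ y
  rw [← hZV, Finset.mem_union] at this
  rw [Finset.mem_union]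
  exact this.imp id (fun h => hVW h)

theorem ps_D_union (W V : Finset s) : (V ∪ Wᶜ) ∪ W = Finset.univ := by
  apply Finset.eq_univ_of_forall
  intro y
  simp only [Finset.mem_union, Finset.mem_compl]
  tauto

theorem ps_D_inter {W V : Finset s} (hVW : V ⊆ W) : (V ∪ Wᶜ) ∩ W = V := by
  ext y
  have := @hVW y
  simp only [Finset.mem_union, Finset.mem_compl, Finset.mem_inter]
  tauto

theorem ps_psd (A : Finset s) {M : Matrix (Cfg io) (Cfg io) ℂ} (hM : M.PosSemidef) :
    (emb A (ptr A M)).PosSemidef := embE_posSemidef (cfgSplit A) (ptrE_posSemidef (cfgSplit A) hM)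

theorem ps_trace (A : Finset s) (M : Matrix (Cfg io) (Cfg io) ℂ) :
    (emb A (ptr A M)).trace = Fintype.card (CfgOff io A) * M.trace := by
  rw [emb_eq_embE, trace_embE, ptr_eq_ptrE, trace_ptrE]

theorem ps_dom [∀ x, Nonempty (io x)] {W V : Finset s} (hVW : V ⊆ W)
    {M : Matrix (Cfg io) (Cfg io) ℂ} (hM : M.PosSemidef) :
    ((((Fintype.card (CfgOff io (V ∪ Wᶜ)) : ℕ) : ℝ) : ℂ) • emb V (ptr V M)
      - emb W (ptr W M)).PosSemidef := by
  have h := ptrE_domination (cfgSplit (V ∪ Wᶜ)) (ps_psd W hM)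
  rw [← emb_eq_embE, ← ptr_eq_ptrE, ps_emb_ptr_cover (ps_D_union W V), ps_D_inter hVW] at h
  rw [Complex.ofReal_natCast]
  exact h

theorem ps_card_D {W V : Finset s} (hVW : V ⊆ W) :
    Fintype.card (CfgOff io V)
      = Fintype.card (CfgOff io (V ∪ Wᶜ)) * Fintype.card (CfgOff io W) := by
  have := ps_card_mul (io := io) (V ∪ Wᶜ) W
  rw [ps_D_union, ps_D_inter hVW, ps_card_univ, mul_one] at this
  exact this.symm

theorem ps_eta [∀ x, Nonempty (io x)] {W V Z : Finset s} (hVW : V ⊆ W)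
    (hZV : Z ∪ V = Finset.univ) {M : Matrix (Cfg io) (Cfg io) ℂ} (hM : M.IsHermitian) :
    (relEnt (emb W (ptr W M)) (emb V (ptr V M))
      - relEnt (ptrE (cfgSplit Z) (emb W (ptr W M))) (ptrE (cfgSplit Z) (emb V (ptr V M))))
        / (Fintype.card (CfgOff io W) : ℝ)
      = ent M (Z ∩ W) + ent M V - ent M (Z ∩ V) - ent M W := by
  have hZW := ps_union_mono hVW hZV
  have hc0 : (0 : ℝ) < Fintype.card (CfgOff io W) := by exact_mod_cast ps_card_pos W
  have h1 := ps_relEnt_nested hVW hM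
  have h2 := relEnt_embE_embE (cfgSplit Z)
    (ptrE_isHermitian (cfgSplit Z) (ps_emb_isHermitian W (ps_ptr_isHermitian W hM)))
    (ptrE_isHermitian (cfgSplit Z) (ps_emb_isHermitian V (ps_ptr_isHermitian V hM)))
  rw [← emb_eq_embE, ← emb_eq_embE, ← ptr_eq_ptrE, ← ptr_eq_ptrE,
    ps_emb_ptr_cover hZW, ps_emb_ptr_cover hZV,
    ps_relEnt_nested (Finset.inter_subset_inter_left hVW) hM] at h2
  have h3 := ps_card_mul (io := io) Z W
  rw [hZW, ps_card_univ, mul_one] at h3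
  have h3' : (Fintype.card (CfgOff io (Z ∩ W)) : ℝ)
      = Fintype.card (CfgOff io Z) * Fintype.card (CfgOff io W) := by
    exact_mod_cast h3.symm
  have hZ0 : (0 : ℝ) < Fintype.card (CfgOff io Z) := by exact_mod_cast ps_card_pos Z
  rw [h3', mul_assoc] at h2
  have h4 := mul_left_cancel₀ hZ0.ne' h2
  rw [h1, ← ptr_eq_ptrE, ← ptr_eq_ptrE, ← h4]
  field_simp
  ring

theorem ps_norm [∀ x, Nonempty (io x)] (θ : Cfg io → ℂ) {W V Z : Finset s} (hVW : V ⊆ W)
    (hZV : Z ∪ V = Finset.univ) (u : ℝ) :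
    hsn (phT (cfgSplit Z) (emb W (ptr W (pureOp θ))) (emb V (ptr V (pureOp θ))) u
        * spow (emb W (ptr W (pureOp θ))) (1 / 2))
      = Real.sqrt (Fintype.card (CfgOff io W)) * l2n (psT (pureOp θ) W V Z u *ᵥ θ) := by
  have hM : (pureOp θ).IsHermitian := (pureOp_posSemidef θ).isHermitian
  obtain ⟨X, hX⟩ := ps_suppIn_psT (pureOp θ) hVW Z u
  rw [ps_phT_eq hZV (ps_union_mono hVW hZV) hM, hX, ps_spow_emb W (ps_ptr_isHermitian W hM),
    neg_mul, hsn_neg, ← emb_mul, emb_eq_embE, hsn_embE, l2n_emb_mulVec_eq_hsn]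

/-- **marginal-phase comparison on sites**, general position:
`V ⊆ W`, `Z ∪ V = univ`. -/
theorem ps_main [∀ x, Nonempty (io x)] (θ : Cfg io → ℂ) (hθ : star θ ⬝ᵥ θ = 1)
    {W V Z : Finset s} (hVW : V ⊆ W) (hZV : Z ∪ V = Finset.univ) (u : ℝ) :
    l2n (psT (pureOp θ) W V Z u *ᵥ θ) ≤ 4 / Real.pi * |Real.sinh (Real.pi * u)| *
      phR ((Fintype.card (CfgOff io (V ∪ Wᶜ)) : ℕ) : ℝ)
        (ent (pureOp θ) (Z ∩ W) + ent (pureOp θ) V - ent (pureOp θ) (Z ∩ V)
          - ent (pureOp θ) W) := by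
  have hMp : (pureOp θ).PosSemidef := pureOp_posSemidef θ
  have hMtr : (pureOp θ).trace = 1 := by rw [pp_trace_pureOp, hθ]
  have hc0 : (0 : ℝ) < Fintype.card (CfgOff io W) := by exact_mod_cast ps_card_pos W
  have hκ1 : (1 : ℝ) ≤ Fintype.card (CfgOff io (V ∪ Wᶜ)) := by
    exact_mod_cast ps_card_pos (V ∪ Wᶜ)
  have htrρ : (emb W (ptr W (pureOp θ))).trace.re = Fintype.card (CfgOff io W) := by
    rw [ps_trace, hMtr, mul_one, Complex.natCast_re]
  have htrσ : (emb V (ptr V (pureOp θ))).trace.re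
      ≤ (Fintype.card (CfgOff io (V ∪ Wᶜ)) : ℝ) * Fintype.card (CfgOff io W) := by
    rw [ps_trace, hMtr, ps_card_D hVW, mul_one, Complex.natCast_re, Nat.cast_mul]
  have hmain := ph_main (cfgSplit Z) (ps_psd W hMp) (ps_psd V hMp) (by linarith) hκ1 hc0
    (ps_dom hVW hMp) htrρ le_rfl htrσ u
  rw [ps_eta hVW hZV hMp.isHermitian, ps_norm θ hVW hZV] at hmain
  have hsc : 0 < Real.sqrt (Fintype.card (CfgOff io W)) := Real.sqrt_pos.2 hc0
  refine le_of_mul_le_mul_left (hmain.trans (le_of_eq ?_)) hsc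
  ring

end Sites

end Claimed.Agent.R296
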