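import Claimed.Agent.R296.CondTwo
import Claimed.Agent.R296.PhaseSite

/-!
# Row 296, P1 Section 4.3: lem:conditional-phases (marginal-phase comparison)

STATEMENT: helper9.  PROOF: helper19 (sorry-free).  Only `cd_phases` is consumed (by `CondSkew.lean`).
Chain: `EntRel*` (resolvent representation of the relative entropy, `relH`, `relZ`), `PhaseScalar` (`ph_scalar`),
`PhaseOp` (`ph_trace_formula`), `PhaseAbs` (`ph_abs`), `PhaseSplit` (`ph_split`), `EntDom` (`ptrE_domination`),
`PhaseMain` (`ph_main`, abstract splitting `e : n ≃ m × r`), `PhaseSite` (`ps_main`: sites, full space route through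
the tower property `cexp_cexp`; regions `V ⊆ W`, `Z ∪ V = univ`).
Here: `W = x ∪ U ∪ F`, `V = U ∪ F`, `Z = P ∪ x ∪ U`.
-/

set_option autoImplicit false

namespace Claimed.Agent.R296

open Matrix MeasureTheory Set
open scoped MatrixOrder Matrix.Norms.L2Operator ComplexOrder

theorem cd_R_eq_phR (d : ℕ) (η : ℝ) : cd_R d η = phR (d : ℝ) η := rfl

section Sets

variable {s : Type} [DecidableEq s] [Fintype s] {P x U F : Finset s}

theorem cd_Four.mem_cases (h : cd_Four P x U F) (y : s) : y ∈ P ∨ y ∈ x ∨ y ∈ U ∨ y ∈ F := by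
  have := Finset.mem_univ y
  rw [← h.cover] at this
  simp only [Finset.mem_union] at this
  tauto

theorem cd_Four.ZV (h : cd_Four P x U F) : (P ∪ x ∪ U) ∪ (U ∪ F) = Finset.univ := by
  apply Finset.eq_univ_of_forall
  intro y
  have := h.mem_cases y
  simp only [Finset.mem_union]
  tauto

theorem cd_Four.ZV_inter (h : cd_Four P x U F) : (P ∪ x ∪ U) ∩ (U ∪ F) = U := by
  ext y
  have h1 : y ∈ P → y ∉ F := fun hy => Finset.disjoint_left.1 h.dPF hy
  have h2 : y ∈ x → y ∉ F := fun hy => Finset.disjoint_left.1 h.dxF hy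
  simp only [Finset.mem_union, Finset.mem_inter]
  tauto

theorem cd_Four.ZW_inter (h : cd_Four P x U F) : (P ∪ x ∪ U) ∩ (x ∪ U ∪ F) = x ∪ U := by
  ext y
  have h1 : y ∈ P → y ∉ F := fun hy => Finset.disjoint_left.1 h.dPF hy
  have h2 : y ∈ P → y ∉ x := fun hy => Finset.disjoint_left.1 h.dPx hy
  have h3 : y ∈ P → y ∉ U := fun hy => Finset.disjoint_left.1 h.dPU hy
  simp only [Finset.mem_union, Finset.mem_inter]
  tauto

theorem cd_Four.D_compl (h : cd_Four P x U F) : (U ∪ F ∪ (x ∪ U ∪ F)ᶜ)ᶜ = x := by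
  ext y
  have h1 : y ∈ x → y ∉ U := fun hy => Finset.disjoint_left.1 h.dxU hy
  have h2 : y ∈ x → y ∉ F := fun hy => Finset.disjoint_left.1 h.dxF hy
  simp only [Finset.mem_union, Finset.mem_compl]
  tauto

end Sets

/-- **lem:conditional-phases** (marginal-phase comparison), site form. -/
theorem cd_phases :
    ∃ C : ℝ, 0 < C ∧
      ∀ (s : Type) [DecidableEq s] [Fintype s] (io : s → Type)
        [∀ y, Fintype (io y)] [∀ y, DecidableEq (io y)]
        (θ : Cfg io → ℂ) (P x U F : Finset s), star θ ⬝ᵥ θ = 1 → cd_Four P x U F →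
        ∀ u : ℝ,
          l2n ((emb U (hpow (ptr U (pureOp θ)) (-(u : ℂ) * Complex.I)) *
                  emb (x ∪ U) (hpow (ptr (x ∪ U) (pureOp θ)) ((u : ℂ) * Complex.I)) -
                emb (U ∪ F) (hpow (ptr (U ∪ F) (pureOp θ)) (-(u : ℂ) * Complex.I)) *
                  emb (x ∪ U ∪ F) (hpow (ptr (x ∪ U ∪ F) (pureOp θ)) ((u : ℂ) * Complex.I))) *ᵥ θ) ≤
            C * |Real.sinh (Real.pi * u)| *
              cd_R (cd_dim io x) (cminfo (pureOp θ) x F U) := by
  refine ⟨4 / Real.pi, by positivity, ?_⟩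
  intro s _ _ io _ _ θ P x U F hθ h4 u
  have hne : Nonempty (Cfg io) := by
    by_contra h
    rw [not_nonempty_iff] at h
    simp [dotProduct] at hθ
  obtain ⟨c0⟩ := hne
  have : ∀ y, Nonempty (io y) := fun y => ⟨c0 y⟩
  have hVW : U ∪ F ⊆ x ∪ U ∪ F := by
    rw [Finset.union_assoc]
    exact Finset.subset_union_right
  have h := ps_main θ hθ hVW h4.ZV u
  have e3 : Fintype.card (CfgOff io (U ∪ F ∪ (x ∪ U ∪ F)ᶜ)) = cd_dim io x := by
    rw [ps_card_cfgOff, h4.D_compl, cd_dim]
  unfold psT at h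
  rw [h4.ZV_inter, h4.ZW_inter, e3, ← cd_R_eq_phR] at h
  simp only [neg_mul]
  exact h

end Claimed.Agent.R296
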