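import Claimed.Agent.R296.CondDefs
import Claimed.Agent.R296.PurePow
import Claimed.Agent.R296.ALT
import Claimed.Agent.R296.MatPowAn
import Claimed.Agent.R296.LocEmb

/-!
# Row 296, P1 Section 4.4: lem:skew, part A (PACKAGE S4-SKEW-A): the function `f` (matrix part)

Statements: helper9 + helper57 (Sec 4 sub-captain).  The OWNER of this file (see `subtask`) replaces the `sorry`s;
new auxiliary lemmas carry the prefix `cdk_`.  Do not change statements without telling helper57.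
Proofs: helper98.
Chain: k1 (analyticity, reflection, `f(0)`), k2a-c → k2 (strip bound `d_h²`), k3a-d → k3 (imaginary axis: mirroring).
Tools (PROVED or in progress): `PurePow.lean` (NORM / INNERMOST / MIRROR rules `l2n_emb_mulVec_eq_hsn`,
`emb_spow_mulVec_eq_hpow`, `emb_hpow_mirror`), `ALT.lean` (`hsn_spow_mul_mul_spow_le`), `LocEmb.lean`
(`SuppIn.commute`, `SuppIn.mono`, `norm_emb`), `MatPowAn.lean` (`stripNice_spow`, `StripNice.quad`).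
-/

set_option autoImplicit false
set_option linter.unusedSectionVars false
set_option linter.unusedDecidableInType false
set_option linter.unusedVariables false
set_option linter.unusedSimpArgs false

namespace Claimed.Agent.R296

open Matrix
open scoped MatrixOrder Matrix.Norms.L2Operator ComplexOrder

section Aux

variable {n : Type} [Fintype n] [DecidableEq n]

/-- `⟨θ, A v⟩ = ⟨Aᴴ θ, v⟩` -/
theorem cdk_dot_mulVec (A : Matrix n n ℂ) (θ v : n → ℂ) :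
    star θ ⬝ᵥ (A *ᵥ v) = star (Aᴴ *ᵥ θ) ⬝ᵥ v := by
  rw [star_mulVec, conjTranspose_conjTranspose, ← dotProduct_mulVec]

/-- `conj ⟨θ, X θ⟩ = ⟨θ, Xᴴ θ⟩` -/
theorem cdk_conj_quad (X : Matrix n n ℂ) (θ : n → ℂ) :
    (starRingEnd ℂ) (star θ ⬝ᵥ (X *ᵥ θ)) = star θ ⬝ᵥ (Xᴴ *ᵥ θ) := by
  rw [starRingEnd_apply, ← star_dotProduct, star_mulVec, ← dotProduct_mulVec]

/-- a unitary preserves `l2n` -/
theorem cdk_l2n_unitary (W : Matrix n n ℂ) (hW : Wᴴ * W = 1) (v : n → ℂ) : l2n (W *ᵥ v) = l2n v :=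
  l2n_isometry_mulVec W hW v

end Aux

section AuxE

variable {n m r : Type} [Fintype n] [DecidableEq n] [Fintype m] [DecidableEq m]
  [Fintype r] [DecidableEq r]

theorem cdk_swapE_apply (e : n ≃ m × r) (u : n) : swapE e u = ((e u).2, (e u).1) := rfl

/-- entries of `(S on r) * (T on m)` -/
theorem cdk_swapE_mul_embE_apply (e : n ≃ m × r) (S : Matrix r r ℂ) (T : Matrix m m ℂ) (u u' : n) :
    (embE (swapE e) S * embE e T) u u' = S (e u).2 (e u').2 * T (e u).1 (e u').1 := by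
  rw [Matrix.mul_apply, ← e.symm.sum_comp, Fintype.sum_prod_type]
  simp only [embE_apply, cdk_swapE_apply, Equiv.apply_symm_apply]
  rw [Finset.sum_eq_single (e u).1]
  · rw [Finset.sum_eq_single (e u').2]
    · simp
    · intro b _ hb; simp [hb]
    · simp
  · intro a _ ha
    refine Finset.sum_eq_zero fun b _ => ?_
    simp [Ne.symm ha]
  · simp

/-- the `(α, β)` block with respect to the second factor of a splitting -/
def cdk_blockE (e : n ≃ m × r) (h : Matrix n n ℂ) (α β : r) : Matrix m m ℂ :=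
  Matrix.of fun i j => h (e.symm (i, α)) (e.symm (j, β))

theorem cdk_blockE_decomp (e : n ≃ m × r) (h : Matrix n n ℂ) :
    h = ∑ α : r, ∑ β : r, embE (swapE e) (Matrix.single α β (1 : ℂ)) * embE e (cdk_blockE e h α β) := by
  ext u u'
  simp only [Matrix.sum_apply, cdk_swapE_mul_embE_apply]
  rw [Finset.sum_eq_single (e u).2]
  · rw [Finset.sum_eq_single (e u').2]
    · simp [cdk_blockE]
    · intro b _ hb; simp [Matrix.single_apply, hb]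
    · simp
  · intro a _ ha
    refine Finset.sum_eq_zero fun b _ => ?_
    simp [Matrix.single_apply, ha]
  · simp

theorem cdk_blockE_mulVec (e : n ≃ m × r) (h : Matrix n n ℂ) (α β : r) (v : m → ℂ) :
    cdk_blockE e h α β *ᵥ v = fun i => ppCoef e (h *ᵥ liftE e β v) i α := by
  funext i
  simp only [ppCoef, of_apply, mulVec, dotProduct, cdk_blockE, liftE]
  rw [← e.symm.sum_comp, Fintype.sum_prod_type]
  refine Finset.sum_congr rfl fun j _ => ?_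
  simp only [Equiv.apply_symm_apply]
  rw [Finset.sum_eq_single β]
  · simp
  · intro b _ hb; simp [hb]
  · simp

theorem cdk_l2n_liftE (e : n ≃ m × r) (β : r) (v : m → ℂ) : l2n (liftE e β v) = l2n v := by
  have h : l2n (liftE e β v) ^ 2 = l2n v ^ 2 := by
    rw [l2n_sq, l2n_sq, ← e.symm.sum_comp, Fintype.sum_prod_type]
    refine Finset.sum_congr rfl fun j _ => ?_
    simp only [liftE, Equiv.apply_symm_apply]
    rw [Finset.sum_eq_single β]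
    · simp
    · intro b _ hb; simp [hb]
    · simp
  exact (pow_left_inj₀ (l2n_nonneg _) (l2n_nonneg _) two_ne_zero).1 h

theorem cdk_blockE_norm_le (e : n ≃ m × r) (h : Matrix n n ℂ) (α β : r) :
    ‖cdk_blockE e h α β‖ ≤ ‖h‖ := by
  refine opNorm_le_of_l2n (norm_nonneg h) fun v => ?_
  rw [cdk_blockE_mulVec]
  have h1 : l2n (fun i => ppCoef e (h *ᵥ liftE e β v) i α) ≤ l2n (h *ᵥ liftE e β v) := by
    rw [l2n_eq_hsn_ppCoef e (h *ᵥ liftE e β v)]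
    have h2 : l2n (fun i => ppCoef e (h *ᵥ liftE e β v) i α) ^ 2
        ≤ hsn (ppCoef e (h *ᵥ liftE e β v)) ^ 2 := by
      rw [hsn_sq, hsSq_eq_sum_col]
      exact Finset.single_le_sum (f := fun j => l2n (fun i => ppCoef e (h *ᵥ liftE e β v) i j) ^ 2)
        (fun j _ => by positivity) (Finset.mem_univ α)
    exact (pow_le_pow_iff_left₀ (l2n_nonneg _) (hsn_nonneg _) two_ne_zero).1 h2
  refine h1.trans ((l2n_mulVec_le h _).trans ?_)
  rw [cdk_l2n_liftE]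

theorem cdk_norm_single_le (α β : r) : ‖(Matrix.single α β (1 : ℂ) : Matrix r r ℂ)‖ ≤ 1 := by
  refine (opNorm_le_hsn _).trans ?_
  rw [hsn, Real.sqrt_le_one, hsSq]
  rw [Finset.sum_eq_single α]
  · rw [Finset.sum_eq_single β]
    · simp
    · intro b _ hb; simp [Matrix.single_apply, Ne.symm hb]
    · simp
  · intro a _ ha
    refine Finset.sum_eq_zero fun b _ => ?_
    simp [Matrix.single_apply, Ne.symm ha]
  · simp

end AuxE

section F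

variable {s : Type} [DecidableEq s] [Fintype s] {io : s → Type}
  [∀ y, Fintype (io y)] [∀ y, DecidableEq (io y)]

/-- the entire function `f(z) = ⟨θ, ρ_P^{[z]} ρ_Y^{[-z]} h ρ_P^{[-z]} ρ_Y^{[z]} θ⟩` of lem:skew -/
noncomputable def cd_skewFun (θ : Cfg io → ℂ) (P Y D : Finset s)
    (h : Matrix (CfgOn io D) (CfgOn io D) ℂ) (z : ℂ) : ℂ :=
  star θ ⬝ᵥ ((emb P (spow (ptr P (pureOp θ)) z) * emb Y (spow (ptr Y (pureOp θ)) (-z)) *
      emb D h *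
      emb P (spow (ptr P (pureOp θ)) (-z)) * emb Y (spow (ptr Y (pureOp θ)) z)) *ᵥ θ)

/-- operators on disjoint regions commute (`SuppIn.commute`) -/
theorem cd_emb_commute {A B : Finset s} (hAB : Disjoint A B) (K : Matrix (CfgOn io A) (CfgOn io A) ℂ)
    (L : Matrix (CfgOn io B) (CfgOn io B) ℂ) : emb A K * emb B L = emb B L * emb A K :=
  (SuppIn.commute hAB ⟨K, rfl⟩ ⟨L, rfl⟩).eq

theorem cdk_stripNice_emb_spow (θ : Cfg io → ℂ) (A : Finset s) :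
    StripNice (fun z => emb A (spow (ptr A (pureOp θ)) z)) :=
  (stripNice_spow _).emb A

theorem cdk_stripNice_emb_spow_neg (θ : Cfg io → ℂ) (A : Finset s) :
    StripNice (fun z => emb A (spow (ptr A (pureOp θ)) (-z))) := by
  have h2 := stripNice_spow_affine (ptr A (pureOp θ)) (-1) 0
  have e : (fun z : ℂ => spow (ptr A (pureOp θ)) (((-1 : ℝ) : ℂ) * z + 0))
      = fun z => spow (ptr A (pureOp θ)) (-z) := by
    ext1 z; congr 1; push_cast; ring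
  rw [e] at h2
  exact h2.emb A

theorem cdk_emb_spow_conjTranspose (θ : Cfg io → ℂ) (A : Finset s) (z : ℂ) :
    (emb A (spow (ptr A (pureOp θ)) z))ᴴ = emb A (spow (ptr A (pureOp θ)) (star z)) := by
  rw [← emb_conjTranspose, spow_conjTranspose]

theorem cdk_emb_hpow_conjTranspose (θ : Cfg io → ℂ) (A : Finset s) (z : ℂ) :
    (emb A (hpow (ptr A (pureOp θ)) z))ᴴ = emb A (hpow (ptr A (pureOp θ)) (star z)) := by
  rw [← emb_conjTranspose, hpow_conjTranspose]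

/-- LEAF S4-k1.  `f` is entire and bounded on strips; `f(-z̄) = conj f(z)` for Hermitian `h`;
`f(0) = ⟨θ, h θ⟩` (INNERMOST RULE: the support projections act trivially on `θ`, and they commute
with the other factors as `P`, `Y` are disjoint). -/
theorem cd_skewFun_basic (θ : Cfg io → ℂ) {P Y D : Finset s} (hPY : Disjoint P Y)
    {h : Matrix (CfgOn io D) (CfgOn io D) ℂ} (hh : h.IsHermitian) :
    StripNice (cd_skewFun θ P Y D h) ∧
    (∀ z : ℂ, cd_skewFun θ P Y D h (-(starRingEnd ℂ) z) = (starRingEnd ℂ) (cd_skewFun θ P Y D h z)) ∧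
    cd_skewFun θ P Y D h 0 = star θ ⬝ᵥ (emb D h *ᵥ θ) := by
  refine ⟨?_, ?_, ?_⟩
  · exact (((((cdk_stripNice_emb_spow θ P).matMul (cdk_stripNice_emb_spow_neg θ Y)).mul_const
      (emb D h)).matMul (cdk_stripNice_emb_spow_neg θ P)).matMul
      (cdk_stripNice_emb_spow θ Y)).quad (star θ) θ
  · intro z
    unfold cd_skewFun
    rw [cdk_conj_quad]
    have e : (starRingEnd ℂ) z = star z := rfl
    have key : (emb P (spow (ptr P (pureOp θ)) z) * emb Y (spow (ptr Y (pureOp θ)) (-z)) * emb D h *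
        emb P (spow (ptr P (pureOp θ)) (-z)) * emb Y (spow (ptr Y (pureOp θ)) z))ᴴ
        = emb P (spow (ptr P (pureOp θ)) (-star z)) * emb Y (spow (ptr Y (pureOp θ)) (star z)) *
          emb D h * emb P (spow (ptr P (pureOp θ)) (star z)) *
          emb Y (spow (ptr Y (pureOp θ)) (-star z)) := by
      simp only [conjTranspose_mul, cdk_emb_spow_conjTranspose, ← emb_conjTranspose D, hh.eq, star_neg]
      rw [cd_emb_commute hPY (spow (ptr P (pureOp θ)) (-star z)),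
        Matrix.mul_assoc _ (emb P (spow (ptr P (pureOp θ)) (star z))),
        cd_emb_commute hPY (spow (ptr P (pureOp θ)) (star z))]
      simp only [Matrix.mul_assoc]
    rw [key, e, neg_neg]
  · unfold cd_skewFun
    simp only [neg_zero, spow_zero]
    have hP := emb_supp_mulVec P θ
    have hY := emb_supp_mulVec Y θ
    have e1 : (emb P (supp (ptr P (pureOp θ))) * emb Y (supp (ptr Y (pureOp θ))) * emb D h *
        emb P (supp (ptr P (pureOp θ))) * emb Y (supp (ptr Y (pureOp θ)))) *ᵥ θ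
        = (emb P (supp (ptr P (pureOp θ))) * emb Y (supp (ptr Y (pureOp θ)))) *ᵥ (emb D h *ᵥ θ) := by
      rw [← mulVec_mulVec, hY, ← mulVec_mulVec, hP, ← mulVec_mulVec]
    rw [e1, cdk_dot_mulVec, conjTranspose_mul, ← emb_conjTranspose, ← emb_conjTranspose,
      (supp_isHermitian _).eq, (supp_isHermitian _).eq, ← mulVec_mulVec, hP, hY]

/-- all local dimensions are positive as soon as there is a nonzero vector -/
theorem cd_nonempty_io {θ : Cfg io → ℂ} (hθ : star θ ⬝ᵥ θ = 1) : ∀ y, Nonempty (io y) := by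
  have hne : Nonempty (Cfg io) := by
    by_contra hne
    rw [not_nonempty_iff] at hne
    have : star θ ⬝ᵥ θ = 0 := by simp [dotProduct]
    rw [this] at hθ
    exact zero_ne_one hθ
  obtain ⟨σ⟩ := hne
  exact fun y => ⟨σ y⟩

/-- `(Y ⊗ 1_U) ⊗ 1_rest = Y ⊗ 1_rest` (companion of `cd_split_emb`) -/
theorem cdk_split_emb_swap (x U : Finset s) (h : Disjoint x U)
    (Y : Matrix (CfgOn io x) (CfgOn io x) ℂ) :
    emb (x ∪ U) (embE (swapE (cd_split x U h)) Y) = emb x Y := by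
  ext σ τ
  have e1 : ∀ σ : Cfg io, (swapE (cd_split x U h) (crOn (x ∪ U) σ)).1 = crOn x σ := fun σ => rfl
  have e2 : ∀ σ : Cfg io, (swapE (cd_split x U h) (crOn (x ∪ U) σ)).2 = crOn U σ := fun σ => rfl
  simp only [emb, embE_apply, Matrix.of_apply, e1, e2, br_crOn_eq_iff, br_crOff_eq_iff]
  by_cases h3 : ∀ y, y ∉ x → σ y = τ y
  · have h1 : ∀ y, y ∉ x ∪ U → σ y = τ y := fun y hy =>
      h3 y (fun hx => hy (Finset.mem_union_left U hx))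
    have h2 : ∀ y, y ∈ U → σ y = τ y := fun y hy => h3 y (Finset.disjoint_right.1 h hy)
    rw [if_pos h1, if_pos h2, if_pos h3]
  · rw [if_neg h3]
    by_cases h1 : ∀ y, y ∉ x ∪ U → σ y = τ y
    · rw [if_pos h1, if_neg]
      intro h2
      apply h3
      intro y hy
      by_cases hU : y ∈ U
      · exact h2 y hU
      · exact h1 y (by simp [hU, hy])
    · rw [if_neg h1]

/-- the `(α, β)` block (an operator on `x`) of an operator on `P₀ ∪ x` -/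
def cd_block (P₀ x : Finset s) (hd : Disjoint P₀ x) (h : Matrix (CfgOn io (P₀ ∪ x)) (CfgOn io (P₀ ∪ x)) ℂ)
    (α β : CfgOn io P₀) : Matrix (CfgOn io x) (CfgOn io x) ℂ :=
  Matrix.of fun i j => h ((cd_split P₀ x hd).symm (i, α)) ((cd_split P₀ x hd).symm (j, β))

/-- LEAF S4-k2a (matrix units on `P₀`).  `h = ∑_{α β} E_{αβ} ⊗ h_{αβ}`, `‖h_{αβ}‖ ≤ ‖h‖`. -/
theorem cd_block_decomp (P₀ x : Finset s) (hd : Disjoint P₀ x)
    (h : Matrix (CfgOn io (P₀ ∪ x)) (CfgOn io (P₀ ∪ x)) ℂ) :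
    emb (P₀ ∪ x) h = ∑ α : CfgOn io P₀, ∑ β : CfgOn io P₀,
      emb P₀ (Matrix.single α β (1 : ℂ)) * emb x (cd_block P₀ x hd h α β) := by
  have h1 := cdk_blockE_decomp (cd_split P₀ x hd) h
  have h2 := congrArg (embHom (P₀ ∪ x)) h1
  simp only [map_sum, map_mul] at h2
  have e : ∀ K : Matrix (CfgOn io (P₀ ∪ x)) (CfgOn io (P₀ ∪ x)) ℂ, embHom (P₀ ∪ x) K = emb (P₀ ∪ x) K :=
    fun _ => rfl
  simp only [e, cdk_split_emb_swap, cd_split_emb] at h2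
  exact h2

theorem cd_block_norm_le (P₀ x : Finset s) (hd : Disjoint P₀ x)
    (h : Matrix (CfgOn io (P₀ ∪ x)) (CfgOn io (P₀ ∪ x)) ℂ) (α β : CfgOn io P₀) :
    ‖cd_block P₀ x hd h α β‖ ≤ ‖h‖ :=
  cdk_blockE_norm_le (cd_split P₀ x hd) h α β


theorem cdk_isDensity_ptr {θ : Cfg io → ℂ} (hθ : star θ ⬝ᵥ θ = 1) (A : Finset s) :
    IsDensity (ptr A (pureOp θ)) := by
  refine ptr_isDensity (pureOp_isDensity ?_) A
  rw [star_dotProduct_self_eq] at hθ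
  exact_mod_cast hθ

/-- LEAF S4-k2b.  `‖ρ_A^{[z]} M ρ_A^{[-z]} θ‖ ≤ ‖M‖` for `M` supported in `A`, `0 ≤ Re z ≤ 1/2`.
`M = emb A c`, `‖c‖ = ‖M‖` (`norm_emb`), NORM RULE, `spow_add`, `hsn_spow_mul_mul_spow_le`. -/
theorem cd_conj_norm_le {θ : Cfg io → ℂ} (hθ : star θ ⬝ᵥ θ = 1) (A : Finset s)
    {M : Matrix (Cfg io) (Cfg io) ℂ} (hM : SuppIn A M) {z : ℂ} (h0 : 0 ≤ z.re) (h1 : z.re ≤ 1 / 2) :
    l2n ((emb A (spow (ptr A (pureOp θ)) z) * M * emb A (spow (ptr A (pureOp θ)) (-z))) *ᵥ θ) ≤ ‖M‖ := by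
  obtain ⟨c, rfl⟩ := hM
  have hne := cd_nonempty_io hθ
  obtain ⟨hρ, htr⟩ := cdk_isDensity_ptr hθ A
  have htr' : (ptr A (pureOp θ)).trace.re ≤ 1 := by rw [htr]; simp
  rw [norm_emb, ← emb_mul, ← emb_mul, l2n_emb_mulVec_eq_hsn, Matrix.mul_assoc, ← spow_add]
  have e : -z + 1 / 2 = 1 / 2 - z := by ring
  rw [e]
  exact hsn_spow_mul_mul_spow_le hρ hρ htr' htr' c h0 h1

/-- LEAF S4-k2c (one term).  `c` supported in `P`, `d'` supported in `Y`, `P`, `Y` disjoint, `0 ≤ Re z ≤ 1/2`: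
`|⟨θ, ρ_P^{[z]} ρ_Y^{[-z]} c d' ρ_P^{[-z]} ρ_Y^{[z]} θ⟩| ≤ ‖c‖ ‖d'‖`: the term is the inner product of
`ρ_Y^{[z̄]} d'^* ρ_Y^{[-z̄]} θ` and `ρ_P^{[z]} c ρ_P^{[-z]} θ`; Cauchy--Schwarz and k2b twice. -/
theorem cd_skew_term_le {θ : Cfg io → ℂ} (hθ : star θ ⬝ᵥ θ = 1) {P Y : Finset s} (hPY : Disjoint P Y)
    {c d' : Matrix (Cfg io) (Cfg io) ℂ} (hc : SuppIn P c) (hd : SuppIn Y d') {z : ℂ} (h0 : 0 ≤ z.re)
    (h1 : z.re ≤ 1 / 2) :
    ‖star θ ⬝ᵥ ((emb P (spow (ptr P (pureOp θ)) z) * emb Y (spow (ptr Y (pureOp θ)) (-z)) * (c * d') *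
      emb P (spow (ptr P (pureOp θ)) (-z)) * emb Y (spow (ptr Y (pureOp θ)) z)) *ᵥ θ)‖ ≤ ‖c‖ * ‖d'‖ := by
  set pz := emb P (spow (ptr P (pureOp θ)) z) with hpz
  set pn := emb P (spow (ptr P (pureOp θ)) (-z)) with hpn
  set yz := emb Y (spow (ptr Y (pureOp θ)) z) with hyz
  set yn := emb Y (spow (ptr Y (pureOp θ)) (-z)) with hyn
  have spz : SuppIn P pz := ⟨_, rfl⟩
  have spn : SuppIn P pn := ⟨_, rfl⟩
  have syz : SuppIn Y yz := ⟨_, rfl⟩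
  have syn : SuppIn Y yn := ⟨_, rfl⟩
  have c1 : pz * yn = yn * pz := (SuppIn.commute hPY spz syn).eq
  have c2 : pn * d' = d' * pn := (SuppIn.commute hPY spn hd).eq
  have c3 : (pz * c * pn) * (d' * yz) = (d' * yz) * (pz * c * pn) :=
    (SuppIn.commute hPY ((spz.mul hc).mul spn) (hd.mul syz)).eq
  have key : pz * yn * (c * d') * pn * yz = (yn * d' * yz) * (pz * c * pn) := by
    calc pz * yn * (c * d') * pn * yz = yn * (pz * c) * (d' * pn) * yz := by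
          rw [c1]; simp only [Matrix.mul_assoc]
      _ = yn * ((pz * c * pn) * (d' * yz)) := by rw [← c2]; simp only [Matrix.mul_assoc]
      _ = _ := by rw [c3]; simp only [Matrix.mul_assoc]
  rw [key, ← mulVec_mulVec, cdk_dot_mulVec]
  have hL : (yn * d' * yz)ᴴ = emb Y (spow (ptr Y (pureOp θ)) (star z)) * d'ᴴ *
      emb Y (spow (ptr Y (pureOp θ)) (-star z)) := by
    rw [conjTranspose_mul, conjTranspose_mul, hyz, hyn, cdk_emb_spow_conjTranspose,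
      cdk_emb_spow_conjTranspose, star_neg, Matrix.mul_assoc]
  have hre : (star z).re = z.re := by simp
  have b1 := cd_conj_norm_le hθ Y hd.conjTranspose (z := star z) (by rw [hre]; exact h0)
    (by rw [hre]; exact h1)
  have b2 := cd_conj_norm_le hθ P hc h0 h1
  rw [l2_opNorm_conjTranspose] at b1
  rw [hL]
  calc _ ≤ _ := norm_dotProduct_le _ _
    _ ≤ ‖d'‖ * ‖c‖ := mul_le_mul b1 b2 (l2n_nonneg _) (norm_nonneg _)
    _ = _ := mul_comm _ _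

/-- the bound of k2 in the right half strip -/
theorem cdk_skewFun_right (θ : Cfg io → ℂ) (hθ : star θ ⬝ᵥ θ = 1) {P Y P₀ x : Finset s}
    (hPY : Disjoint P Y) (hP₀ : P₀ ⊆ P) (hx : x ⊆ Y) (hd : Disjoint P₀ x)
    (h : Matrix (CfgOn io (P₀ ∪ x)) (CfgOn io (P₀ ∪ x)) ℂ) {z : ℂ} (h0 : 0 ≤ z.re)
    (h1 : z.re ≤ 1 / 2) :
    ‖cd_skewFun θ P Y (P₀ ∪ x) h z‖ ≤ (Fintype.card (CfgOn io P₀) : ℝ) ^ 2 * ‖h‖ := by
  unfold cd_skewFun
  rw [cd_block_decomp P₀ x hd h]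
  simp only [Finset.mul_sum, Finset.sum_mul, sum_mulVec, dotProduct_sum]
  have hterm : ∀ α β : CfgOn io P₀,
      ‖star θ ⬝ᵥ ((emb P (spow (ptr P (pureOp θ)) z) * emb Y (spow (ptr Y (pureOp θ)) (-z)) *
        (emb P₀ (Matrix.single α β (1 : ℂ)) * emb x (cd_block P₀ x hd h α β)) *
        emb P (spow (ptr P (pureOp θ)) (-z)) * emb Y (spow (ptr Y (pureOp θ)) z)) *ᵥ θ)‖ ≤ ‖h‖ := by
    intro α β
    refine (cd_skew_term_le hθ hPY (SuppIn.mono hP₀ ⟨_, rfl⟩) (SuppIn.mono hx ⟨_, rfl⟩) h0 h1).trans ?_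
    have n1 : ‖emb P₀ (Matrix.single α β (1 : ℂ))‖ ≤ 1 :=
      (norm_emb_le _ _).trans (cdk_norm_single_le α β)
    have n2 : ‖emb x (cd_block P₀ x hd h α β)‖ ≤ ‖h‖ :=
      (norm_emb_le _ _).trans (cd_block_norm_le P₀ x hd h α β)
    calc _ ≤ 1 * ‖h‖ := mul_le_mul n1 n2 (norm_nonneg _) zero_le_one
      _ = ‖h‖ := one_mul _
  calc _ ≤ ∑ α : CfgOn io P₀, ∑ β : CfgOn io P₀, ‖h‖ :=
        (norm_sum_le _ _).trans (Finset.sum_le_sum fun α _ =>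
          (norm_sum_le _ _).trans (Finset.sum_le_sum fun β _ => hterm α β))
    _ = _ := by
        simp only [Finset.sum_const, Finset.card_univ, nsmul_eq_mul]
        ring


theorem cdk_norm_le_one {n : Type} [Fintype n] [DecidableEq n] {H : Matrix n n ℂ} (h0 : 0 ≤ H)
    (h1 : H ≤ 1) : ‖H‖ ≤ 1 := by
  refine opNorm_le_of_posSemidef zero_le_one (Matrix.nonneg_iff_posSemidef.1 h0) ?_
  rw [Complex.ofReal_one, one_smul]
  exact Matrix.le_iff.1 h1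

theorem cdk_card_le_dim {θ : Cfg io → ℂ} (hθ : star θ ⬝ᵥ θ = 1) {P₀ x : Finset s}
    (hd : Disjoint P₀ x) : (Fintype.card (CfgOn io P₀) : ℝ) ≤ (cd_dim io (P₀ ∪ x) : ℝ) := by
  have hne := cd_nonempty_io hθ
  rw [cd_card_cfgOn]
  unfold cd_dim
  rw [Finset.prod_union hd]
  have h1 : 1 ≤ ∏ y ∈ x, Fintype.card (io y) :=
    Nat.succ_le_of_lt (Finset.prod_pos fun y _ => Fintype.card_pos)
  exact_mod_cast Nat.le_mul_of_pos_right _ h1

/-- LEAF S4-k2 (strip bound).  `|f(z)| ≤ d_h²` on `|Re z| ≤ 1/4`.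
Matrix units on `P₀`: `h = ∑_{α} c_α d_α`, at most `(dim P₀)²` terms, `c_α` on `P₀ ⊆ P`, `d_α` on `x ⊆ Y`,
`‖c_α‖ ‖d_α‖ ≤ 1`; each term is `⟨ρ_Y^{[z̄]} d^* ρ_Y^{[-z̄]} θ, ρ_P^{[z]} c ρ_P^{[-z]} θ⟩`, each norm is
`‖ρ^{[z]} c ρ^{[1/2-z]}‖₂ ≤ ‖c‖` (`hsn_spow_mul_mul_spow_le`) for `0 ≤ Re z ≤ 1/2`; reflection (k1). -/
theorem cd_skewFun_strip (θ : Cfg io → ℂ) (hθ : star θ ⬝ᵥ θ = 1) {P x U F P₀ : Finset s}
    (h4 : cd_Four P x U F) (hP₀ : P₀ ⊆ P) {h : Matrix (CfgOn io (P₀ ∪ x)) (CfgOn io (P₀ ∪ x)) ℂ}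
    (h0 : 0 ≤ h) (h1 : h ≤ 1) {z : ℂ} (hz : |z.re| ≤ 1 / 4) :
    ‖cd_skewFun θ P (x ∪ U) (P₀ ∪ x) h z‖ ≤ ((cd_dim io (P₀ ∪ x) : ℝ)) ^ 2 := by
  have hPY : Disjoint P (x ∪ U) := Finset.disjoint_union_right.2 ⟨h4.dPx, h4.dPU⟩
  have hd : Disjoint P₀ x := Finset.disjoint_of_subset_left hP₀ h4.dPx
  have hh : h.IsHermitian := (Matrix.nonneg_iff_posSemidef.1 h0).1
  have hn := cdk_norm_le_one h0 h1
  have hcard := cdk_card_le_dim hθ hd
  have hmain : ∀ w : ℂ, 0 ≤ w.re → w.re ≤ 1 / 4 →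
      ‖cd_skewFun θ P (x ∪ U) (P₀ ∪ x) h w‖ ≤ ((cd_dim io (P₀ ∪ x) : ℝ)) ^ 2 := by
    intro w hw0 hw1
    refine (cdk_skewFun_right θ hθ hPY hP₀ Finset.subset_union_left hd h hw0 (by linarith)).trans ?_
    have hc0 : (0 : ℝ) ≤ (Fintype.card (CfgOn io P₀) : ℝ) := Nat.cast_nonneg _
    calc (Fintype.card (CfgOn io P₀) : ℝ) ^ 2 * ‖h‖ ≤ (Fintype.card (CfgOn io P₀) : ℝ) ^ 2 * 1 :=
          mul_le_mul_of_nonneg_left hn (by positivity)
      _ ≤ _ := by rw [mul_one]; exact pow_le_pow_left₀ hc0 hcard 2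
  rw [abs_le] at hz
  rcases le_total 0 z.re with hpos | hneg
  · exact hmain z hpos hz.2
  · have href := (cd_skewFun_basic θ hPY hh).2.1 (-(starRingEnd ℂ) z)
    have e : -(starRingEnd ℂ) (-(starRingEnd ℂ) z) = z := by simp
    rw [e] at href
    rw [href, RCLike.norm_conj]
    exact hmain _ (by simpa using hneg) (by simp; linarith [hz.1])

/-- `w_u = ρ̂_Y^{iu} ρ̂_{YF}^{-iu} θ` -/
noncomputable def cd_w (θ : Cfg io → ℂ) (Y YF : Finset s) (u : ℝ) : Cfg io → ℂ :=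
  (emb Y (hpow (ptr Y (pureOp θ)) ((u : ℂ) * Complex.I)) *
    emb YF (hpow (ptr YF (pureOp θ)) (-(u : ℂ) * Complex.I))) *ᵥ θ

theorem cdk_star_uI (u : ℝ) : star ((u : ℂ) * Complex.I) = -((u : ℂ) * Complex.I) := by
  apply Complex.ext <;> simp

/-- LEAF S4-k3a.  `f(iu) = ⟨w_u, h w_u⟩`, `w_u = cd_w θ Y YF u`, `YF = Pᶜ ⊇ Y`.
`ρ_P^{[-iu]} ρ_Y^{[iu]} θ = ρ_P^{[-iu]} ρ̂_Y^{iu} θ = ρ̂_Y^{iu} ρ_P^{[-iu]} θ = ρ̂_Y^{iu} ρ̂_P^{-iu} θ = ρ̂_Y^{iu} ρ̂_{YF}^{-iu} θ`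
(INNERMOST, commutation, INNERMOST, MIRROR), and the bra is the adjoint of the same vector. -/
theorem cd_skewFun_imag_eq (θ : Cfg io → ℂ) {P Y YF D : Finset s} (hPY : Disjoint P Y) (hYF : YF = Pᶜ)
    (h : Matrix (CfgOn io D) (CfgOn io D) ℂ) (u : ℝ) :
    cd_skewFun θ P Y D h ((u : ℂ) * Complex.I) =
      star (cd_w θ Y YF u) ⬝ᵥ (emb D h *ᵥ cd_w θ Y YF u) := by
  set z := (u : ℂ) * Complex.I with hz
  have hR : (emb P (spow (ptr P (pureOp θ)) (-z)) * emb Y (spow (ptr Y (pureOp θ)) z)) *ᵥ θ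
      = cd_w θ Y YF u := by
    unfold cd_w
    rw [← mulVec_mulVec, emb_spow_mulVec_eq_hpow Y θ z, mulVec_mulVec, cd_emb_commute hPY,
      ← mulVec_mulVec, emb_spow_mulVec_eq_hpow P θ (-z), emb_hpow_mirror hYF θ (-z), mulVec_mulVec,
      neg_mul]
  unfold cd_skewFun
  have e1 : emb P (spow (ptr P (pureOp θ)) z) * emb Y (spow (ptr Y (pureOp θ)) (-z)) * emb D h *
      emb P (spow (ptr P (pureOp θ)) (-z)) * emb Y (spow (ptr Y (pureOp θ)) z)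
      = (emb P (spow (ptr P (pureOp θ)) z) * emb Y (spow (ptr Y (pureOp θ)) (-z))) * (emb D h *
      (emb P (spow (ptr P (pureOp θ)) (-z)) * emb Y (spow (ptr Y (pureOp θ)) z))) := by
    simp only [Matrix.mul_assoc]
  have e2 : (emb P (spow (ptr P (pureOp θ)) z) * emb Y (spow (ptr Y (pureOp θ)) (-z)))ᴴ
      = emb P (spow (ptr P (pureOp θ)) (-z)) * emb Y (spow (ptr Y (pureOp θ)) z) := by
    rw [conjTranspose_mul, cdk_emb_spow_conjTranspose, cdk_emb_spow_conjTranspose, star_neg, hz,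
      cdk_star_uI, neg_neg, cd_emb_commute hPY]
  rw [e1, ← mulVec_mulVec, cdk_dot_mulVec, e2, hR, ← mulVec_mulVec, hR]

theorem cdk_isHermitian_ptr (θ : Cfg io → ℂ) (A : Finset s) : (ptr A (pureOp θ)).IsHermitian := by
  rw [ptr_eq_ptrE]; exact ptrE_isHermitian _ (pureOp_posSemidef θ).1

theorem cdk_emb_hpow_unitary (θ : Cfg io → ℂ) (A : Finset s) {z : ℂ} (hz : z.re = 0) :
    (emb A (hpow (ptr A (pureOp θ)) z))ᴴ * emb A (hpow (ptr A (pureOp θ)) z) = 1 := by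
  rw [← emb_conjTranspose, ← emb_mul, (hpow_unitary (cdk_isHermitian_ptr θ A) hz).1, emb_one]

theorem cdk_emb_hpow_mul_neg (θ : Cfg io → ℂ) (A : Finset s) (z : ℂ) :
    emb A (hpow (ptr A (pureOp θ)) z) * emb A (hpow (ptr A (pureOp θ)) (-z)) = 1 := by
  rw [← emb_mul, hpow_mul_neg (cdk_isHermitian_ptr θ A), emb_one]

theorem cdk_emb_hpow_neg_mul (θ : Cfg io → ℂ) (A : Finset s) (z : ℂ) :
    emb A (hpow (ptr A (pureOp θ)) (-z)) * emb A (hpow (ptr A (pureOp θ)) z) = 1 := by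
  rw [← emb_mul, hpow_neg_mul (cdk_isHermitian_ptr θ A), emb_one]

theorem cdk_re_uI (u : ℝ) : ((u : ℂ) * Complex.I).re = 0 := by simp

theorem cdk_re_neg_uI (u : ℝ) : (-(u : ℂ) * Complex.I).re = 0 := by simp

/-- the unitary defining `cd_w` -/
theorem cdk_w_unitary (θ : Cfg io → ℂ) (Y YF : Finset s) (u : ℝ) :
    (emb Y (hpow (ptr Y (pureOp θ)) ((u : ℂ) * Complex.I)) *
      emb YF (hpow (ptr YF (pureOp θ)) (-(u : ℂ) * Complex.I)))ᴴ *
    (emb Y (hpow (ptr Y (pureOp θ)) ((u : ℂ) * Complex.I)) *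
      emb YF (hpow (ptr YF (pureOp θ)) (-(u : ℂ) * Complex.I))) = 1 := by
  rw [conjTranspose_mul, Matrix.mul_assoc, ← Matrix.mul_assoc _ (emb Y _) (emb YF _),
    cdk_emb_hpow_unitary θ Y (cdk_re_uI u), Matrix.one_mul, cdk_emb_hpow_unitary θ YF (cdk_re_neg_uI u)]

/-- `cd_w` is a unit vector (two unitaries applied to `θ`) -/
theorem cd_w_unit {θ : Cfg io → ℂ} (hθ : star θ ⬝ᵥ θ = 1) (Y YF : Finset s) (u : ℝ) :
    star (cd_w θ Y YF u) ⬝ᵥ cd_w θ Y YF u = 1 := by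
  rw [← l2n_eq_one_iff] at hθ ⊢
  unfold cd_w
  rw [l2n_isometry_mulVec _ (cdk_w_unitary θ Y YF u), hθ]

/-- LEAF S4-k3b.  `w_u⁰ = cd_w θ U UF u` is a unitary on `UF` applied to `θ`; `h` lives on `D` disjoint from `UF`. -/
theorem cd_w0_expect (θ : Cfg io → ℂ) {U UF D : Finset s} (hU : U ⊆ UF) (hD : Disjoint D UF)
    (h : Matrix (CfgOn io D) (CfgOn io D) ℂ) (u : ℝ) :
    star (cd_w θ U UF u) ⬝ᵥ (emb D h *ᵥ cd_w θ U UF u) = star θ ⬝ᵥ (emb D h *ᵥ θ) := by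
  have hW := cdk_w_unitary θ U UF u
  unfold cd_w
  set W := emb U (hpow (ptr U (pureOp θ)) ((u : ℂ) * Complex.I)) *
    emb UF (hpow (ptr UF (pureOp θ)) (-(u : ℂ) * Complex.I))
  have hs : SuppIn UF W := (SuppIn.mono hU ⟨_, rfl⟩).mul ⟨_, rfl⟩
  have hc : emb D h * W = W * emb D h := (SuppIn.commute hD ⟨_, rfl⟩ hs).eq
  clear_value W
  rw [mulVec_mulVec, hc, ← mulVec_mulVec, cdk_dot_mulVec W, mulVec_mulVec, hW, one_mulVec]

theorem cdk_four_compl {P x U F : Finset s} (h4 : cd_Four P x U F) : x ∪ U ∪ F = Pᶜ := by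
  ext y
  have hc : y ∈ P ∪ x ∪ U ∪ F := by rw [h4.cover]; exact Finset.mem_univ y
  simp only [Finset.mem_union, Finset.mem_compl] at hc ⊢
  constructor
  · rintro ((hx | hU) | hF) hP
    · exact Finset.disjoint_left.1 h4.dPx hP hx
    · exact Finset.disjoint_left.1 h4.dPU hP hU
    · exact Finset.disjoint_left.1 h4.dPF hP hF
  · intro hP
    rcases hc with ((hP' | hx) | hU) | hF
    · exact absurd hP' hP
    · exact Or.inl (Or.inl hx)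
    · exact Or.inl (Or.inr hU)
    · exact Or.inr hF

/-- LEAF S4-k3c (eq:conditional-phase-discrepancy).  Multiply `w_u - w_u⁰` by the unitary `ρ̂_P^{iu}` (commutes with
everything on `xUF`; MIRROR: `ρ̂_P^{iu} θ = ρ̂_{xUF}^{iu} θ`) and then by `ρ̂_U^{-iu}`. -/
theorem cd_w_dist (θ : Cfg io → ℂ) {P x U F : Finset s} (h4 : cd_Four P x U F) (u : ℝ) :
    l2n (cd_w θ (x ∪ U) (x ∪ U ∪ F) u - cd_w θ U (U ∪ F) u) =
      l2n ((emb U (hpow (ptr U (pureOp θ)) (-(u : ℂ) * Complex.I)) *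
                  emb (x ∪ U) (hpow (ptr (x ∪ U) (pureOp θ)) ((u : ℂ) * Complex.I)) -
                emb (U ∪ F) (hpow (ptr (U ∪ F) (pureOp θ)) (-(u : ℂ) * Complex.I)) *
                  emb (x ∪ U ∪ F) (hpow (ptr (x ∪ U ∪ F) (pureOp θ)) ((u : ℂ) * Complex.I))) *ᵥ θ) := by
  have hcompl := cdk_four_compl h4
  have dPxU : Disjoint P (x ∪ U) := Finset.disjoint_union_right.2 ⟨h4.dPx, h4.dPU⟩
  have dPUF : Disjoint P (U ∪ F) := Finset.disjoint_union_right.2 ⟨h4.dPU, h4.dPF⟩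
  unfold cd_w
  simp only [neg_mul]
  set z := (u : ℂ) * Complex.I with hz
  have hzre : z.re = 0 := cdk_re_uI u
  have hnre : (-z).re = 0 := by simp [hzre]
  set aP := emb P (hpow (ptr P (pureOp θ)) z)
  set aPn := emb P (hpow (ptr P (pureOp θ)) (-z))
  set aU := emb U (hpow (ptr U (pureOp θ)) z)
  set aUn := emb U (hpow (ptr U (pureOp θ)) (-z))
  set aXU := emb (x ∪ U) (hpow (ptr (x ∪ U) (pureOp θ)) z)
  set aUFn := emb (U ∪ F) (hpow (ptr (U ∪ F) (pureOp θ)) (-z))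
  set aA := emb (x ∪ U ∪ F) (hpow (ptr (x ∪ U ∪ F) (pureOp θ)) z)
  set aAn := emb (x ∪ U ∪ F) (hpow (ptr (x ∪ U ∪ F) (pureOp θ)) (-z))
  have m1 : aAn *ᵥ θ = aPn *ᵥ θ := (emb_hpow_mirror hcompl θ (-z)).symm
  have m2 : aP *ᵥ θ = aA *ᵥ θ := emb_hpow_mirror hcompl θ z
  have k1 : aP * aXU = aXU * aP := cd_emb_commute dPxU _ _
  have k2 : aP * aU = aU * aP := cd_emb_commute h4.dPU _ _
  have k3 : aP * aUFn = aUFn * aP := cd_emb_commute dPUF _ _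
  have u1 : aP * aPn = 1 := cdk_emb_hpow_mul_neg θ P z
  have u2 : aUn * aU = 1 := cdk_emb_hpow_neg_mul θ U z
  have hV : (aUn * aP)ᴴ * (aUn * aP) = 1 := by
    rw [conjTranspose_mul, Matrix.mul_assoc, ← Matrix.mul_assoc _ aUn aP,
      cdk_emb_hpow_unitary θ U hnre, Matrix.one_mul, cdk_emb_hpow_unitary θ P hzre]
  clear_value aP aPn aU aUn aXU aUFn aA aAn
  have hw : (aUn * aP) *ᵥ ((aXU * aAn) *ᵥ θ) = (aUn * aXU) *ᵥ θ := by
    rw [← mulVec_mulVec θ aXU aAn, m1, mulVec_mulVec, mulVec_mulVec]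
    have : aUn * aP * aXU * aPn = aUn * aXU := by
      calc aUn * aP * aXU * aPn = aUn * (aP * aXU) * aPn := by simp only [Matrix.mul_assoc]
        _ = aUn * aXU * (aP * aPn) := by rw [k1]; simp only [Matrix.mul_assoc]
        _ = _ := by rw [u1, Matrix.mul_one]
    rw [this]
  have hw0 : (aUn * aP) *ᵥ ((aU * aUFn) *ᵥ θ) = (aUFn * aA) *ᵥ θ := by
    rw [mulVec_mulVec]
    have : aUn * aP * (aU * aUFn) = aUFn * aP := by
      calc aUn * aP * (aU * aUFn) = aUn * (aP * aU) * aUFn := by simp only [Matrix.mul_assoc]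
        _ = (aUn * aU) * (aP * aUFn) := by rw [k2]; simp only [Matrix.mul_assoc]
        _ = _ := by rw [u2, Matrix.one_mul, k3]
    rw [this, ← mulVec_mulVec, m2, mulVec_mulVec]
  rw [← l2n_isometry_mulVec _ hV, mulVec_sub, hw, hw0, ← sub_mulVec]

/-- LEAF S4-k3d (abstract).  `0 ≤ H ≤ 1`:
`|⟨w,Hw⟩ - ⟨w⁰,Hw⁰⟩| ≤ 2 √⟨w⁰,Hw⁰⟩ ‖w - w⁰‖ + ‖w - w⁰‖²` and `|⟨w,Hw⟩| ≤ ‖w‖²`. -/
theorem cd_quad_perturb {n : Type} [Fintype n] [DecidableEq n] {H : Matrix n n ℂ} (h0 : 0 ≤ H) (h1 : H ≤ 1)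
    (w w₀ : n → ℂ) :
    ‖star w ⬝ᵥ (H *ᵥ w)‖ ≤ l2n w ^ 2 ∧
    ‖star w ⬝ᵥ (H *ᵥ w) - star w₀ ⬝ᵥ (H *ᵥ w₀)‖ ≤
      2 * Real.sqrt ((star w₀ ⬝ᵥ (H *ᵥ w₀)).re) * l2n (w - w₀) + l2n (w - w₀) ^ 2 := by
  have hn := cdk_norm_le_one h0 h1
  have hP : H.PosSemidef := Matrix.nonneg_iff_posSemidef.1 h0
  have hq : ∀ v : n → ℂ, ‖star v ⬝ᵥ (H *ᵥ v)‖ ≤ l2n v ^ 2 := by
    intro v
    calc ‖star v ⬝ᵥ (H *ᵥ v)‖ ≤ l2n v * l2n (H *ᵥ v) := norm_dotProduct_le _ _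
      _ ≤ l2n v * (‖H‖ * l2n v) := mul_le_mul_of_nonneg_left (l2n_mulVec_le H v) (l2n_nonneg v)
      _ ≤ l2n v * (1 * l2n v) :=
          mul_le_mul_of_nonneg_left (mul_le_mul_of_nonneg_right hn (l2n_nonneg v)) (l2n_nonneg v)
      _ = l2n v ^ 2 := by ring
  refine ⟨hq w, ?_⟩
  -- the square root
  set B := spow H (1 / 2) with hB
  have hBB : B * B = H := spow_half_mul_self hP
  have hBh : Bᴴ = B := spow_half_conjTranspose H
  have hBn : ‖B‖ ≤ 1 := by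
    have h2 := l2_opNorm_conjTranspose_mul_self B
    rw [hBh, hBB] at h2
    nlinarith [norm_nonneg B]
  have hHw : l2n (H *ᵥ w₀) ≤ Real.sqrt ((star w₀ ⬝ᵥ (H *ᵥ w₀)).re) := by
    have e1 : l2n (B *ᵥ w₀) ^ 2 = (star w₀ ⬝ᵥ (H *ᵥ w₀)).re := by
      rw [l2n_sq_eq_re, ← hBB, ← mulVec_mulVec, cdk_dot_mulVec B w₀, hBh]
    rw [← e1, Real.sqrt_sq (l2n_nonneg _), ← hBB, ← mulVec_mulVec]
    calc l2n (B *ᵥ (B *ᵥ w₀)) ≤ ‖B‖ * l2n (B *ᵥ w₀) := l2n_mulVec_le _ _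
      _ ≤ 1 * l2n (B *ᵥ w₀) := mul_le_mul_of_nonneg_right hBn (l2n_nonneg _)
      _ = _ := one_mul _
  set δ := w - w₀ with hδ
  have hw : w = w₀ + δ := by rw [hδ]; abel
  have expand : star w ⬝ᵥ (H *ᵥ w) - star w₀ ⬝ᵥ (H *ᵥ w₀)
      = star δ ⬝ᵥ (H *ᵥ w₀) + star w₀ ⬝ᵥ (H *ᵥ δ) + star δ ⬝ᵥ (H *ᵥ δ) := by
    rw [hw, star_add, mulVec_add, add_dotProduct, dotProduct_add, dotProduct_add]
    ring
  rw [expand]
  have t1 : ‖star δ ⬝ᵥ (H *ᵥ w₀)‖ ≤ l2n δ * Real.sqrt ((star w₀ ⬝ᵥ (H *ᵥ w₀)).re) :=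
    (norm_dotProduct_le _ _).trans (mul_le_mul_of_nonneg_left hHw (l2n_nonneg _))
  have t2 : ‖star w₀ ⬝ᵥ (H *ᵥ δ)‖ ≤ Real.sqrt ((star w₀ ⬝ᵥ (H *ᵥ w₀)).re) * l2n δ := by
    rw [cdk_dot_mulVec, hP.1.eq]
    exact (norm_dotProduct_le _ _).trans (mul_le_mul_of_nonneg_right hHw (l2n_nonneg _))
  have t3 := hq δ
  calc _ ≤ ‖star δ ⬝ᵥ (H *ᵥ w₀)‖ + ‖star w₀ ⬝ᵥ (H *ᵥ δ)‖ + ‖star δ ⬝ᵥ (H *ᵥ δ)‖ := norm_add₃_le
    _ ≤ _ := by linarith

/-- LEAF S4-k3 (imaginary axis).  With `p = ⟨θ,hθ⟩` and `D_u` = the left side of `cd_phases`: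
`|f(iu)| ≤ 1` and `|f(iu) - p| ≤ 2 √p D_u + D_u²`.
MIRROR RULE across `P | xUF`: `f(iu) = ⟨w_u, h w_u⟩`, `w_u = ρ̂_Y^{iu} ρ̂_{YF}^{-iu} θ`;
`w_u⁰ = ρ̂_U^{iu} ρ̂_{UF}^{-iu} θ` is a unitary on `UF` applied to `θ`, so `⟨w_u⁰, h w_u⁰⟩ = p`;
`‖w_u - w_u⁰‖ = D_u` (multiply by `ρ̂_P^{iu}`, then `ρ̂_U^{-iu}`, mirror again). -/
theorem cd_skewFun_imag (θ : Cfg io → ℂ) (hθ : star θ ⬝ᵥ θ = 1) {P x U F P₀ : Finset s}
    (h4 : cd_Four P x U F) (hP₀ : P₀ ⊆ P) {h : Matrix (CfgOn io (P₀ ∪ x)) (CfgOn io (P₀ ∪ x)) ℂ}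
    (h0 : 0 ≤ h) (h1 : h ≤ 1) (u : ℝ) :
    ‖cd_skewFun θ P (x ∪ U) (P₀ ∪ x) h ((u : ℂ) * Complex.I)‖ ≤ 1 ∧
    ‖cd_skewFun θ P (x ∪ U) (P₀ ∪ x) h ((u : ℂ) * Complex.I) -
        star θ ⬝ᵥ (emb (P₀ ∪ x) h *ᵥ θ)‖ ≤
      2 * Real.sqrt ((star θ ⬝ᵥ (emb (P₀ ∪ x) h *ᵥ θ)).re) *
          l2n ((emb U (hpow (ptr U (pureOp θ)) (-(u : ℂ) * Complex.I)) *
                  emb (x ∪ U) (hpow (ptr (x ∪ U) (pureOp θ)) ((u : ℂ) * Complex.I)) -
                emb (U ∪ F) (hpow (ptr (U ∪ F) (pureOp θ)) (-(u : ℂ) * Complex.I)) *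
                  emb (x ∪ U ∪ F) (hpow (ptr (x ∪ U ∪ F) (pureOp θ)) ((u : ℂ) * Complex.I))) *ᵥ θ) +
        l2n ((emb U (hpow (ptr U (pureOp θ)) (-(u : ℂ) * Complex.I)) *
                  emb (x ∪ U) (hpow (ptr (x ∪ U) (pureOp θ)) ((u : ℂ) * Complex.I)) -
                emb (U ∪ F) (hpow (ptr (U ∪ F) (pureOp θ)) (-(u : ℂ) * Complex.I)) *
                  emb (x ∪ U ∪ F) (hpow (ptr (x ∪ U ∪ F) (pureOp θ)) ((u : ℂ) * Complex.I))) *ᵥ θ) ^ 2 := by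
  have hPY : Disjoint P (x ∪ U) := Finset.disjoint_union_right.2 ⟨h4.dPx, h4.dPU⟩
  have hD : Disjoint (P₀ ∪ x) (U ∪ F) := by
    rw [Finset.disjoint_union_left, Finset.disjoint_union_right, Finset.disjoint_union_right]
    exact ⟨⟨Finset.disjoint_of_subset_left hP₀ h4.dPU, Finset.disjoint_of_subset_left hP₀ h4.dPF⟩,
      h4.dxU, h4.dxF⟩
  have hH0 : 0 ≤ emb (P₀ ∪ x) h := emb_nonneg h0
  have hH1 : emb (P₀ ∪ x) h ≤ 1 := by
    have := emb_nonneg (sub_nonneg.2 h1)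
    rw [emb_eq_embE, embE_sub, embE_one, ← emb_eq_embE] at this
    exact sub_nonneg.1 this
  obtain ⟨q1, q2⟩ := cd_quad_perturb hH0 hH1 (cd_w θ (x ∪ U) (x ∪ U ∪ F) u) (cd_w θ U (U ∪ F) u)
  rw [cd_skewFun_imag_eq θ hPY (cdk_four_compl h4) h u]
  rw [cd_w0_expect θ Finset.subset_union_left hD h u, cd_w_dist θ h4 u] at q2
  refine ⟨?_, q2⟩
  rw [(l2n_eq_one_iff _).2 (cd_w_unit hθ _ _ u)] at q1
  simpa using q1

end F
end Claimed.Agent.R296
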