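/-
Row 296, black-box chain INTERP: Cauchy / Taylor remainders (Strip-4,5,6).
Statements fixed by helper57 (architect).  Proofs: helper285.
-/
import Claimed.Agent.R296.Strip

set_option autoImplicit false
set_option linter.unusedSectionVars false

namespace Claimed.Agent.R296

open Complex

variable {E : Type*} [NormedAddCommGroup E] [NormedSpace ℂ E]

/-- LEAF Strip-4 (Cauchy estimates; lem:tail eq. initial-real-quadratic, lem:skew).
Second order Taylor remainder of a function bounded by `M` on the closed disc of radius `r`.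
Proof: `Complex.hasSum_taylorSeries_on_ball` + `Complex.norm_iteratedDeriv_le_of_forall_mem_sphere_norm_le`
(coefficients `≤ M / r^n`), tail `∑_{n ≥ 2} M t^n = M t^2 / (1 - t) ≤ 2 M t^2` for `t = ‖z‖ / r ≤ 1/2`. -/
theorem taylor_two_bound {f : ℂ → ℂ} (hf : Differentiable ℂ f) {r M : ℝ} (hr : 0 < r)
    (hM : ∀ z : ℂ, ‖z‖ ≤ r → ‖f z‖ ≤ M) {z : ℂ} (hz : ‖z‖ ≤ r / 2) :
    ‖f z - f 0 - z * deriv f 0‖ ≤ 2 * M * (‖z‖ / r) ^ 2 := by
  have hM0 : 0 ≤ M := (norm_nonneg _).trans (hM 0 (by simpa using hr.le))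
  set t : ℝ := ‖z‖ / r with ht
  have ht0 : 0 ≤ t := by positivity
  have ht2 : t ≤ 1 / 2 := by
    rw [ht, div_le_iff₀ hr]; linarith
  have hzb : z ∈ Metric.ball (0 : ℂ) r := by
    rw [mem_ball_zero_iff]; linarith
  have hs := Complex.hasSum_taylorSeries_on_ball (f := f) (c := 0) (r := r)
    hf.differentiableOn hzb
  have hbound : ∀ n : ℕ,
      ‖((n.factorial : ℂ)⁻¹ • (z - 0) ^ n • iteratedDeriv n f 0)‖ ≤ M * t ^ n := by
    intro n
    have h1 := Complex.norm_iteratedDeriv_le_of_forall_mem_sphere_norm_le (f := f) (c := 0) n hr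
      hf.diffContOnCl (C := M) (fun w hw => hM w (by rw [mem_sphere_zero_iff_norm] at hw; exact hw.le))
    have hfac : (0 : ℝ) < n.factorial := by exact_mod_cast n.factorial_pos
    rw [norm_smul, norm_smul, norm_inv, norm_pow, sub_zero, Complex.norm_natCast]
    calc (n.factorial : ℝ)⁻¹ * (‖z‖ ^ n * ‖iteratedDeriv n f 0‖)
        ≤ (n.factorial : ℝ)⁻¹ * (‖z‖ ^ n * (n.factorial * M / r ^ n)) := by gcongr
      _ = M * t ^ n := by
        rw [ht, div_pow]; field_simp
  have hs2 := (hasSum_nat_add_iff' 2).2 hs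
  have hsum : ∑ i ∈ Finset.range 2, ((i.factorial : ℂ)⁻¹ • (z - 0) ^ i • iteratedDeriv i f 0)
      = f 0 + z * deriv f 0 := by
    simp [Finset.sum_range_succ, iteratedDeriv_one]
  rw [hsum] at hs2
  have hg : HasSum (fun n : ℕ => M * t ^ (n + 2)) (M * t ^ 2 * (1 - t)⁻¹) := by
    have := (hasSum_geometric_of_lt_one ht0 (by linarith : t < 1)).mul_left (M * t ^ 2)
    refine this.congr_fun ?_ |> fun h => h
    intro n
    ring
  have hfin := hs2.norm_le_of_bounded hg (fun n => hbound (n + 2))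
  have h1t : (1 - t)⁻¹ ≤ 2 := by
    rw [inv_le_comm₀ (by linarith) (by norm_num)]; linarith
  calc ‖f z - f 0 - z * deriv f 0‖ = ‖f z - (f 0 + z * deriv f 0)‖ := by rw [sub_sub]
    _ ≤ M * t ^ 2 * (1 - t)⁻¹ := hfin
    _ ≤ M * t ^ 2 * 2 := by gcongr
    _ = 2 * M * t ^ 2 := by ring

/-- LEAF Strip-6: under the same reflection symmetry the derivative at `0` is purely imaginary. -/
theorem deriv_re_eq_zero_of_reflection {f : ℂ → ℂ} (hf : Differentiable ℂ f)
    (hsym : ∀ z : ℂ, f (-(starRingEnd ℂ) z) = (starRingEnd ℂ) (f z)) : (deriv f 0).re = 0 := by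
  -- differentiate `x ↦ f x` and `x ↦ conj (f (-x))` along the real axis
  have h1 : HasDerivAt f (deriv f 0) 0 := (hf 0).hasDerivAt
  have h2 : HasDerivAt (fun x : ℝ => f (x : ℂ)) (deriv f 0) 0 := by
    have : HasDerivAt f (deriv f 0) ((0 : ℝ) : ℂ) := by simpa using h1
    exact this.comp_ofReal
  have h3 : HasDerivAt (fun x : ℝ => f (-(x : ℂ))) (-deriv f 0) 0 := by
    have h4 : HasDerivAt (fun w : ℂ => f (-w)) (-deriv f 0) ((0 : ℝ) : ℂ) := by
      have h5 : HasDerivAt (fun w : ℂ => -w) (-1) ((0 : ℝ) : ℂ) := (hasDerivAt_id _).neg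
      have h6 : HasDerivAt f (deriv f 0) (-((0 : ℝ) : ℂ)) := by simpa using h1
      exact (h6.comp ((0 : ℝ) : ℂ) h5).congr_deriv (by ring)
    exact h4.comp_ofReal
  have h7 : HasDerivAt (fun x : ℝ => (starRingEnd ℂ) (f (x : ℂ))) ((starRingEnd ℂ) (deriv f 0)) 0 :=
    h2.star
  have h8 : (fun x : ℝ => f (-(x : ℂ))) = fun x : ℝ => (starRingEnd ℂ) (f (x : ℂ)) := by
    funext x
    rw [← hsym, Complex.conj_ofReal]
  rw [h8] at h3
  have h9 := h3.unique h7
  have := congrArg Complex.re h9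
  simp only [neg_re, conj_re] at this
  linarith

/-- LEAF Strip-5 (lem:tail): if moreover `f (- conj z) = conj (f z)` then the real linear term
vanishes.  Proof: `h z = (f z + f (-z)) / 2` has `h x = Re f x` for real `x`, `deriv h 0 = 0`, `‖h‖ ≤ M`;
apply `taylor_two_bound` to `h`. -/
theorem re_quadratic_of_reflection {f : ℂ → ℂ} (hf : Differentiable ℂ f) {r M : ℝ} (hr : 0 < r)
    (hM : ∀ z : ℂ, ‖z‖ ≤ r → ‖f z‖ ≤ M)
    (hsym : ∀ z : ℂ, f (-(starRingEnd ℂ) z) = (starRingEnd ℂ) (f z)) {x : ℝ} (hx : |x| ≤ r / 2) :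
    |(f (x : ℂ) - f 0).re| ≤ 2 * M * (x / r) ^ 2 := by
  have h1 := taylor_two_bound hf hr hM (z := (x : ℂ)) (by simpa using hx)
  have h2 := deriv_re_eq_zero_of_reflection hf hsym
  have h3 : (f (x : ℂ) - f 0 - (x : ℂ) * deriv f 0).re = (f (x : ℂ) - f 0).re := by
    simp [h2]
  have h4 := Complex.abs_re_le_norm (f (x : ℂ) - f 0 - (x : ℂ) * deriv f 0)
  rw [h3] at h4
  have h5 : (‖(x : ℂ)‖ / r) ^ 2 = (x / r) ^ 2 := by
    rw [Complex.norm_real, Real.norm_eq_abs, div_pow, sq_abs, div_pow]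
  rw [h5] at h1
  exact h4.trans h1

end Claimed.Agent.R296
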