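import Claimed.Agent.R296.CondScalar
import Claimed.Agent.R296.StripA
import Claimed.Agent.R296.StripC

/-!
# Row 296, P1 Section 4.4: lem:skew, part B (PACKAGE S4-SKEW-B): the abstract analytic lemma (no matrices)

Statements: helper9 + helper57 (Sec 4 sub-captain).  The OWNER of this file (see `subtask`) replaces the `sorry`s;
new auxiliary lemmas carry the prefix `cda_`.  Do not change statements without telling helper57.
Chain: k4a (derivative at 0), k4b (Gaussian-damped imaginary axis), k4c (Taylor remainder) → k4.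
Tools (PROVED): `StripNice.narrow_strip`, `StripNice.half_strip_small` (StripA), `taylor_two_bound`,
`deriv_re_eq_zero_of_reflection` (StripC), `cd_skew_complex` (CondScalar).
-/

set_option autoImplicit false

namespace Claimed.Agent.R296

/-- LEAF S4-k4a.  `|f'(0)| ≤ 2 π A √p R` from the bound on the imaginary axis (difference quotient along `iu`,
`sinh (π u) / u → π`, the quadratic term is `O(u²)`). -/
theorem cd_deriv_bound {f : ℂ → ℂ} (hf : Differentiable ℂ f) {p A R : ℝ} {δ : ℝ → ℝ} (hp : 0 ≤ p)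
    (hA : 0 ≤ A) (hR : 0 ≤ R) (h0 : f 0 = (p : ℂ))
    (h1 : ∀ u : ℝ, ‖f ((u : ℂ) * Complex.I) - (p : ℂ)‖ ≤ 2 * Real.sqrt p * δ u + δ u ^ 2)
    (h2 : ∀ u : ℝ, 0 ≤ δ u ∧ δ u ≤ A * |Real.sinh (Real.pi * u)| * R) :
    ‖deriv f 0‖ ≤ 2 * Real.pi * A * Real.sqrt p * R := by
  -- the curve `u ↦ f (i u)` and its derivative at `0`
  have hg : HasDerivAt (fun u : ℝ => f ((u : ℂ) * Complex.I)) (deriv f 0 * Complex.I) 0 := by
    have h3 : HasDerivAt (fun w : ℂ => w * Complex.I) Complex.I ((0 : ℝ) : ℂ) := by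
      simpa using (hasDerivAt_id ((0 : ℝ) : ℂ)).mul_const Complex.I
    have h4 : HasDerivAt f (deriv f 0) (((0 : ℝ) : ℂ) * Complex.I) := by
      simpa using (hf 0).hasDerivAt
    exact (h4.comp ((0 : ℝ) : ℂ) h3).comp_ofReal
  -- the majorant
  have hs : HasDerivAt (fun u : ℝ => A * Real.sinh (Real.pi * u) * R) (A * Real.pi * R) 0 := by
    have h3 : HasDerivAt (fun u : ℝ => Real.pi * u) Real.pi 0 := by
      simpa using (hasDerivAt_id (0 : ℝ)).const_mul Real.pi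
    have h4 := ((h3.sinh).const_mul A).mul_const R
    simpa using h4
  have hh : HasDerivAt (fun u : ℝ => 2 * Real.sqrt p * (A * Real.sinh (Real.pi * u) * R) +
      (A * Real.sinh (Real.pi * u) * R) ^ 2) (2 * Real.sqrt p * (A * Real.pi * R)) 0 := by
    have h5 := (hs.const_mul (2 * Real.sqrt p)).add (hs.pow 2)
    refine (h5.congr_deriv ?_)
    simp
  have T1 := hg.tendsto_slope_zero_right.norm
  have T2 := hh.tendsto_slope_zero_right
  have hle := le_of_tendsto_of_tendsto T1 T2 (by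
    filter_upwards [self_mem_nhdsWithin] with u hu
    have hu0 : (0 : ℝ) < u := hu
    have hsinh : 0 ≤ Real.sinh (Real.pi * u) :=
      Real.sinh_nonneg_iff.mpr (mul_nonneg Real.pi_pos.le hu0.le)
    have hd := h2 u
    rw [abs_of_nonneg hsinh] at hd
    have hb := h1 u
    have hsq : 0 ≤ Real.sqrt p := Real.sqrt_nonneg p
    have hb2 : ‖f ((u : ℂ) * Complex.I) - (p : ℂ)‖ ≤
        2 * Real.sqrt p * (A * Real.sinh (Real.pi * u) * R) +
          (A * Real.sinh (Real.pi * u) * R) ^ 2 := by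
      refine hb.trans (add_le_add ?_ ?_)
      · exact mul_le_mul_of_nonneg_left hd.2 (by positivity)
      · exact pow_le_pow_left₀ hd.1 hd.2 2
    simp only [zero_add, Complex.ofReal_zero, zero_mul, h0, mul_zero, Real.sinh_zero, norm_smul,
      norm_inv, Real.norm_eq_abs, abs_of_pos hu0, smul_eq_mul, ne_eq, OfNat.ofNat_ne_zero,
      not_false_eq_true, zero_pow, add_zero, sub_zero]
    exact mul_le_mul_of_nonneg_left hb2 (inv_nonneg.mpr hu0.le))
  rw [norm_mul, Complex.norm_I, mul_one] at hle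
  calc ‖deriv f 0‖ ≤ 2 * Real.sqrt p * (A * Real.pi * R) := hle
    _ = 2 * Real.pi * A * Real.sqrt p * R := by ring

/-- LEAF S4-k4b.  `min(2, 2 δ + δ²) e^{-u²} ≤ C min(1,R)` for `δ ≤ A |sinh(π u)| R`;
`|sinh(π u)| e^{-u²} ≤ e^{π²/4}`, `sinh²(π u) e^{-u²} ≤ e^{π²}`. -/
theorem cd_gauss_damp (A : ℝ) (hA : 0 ≤ A) :
    ∃ C : ℝ, 0 < C ∧ ∀ (R u d : ℝ), 0 ≤ R → 0 ≤ d → d ≤ A * |Real.sinh (Real.pi * u)| * R →
      min 2 (2 * d + d ^ 2) * Real.exp (-u ^ 2) ≤ C * min 1 R := by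
  refine ⟨2 + 2 * A * Real.exp (Real.pi ^ 2 / 4) + A ^ 2 * Real.exp (Real.pi ^ 2), by positivity, ?_⟩
  intro R u d hR hd0 hd
  set S : ℝ := |Real.sinh (Real.pi * u)| with hS
  have hS0 : 0 ≤ S := abs_nonneg _
  have hE0 : 0 < Real.exp (-u ^ 2) := Real.exp_pos _
  have hE1 : Real.exp (-u ^ 2) ≤ 1 := Real.exp_le_one_iff.mpr (by nlinarith [sq_nonneg u])
  have hSle : S ≤ Real.exp (Real.pi * |u|) := by
    rw [hS, Real.abs_sinh, abs_mul, abs_of_pos Real.pi_pos, Real.sinh_eq]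
    have := Real.exp_pos (-(Real.pi * |u|))
    have := Real.exp_pos (Real.pi * |u|)
    linarith
  have hu2 : u ^ 2 = |u| ^ 2 := (sq_abs u).symm
  have b1 : S * Real.exp (-u ^ 2) ≤ Real.exp (Real.pi ^ 2 / 4) := by
    calc S * Real.exp (-u ^ 2) ≤ Real.exp (Real.pi * |u|) * Real.exp (-u ^ 2) := by gcongr
      _ = Real.exp (Real.pi * |u| + -u ^ 2) := (Real.exp_add _ _).symm
      _ ≤ Real.exp (Real.pi ^ 2 / 4) := by
          apply Real.exp_le_exp.mpr
          rw [hu2]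
          nlinarith [sq_nonneg (|u| - Real.pi / 2)]
  have b2 : S ^ 2 * Real.exp (-u ^ 2) ≤ Real.exp (Real.pi ^ 2) := by
    calc S ^ 2 * Real.exp (-u ^ 2) ≤ Real.exp (Real.pi * |u|) ^ 2 * Real.exp (-u ^ 2) := by gcongr
      _ = Real.exp (2 * (Real.pi * |u|) + -u ^ 2) := by
          rw [Real.exp_add, ← Real.exp_nat_mul]
          norm_num
      _ ≤ Real.exp (Real.pi ^ 2) := by
          apply Real.exp_le_exp.mpr
          rw [hu2]
          nlinarith [sq_nonneg (|u| - Real.pi)]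
  have e1 : 0 < Real.exp (Real.pi ^ 2 / 4) := Real.exp_pos _
  have e2 : 0 < Real.exp (Real.pi ^ 2) := Real.exp_pos _
  rcases le_total 1 R with h | h
  · rw [min_eq_left h, mul_one]
    have h3 : min 2 (2 * d + d ^ 2) * Real.exp (-u ^ 2) ≤ 2 * 1 :=
      mul_le_mul (min_le_left _ _) hE1 hE0.le (by norm_num)
    have : 0 ≤ 2 * A * Real.exp (Real.pi ^ 2 / 4) + A ^ 2 * Real.exp (Real.pi ^ 2) := by positivity
    linarith
  · rw [min_eq_right h]
    have h3 : d ^ 2 ≤ (A * S * R) ^ 2 := pow_le_pow_left₀ hd0 hd 2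
    have hRR : R ^ 2 ≤ R := by nlinarith
    calc min 2 (2 * d + d ^ 2) * Real.exp (-u ^ 2) ≤ (2 * d + d ^ 2) * Real.exp (-u ^ 2) := by
          gcongr
          exact min_le_right _ _
      _ ≤ (2 * (A * S * R) + (A * S * R) ^ 2) * Real.exp (-u ^ 2) := by gcongr
      _ = 2 * A * R * (S * Real.exp (-u ^ 2)) + A ^ 2 * R ^ 2 * (S ^ 2 * Real.exp (-u ^ 2)) := by ring
      _ ≤ 2 * A * R * Real.exp (Real.pi ^ 2 / 4) + A ^ 2 * R * Real.exp (Real.pi ^ 2) := by gcongr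
      _ ≤ (2 + 2 * A * Real.exp (Real.pi ^ 2 / 4) + A ^ 2 * Real.exp (Real.pi ^ 2)) * R := by
          nlinarith

/-- LEAF S4-k4c (Taylor remainder).  With `L = log (e 𝔇)`, `b = 1/(4L)`: `|f| ≤ e` on `|Re z| ≤ b`
(`narrow_strip`, `A = 1`, `D = 𝔇`, `w = 1/4`), `|f - p| ≤ C √(min 1 R)` on the disc of radius `b/2`
(`half_strip_small` with `μ = C min(1,R)` from k4b, `K = e + 1`), then `taylor_two_bound` for `f - p`, `r = b/2`. -/
theorem cd_skew_remainder (A : ℝ) (hA : 0 < A) :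
    ∃ c C : ℝ, 0 < c ∧ 0 < C ∧
      ∀ (f : ℂ → ℂ) (p 𝔇 R : ℝ) (δ : ℝ → ℝ), StripNice f →
        f 0 = (p : ℂ) → 0 ≤ p → p ≤ 1 → 1 ≤ 𝔇 → 0 ≤ R →
        (∀ z : ℂ, |z.re| ≤ 1 / 4 → ‖f z‖ ≤ 𝔇) →
        (∀ u : ℝ, ‖f ((u : ℂ) * Complex.I)‖ ≤ 1) →
        (∀ u : ℝ, ‖f ((u : ℂ) * Complex.I) - (p : ℂ)‖ ≤ 2 * Real.sqrt p * δ u + δ u ^ 2) →
        (∀ u : ℝ, 0 ≤ δ u ∧ δ u ≤ A * |Real.sinh (Real.pi * u)| * R) →
        ∀ t : ℝ, 0 < t → t * Real.log (Real.exp 1 * 𝔇) ≤ c →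
          ‖f (t : ℂ) - (p : ℂ) - (t : ℂ) * deriv f 0‖ ≤
            C * t ^ 2 * (Real.log (Real.exp 1 * 𝔇)) ^ 2 * Real.sqrt (min 1 R) := by
  obtain ⟨C1, hC1, H1⟩ := cd_gauss_damp A hA.le
  set K : ℝ := Real.exp 1 + 1 + C1 with hK
  have hE : 0 < Real.exp 1 := Real.exp_pos 1
  have hE1 : 1 ≤ Real.exp 1 := Real.one_le_exp zero_le_one
  have hK0 : 0 < K := by positivity
  refine ⟨1 / 16, 128 * (Real.sqrt (C1 * (K * Real.exp 1)) * Real.exp 1), by norm_num,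
    by positivity, ?_⟩
  intro f p 𝔇 R δ hf h0 hp0 hp1 hD hR hbd him h1 h2 t ht htL
  have hD0 : 0 < 𝔇 := by linarith
  set L : ℝ := Real.log (Real.exp 1 * 𝔇) with hL
  have hL1 : L = 1 + Real.log 𝔇 := by
    rw [hL, Real.log_mul hE.ne' hD0.ne', Real.log_exp]
  have hlogD : 0 ≤ Real.log 𝔇 := Real.log_nonneg hD
  have hLge : 1 ≤ L := by linarith
  have hL0 : 0 < L := by linarith
  set b : ℝ := 1 / (4 * L) with hb
  have hb0 : 0 < b := by positivity
  have hb14 : b ≤ 1 / 4 := by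
    rw [hb]
    exact one_div_le_one_div_of_le (by norm_num) (by linarith)
  have hpn : ‖(p : ℂ)‖ = p := by rw [Complex.norm_real, Real.norm_of_nonneg hp0]
  -- the narrow strip
  have hns : ∀ z : ℂ, |z.re| ≤ b → ‖f z‖ ≤ Real.exp 1 := by
    intro z hz
    have hz4 : |z.re| ≤ 1 / 4 := hz.trans hb14
    have h := hf.narrow_strip (A := 1) (D := 𝔇) (w := 1 / 4) zero_le_one hD (by norm_num)
      (fun y hy => by
        have : y = ((y.im : ℝ) : ℂ) * Complex.I := by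
          apply Complex.ext <;> simp [hy]
        rw [this]
        exact him y.im)
      (fun y hy => by
        rw [one_mul]
        exact hbd y hy.le) hz4
    rw [one_mul] at h
    refine h.trans ?_
    rw [Real.rpow_def_of_pos hD0]
    apply Real.exp_le_exp.mpr
    have h3 : |z.re| / (1 / 4) ≤ 1 / L := by
      rw [div_le_iff₀ (by norm_num)]
      calc |z.re| ≤ b := hz
        _ = 1 / L * (1 / 4) := by rw [hb]; field_simp
    calc Real.log 𝔇 * (|z.re| / (1 / 4)) ≤ L * (1 / L) := by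
          apply mul_le_mul (by linarith) h3 (by positivity) hL0.le
      _ = 1 := by field_simp
  -- the imaginary axis
  set μ : ℝ := C1 * min 1 R with hμ
  have hmin0 : 0 ≤ min 1 R := le_min zero_le_one hR
  have hμ0 : 0 ≤ μ := by positivity
  have hμK : μ ≤ K * Real.exp 1 := by
    have h3 : μ ≤ C1 * 1 := mul_le_mul_of_nonneg_left (min_le_left _ _) hC1.le
    nlinarith
  have haxis : ∀ u : ℝ, ‖f ((u : ℂ) * Complex.I) - (p : ℂ)‖ * Real.exp (-u ^ 2) ≤ μ := by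
    intro u
    have hδ := h2 u
    have hsp : Real.sqrt p ≤ 1 := Real.sqrt_le_one.mpr hp1
    have h3 : ‖f ((u : ℂ) * Complex.I) - (p : ℂ)‖ ≤ min 2 (2 * δ u + δ u ^ 2) := by
      refine le_min ?_ ?_
      · have := norm_sub_le (f ((u : ℂ) * Complex.I)) (p : ℂ)
        have := him u
        linarith
      · refine (h1 u).trans ?_
        have : 2 * Real.sqrt p * δ u ≤ 2 * 1 * δ u := by
          gcongr
          exact hδ.1
        linarith
    calc ‖f ((u : ℂ) * Complex.I) - (p : ℂ)‖ * Real.exp (-u ^ 2)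
        ≤ min 2 (2 * δ u + δ u ^ 2) * Real.exp (-u ^ 2) := by gcongr
      _ ≤ μ := H1 R u (δ u) hR hδ.1 hδ.2
  have hedge : ∀ z : ℂ, |z.re| = b → ‖f z - (p : ℂ)‖ ≤ K := by
    intro z hz
    have := norm_sub_le (f z) (p : ℂ)
    have := hns z hz.le
    linarith
  -- the disc
  set r : ℝ := b / 2 with hr
  have hr0 : 0 < r := by positivity
  have hr1 : r ≤ 1 := by linarith
  set M : ℝ := Real.sqrt (μ * (K * Real.exp 1)) * Real.exp 1 with hM
  have hdisc : ∀ z : ℂ, ‖z‖ ≤ r → ‖f z - (p : ℂ)‖ ≤ M := by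
    intro z hz
    have h3 := hf.half_strip_small (p := (p : ℂ)) hb0 (by linarith) hμ0 hμK haxis hedge
      (z := z) ((Complex.abs_re_le_norm z).trans hz)
    refine h3.trans ?_
    have h4 : z.im ^ 2 ≤ 1 := by
      have h5 : |z.im| ≤ 1 := ((Complex.abs_im_le_norm z).trans hz).trans hr1
      rw [← sq_abs]
      exact pow_le_one₀ (abs_nonneg _) h5
    rw [hM]
    gcongr
  have hdiff : Differentiable ℂ (fun z => f z - (p : ℂ)) := hf.diff.sub_const _
  have htn : ‖(t : ℂ)‖ = t := by rw [Complex.norm_real, Real.norm_of_nonneg ht.le]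
  have htr : ‖(t : ℂ)‖ ≤ r / 2 := by
    rw [htn, hr, hb]
    rw [div_div, div_div, le_div_iff₀ (by positivity)]
    nlinarith
  have hT := taylor_two_bound hdiff hr0 hdisc htr
  have hder : deriv (fun z => f z - (p : ℂ)) 0 = deriv f 0 := deriv_sub_const _
  rw [hder, h0, sub_self, sub_zero, htn] at hT
  refine hT.trans (le_of_eq ?_)
  have hsq : Real.sqrt (μ * (K * Real.exp 1)) =
      Real.sqrt (C1 * (K * Real.exp 1)) * Real.sqrt (min 1 R) := by
    rw [← Real.sqrt_mul (by positivity), hμ]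
    congr 1
    ring
  rw [hM, hsq, hr, hb]
  field_simp
  ring

/-- LEAF S4-k4 (abstract analytic lemma; no matrices).  Data: `f` StripNice with the reflection symmetry,
`f 0 = p ∈ [0,1]`, `|f| ≤ 𝔇` on `|Re z| ≤ 1/4` (`𝔇 ≥ 1`), `|f(iu)| ≤ 1`,
`|f(iu) - p| ≤ 2 √p δ(u) + δ(u)²` with `0 ≤ δ(u) ≤ A |sinh(π u)| R`.  Conclusion, with `L = log (e 𝔇)`:
for `0 < t ≤ c / L`:  `|f(t)| - Re f(t) ≤ C t² (L² √(min 1 R) + R²)`; `c, C` depend only on `A`.
Steps: `StripNice.narrow_strip` (`|f| ≤ e` on `|Re z| ≤ b = 1/(4L)`); `f'(0) ∈ iℝ`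
(`deriv_re_eq_zero_of_reflection`), `|f'(0)| ≤ π A √p R · 2` (difference quotient along `iu`);
`StripNice.half_strip_small` with `μ = C min(1,R)`; `taylor_two_bound` on the disc of radius `b/2`;
`cd_skew_complex`. -/
theorem cd_skew_analytic (A : ℝ) (hA : 0 < A) :
    ∃ c C : ℝ, 0 < c ∧ 0 < C ∧
      ∀ (f : ℂ → ℂ) (p 𝔇 R : ℝ) (δ : ℝ → ℝ), StripNice f →
        (∀ z : ℂ, f (-(starRingEnd ℂ) z) = (starRingEnd ℂ) (f z)) →
        f 0 = (p : ℂ) → 0 ≤ p → p ≤ 1 → 1 ≤ 𝔇 → 0 ≤ R →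
        (∀ z : ℂ, |z.re| ≤ 1 / 4 → ‖f z‖ ≤ 𝔇) →
        (∀ u : ℝ, ‖f ((u : ℂ) * Complex.I)‖ ≤ 1) →
        (∀ u : ℝ, ‖f ((u : ℂ) * Complex.I) - (p : ℂ)‖ ≤ 2 * Real.sqrt p * δ u + δ u ^ 2) →
        (∀ u : ℝ, 0 ≤ δ u ∧ δ u ≤ A * |Real.sinh (Real.pi * u)| * R) →
        ∀ t : ℝ, 0 < t → t * Real.log (Real.exp 1 * 𝔇) ≤ c →
          ‖f (t : ℂ)‖ - (f (t : ℂ)).re ≤
            C * t ^ 2 * ((Real.log (Real.exp 1 * 𝔇)) ^ 2 * Real.sqrt (min 1 R) + R ^ 2) := by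
  obtain ⟨c, C2, hc, hC2, H⟩ := cd_skew_remainder A hA
  refine ⟨c, (2 * Real.pi * A) ^ 2 + 2 * C2, hc, by positivity, ?_⟩
  intro f p 𝔇 R δ hf hsym h0 hp0 hp1 hD hR hbd him h1 h2 t ht htL
  have hrem := H f p 𝔇 R δ hf h0 hp0 hp1 hD hR hbd him h1 h2 t ht htL
  have hre := deriv_re_eq_zero_of_reflection hf.diff hsym
  have hder := cd_deriv_bound hf.diff hp0 hA.le hR h0 h1 h2
  set L : ℝ := Real.log (Real.exp 1 * 𝔇) with hL
  set b₁ : ℝ := (deriv f 0).im with hb₁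
  have hd : deriv f 0 = (b₁ : ℂ) * Complex.I := by
    apply Complex.ext <;> simp [hre, hb₁]
  have hb : |b₁| ≤ (2 * Real.pi * A) * Real.sqrt p * R := by
    have : ‖deriv f 0‖ = |b₁| := by
      rw [hd, norm_mul, Complex.norm_I, mul_one, Complex.norm_real, Real.norm_eq_abs]
    rw [← this]
    exact hder
  set ρ : ℂ := f (t : ℂ) - (p : ℂ) - (t : ℂ) * deriv f 0 with hρ
  have hft : f (t : ℂ) = (p : ℂ) + ((t * b₁ : ℝ) : ℂ) * Complex.I + ρ := by
    rw [hρ, hd]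
    push_cast
    ring
  have hmain := cd_skew_complex p b₁ t (2 * Real.pi * A) R _ ρ hp0 (by positivity) hR hb hrem
  rw [← hft] at hmain
  refine hmain.trans ?_
  have q1 : 0 ≤ t ^ 2 * (L ^ 2 * Real.sqrt (min 1 R)) := by positivity
  have q2 : 0 ≤ t ^ 2 * R ^ 2 := by positivity
  have q3 : 0 ≤ (2 * Real.pi * A) ^ 2 := by positivity
  nlinarith [mul_nonneg q3 q1, mul_nonneg hC2.le q2]

end Claimed.Agent.R296
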