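import Claimed.Agent.R296.CondPhase
import Claimed.Agent.R296.CondSkewA
import Claimed.Agent.R296.CondSkewB
import Claimed.Agent.R296.EntSite

/-!
# Row 296, P1 Section 4.4: lem:skew, assembly (PACKAGE S4-SKEW-C)

Statements: helper9 + helper57 (Sec 4 sub-captain).  The OWNER of this file (see `subtask`) replaces the `sorry`s;
new auxiliary lemmas carry the prefix `cdz_`.  Do not change statements without telling helper57.
k5 (entropy inputs from ENT: `EntSite.lean`), k6 = `cd_skew`.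
-/

set_option autoImplicit false

namespace Claimed.Agent.R296

open Matrix
open scoped MatrixOrder Matrix.Norms.L2Operator ComplexOrder

theorem cdz_norm {n : Type} [Fintype n] {θ : n → ℂ} (hθ : star θ ⬝ᵥ θ = 1) :
    ∑ i, ‖θ i‖ ^ 2 = 1 := by
  classical
  rw [star_dotProduct_self_eq] at hθ
  exact_mod_cast hθ

/-- pointwise form of `cd_Four` -/
theorem cdz_four {s : Type} [DecidableEq s] [Fintype s] {P x U F : Finset s}
    (h4 : cd_Four P x U F) (y : s) :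
    (y ∈ P ∨ y ∈ x ∨ y ∈ U ∨ y ∈ F) ∧ (y ∈ P → y ∉ x) ∧ (y ∈ P → y ∉ U) ∧ (y ∈ P → y ∉ F) ∧
      (y ∈ x → y ∉ U) ∧ (y ∈ x → y ∉ F) ∧ (y ∈ U → y ∉ F) := by
  refine ⟨?_, fun h => Finset.disjoint_left.1 h4.dPx h, fun h => Finset.disjoint_left.1 h4.dPU h,
    fun h => Finset.disjoint_left.1 h4.dPF h, fun h => Finset.disjoint_left.1 h4.dxU h,
    fun h => Finset.disjoint_left.1 h4.dxF h, fun h => Finset.disjoint_left.1 h4.dUF h⟩
  have : y ∈ P ∪ x ∪ U ∪ F := by rw [h4.cover]; exact Finset.mem_univ y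
  simp only [Finset.mem_union] at this
  tauto

/-- LEAF S4-k5a (the identities for `η` in lem:movement / lem:skew; purity `ent_compl_pureOp`):
`S(x|P) + S(x|U) = I(x:F|U) = I(x:F|P)`. -/
theorem cd_eta_eq {s : Type} [DecidableEq s] [Fintype s] {io : s → Type}
    [∀ y, Fintype (io y)] [∀ y, DecidableEq (io y)] (θ : Cfg io → ℂ) (hθ : star θ ⬝ᵥ θ = 1)
    {P x U F : Finset s} (h4 : cd_Four P x U F) :
    centr (pureOp θ) x P + centr (pureOp θ) x U = cminfo (pureOp θ) x F U ∧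
    cminfo (pureOp θ) x F P = cminfo (pureOp θ) x F U := by
  have e1 : (x ∪ P)ᶜ = U ∪ F := by
    ext y
    obtain ⟨hc, a1, a2, a3, a4, a5, a6⟩ := cdz_four h4 y
    simp only [Finset.mem_compl, Finset.mem_union]
    by_cases hP : y ∈ P <;> by_cases hx : y ∈ x <;> by_cases hU : y ∈ U <;>
      by_cases hF : y ∈ F <;> simp_all
  have e2 : Pᶜ = x ∪ U ∪ F := by
    ext y
    obtain ⟨hc, a1, a2, a3, a4, a5, a6⟩ := cdz_four h4 y
    simp only [Finset.mem_compl, Finset.mem_union]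
    by_cases hP : y ∈ P <;> by_cases hx : y ∈ x <;> by_cases hU : y ∈ U <;>
      by_cases hF : y ∈ F <;> simp_all
  have e3 : (x ∪ U)ᶜ = P ∪ F := by
    ext y
    obtain ⟨hc, a1, a2, a3, a4, a5, a6⟩ := cdz_four h4 y
    simp only [Finset.mem_compl, Finset.mem_union]
    by_cases hP : y ∈ P <;> by_cases hx : y ∈ x <;> by_cases hU : y ∈ U <;>
      by_cases hF : y ∈ F <;> simp_all
  have e4 : Uᶜ = x ∪ P ∪ F := by
    ext y
    obtain ⟨hc, a1, a2, a3, a4, a5, a6⟩ := cdz_four h4 y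
    simp only [Finset.mem_compl, Finset.mem_union]
    by_cases hP : y ∈ P <;> by_cases hx : y ∈ x <;> by_cases hU : y ∈ U <;>
      by_cases hF : y ∈ F <;> simp_all
  have p1 := ent_compl_pureOp θ (x ∪ P)
  have p2 := ent_compl_pureOp θ P
  have p3 := ent_compl_pureOp θ (x ∪ U)
  have p4 := ent_compl_pureOp θ U
  rw [e1] at p1
  rw [e2] at p2
  rw [e3] at p3
  rw [e4] at p4
  unfold centr cminfo
  constructor <;> linarith

/-- INPUT from BB_Entropy: `0 ≤ I(x:F|U) ≤ 2 log dim x`.  LEAF S4-k5 = derive from the ENT interface. -/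
theorem cd_cminfo_bounds {s : Type} [DecidableEq s] [Fintype s] {io : s → Type}
    [∀ y, Fintype (io y)] [∀ y, DecidableEq (io y)] (θ : Cfg io → ℂ) (hθ : star θ ⬝ᵥ θ = 1)
    {P x U F : Finset s} (h4 : cd_Four P x U F) :
    0 ≤ cminfo (pureOp θ) x F U ∧ cminfo (pureOp θ) x F U ≤ 2 * Real.log (cd_dim io x) := by
  have hd : IsDensity (pureOp θ) := pureOp_isDensity (cdz_norm hθ)
  constructor
  · apply cminfo_nonneg hd
    intro y hy
    obtain ⟨-, -, -, -, -, a5, -⟩ := cdz_four h4 y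
    simp only [Finset.mem_inter] at hy
    exact absurd hy.2 (a5 hy.1)
  · rw [← (cd_eta_eq θ hθ h4).1]
    have h1 := (abs_le.mp (abs_centr_le hd x P)).2
    have h2 := (abs_le.mp (abs_centr_le hd x U)).2
    have hne := cd_nonempty_io hθ
    have h3 : Real.log (cd_dim io x) = ∑ y ∈ x, Real.log (Fintype.card (io y)) := by
      unfold cd_dim
      rw [Nat.cast_prod, Real.log_prod]
      intro y _
      have : Fintype.card (io y) ≠ 0 := Fintype.card_ne_zero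
      exact_mod_cast this
    rw [h3]
    linarith

theorem cdz_dim_pos {s : Type} [DecidableEq s] [Fintype s] {io : s → Type}
    [∀ y, Fintype (io y)] [∀ y, DecidableEq (io y)] (hne : ∀ y, Nonempty (io y)) (x : Finset s) :
    1 ≤ cd_dim io x := by
  unfold cd_dim
  exact Finset.one_le_prod' fun y _ => Nat.one_le_iff_ne_zero.mpr Fintype.card_ne_zero

theorem cdz_dim_mono {s : Type} [DecidableEq s] [Fintype s] {io : s → Type}
    [∀ y, Fintype (io y)] [∀ y, DecidableEq (io y)] (hne : ∀ y, Nonempty (io y)) {x x' : Finset s}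
    (h : x ⊆ x') : cd_dim io x ≤ cd_dim io x' := by
  unfold cd_dim
  exact Finset.prod_le_prod_of_subset_of_one_le' h
    fun y _ _ => Nat.one_le_iff_ne_zero.mpr Fintype.card_ne_zero

theorem cdz_R_nonneg (d : ℕ) (η : ℝ) : 0 ≤ cd_R d η := by
  unfold cd_R
  split_ifs
  · exact le_rfl
  · positivity

/-- expectation of `0 ≤ h ≤ 1` in a unit vector -/
theorem cdz_expect {n : Type} [Fintype n] [DecidableEq n] {H : Matrix n n ℂ} (h0 : H.PosSemidef)
    (h1 : (1 - H).PosSemidef) {θ : n → ℂ} (hθ : star θ ⬝ᵥ θ = 1) :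
    star θ ⬝ᵥ (H *ᵥ θ) = (((star θ ⬝ᵥ (H *ᵥ θ)).re : ℝ) : ℂ) ∧
      0 ≤ (star θ ⬝ᵥ (H *ᵥ θ)).re ∧ (star θ ⬝ᵥ (H *ᵥ θ)).re ≤ 1 := by
  have a0 := h0.dotProduct_mulVec_nonneg θ
  have a1 := h1.dotProduct_mulVec_nonneg θ
  rw [Matrix.sub_mulVec, Matrix.one_mulVec, dotProduct_sub, hθ] at a1
  obtain ⟨r0, i0⟩ := Complex.le_def.mp a0
  obtain ⟨r1, -⟩ := Complex.le_def.mp a1
  simp only [Complex.zero_re, Complex.zero_im, Complex.sub_re, Complex.one_re] at r0 i0 r1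
  refine ⟨Complex.ext (by simp) (by simp [← i0]), r0, by linarith⟩

/-- **lem:skew** (conditional skew estimate).  `P₀ ⊆ P`, `h` supported on `P₀ ∪ x`.
LEAF S4-k6 = assembly: k1-k3, `cd_phases`, k4 with `𝔇 = d_h²` (`log (e d_h²) ≤ 2 ℓ_h`), k5, `cd_skew_scalar`. -/
theorem cd_skew :
    ∃ c C : ℝ, 0 < c ∧ 0 < C ∧
      ∀ (s : Type) [DecidableEq s] [Fintype s] (io : s → Type)
        [∀ y, Fintype (io y)] [∀ y, DecidableEq (io y)]
        (θ : Cfg io → ℂ) (P x U F P₀ : Finset s), star θ ⬝ᵥ θ = 1 → cd_Four P x U F → P₀ ⊆ P →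
        ∀ h : Matrix (CfgOn io (P₀ ∪ x)) (CfgOn io (P₀ ∪ x)) ℂ, 0 ≤ h → h ≤ 1 →
        ∀ a : ℝ, 0 < a → a * cd_ell io (P₀ ∪ x) ≤ c →
          ‖cd_skewFun θ P (x ∪ U) (P₀ ∪ x) h ((a / 2 : ℝ) : ℂ)‖ -
              (cd_skewFun θ P (x ∪ U) (P₀ ∪ x) h ((a / 2 : ℝ) : ℂ)).re ≤
            C * a ^ 2 * (cd_ell io (P₀ ∪ x)) ^ 4 *
              (cminfo (pureOp θ) x F U) ^ (1 / 8 : ℝ) := by
  obtain ⟨Cp, hCp, hph⟩ := cd_phases
  obtain ⟨c, Ca, hc, hCa, han⟩ := cd_skew_analytic Cp hCp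
  obtain ⟨Cs, hCs, hsc⟩ := cd_skew_scalar
  refine ⟨c, Ca * Cs, hc, by positivity, ?_⟩
  intro s _ _ io _ _ θ P x U F P₀ hθ h4 hP₀ h h0 h1 a ha hac
  have hne := cd_nonempty_io hθ
  set η := cminfo (pureOp θ) x F U with hη
  set dx := cd_dim io x with hdx
  set dh := cd_dim io (P₀ ∪ x) with hdh
  set ℓ := cd_ell io (P₀ ∪ x) with hℓ
  set R := cd_R dx η with hR
  have hdx1 : 1 ≤ dx := cdz_dim_pos hne x
  have hdxh : dx ≤ dh := cdz_dim_mono hne Finset.subset_union_right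
  have hdh1 : (1 : ℝ) ≤ dh := by exact_mod_cast hdx1.trans hdxh
  obtain ⟨hη0, hη1⟩ := cd_cminfo_bounds θ hθ h4
  have hPY : Disjoint P (x ∪ U) := Finset.disjoint_union_right.mpr ⟨h4.dPx, h4.dPU⟩
  have hpsd : h.PosSemidef := Matrix.nonneg_iff_posSemidef.mp h0
  have hpsd1 : (1 - h).PosSemidef := Matrix.le_iff.mp h1
  obtain ⟨b1, b2, b3⟩ := cd_skewFun_basic θ hPY hpsd.1
  have hE0 : (emb (P₀ ∪ x) h).PosSemidef := by
    rw [emb_eq_embE]; exact embE_posSemidef _ hpsd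
  have hE1 : (1 - emb (P₀ ∪ x) h).PosSemidef := by
    have := embE_posSemidef (cfgSplit (io := io) (P₀ ∪ x)) hpsd1
    rwa [embE_sub, embE_one, ← emb_eq_embE] at this
  obtain ⟨q1, q2, q3⟩ := cdz_expect hE0 hE1 hθ
  set p := (star θ ⬝ᵥ (emb (P₀ ∪ x) h *ᵥ θ)).re with hp
  have hℓdef : ℓ = Real.log (Real.exp 1 * (dh : ℝ)) := rfl
  have hℓ1 : 1 ≤ ℓ := by
    rw [hℓdef, Real.log_mul (Real.exp_pos 1).ne' (by linarith), Real.log_exp]
    have := Real.log_nonneg hdh1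
    linarith
  have hL : Real.log (Real.exp 1 * ((dh : ℝ) ^ 2)) ≤ 2 * ℓ := by
    rw [hℓdef, Real.log_mul (Real.exp_pos 1).ne' (by positivity), Real.log_exp,
      Real.log_mul (Real.exp_pos 1).ne' (by linarith), Real.log_exp, Real.log_pow]
    push_cast
    linarith
  have hL0 : 0 ≤ Real.log (Real.exp 1 * ((dh : ℝ) ^ 2)) := by
    apply Real.log_nonneg
    have h2 : (1 : ℝ) ≤ Real.exp 1 := by
      have := Real.add_one_le_exp (1 : ℝ)
      linarith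
    have h3 : (1 : ℝ) ≤ (dh : ℝ) ^ 2 := one_le_pow₀ hdh1
    nlinarith
  have key := han (cd_skewFun θ P (x ∪ U) (P₀ ∪ x) h) p ((dh : ℝ) ^ 2) R
    (fun u => l2n ((emb U (hpow (ptr U (pureOp θ)) (-(u : ℂ) * Complex.I)) *
                  emb (x ∪ U) (hpow (ptr (x ∪ U) (pureOp θ)) ((u : ℂ) * Complex.I)) -
                emb (U ∪ F) (hpow (ptr (U ∪ F) (pureOp θ)) (-(u : ℂ) * Complex.I)) *
                  emb (x ∪ U ∪ F) (hpow (ptr (x ∪ U ∪ F) (pureOp θ)) ((u : ℂ) * Complex.I))) *ᵥ θ))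
    b1 b2 (b3.trans q1) q2 q3 (one_le_pow₀ hdh1) (cdz_R_nonneg _ _)
    (fun z hz => cd_skewFun_strip θ hθ h4 hP₀ h0 h1 hz)
    (fun u => (cd_skewFun_imag θ hθ h4 hP₀ h0 h1 u).1)
    (fun u => by
      have := (cd_skewFun_imag θ hθ h4 hP₀ h0 h1 u).2
      rw [q1] at this
      simpa using this)
    (fun u => ⟨l2n_nonneg _, hph s io θ P x U F hθ h4 u⟩)
    (a / 2) (by positivity)
    (by
      have : a / 2 * Real.log (Real.exp 1 * ((dh : ℝ) ^ 2)) ≤ a / 2 * (2 * ℓ) :=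
        mul_le_mul_of_nonneg_left hL (by positivity)
      linarith)
  have hs := hsc dx dh η hdx1 hdxh hη0 hη1
  rw [← hℓdef] at hs
  refine key.trans ?_
  have hsq : 0 ≤ Real.sqrt (min 1 R) := Real.sqrt_nonneg _
  have hL2 : (Real.log (Real.exp 1 * ((dh : ℝ) ^ 2))) ^ 2 ≤ 4 * ℓ ^ 2 := by
    have : (Real.log (Real.exp 1 * ((dh : ℝ) ^ 2))) ^ 2 ≤ (2 * ℓ) ^ 2 :=
      pow_le_pow_left₀ hL0 hL 2
    linarith [this]
  have h5 : (Real.log (Real.exp 1 * ((dh : ℝ) ^ 2))) ^ 2 * Real.sqrt (min 1 R) + R ^ 2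
      ≤ 4 * (ℓ ^ 2 * Real.sqrt (min 1 R) + R ^ 2) := by
    have := mul_le_mul_of_nonneg_right hL2 hsq
    nlinarith [sq_nonneg R]
  calc Ca * (a / 2) ^ 2 * ((Real.log (Real.exp 1 * ((dh : ℝ) ^ 2))) ^ 2 * Real.sqrt (min 1 R) + R ^ 2)
      ≤ Ca * (a / 2) ^ 2 * (4 * (ℓ ^ 2 * Real.sqrt (min 1 R) + R ^ 2)) :=
        mul_le_mul_of_nonneg_left h5 (by positivity)
    _ = Ca * a ^ 2 * (ℓ ^ 2 * Real.sqrt (min 1 R) + R ^ 2) := by ring
    _ ≤ Ca * a ^ 2 * (Cs * ℓ ^ 4 * η ^ (1 / 8 : ℝ)) :=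
        mul_le_mul_of_nonneg_left hs (by positivity)
    _ = Ca * Cs * a ^ 2 * ℓ ^ 4 * η ^ (1 / 8 : ℝ) := by ring

end Claimed.Agent.R296
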