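import Claimed.Agent.R296.CondDefs
import Claimed.Agent.R296.TwoBasis
import Claimed.Agent.R296.ALT
import Claimed.Agent.R296.MatFun2
import Claimed.Agent.R296.EntBasic

/-!
# Row 296, P1 Section 4.1: the TWO-PARTY layer, part A (PACKAGE S4-TWO-A)

Statements: helper9 + helper57 (Sec 4 sub-captain).  PROOFS: helper57 (auxiliary lemmas: prefix `cdt_`).  SORRY-FREE
(modulo the scalar leaves of `CondScalar.lean`).
Setting: `ρ` a density matrix on an index type `n` (the system `xU`), and a splitting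
`e : n ≃ m × r` (`m` = the system `U`, `r` = the moved system `x`, `d = card r`).
`ptrE e ρ = ρ_U`, `embE e Y = 1_x ⊗ Y`.  No purification, no sites.
Tools (all PROVED): `EntRelCore` (`ovw`, `sum_ovw_left/right`, `trace_mfun_mul_mfun`), `TwoBasis.lean`
(`tb_trace_re`, `hsSq_sub_mul_mfun`, PSD Hölder `trace_spow_mul_le`), `ALT.lean` (`alt_trace_le`), `HS.lean`,
`MatFun2.lean`, `EntPtrE.lean` (`trace_mul_embE`, `mfun_embE`, ...); scalar leaves: `CondScalar.lean`.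
Chain: Q-calculus, t1 → t2 → t3 → `cd_two_pair` (the Nussbaum--Szkoła pair variable) → t4, t11; t4 + ALT → t6.
-/

set_option autoImplicit false
set_option linter.unusedSectionVars false

namespace Claimed.Agent.R296

open Matrix
open scoped MatrixOrder Matrix.Norms.L2Operator ComplexOrder

variable {n m r : Type} [Fintype n] [DecidableEq n] [Fintype m] [DecidableEq m]
  [Fintype r] [DecidableEq r]

/-- `Q^z`, `Q = 1_x ⊗ ρ̂_U` -/
noncomputable def cd_Q (e : n ≃ m × r) (ρ : Matrix n n ℂ) (z : ℂ) : Matrix n n ℂ :=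
  embE e (hpow (ptrE e ρ) z)

/-- conditional entropy `S(x|U) = S(xU) - S(U)` -/
noncomputable def cd_S (e : n ≃ m × r) (ρ : Matrix n n ℂ) : ℝ := vnEnt ρ - vnEnt (ptrE e ρ)

/-- `K = Q^{-a} ρ Q^{-a}` -/
noncomputable def cd_K (e : n ≃ m × r) (ρ : Matrix n n ℂ) (a : ℝ) : Matrix n n ℂ :=
  cd_Q e ρ (-(a : ℂ)) * ρ * cd_Q e ρ (-(a : ℂ))

/-- `Z = (Tr K^r)^{1/r}`, `r = 1/(1-2a)` -/
noncomputable def cd_Z (e : n ≃ m × r) (ρ : Matrix n n ℂ) (a : ℝ) : ℝ :=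
  ((spow (cd_K e ρ a) (((1 - 2 * a)⁻¹ : ℝ) : ℂ)).trace.re) ^ (1 - 2 * a)

/-- `ξ = K^r / Tr K^r` -/
noncomputable def cd_xi (e : n ≃ m × r) (ρ : Matrix n n ℂ) (a : ℝ) : Matrix n n ℂ :=
  (((spow (cd_K e ρ a) (((1 - 2 * a)⁻¹ : ℝ) : ℂ)).trace.re : ℝ) : ℂ)⁻¹ •
    spow (cd_K e ρ a) (((1 - 2 * a)⁻¹ : ℝ) : ℂ)

/-- `ℓ = log (e d)`, `d = card r` -/
noncomputable def cd_l (r : Type) [Fintype r] : ℝ := Real.log (Real.exp 1 * (Fintype.card r : ℝ))

/-! ### calculus of `cd_Q` -/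

theorem cd_l_ge_one (r : Type) [Fintype r] [Nonempty r] : 1 ≤ cd_l r := by
  unfold cd_l
  have h1 : (1 : ℝ) ≤ (Fintype.card r : ℝ) := by exact_mod_cast Fintype.card_pos
  have h2 : Real.exp 1 ≤ Real.exp 1 * (Fintype.card r : ℝ) := by
    nlinarith [Real.exp_pos 1]
  calc (1 : ℝ) = Real.log (Real.exp 1) := (Real.log_exp 1).symm
    _ ≤ _ := Real.log_le_log (Real.exp_pos 1) h2

/-- a density matrix lives on a nonempty index type, hence both factors are nonempty -/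
theorem cd_nonempty_of_density (e : n ≃ m × r) {ρ : Matrix n n ℂ} (hρ : IsDensity ρ) :
    Nonempty m ∧ Nonempty r := by
  have hn : Nonempty n := by
    by_contra h
    rw [not_nonempty_iff] at h
    have := hρ.2
    simp [Matrix.trace] at this
  obtain ⟨u⟩ := hn
  exact ⟨⟨(e u).1⟩, ⟨(e u).2⟩⟩

theorem cd_Q_add (e : n ≃ m × r) (ρ : Matrix n n ℂ) (z w : ℂ) :
    cd_Q e ρ (z + w) = cd_Q e ρ z * cd_Q e ρ w := by
  unfold cd_Q; rw [hpow_add, embE_mul]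

theorem cd_Q_zero (e : n ≃ m × r) {ρ : Matrix n n ℂ} (hρ : ρ.IsHermitian) : cd_Q e ρ 0 = 1 := by
  unfold cd_Q; rw [hpow_zero (ptrE_isHermitian e hρ), embE_one]

theorem cd_Q_conjTranspose (e : n ≃ m × r) (ρ : Matrix n n ℂ) (z : ℂ) :
    (cd_Q e ρ z)ᴴ = cd_Q e ρ (star z) := by
  unfold cd_Q; rw [← embE_conjTranspose, hpow_conjTranspose]

/-- `Q^z` is the `z`-th hat power of `Q = Q^1` (so that the two-basis formula applies to `ρ` and `Q`).
`mfun_embE` + `hpow (hpow A 1) z = hpow A z`. -/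
theorem cd_Q_eq_hpow (e : n ≃ m × r) {ρ : Matrix n n ℂ} (hρ : ρ.PosSemidef) (z : ℂ) :
    cd_Q e ρ z = hpow (cd_Q e ρ 1) z := by
  have hU := ptrE_isHermitian e hρ.1
  have h1 : (hpow (ptrE e ρ) 1).IsHermitian := by
    have := (hpow_posDef hU 1).1
    simpa using this
  unfold cd_Q
  conv_rhs => unfold hpow
  rw [mfun_embE _ e (by simpa [hpow] using h1)]
  congr 1
  have := hpow_hpow hU 1 z
  simpa [hpow] using this.symm

theorem cd_Q_posDef (e : n ≃ m × r) {ρ : Matrix n n ℂ} (hρ : ρ.IsHermitian) (t : ℝ) :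
    (cd_Q e ρ (t : ℂ)).PosDef := by
  have hU := ptrE_isHermitian e hρ
  have h1 : (cd_Q e ρ (t : ℂ)).PosSemidef := embE_posSemidef e (hpow_posDef hU t).posSemidef
  have h2 : IsUnit (cd_Q e ρ (t : ℂ)) := by
    refine ⟨⟨cd_Q e ρ (t : ℂ), cd_Q e ρ (-(t : ℂ)), ?_, ?_⟩, rfl⟩
    · rw [← cd_Q_add, add_neg_cancel, cd_Q_zero e hρ]
    · rw [← cd_Q_add, neg_add_cancel, cd_Q_zero e hρ]
  exact (h1.posDef_iff_isUnit).2 h2

/-- for positive definite matrices the two power conventions agree: `Q^z = spow Q z` -/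
theorem cd_Q_eq_spow (e : n ≃ m × r) {ρ : Matrix n n ℂ} (hρ : ρ.PosSemidef) (z : ℂ) :
    cd_Q e ρ z = spow (cd_Q e ρ 1) z := by
  have := cd_Q_posDef e hρ.1 1
  rw [spow_eq_hpow_of_posDef (by simpa using this), ← cd_Q_eq_hpow e hρ]

theorem cd_Q_unitary (e : n ≃ m × r) {ρ : Matrix n n ℂ} (hρ : ρ.IsHermitian) {z : ℂ} (hz : z.re = 0) :
    (cd_Q e ρ z)ᴴ * cd_Q e ρ z = 1 ∧ cd_Q e ρ z * (cd_Q e ρ z)ᴴ = 1 := by
  have h := hpow_unitary (ptrE_isHermitian e hρ) hz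
  unfold cd_Q
  rw [← embE_conjTranspose, ← embE_mul, ← embE_mul, h.1, h.2, embE_one]
  exact ⟨rfl, rfl⟩

/-! ### 4.1 -/

/-- the `k`-th component (a vector on `m`) of a vector on `n` -/
def cdt_comp (e : n ≃ m × r) (v : n → ℂ) (k : r) : m → ℂ := fun x => v (e.symm (x, k))

theorem cdt_sum_lift (e : n ≃ m × r) (v : n → ℂ) : ∑ k, liftE e k (cdt_comp e v k) = v := by
  funext u
  rw [Finset.sum_apply]
  simp only [liftE, cdt_comp]
  rw [Finset.sum_eq_single (e u).2]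
  · simp
  · intro k _ hk
    simp [Ne.symm hk]
  · simp

theorem cdt_quad_embE (e : n ≃ m × r) (Y : Matrix m m ℂ) (v : n → ℂ) :
    star v ⬝ᵥ (embE e Y *ᵥ v) = ∑ k, star (cdt_comp e v k) ⬝ᵥ (Y *ᵥ cdt_comp e v k) := by
  simp only [dotProduct, mulVec, Pi.star_apply, cdt_comp, embE_apply]
  rw [← e.symm.sum_comp, Fintype.sum_prod_type, Finset.sum_comm]
  refine Finset.sum_congr rfl fun k _ => Finset.sum_congr rfl fun x _ => ?_
  congr 1
  rw [← e.symm.sum_comp, Fintype.sum_prod_type]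
  refine Finset.sum_congr rfl fun x' _ => ?_
  simp only [Equiv.apply_symm_apply]
  rw [Finset.sum_eq_single k]
  · simp
  · intro k' _ hk'
    simp [Ne.symm hk']
  · simp

theorem cdt_quad_eq_l2n (B : Matrix n n ℂ) (v : n → ℂ) :
    star v ⬝ᵥ ((Bᴴ * B) *ᵥ v) = ((l2n (B *ᵥ v) ^ 2 : ℝ) : ℂ) := by
  rw [l2n_sq_eq_dotProduct, star_mulVec, ← mulVec_mulVec, dotProduct_mulVec]

/-- LEAF S4-t1 (local domination).  `ρ ≤ d (1_x ⊗ ρ_U)`.  Block Cauchy--Schwarz. -/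
theorem cd_two_domination (e : n ≃ m × r) {ρ : Matrix n n ℂ} (hρ : ρ.PosSemidef) :
    ρ ≤ (Fintype.card r : ℂ) • embE e (ptrE e ρ) := by
  rw [Matrix.le_iff]
  have hH : ((Fintype.card r : ℂ) • embE e (ptrE e ρ) - ρ).IsHermitian := by
    refine IsHermitian.sub ?_ hρ.1
    have := (embE_isHermitian e (ptrE_isHermitian e hρ.1))
    rw [IsHermitian, conjTranspose_smul, this.eq]; simp
  refine PosSemidef.of_dotProduct_mulVec_nonneg hH fun v => ?_
  obtain ⟨B, rfl⟩ := hs_exists_eq_conjTranspose_mul_self hρ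
  rw [sub_mulVec, dotProduct_sub, smul_mulVec, dotProduct_smul, cdt_quad_embE, sub_nonneg,
    cdt_quad_eq_l2n]
  simp only [quad_ptrE, cdt_quad_eq_l2n]
  set a : r → ℝ := fun k => l2n (B *ᵥ liftE e k (cdt_comp e v k)) with ha
  have h1 : l2n (B *ᵥ v) ≤ ∑ k, a k := by
    conv_lhs => rw [← cdt_sum_lift e v, mulVec_sum]
    unfold l2n
    rw [WithLp.toLp_sum]
    exact norm_sum_le _ _
  have h2 : (∑ k, a k) ^ 2 ≤ (Fintype.card r : ℝ) * ∑ k, a k ^ 2 := by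
    have := sq_sum_le_card_mul_sum_sq (s := (Finset.univ : Finset r)) (f := a)
    simpa using this
  have h3 : ∀ k, a k ^ 2 ≤ ∑ k', l2n (B *ᵥ liftE e k' (cdt_comp e v k)) ^ 2 := fun k =>
    Finset.single_le_sum (f := fun k' => l2n (B *ᵥ liftE e k' (cdt_comp e v k)) ^ 2)
      (fun _ _ => sq_nonneg _) (Finset.mem_univ k)
  have h4 : l2n (B *ᵥ v) ^ 2 ≤
      (Fintype.card r : ℝ) * ∑ k, ∑ k', l2n (B *ᵥ liftE e k' (cdt_comp e v k)) ^ 2 := by
    calc l2n (B *ᵥ v) ^ 2 ≤ (∑ k, a k) ^ 2 := by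
          exact pow_le_pow_left₀ (l2n_nonneg _) h1 2
      _ ≤ (Fintype.card r : ℝ) * ∑ k, a k ^ 2 := h2
      _ ≤ _ := by
          refine mul_le_mul_of_nonneg_left (Finset.sum_le_sum fun k _ => h3 k) (Nat.cast_nonneg _)
  have : ((l2n (B *ᵥ v) ^ 2 : ℝ) : ℂ) ≤
      (((Fintype.card r : ℝ) * ∑ k, ∑ k', l2n (B *ᵥ liftE e k' (cdt_comp e v k)) ^ 2 : ℝ) : ℂ) := by
    exact_mod_cast h4
  refine this.trans (le_of_eq ?_)
  push_cast
  rfl

theorem cdt_eq_zero_of_hsSq {A : Matrix n n ℂ} (h : hsSq A = 0) : A = 0 := by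
  unfold hsSq at h
  ext i j
  have h1 := (Finset.sum_eq_zero_iff_of_nonneg (fun i _ => Finset.sum_nonneg fun j _ => sq_nonneg _)).1 h i
    (Finset.mem_univ i)
  have h2 := (Finset.sum_eq_zero_iff_of_nonneg (fun j _ => sq_nonneg _)).1 h1 j (Finset.mem_univ j)
  simpa using h2

/-- right-handed version of t2 -/
theorem cd_two_support' (e : n ≃ m × r) {ρ : Matrix n n ℂ} (hρ : ρ.PosSemidef) :
    ρ * embE e (supp (ptrE e ρ)) = ρ := by
  have hU := ptrE_posSemidef e hρ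
  set Pj := embE e (supp (ptrE e ρ)) with hPj
  have hPjH : Pjᴴ = Pj := by
    rw [hPj, ← embE_conjTranspose, (supp_isHermitian _).eq]
  have hPj2 : Pj * Pj = Pj := by rw [hPj, ← embE_mul, supp_mul_supp]
  have htr : (ρ * (1 - Pj)).trace = 0 := by
    rw [Matrix.mul_sub, Matrix.mul_one, trace_sub, hPj, trace_mul_embE, self_mul_supp hU, trace_ptrE,
      sub_self]
  obtain ⟨B, hB⟩ := hs_exists_eq_conjTranspose_mul_self hρ
  have h0 : hsSq (B * (1 - Pj)) = 0 := by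
    have h1 := hsSq_eq_trace (B * (1 - Pj))
    have h2 : ((B * (1 - Pj))ᴴ * (B * (1 - Pj))).trace = (ρ * (1 - Pj)).trace := by
      rw [conjTranspose_mul, conjTranspose_sub, conjTranspose_one, hPjH, Matrix.mul_assoc,
        trace_mul_comm, hB]
      congr 1
      have : (1 - Pj) * (1 - Pj) = 1 - Pj := by
        rw [Matrix.sub_mul, Matrix.mul_sub, Matrix.mul_sub, hPj2]; simp
      rw [Matrix.mul_assoc, Matrix.mul_assoc, this, Matrix.mul_assoc]
    rw [h2, htr] at h1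
    exact_mod_cast h1
  have h3 := cdt_eq_zero_of_hsSq h0
  have h4 : ρ * (1 - Pj) = 0 := by rw [hB, Matrix.mul_assoc, h3, Matrix.mul_zero]
  rw [Matrix.mul_sub, Matrix.mul_one, sub_eq_zero] at h4
  exact h4.symm

/-- LEAF S4-t2 (support inclusion).  `supp ρ ≤ 1_x ⊗ supp ρ_U`, in the form used:
`(1_x ⊗ supp ρ_U) ρ = ρ`.  (From t1: `ρ ≤ d · 1⊗ρ_U` kills the kernel of `1 ⊗ ρ_U`.) -/
theorem cd_two_support (e : n ≃ m × r) {ρ : Matrix n n ℂ} (hρ : ρ.PosSemidef) :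
    embE e (supp (ptrE e ρ)) * ρ = ρ := by
  have h := congrArg conjTranspose (cd_two_support' e hρ)
  rwa [conjTranspose_mul, hρ.1.eq, ← embE_conjTranspose, (supp_isHermitian _).eq] at h

theorem cdt_one_sub_supp_posSemidef (A : Matrix m m ℂ) : (1 - supp A).PosSemidef := by
  have h : (1 - supp A) = (1 - supp A)ᴴ * (1 - supp A) := by
    rw [conjTranspose_sub, conjTranspose_one, (supp_isHermitian A).eq, Matrix.sub_mul, Matrix.mul_sub,
      Matrix.mul_sub, supp_mul_supp]; simp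
  rw [h]; exact posSemidef_conjTranspose_mul_self _

/-- `ρ ≤ d Q` (`ρ_U ≤ ρ̂_U`) -/
theorem cd_two_le_Q (e : n ≃ m × r) {ρ : Matrix n n ℂ} (hρ : ρ.PosSemidef) :
    ρ ≤ (Fintype.card r : ℂ) • cd_Q e ρ 1 := by
  refine (cd_two_domination e hρ).trans ?_
  rw [Matrix.le_iff, ← smul_sub]
  unfold cd_Q
  rw [hpow_one (ptrE_posSemidef e hρ), ← embE_sub, add_sub_cancel_left]
  have := embE_posSemidef e (cdt_one_sub_supp_posSemidef (ptrE e ρ))
  have h2 : (0 : ℂ) ≤ (Fintype.card r : ℂ) := by exact_mod_cast Nat.cast_nonneg _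
  exact this.smul h2

theorem cdt_trace_mul_mlog {A : Matrix n n ℂ} (hA : A.IsHermitian) :
    (A * mlog A).trace = ((-vnEnt A : ℝ) : ℂ) := by
  have h1 : A * mlog A = mfun (fun x => (x : ℂ) * (Real.log x : ℂ)) A := by
    rw [mfun_mul, mfun_id hA]; rfl
  rw [h1, trace_mfun hA, vnEnt_eq_sum_eigenvalues hA]
  push_cast
  rw [← Finset.sum_neg_distrib]
  refine Finset.sum_congr rfl fun i _ => ?_
  simp [Real.negMulLog]

theorem cdt_supp_eq {A : Matrix n n ℂ} (hA : A.PosSemidef) : supp A = A * spow A (-1) := by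
  have := spow_add A 1 (-1)
  rw [add_neg_cancel, spow_one hA, spow_zero] at this
  exact this

theorem cdt_norm_supp_le {A : Matrix n n ℂ} (hA : A.IsHermitian) : ‖supp A‖ ≤ 1 := by
  refine norm_mfun_le hA _ zero_le_one fun i => ?_
  unfold suppS
  split_ifs <;> simp

theorem cdt_moment_pos (e : n ≃ m × r) {ρ : Matrix n n ℂ} (hρ : IsDensity ρ) :
    (spow ρ 2 * cd_Q e ρ (-1)).trace.re ≤ Fintype.card r := by
  have hH := hρ.1.1
  set R := spow ρ (1 / 2) with hR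
  set G := cd_Q e ρ (((-1 / 2 : ℝ)) : ℂ) with hG
  have hRH : Rᴴ = R := spow_half_conjTranspose ρ
  have hRR : R * R = ρ := spow_half_mul_self hρ.1
  have hGH : Gᴴ = G := (cd_Q_posDef e hH _).1.eq
  have hGG : G * G = cd_Q e ρ (-1) := by
    rw [hG, ← cd_Q_add]; congr 1; push_cast; ring
  have hGQG : G * cd_Q e ρ 1 * G = 1 := by
    rw [hG, ← cd_Q_add, ← cd_Q_add, ← cd_Q_zero e hH]; congr 1; push_cast; ring
  set C := R * G with hC
  have hX : Cᴴ * C = G * ρ * G := by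
    rw [hC, conjTranspose_mul, hRH, hGH, ← hRR]; simp only [Matrix.mul_assoc]
  have hT : C * Cᴴ = R * cd_Q e ρ (-1) * R := by
    rw [hC, conjTranspose_mul, hRH, hGH, ← hGG]; simp only [Matrix.mul_assoc]
  have hd0 : (0 : ℝ) ≤ (Fintype.card r : ℝ) := Nat.cast_nonneg _
  have hXn : ‖Cᴴ * C‖ ≤ (Fintype.card r : ℝ) := by
    refine opNorm_le_of_posSemidef hd0 (posSemidef_conjTranspose_mul_self C) ?_
    have h1 := cd_two_le_Q e hρ.1
    rw [Matrix.le_iff] at h1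
    have h2 := h1.mul_mul_conjTranspose_same G
    rw [hGH] at h2
    have h3 : G * ((Fintype.card r : ℂ) • cd_Q e ρ 1 - ρ) * G =
        ((Fintype.card r : ℝ) : ℂ) • (1 : Matrix n n ℂ) - Cᴴ * C := by
      rw [hX, Matrix.mul_sub, Matrix.sub_mul, Matrix.mul_smul, Matrix.smul_mul, hGQG]
      simp
    rwa [h3] at h2
  have hTn : ‖C * Cᴴ‖ ≤ (Fintype.card r : ℝ) := by
    have e1 : ‖C * Cᴴ‖ = ‖Cᴴ * C‖ := by
      have a1 := Matrix.l2_opNorm_conjTranspose_mul_self C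
      have a2 := Matrix.l2_opNorm_conjTranspose_mul_self Cᴴ
      rw [conjTranspose_conjTranspose, Matrix.l2_opNorm_conjTranspose] at a2
      rw [a1, a2]
    rw [e1]; exact hXn
  have e2 : (spow ρ 2 * cd_Q e ρ (-1)).trace = ((C * Cᴴ) * ρ).trace := by
    have : spow ρ 2 = ρ * ρ := by
      have := spow_add ρ 1 1
      rw [spow_one hρ.1] at this
      rw [← this]; norm_num
    rw [this, hT]
    have hRρR : R * ρ * R = ρ * ρ := by
      conv_lhs => rw [← hRR]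
      conv_rhs => rw [← hRR]
      simp only [Matrix.mul_assoc]
    calc (ρ * ρ * cd_Q e ρ (-1)).trace = (cd_Q e ρ (-1) * (ρ * ρ)).trace := trace_mul_comm _ _
      _ = ((cd_Q e ρ (-1) * (R * ρ)) * R).trace := by rw [← hRρR]; simp only [Matrix.mul_assoc]
      _ = (R * (cd_Q e ρ (-1) * (R * ρ))).trace := trace_mul_comm _ _
      _ = (R * cd_Q e ρ (-1) * R * ρ).trace := by simp only [Matrix.mul_assoc]
  rw [e2]
  have h5 := norm_trace_mul_le_of_posSemidef (C * Cᴴ) hρ.1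
  rw [hρ.2] at h5
  simp only [Complex.one_re, mul_one] at h5
  exact (Complex.re_le_norm _).trans (h5.trans hTn)

theorem cdt_moment_neg (e : n ≃ m × r) {ρ : Matrix n n ℂ} (hρ : IsDensity ρ) :
    (supp ρ * cd_Q e ρ 1).trace.re ≤ Fintype.card r := by
  have hU := ptrE_posSemidef e hρ.1
  have h1 : supp ρ * embE e (supp (ptrE e ρ)) = supp ρ := by
    have hc : supp ρ = spow ρ (-1) * ρ := by
      rw [cdt_supp_eq hρ.1]
      conv_lhs => rw [← spow_one hρ.1]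
      conv_rhs => rw [← spow_one hρ.1]
      rw [spow_one hρ.1]
      have := spow_comm ρ 1 (-1)
      rwa [spow_one hρ.1] at this
    rw [hc, Matrix.mul_assoc, cd_two_support' e hρ.1]
  have h2 : supp ρ * cd_Q e ρ 1 = supp ρ * embE e (ptrE e ρ) := by
    unfold cd_Q
    rw [hpow_one hU, embE_add, embE_sub, embE_one, Matrix.mul_add, Matrix.mul_sub, Matrix.mul_one, h1,
      sub_self, add_zero]
  rw [h2]
  have h3 := norm_trace_mul_le_of_posSemidef (supp ρ) (embE_posSemidef e hU)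
  rw [trace_embE, trace_ptrE, hρ.2] at h3
  simp only [mul_one, Complex.natCast_re] at h3
  refine (Complex.re_le_norm _).trans (h3.trans ?_)
  have := cdt_norm_supp_le hρ.1.1
  have hd0 : (0 : ℝ) ≤ (Fintype.card r : ℝ) := Nat.cast_nonneg _
  nlinarith

/-- LEAF S4-t3 (eq:conditional-log-moments).  The three moments of `L = log p_i - log q_j`. -/
theorem cd_two_moments (e : n ≃ m × r) {ρ : Matrix n n ℂ} (hρ : IsDensity ρ) :
    (ρ * (mlog ρ - embE e (mlog (ptrE e ρ)))).trace.re = - cd_S e ρ ∧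
    (spow ρ 2 * cd_Q e ρ (-1)).trace.re ≤ Fintype.card r ∧
    (supp ρ * cd_Q e ρ 1).trace.re ≤ Fintype.card r := by
  refine ⟨?_, cdt_moment_pos e hρ, cdt_moment_neg e hρ⟩
  rw [Matrix.mul_sub, trace_sub, cdt_trace_mul_mlog hρ.1.1, trace_mul_embE,
    cdt_trace_mul_mlog (ptrE_isHermitian e hρ.1.1)]
  simp only [Complex.sub_re, Complex.ofReal_re, cd_S]
  ring

theorem cdt_Q_one_posDef (e : n ≃ m × r) {ρ : Matrix n n ℂ} (hρ : ρ.IsHermitian) :
    (cd_Q e ρ 1).PosDef := by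
  have := cd_Q_posDef e hρ 1
  simpa using this

/-- `log Q = 1_x ⊗ log ρ_U` -/
theorem cdt_mlog_Q (e : n ≃ m × r) {ρ : Matrix n n ℂ} (hρ : ρ.PosSemidef) :
    mlog (cd_Q e ρ 1) = embE e (mlog (ptrE e ρ)) := by
  have hU := ptrE_posSemidef e hρ
  have h1 : hpow (ptrE e ρ) 1 = mfun (fun x => (mf2_hrpowS 1 x : ℂ)) (ptrE e ρ) := by
    have := mf2_hpow_ofReal_eq (ptrE e ρ) 1
    simpa using this
  unfold cd_Q mlog
  rw [h1, mfun_embE _ e (mfun_isHermitian _ _), mfun_comp _ _ _ hU.1]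
  congr 1
  refine mfun_congr hU.1 fun i => ?_
  rcases (hU.eigenvalues_nonneg i).lt_or_eq with h | h
  · simp [mf2_hrpowS, h]
  · simp [mf2_hrpowS, ← h]

/-- two-basis trace formula with the weights `ovw hQ hρ j i` -/
theorem cdt_trace_re {A B : Matrix n n ℂ} (hA : A.IsHermitian) (hB : B.IsHermitian) (f g : ℝ → ℝ) :
    (mfun (fun x => (f x : ℂ)) A * mfun (fun x => (g x : ℂ)) B).trace.re =
      ∑ k : n × n, f (hA.eigenvalues k.1) * g (hB.eigenvalues k.2) * ovw hB hA k.2 k.1 := by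
  rw [Matrix.trace_mul_comm, tb_trace_re hB hA, Fintype.sum_prod_type, Finset.sum_comm]
  refine Finset.sum_congr rfl fun i _ => Finset.sum_congr rfl fun j _ => ?_
  ring

/-- LEAF S4-t3' (THE PAIR VARIABLE, interface between matrices and `CondScalar`).
`ι = n × n`, `w (i,j) = p_i * ovw hρ hQ i j`, `L (i,j) = log p_i - log q_j` (`p` = eigenvalues of `ρ`, `q > 0` =
eigenvalues of `Q = cd_Q e ρ 1`, use `cd_Q_eq_hpow`).  All items are instances of `tb_trace_re` /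
`hsSq_sub_mul_mfun` + t3 + `cd_phase_log`; terms with `p_i = 0` have weight `0`. -/
theorem cd_two_pair (e : n ≃ m × r) {ρ : Matrix n n ℂ} (hρ : IsDensity ρ) :
    ∃ w L : n × n → ℝ, (∀ k, 0 ≤ w k) ∧ ∑ k, w k = 1 ∧
      ∑ k, w k * L k = - cd_S e ρ ∧
      ∑ k, w k * Real.exp (L k) ≤ Fintype.card r ∧
      ∑ k, w k * Real.exp (-L k) ≤ Fintype.card r ∧
      (∀ b : ℝ, (spow ρ ((1 + b : ℝ) : ℂ) * cd_Q e ρ (-(b : ℂ))).trace.re =
        ∑ k, w k * Real.exp (b * L k)) ∧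
      (∀ s : ℝ, hsSq ((cd_Q e ρ ((s : ℂ) * Complex.I) - hpow ρ ((s : ℂ) * Complex.I)) * spow ρ (1 / 2)) ≤
        s ^ 2 * ∑ k, w k * (L k) ^ 2) := by
  have hH := hρ.1.1
  have hQd := cdt_Q_one_posDef e hH
  have hQ := hQd.1
  have hp : ∀ i, 0 ≤ hH.eigenvalues i := hρ.1.eigenvalues_nonneg
  have hq : ∀ j, 0 < hQ.eigenvalues j := hQd.eigenvalues_pos
  set w : n × n → ℝ := fun k => hH.eigenvalues k.1 * ovw hQ hH k.2 k.1 with hw
  set L : n × n → ℝ := fun k => Real.log (hH.eigenvalues k.1) - Real.log (hQ.eigenvalues k.2) with hL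
  have hmgf : ∀ b : ℝ, (spow ρ ((1 + b : ℝ) : ℂ) * cd_Q e ρ (-(b : ℂ))).trace.re =
        ∑ k, w k * Real.exp (b * L k) := by
    intro b
    have e1 : cd_Q e ρ (-(b : ℂ)) = mfun (fun x => (mf2_hrpowS (-b) x : ℂ)) (cd_Q e ρ 1) := by
      rw [cd_Q_eq_hpow e hρ.1, ← mf2_hpow_ofReal_eq]; push_cast; rfl
    rw [e1, spow_ofReal_eq, cdt_trace_re hH hQ]
    refine Finset.sum_congr rfl fun k => fun _ => ?_
    simp only [hw, hL]
    have hq' := hq k.2
    rcases (hp k.1).lt_or_eq with h | h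
    · simp only [rpowS, h, if_true, mf2_hrpowS, hq']
      rw [Real.rpow_add h, Real.rpow_one, mul_sub, Real.exp_sub, Real.rpow_def_of_pos h,
        Real.rpow_def_of_pos hq']
      have : Real.exp (Real.log (hQ.eigenvalues k.2) * -b) =
          (Real.exp (b * Real.log (hQ.eigenvalues k.2)))⁻¹ := by
        rw [← Real.exp_neg]; congr 1; ring
      rw [this, mul_comm (Real.log (hH.eigenvalues k.1)) b]
      field_simp
    · simp [rpowS, ← h]
  refine ⟨w, L, fun k => mul_nonneg (hp _) (ovw_nonneg _ _ _ _), ?_, ?_, ?_, ?_, hmgf, ?_⟩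
  · rw [Fintype.sum_prod_type]
    simp only [hw]
    simp_rw [← Finset.mul_sum, sum_ovw_left hQ hH, mul_one]
    have := hρ.2
    rw [hH.trace_eq_sum_eigenvalues] at this
    have h2 : ((∑ i, hH.eigenvalues i : ℝ) : ℂ) = ((1 : ℝ) : ℂ) := by
      push_cast; simpa using this
    exact Complex.ofReal_injective h2
  · rw [← (cd_two_moments e hρ).1, ← cdt_mlog_Q e hρ.1, Matrix.mul_sub, trace_sub, Complex.sub_re]
    have e1 : (ρ * mlog ρ).trace.re =
        ∑ k : n × n, (hH.eigenvalues k.1 * Real.log (hH.eigenvalues k.1)) * 1 * ovw hQ hH k.2 k.1 := by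
      have h1 : ρ * mlog ρ = mfun (fun x => ((x * Real.log x : ℝ) : ℂ)) ρ *
          mfun (fun _ => ((1 : ℝ) : ℂ)) (cd_Q e ρ 1) := by
        have : mfun (fun _ => ((1 : ℝ) : ℂ)) (cd_Q e ρ 1) = 1 := by
          simpa using mfun_one hQ
        rw [this, Matrix.mul_one]
        have h2 : (fun x : ℝ => ((x * Real.log x : ℝ) : ℂ)) = fun x : ℝ => (x : ℂ) * (Real.log x : ℂ) := by
          ext x; push_cast; rfl
        rw [h2, mfun_mul, mfun_id hH]; rfl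
      rw [h1, cdt_trace_re hH hQ]
    have e2 : (ρ * mlog (cd_Q e ρ 1)).trace.re =
        ∑ k : n × n, hH.eigenvalues k.1 * Real.log (hQ.eigenvalues k.2) * ovw hQ hH k.2 k.1 := by
      have h1 : ρ * mlog (cd_Q e ρ 1) = mfun (fun x => ((x : ℝ) : ℂ)) ρ *
          mfun (fun x => ((Real.log x : ℝ) : ℂ)) (cd_Q e ρ 1) := by
        rw [mfun_id hH]; rfl
      rw [h1, cdt_trace_re hH hQ]
    rw [e1, e2, ← Finset.sum_sub_distrib]
    refine Finset.sum_congr rfl fun k _ => ?_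
    simp only [hw, hL]; ring
  · have h1 := hmgf 1
    have h2 := (cd_two_moments e hρ).2.1
    have e1 : ((1 + 1 : ℝ) : ℂ) = 2 := by norm_num
    rw [e1] at h1
    simp only [Complex.ofReal_one, one_mul] at h1
    rw [← h1]; exact h2
  · have h1 := hmgf (-1)
    have h2 := (cd_two_moments e hρ).2.2
    have e1 : ((1 + -1 : ℝ) : ℂ) = 0 := by norm_num
    rw [e1, spow_zero] at h1
    simp only [Complex.ofReal_neg, Complex.ofReal_one, neg_neg, neg_mul, one_mul] at h1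
    rw [← h1]; exact h2
  · intro s
    have e1 : cd_Q e ρ ((s : ℂ) * Complex.I) = mfun (hpowS ((s : ℂ) * Complex.I)) (cd_Q e ρ 1) := by
      rw [cd_Q_eq_hpow e hρ.1]; rfl
    rw [e1]
    unfold hpow spow
    rw [hsSq_sub_mul_mfun hQ hH, Finset.mul_sum, Fintype.sum_prod_type, Finset.sum_comm]
    refine Finset.sum_le_sum fun i _ => Finset.sum_le_sum fun j _ => ?_
    simp only [hw, hL]
    have hW := ovw_nonneg hQ hH j i
    rcases (hp i).lt_or_eq with h | h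
    · have h1 := cd_phase_log s _ _ (hq j) h
      have h2 : ‖spowS (1 / 2) (hH.eigenvalues i)‖ ^ 2 = hH.eigenvalues i := by
        rw [norm_spowS h]
        have : ((1 / 2 : ℂ)).re = 1 / 2 := by norm_num
        rw [this, ← Real.sqrt_eq_rpow, Real.sq_sqrt h.le]
      rw [h2]
      have h3 : (Real.log (hQ.eigenvalues j) - Real.log (hH.eigenvalues i)) ^ 2 =
          (Real.log (hH.eigenvalues i) - Real.log (hQ.eigenvalues j)) ^ 2 := by ring
      rw [h3] at h1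
      calc _ ≤ s ^ 2 * (Real.log (hH.eigenvalues i) - Real.log (hQ.eigenvalues j)) ^ 2 *
            hH.eigenvalues i * ovw hQ hH j i := by gcongr
        _ = _ := by ring
    · rw [← h]; simp [spowS]

theorem cdt_one_le_card (e : n ≃ m × r) {ρ : Matrix n n ℂ} (hρ : IsDensity ρ) :
    (1 : ℝ) ≤ (Fintype.card r : ℝ) := by
  have := (cd_nonempty_of_density e hρ).2
  exact_mod_cast Fintype.card_pos

/-- Jensen lower bound, all real `b` -/
theorem cd_two_jensen (e : n ≃ m × r) {ρ : Matrix n n ℂ} (hρ : IsDensity ρ) (b : ℝ) :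
    Real.exp (-(b * cd_S e ρ)) ≤ (spow ρ ((1 + b : ℝ) : ℂ) * cd_Q e ρ (-(b : ℂ))).trace.re := by
  obtain ⟨w, L, hw, hw1, hm, -, -, hmgf, -⟩ := cd_two_pair e hρ
  rw [hmgf b]
  have := cd_jensen_exp _ w L hw hw1 b
  rwa [hm, mul_neg] at this

/-- LEAF S4-t4 (eq:conditional-log-mgf, matrix form) `E e^{bL} = Tr ρ^{1+b} Q^{-b}`:
upper bound for `|b| ℓ ≤ c` (`cd_two_pair` + `cd_logmgf_scalar`), Jensen lower bound (`cd_jensen_exp`). -/
theorem cd_two_mgf :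
    ∃ c C : ℝ, 0 < c ∧ 0 < C ∧
      ∀ (n m r : Type) [Fintype n] [DecidableEq n] [Fintype m] [DecidableEq m] [Fintype r]
        [DecidableEq r] (e : n ≃ m × r) (ρ : Matrix n n ℂ), IsDensity ρ →
        ∀ b : ℝ, |b| * cd_l r ≤ c →
          Real.exp (-(b * cd_S e ρ)) ≤ (spow ρ ((1 + b : ℝ) : ℂ) * cd_Q e ρ (-(b : ℂ))).trace.re ∧
          (spow ρ ((1 + b : ℝ) : ℂ) * cd_Q e ρ (-(b : ℂ))).trace.re ≤
            Real.exp (-(b * cd_S e ρ) + C * b ^ 2 * (cd_l r) ^ 2) := by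
  obtain ⟨c, C, hc, hC, H⟩ := cd_logmgf_scalar
  refine ⟨c, C, hc, hC, ?_⟩
  intro n m r _ _ _ _ _ _ e ρ hρ b hb
  have hJ := cd_two_jensen e hρ b
  refine ⟨hJ, ?_⟩
  obtain ⟨w, L, hw, hw1, hm, hp, hn, hmgf, -⟩ := cd_two_pair e hρ
  have h1 := (H _ w L (Fintype.card r) (cdt_one_le_card e hρ) hw hw1 hp hn).2 b hb
  rw [hmgf b] at hJ ⊢
  have hpos : 0 < ∑ k, w k * Real.exp (b * L k) := lt_of_lt_of_le (Real.exp_pos _) hJ
  rw [hm] at h1
  have h2 := (Real.log_le_iff_le_exp hpos).1 h1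
  refine h2.trans (le_of_eq ?_)
  unfold cd_l
  congr 1; ring

/-- LEAF S4-t11.  `‖(Q^{is} - ρ̂^{is}) √ρ‖₂² ≤ s² E L² ≤ C s² ℓ²`. -/
theorem cd_two_phase_Q :
    ∃ C : ℝ, 0 < C ∧
      ∀ (n m r : Type) [Fintype n] [DecidableEq n] [Fintype m] [DecidableEq m] [Fintype r]
        [DecidableEq r] (e : n ≃ m × r) (ρ : Matrix n n ℂ), IsDensity ρ → ∀ s : ℝ,
          hsSq ((cd_Q e ρ ((s : ℂ) * Complex.I) - hpow ρ ((s : ℂ) * Complex.I)) * spow ρ (1 / 2)) ≤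
            C * s ^ 2 * (cd_l r) ^ 2 := by
  obtain ⟨c, C, hc, hC, H⟩ := cd_logmgf_scalar
  refine ⟨C, hC, ?_⟩
  intro n m r _ _ _ _ _ _ e ρ hρ s
  obtain ⟨w, L, hw, hw1, hm, hp, hn, -, hph⟩ := cd_two_pair e hρ
  have h1 := (H _ w L (Fintype.card r) (cdt_one_le_card e hρ) hw hw1 hp hn).1
  refine (hph s).trans ?_
  calc s ^ 2 * ∑ k, w k * L k ^ 2 ≤ s ^ 2 * (C * (Real.log (Real.exp 1 * (Fintype.card r : ℝ))) ^ 2) :=
        mul_le_mul_of_nonneg_left h1 (sq_nonneg s)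
    _ = _ := by unfold cd_l; ring

/-! ### facts on `K` -/

theorem cd_K_posSemidef (e : n ≃ m × r) {ρ : Matrix n n ℂ} (hρ : ρ.PosSemidef) (a : ℝ) :
    (cd_K e ρ a).PosSemidef := by
  have h := hρ.mul_mul_conjTranspose_same (cd_Q e ρ (-(a : ℂ)))
  have h2 : (cd_Q e ρ (-(a : ℂ)))ᴴ = cd_Q e ρ (-(a : ℂ)) := by
    have := (cd_Q_posDef e hρ.1 (-a)).1.eq
    simpa using this
  rw [h2] at h
  exact h

theorem cdt_trace_spow_pos {K : Matrix n n ℂ} (hK : K.PosSemidef) (h0 : K ≠ 0) (t : ℝ) :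
    0 < (spow K (t : ℂ)).trace.re := by
  rw [spow_ofReal_eq, trace_mfun hK.1]
  have h1 : (∑ i, ((rpowS t (hK.1.eigenvalues i) : ℝ) : ℂ)).re = ∑ i, rpowS t (hK.1.eigenvalues i) := by
    rw [← Complex.ofReal_sum, Complex.ofReal_re]
  rw [h1]
  have h2 : ∃ i, hK.1.eigenvalues i ≠ 0 := by
    by_contra hcon
    push Not at hcon
    exact h0 (hK.1.eigenvalues_eq_zero_iff.1 (funext hcon))
  obtain ⟨i, hi⟩ := h2
  have hi' : 0 < hK.1.eigenvalues i := lt_of_le_of_ne (hK.eigenvalues_nonneg i) (Ne.symm hi)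
  refine Finset.sum_pos' (fun j _ => rpowS_nonneg _ _) ⟨i, Finset.mem_univ i, ?_⟩
  simp only [rpowS, hi', if_true]
  exact Real.rpow_pos_of_pos hi' t

theorem cdt_K_ne_zero (e : n ≃ m × r) {ρ : Matrix n n ℂ} (hρ : IsDensity ρ) (a : ℝ) :
    cd_K e ρ a ≠ 0 := by
  intro h
  have h1 : cd_Q e ρ (a : ℂ) * cd_K e ρ a * cd_Q e ρ (a : ℂ) = ρ := by
    unfold cd_K
    have e1 : cd_Q e ρ (a : ℂ) * cd_Q e ρ (-(a : ℂ)) = 1 := by
      rw [← cd_Q_add, add_neg_cancel, cd_Q_zero e hρ.1.1]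
    have e2 : cd_Q e ρ (-(a : ℂ)) * cd_Q e ρ (a : ℂ) = 1 := by
      rw [← cd_Q_add, neg_add_cancel, cd_Q_zero e hρ.1.1]
    calc _ = (cd_Q e ρ (a : ℂ) * cd_Q e ρ (-(a : ℂ))) * ρ * (cd_Q e ρ (-(a : ℂ)) * cd_Q e ρ (a : ℂ)) := by
          simp only [Matrix.mul_assoc]
      _ = ρ := by rw [e1, e2, Matrix.one_mul, Matrix.mul_one]
  rw [h, Matrix.mul_zero, Matrix.zero_mul] at h1
  have := hρ.2
  rw [← h1] at this
  simp at this

/-- `Tr K^t > 0` (`K ≠ 0` because `Q^{-a}` is invertible and `ρ ≠ 0`) -/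
theorem cd_trace_K_pow_pos (e : n ≃ m × r) {ρ : Matrix n n ℂ} (hρ : IsDensity ρ) (a t : ℝ) :
    0 < (spow (cd_K e ρ a) (t : ℂ)).trace.re :=
  cdt_trace_spow_pos (cd_K_posSemidef e hρ.1 a) (cdt_K_ne_zero e hρ a) t

/-- real powers of `Q^s` -/
theorem cdt_spow_Q (e : n ≃ m × r) {ρ : Matrix n n ℂ} (hρ : ρ.PosSemidef) (s : ℝ) (z : ℂ) :
    spow (cd_Q e ρ (s : ℂ)) z = cd_Q e ρ ((s : ℂ) * z) := by
  have hQ : (cd_Q e ρ 1).IsHermitian := by
    have := (cd_Q_posDef e hρ.1 1).1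
    simpa using this
  rw [cd_Q_eq_spow e hρ, spow_spow hQ, ← cd_Q_eq_spow e hρ]

/-- ALT step: `Tr K^t ≤ Tr ρ^t Q^{-2at}` for `t ≥ 1` -/
theorem cdt_trace_K_pow_le (e : n ≃ m × r) {ρ : Matrix n n ℂ} (hρ : ρ.PosSemidef) (a : ℝ) {t : ℝ}
    (ht : 1 ≤ t) :
    (spow (cd_K e ρ a) (t : ℂ)).trace.re ≤
      (spow ρ (t : ℂ) * cd_Q e ρ (-((2 * a * t : ℝ) : ℂ))).trace.re := by
  have hB : (cd_Q e ρ ((-(2 * a) : ℝ) : ℂ)).PosSemidef := (cd_Q_posDef e hρ.1 _).posSemidef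
  have h := alt_trace_le hρ hB ht
  rw [cdt_spow_Q e hρ, cdt_spow_Q e hρ] at h
  have e1 : ((-(2 * a) : ℝ) : ℂ) * (1 / 2) = -(a : ℂ) := by push_cast; ring
  have e2 : ((-(2 * a) : ℝ) : ℂ) * (t : ℂ) = -((2 * a * t : ℝ) : ℂ) := by push_cast; ring
  rw [e1, e2] at h
  exact h

/-- LEAF S4-t6 (eq:conditional-schatten).  `log Z ≤ -2 a S(x|U) + C a² ℓ²`; also `Z > 0`.
`alt_trace_le` with `B = Q^{-2a}`, `A = ρ`, exponent `r`; `r - 1 = 2 a r`; then t4 with `b = r - 1`. -/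
theorem cd_two_schatten :
    ∃ c C : ℝ, 0 < c ∧ 0 < C ∧
      ∀ (n m r : Type) [Fintype n] [DecidableEq n] [Fintype m] [DecidableEq m] [Fintype r]
        [DecidableEq r] (e : n ≃ m × r) (ρ : Matrix n n ℂ), IsDensity ρ →
        ∀ a : ℝ, 0 < a → a * cd_l r ≤ c →
          0 < cd_Z e ρ a ∧
          cd_Z e ρ a ≤ Real.exp (-(2 * a * cd_S e ρ) + C * a ^ 2 * (cd_l r) ^ 2) := by
  obtain ⟨c₄, C₄, hc₄, hC₄, H⟩ := cd_two_mgf
  refine ⟨min (c₄ / 4) (1 / 4), 8 * C₄, by positivity, by positivity, ?_⟩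
  intro n m r _ _ _ _ _ _ e ρ hρ a ha hal
  have hne := (cd_nonempty_of_density e hρ).2
  have hl : 1 ≤ cd_l r := cd_l_ge_one r
  have hal1 : a * cd_l r ≤ c₄ / 4 := hal.trans (min_le_left _ _)
  have hal2 : a * cd_l r ≤ 1 / 4 := hal.trans (min_le_right _ _)
  have ha4 : a ≤ 1 / 4 := by nlinarith
  set s : ℝ := 1 - 2 * a with hs
  have hs0 : 0 < s := by rw [hs]; linarith
  have hs12 : 1 / 2 ≤ s := by rw [hs]; linarith
  set t : ℝ := s⁻¹ with ht
  have hst : s * t = 1 := mul_inv_cancel₀ hs0.ne'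
  have ht0 : 0 < t := inv_pos.2 hs0
  have ht2 : t ≤ 2 := by
    rw [ht]; rw [inv_le_comm₀ hs0 (by norm_num)]; linarith
  have ht1 : 1 ≤ t := by
    rw [ht]; exact (one_le_inv₀ hs0).2 (by rw [hs]; linarith)
  set b : ℝ := 2 * a * t with hb
  have hbt : 1 + b = t := by
    have : (1 - 2 * a) * t = 1 := hst
    rw [hb]; linarith
  have hb0 : 0 ≤ b := by rw [hb]; positivity
  have hb4 : b ≤ 4 * a := by rw [hb]; nlinarith
  have hT := cd_trace_K_pow_pos e hρ a t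
  have hZ : cd_Z e ρ a = ((spow (cd_K e ρ a) (t : ℂ)).trace.re) ^ s := rfl
  refine ⟨by rw [hZ]; exact Real.rpow_pos_of_pos hT s, ?_⟩
  have h1 := cdt_trace_K_pow_le e hρ.1 a ht1
  have h2 := (H n m r e ρ hρ b (by rw [abs_of_nonneg hb0]; nlinarith)).2
  rw [hbt] at h2
  have h3 := h1.trans h2
  rw [hZ]
  calc ((spow (cd_K e ρ a) (t : ℂ)).trace.re) ^ s
      ≤ (Real.exp (-(b * cd_S e ρ) + C₄ * b ^ 2 * cd_l r ^ 2)) ^ s :=
        Real.rpow_le_rpow hT.le h3 hs0.le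
    _ = Real.exp ((-(b * cd_S e ρ) + C₄ * b ^ 2 * cd_l r ^ 2) * s) := by
        rw [← Real.exp_mul]
    _ ≤ _ := by
        apply Real.exp_le_exp.2
        have hsb : b * s = 2 * a := by
          rw [hb]; calc 2 * a * t * s = 2 * a * (s * t) := by ring
            _ = 2 * a := by rw [hst, mul_one]
        have e1 : (-(b * cd_S e ρ) + C₄ * b ^ 2 * cd_l r ^ 2) * s =
            -(2 * a * cd_S e ρ) + C₄ * (2 * a * b) * cd_l r ^ 2 := by
          calc _ = -((b * s) * cd_S e ρ) + C₄ * ((b * s) * b) * cd_l r ^ 2 := by ring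
            _ = _ := by rw [hsb]
        rw [e1]
        have e2 : 2 * a * b ≤ 8 * a ^ 2 := by nlinarith
        have e3 : C₄ * (2 * a * b) * cd_l r ^ 2 ≤ C₄ * (8 * a ^ 2) * cd_l r ^ 2 := by gcongr
        linarith

end Claimed.Agent.R296
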