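import Claimed.Agent.R296.CondTwo

/-!
# Row 296, P1 Section 4.2: the TWO-PARTY layer, part B (PACKAGE S4-TWO-B): two-party part of lem:movement

Statements: helper9 + helper57 (Sec 4 sub-captain).  Proofs: helper173 (all done, no `sorry` in this file).  The OWNER of this file (see `subtask`) replaces the `sorry`s;
new auxiliary lemmas carry the prefix `cdu_`.  Do not change statements without telling helper57.
Setting as in `CondTwo.lean`.  `K = Q^{-a} ρ Q^{-a}`, `r = 1/(1-2a)`, `Z = (Tr K^r)^{1/r}`, `ξ = K^r / Tr K^r`.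
Chain: K-facts → t8 (`ξ`), t7 (Hölder `Tr τ^{2a} K ≤ Z`), t9a (overlap of `ρ` itself) → t9 (Hellinger) ;
t12 (slack controls phases; independent of the rest) ; t10 (phase-Hellinger, from TwoBasis) → `cd_two_stability`.
USES from part A only: `cd_two_mgf` (t4), `cd_two_schatten` (t6), `cd_two_phase_Q` (t11), the Q-calculus.
-/

set_option autoImplicit false
set_option linter.unusedSectionVars false
set_option linter.unusedDecidableInType false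

namespace Claimed.Agent.R296

open Matrix
open scoped MatrixOrder Matrix.Norms.L2Operator ComplexOrder

variable {n m r : Type} [Fintype n] [DecidableEq n] [Fintype m] [DecidableEq m]
  [Fintype r] [DecidableEq r]

theorem cdu_Q_real_herm (e : n ≃ m × r) (ρ : Matrix n n ℂ) (t : ℝ) :
    (cd_Q e ρ (t : ℂ))ᴴ = cd_Q e ρ (t : ℂ) := by
  rw [cd_Q_conjTranspose]; congr 1; simp

theorem cdu_Q_neg_real_herm (e : n ≃ m × r) (ρ : Matrix n n ℂ) (t : ℝ) :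
    (cd_Q e ρ (-(t : ℂ)))ᴴ = cd_Q e ρ (-(t : ℂ)) := by
  rw [cd_Q_conjTranspose]; congr 1; simp

theorem cdu_Q_mul_neg (e : n ≃ m × r) {ρ : Matrix n n ℂ} (hρ : ρ.IsHermitian) (z : ℂ) :
    cd_Q e ρ z * cd_Q e ρ (-z) = 1 := by
  rw [← cd_Q_add, add_neg_cancel, cd_Q_zero e hρ]

theorem cdu_Q_neg_mul (e : n ≃ m × r) {ρ : Matrix n n ℂ} (hρ : ρ.IsHermitian) (z : ℂ) :
    cd_Q e ρ (-z) * cd_Q e ρ z = 1 := by
  rw [← cd_Q_add, neg_add_cancel, cd_Q_zero e hρ]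


theorem cdu_density_ne_zero {ρ : Matrix n n ℂ} (hρ : IsDensity ρ) : ρ ≠ 0 := by
  intro h
  have := hρ.2
  rw [h] at this
  simp at this



theorem cdu_spow_real_herm (A : Matrix n n ℂ) (t : ℝ) : (spow A (t : ℂ))ᴴ = spow A (t : ℂ) := by
  rw [spow_conjTranspose]; congr 1; simp

theorem cdu_sqrt_mul_sqrt {ρ : Matrix n n ℂ} (hρ : ρ.PosSemidef) :
    spow ρ (1 / 2) * spow ρ (1 / 2) = ρ := by
  rw [← spow_add]; norm_num; exact spow_one hρ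

/-- `Tr τ^{2a} K = ‖τ^a Q^{-a} √ρ‖₂²` -/
theorem cd_trace_spow_mul_K (e : n ≃ m × r) {ρ τ : Matrix n n ℂ} (hρ : ρ.PosSemidef)
    (hτ : τ.PosSemidef) (a : ℝ) :
    (spow τ ((2 * a : ℝ) : ℂ) * cd_K e ρ a).trace.re =
      hsSq (spow τ (a : ℂ) * cd_Q e ρ (-(a : ℂ)) * spow ρ (1 / 2)) := by
  have h := hsSq_eq_trace' (spow τ (a : ℂ) * cd_Q e ρ (-(a : ℂ)) * spow ρ (1 / 2))
  rw [conjTranspose_mul, conjTranspose_mul, tb_spow_half_isHermitian, cdu_Q_neg_real_herm,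
    cdu_spow_real_herm] at h
  have e1 : spow τ (a : ℂ) * cd_Q e ρ (-(a : ℂ)) * spow ρ (1 / 2) *
      (spow ρ (1 / 2) * (cd_Q e ρ (-(a : ℂ)) * spow τ (a : ℂ))) =
      spow τ (a : ℂ) * cd_K e ρ a * spow τ (a : ℂ) := by
    unfold cd_K
    calc spow τ (a : ℂ) * cd_Q e ρ (-(a : ℂ)) * spow ρ (1 / 2) *
          (spow ρ (1 / 2) * (cd_Q e ρ (-(a : ℂ)) * spow τ (a : ℂ)))
        = spow τ (a : ℂ) * (cd_Q e ρ (-(a : ℂ)) * (spow ρ (1 / 2) * spow ρ (1 / 2)) *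
            cd_Q e ρ (-(a : ℂ))) * spow τ (a : ℂ) := by simp only [Matrix.mul_assoc]
      _ = _ := by rw [cdu_sqrt_mul_sqrt hρ]
  have e2 : spow τ ((2 * a : ℝ) : ℂ) = spow τ (a : ℂ) * spow τ (a : ℂ) := by
    rw [← spow_add]; congr 1; push_cast; ring
  rw [e1, trace_mul_comm, ← Matrix.mul_assoc, ← e2] at h
  rw [← h, Complex.ofReal_re]

theorem cdu_hsSq_pos {A : Matrix n n ℂ} (hA : A ≠ 0) : 0 < hsSq A := by
  rcases (hsSq_nonneg A).lt_or_eq with h | h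
  · exact h
  · exfalso
    apply hA
    have h1 : hsn A = 0 := by rw [hsn, ← h, Real.sqrt_zero]
    have h2 : ‖A‖ ≤ 0 := h1 ▸ opNorm_le_hsn A
    exact norm_le_zero_iff.1 h2

/-- `Tr τ^{2a} K > 0` for positive definite `τ` -/
theorem cd_trace_spow_mul_K_pos (e : n ≃ m × r) {ρ τ : Matrix n n ℂ} (hρ : IsDensity ρ)
    (hτ : τ.PosDef) (a : ℝ) :
    0 < (spow τ ((2 * a : ℝ) : ℂ) * cd_K e ρ a).trace.re := by
  rw [cd_trace_spow_mul_K e hρ.1 hτ.posSemidef]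
  apply cdu_hsSq_pos
  intro h
  apply cdu_density_ne_zero hρ
  have h1 : spow ρ (1 / 2) = 0 := by
    calc spow ρ (1 / 2) = (cd_Q e ρ (a : ℂ) * cd_Q e ρ (-(a : ℂ))) * spow ρ (1 / 2) := by
          rw [cdu_Q_mul_neg e hρ.1.1, Matrix.one_mul]
      _ = cd_Q e ρ (a : ℂ) * ((hpow τ (-(a : ℂ)) * hpow τ (a : ℂ)) * cd_Q e ρ (-(a : ℂ))) *
            spow ρ (1 / 2) := by
          rw [hpow_neg_mul hτ.1, Matrix.one_mul]
      _ = cd_Q e ρ (a : ℂ) * hpow τ (-(a : ℂ)) *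
            (spow τ (a : ℂ) * cd_Q e ρ (-(a : ℂ)) * spow ρ (1 / 2)) := by
          rw [spow_eq_hpow_of_posDef hτ]; simp only [Matrix.mul_assoc]
      _ = 0 := by rw [h, Matrix.mul_zero]
  rw [← cdu_sqrt_mul_sqrt hρ.1, h1, Matrix.mul_zero]

theorem cdu_trace_re_nonneg {A : Matrix n n ℂ} (hA : A.PosSemidef) : 0 ≤ A.trace.re := by
  rw [tb_trace_re_eq_sum hA.1]
  exact Finset.sum_nonneg fun i _ => hA.eigenvalues_nonneg i

/-- LEAF S4-t7 (Hölder).  `Tr τ^{2a} K ≤ (Tr τ)^{2a} Z ≤ Z`.  `trace_spow_mul_le` with `s = 2a`. -/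
theorem cd_two_holder (e : n ≃ m × r) {ρ τ : Matrix n n ℂ} (hρ : IsDensity ρ) (hτ : τ.PosSemidef)
    (hτ1 : τ.trace.re ≤ 1) {a : ℝ} (ha : 0 < a) (ha2 : 2 * a < 1) :
    (spow τ ((2 * a : ℝ) : ℂ) * cd_K e ρ a).trace.re ≤ cd_Z e ρ a := by
  have h := trace_spow_mul_le hτ (cd_K_posSemidef e hρ.1 a) (s := 2 * a) (by linarith) ha2
  rw [one_div] at h
  refine h.trans ?_
  unfold cd_Z
  have h1 : (τ.trace.re) ^ (2 * a) ≤ 1 :=
    Real.rpow_le_one (cdu_trace_re_nonneg hτ) hτ1 (by linarith)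
  have h2 : 0 ≤ ((spow (cd_K e ρ a) (((1 - 2 * a)⁻¹ : ℝ) : ℂ)).trace.re) ^ (1 - 2 * a) :=
    Real.rpow_nonneg (cd_trace_K_pow_pos e hρ a _).le _
  nlinarith

theorem cdu_hsn_sqrt {ρ : Matrix n n ℂ} (hρ : IsDensity ρ) : hsn (spow ρ (1 / 2)) = 1 := by
  have h := hsSq_eq_trace' (spow ρ (1 / 2))
  rw [tb_spow_half_isHermitian, cdu_sqrt_mul_sqrt hρ.1, hρ.2] at h
  have h1 : hsSq (spow ρ (1 / 2)) = 1 := by exact_mod_cast h
  rw [hsn, h1, Real.sqrt_one]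

/-- LEAF S4-t9a.  `Tr ρ^{2a} K = ‖ρ^a Q^{-a} √ρ‖₂² ≥ (Tr ρ^{1+a} Q^{-a})² ≥ e^{-2a S}`
(Cauchy--Schwarz against `√ρ`, `‖√ρ‖₂ = 1`; then the Jensen half of t4, which holds for all `b`:
use `cd_two_pair` + `cd_jensen_exp` directly). -/
theorem cd_two_overlap (e : n ≃ m × r) {ρ : Matrix n n ℂ} (hρ : IsDensity ρ) (a : ℝ) :
    Real.exp (-(2 * a * cd_S e ρ)) ≤ (spow ρ ((2 * a : ℝ) : ℂ) * cd_K e ρ a).trace.re := by
  rw [cd_trace_spow_mul_K e hρ.1 hρ.1]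
  obtain ⟨w, L, hw, hw1, hwL, -, -, hmgf, -⟩ := cd_two_pair e hρ
  have hJ := cd_jensen_exp _ w L hw hw1 a
  rw [hwL, ← hmgf a] at hJ
  set M := spow ρ (a : ℂ) * cd_Q e ρ (-(a : ℂ)) * spow ρ (1 / 2) with hM
  have hCS := norm_trace_mul_le (spow ρ (1 / 2)) M
  rw [cdu_hsn_sqrt hρ, one_mul] at hCS
  have e1 : (spow ρ (1 / 2) * M).trace = (spow ρ ((1 + a : ℝ) : ℂ) * cd_Q e ρ (-(a : ℂ))).trace := by
    have : spow ρ ((1 + a : ℝ) : ℂ) = spow ρ (1 / 2) * spow ρ (1 / 2) * spow ρ (a : ℂ) := by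
      rw [← spow_add, ← spow_add]; congr 1; push_cast; ring
    rw [hM, this]
    calc (spow ρ (1 / 2) * (spow ρ (a : ℂ) * cd_Q e ρ (-(a : ℂ)) * spow ρ (1 / 2))).trace
        = ((spow ρ (1 / 2) * spow ρ (a : ℂ) * cd_Q e ρ (-(a : ℂ))) * spow ρ (1 / 2)).trace := by
          simp only [Matrix.mul_assoc]
      _ = (spow ρ (1 / 2) * (spow ρ (1 / 2) * spow ρ (a : ℂ) * cd_Q e ρ (-(a : ℂ)))).trace :=
          trace_mul_comm _ _
      _ = _ := by simp only [Matrix.mul_assoc]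
  rw [e1] at hCS
  have h2 : Real.exp (a * -cd_S e ρ) ≤ hsn M :=
    hJ.trans ((Complex.re_le_norm _).trans hCS)
  have h3 : Real.exp (a * -cd_S e ρ) ^ 2 ≤ hsn M ^ 2 :=
    pow_le_pow_left₀ (Real.exp_pos _).le h2 2
  rw [hsn_sq, ← Real.exp_nat_mul] at h3
  refine le_trans (le_of_eq ?_) h3
  congr 1; push_cast; ring

/-- LEAF S4-t8.  `ξ` is a density matrix and `ξ^{1-2a} = K / Z`. -/
theorem cd_xi_props (e : n ≃ m × r) {ρ : Matrix n n ℂ} (hρ : IsDensity ρ) {a : ℝ} (ha : 0 < a)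
    (ha2 : 2 * a < 1) :
    IsDensity (cd_xi e ρ a) ∧
    spow (cd_xi e ρ a) ((1 - 2 * a : ℝ) : ℂ) = ((cd_Z e ρ a : ℝ) : ℂ)⁻¹ • cd_K e ρ a := by
  have hK := cd_K_posSemidef e hρ.1 a
  have hT := cd_trace_K_pow_pos e hρ a (1 - 2 * a)⁻¹
  set T := (spow (cd_K e ρ a) (((1 - 2 * a)⁻¹ : ℝ) : ℂ)).trace.re with hTdef
  have hP := spow_posSemidef hK.1 (1 - 2 * a)⁻¹
  have htr : (spow (cd_K e ρ a) (((1 - 2 * a)⁻¹ : ℝ) : ℂ)).trace = (T : ℂ) := by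
    apply Complex.ext
    · simp [hTdef]
    · have := hP.trace_nonneg
      rw [Complex.le_def] at this
      simpa using this.2.symm
  have hinv : ((T : ℂ))⁻¹ = ((T⁻¹ : ℝ) : ℂ) := by push_cast; rfl
  have h12 : (0 : ℝ) < 1 - 2 * a := by linarith
  refine ⟨⟨?_, ?_⟩, ?_⟩
  · unfold cd_xi
    rw [← hTdef, hinv]
    exact hP.smul (by exact_mod_cast (inv_pos.2 hT).le)
  · unfold cd_xi
    rw [← hTdef, trace_smul, htr, smul_eq_mul]
    exact inv_mul_cancel₀ (by exact_mod_cast hT.ne')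
  · unfold cd_xi cd_Z
    rw [← hTdef, hinv, spow_smul hP.1 (inv_pos.2 hT), spow_spow hK.1]
    have e1 : (((1 - 2 * a)⁻¹ : ℝ) : ℂ) * ((1 - 2 * a : ℝ) : ℂ) = 1 := by
      rw [← Complex.ofReal_mul, inv_mul_cancel₀ h12.ne']; simp
    rw [e1, spow_one hK, spowS_ofReal (inv_pos.2 hT), Real.inv_rpow hT.le]
    push_cast; rfl

/-- LEAF S4-t9 (eq:conditional-hellinger).  `‖√ρ - √ξ‖₂² ≤ C a ℓ²`.
`Tr ρ^{2a} K = ‖ρ^a Q^{-a} √ρ‖₂² ≥ (Tr ρ^{1+a} Q^{-a})² ≥ e^{-2a S}` (t4), divide by `Z` (t6),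
then `convexOn_trace_spow_mul_spow` (`g(2a) ≥ 4a g(1/2)` for the concave `g = 1 - Tr ρ^b ξ^{1-b}`,
`g(0) ≥ 0` by `trace_spow_mul_spow_le`) and `hsSq_sqrt_sub_sqrt`. -/
theorem cd_two_hellinger :
    ∃ c C : ℝ, 0 < c ∧ 0 < C ∧
      ∀ (n m r : Type) [Fintype n] [DecidableEq n] [Fintype m] [DecidableEq m] [Fintype r]
        [DecidableEq r] (e : n ≃ m × r) (ρ : Matrix n n ℂ), IsDensity ρ →
        ∀ a : ℝ, 0 < a → a * cd_l r ≤ c →
          hsSq (spow ρ (1 / 2) - spow (cd_xi e ρ a) (1 / 2)) ≤ C * a * (cd_l r) ^ 2 := by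
  obtain ⟨c6, C6, hc6, hC6, h6⟩ := cd_two_schatten
  refine ⟨min c6 (1 / 4), C6, lt_min hc6 (by norm_num), hC6, ?_⟩
  intro n m r _ _ _ _ _ _ e ρ hρ a ha hal
  have : Nonempty r := (cd_nonempty_of_density e hρ).2
  have hl := cd_l_ge_one r
  have ha4 : a ≤ 1 / 4 := by
    have h1 : a * cd_l r ≤ 1 / 4 := hal.trans (min_le_right _ _)
    nlinarith
  have ha2 : 2 * a < 1 := by linarith
  obtain ⟨hZ, hZle⟩ := h6 n m r e ρ hρ a ha (hal.trans (min_le_left _ _))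
  obtain ⟨hξ, hξpow⟩ := cd_xi_props e hρ ha ha2
  set ξ := cd_xi e ρ a with hξdef
  set f : ℝ → ℝ := fun b => (spow ρ (b : ℂ) * spow ξ ((1 - b : ℝ) : ℂ)).trace.re with hf
  have hconv : ConvexOn ℝ Set.univ f := convexOn_trace_spow_mul_spow hρ.1.1 hξ.1.1
  have hρ1 : ρ.trace.re ≤ 1 := by rw [hρ.2]; simp
  have hξ1 : ξ.trace.re ≤ 1 := by rw [hξ.2]; simp
  have hf0 : f 0 ≤ 1 := trace_spow_mul_spow_le hρ.1 hξ.1 le_rfl zero_le_one hρ1 hξ1
  -- f (2a) = Tr ρ^{2a} K / Z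
  have hf2a : f (2 * a) = (cd_Z e ρ a)⁻¹ * (spow ρ ((2 * a : ℝ) : ℂ) * cd_K e ρ a).trace.re := by
    simp only [hf]
    rw [hξpow, Matrix.mul_smul, trace_smul, smul_eq_mul, ← Complex.ofReal_inv, Complex.re_ofReal_mul]
  have hov := cd_two_overlap e hρ a
  have hlow : 1 - C6 * a ^ 2 * (cd_l r) ^ 2 ≤ f (2 * a) := by
    rw [hf2a]
    have h1 : Real.exp (-(C6 * a ^ 2 * (cd_l r) ^ 2)) * cd_Z e ρ a ≤
        (spow ρ ((2 * a : ℝ) : ℂ) * cd_K e ρ a).trace.re := by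
      refine le_trans ?_ hov
      calc Real.exp (-(C6 * a ^ 2 * (cd_l r) ^ 2)) * cd_Z e ρ a
          ≤ Real.exp (-(C6 * a ^ 2 * (cd_l r) ^ 2)) *
              Real.exp (-(2 * a * cd_S e ρ) + C6 * a ^ 2 * (cd_l r) ^ 2) :=
            mul_le_mul_of_nonneg_left hZle (Real.exp_pos _).le
        _ = Real.exp (-(2 * a * cd_S e ρ)) := by rw [← Real.exp_add]; congr 1; ring
    have h2 : Real.exp (-(C6 * a ^ 2 * (cd_l r) ^ 2)) ≤
        (cd_Z e ρ a)⁻¹ * (spow ρ ((2 * a : ℝ) : ℂ) * cd_K e ρ a).trace.re := by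
      rw [inv_mul_eq_div, le_div_iff₀ hZ]; exact h1
    have h3 := Real.add_one_le_exp (-(C6 * a ^ 2 * (cd_l r) ^ 2))
    linarith
  have hcv := hconv.2 (Set.mem_univ (0 : ℝ)) (Set.mem_univ (1 / 2 : ℝ))
    (show (0 : ℝ) ≤ 1 - 4 * a by linarith) (show (0 : ℝ) ≤ 4 * a by linarith) (by ring)
  simp only [smul_eq_mul] at hcv
  have e1 : (1 - 4 * a) * 0 + 4 * a * (1 / 2) = 2 * a := by ring
  rw [e1] at hcv
  have hhalf : f (1 / 2) = (spow ρ (1 / 2) * spow ξ (1 / 2)).trace.re := by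
    simp only [hf]
    have e2 : (((1 / 2 : ℝ)) : ℂ) = 1 / 2 := by push_cast; rfl
    have e3 : (((1 - 1 / 2 : ℝ)) : ℂ) = 1 / 2 := by push_cast; ring
    rw [e2, e3]
  rw [hsSq_sqrt_sub_sqrt hρ.1 hξ.1, ← hhalf, hρ.2, hξ.2]
  simp only [Complex.one_re]
  -- 4a (1 - f(1/2)) ≤ C6 a² ℓ²
  have h5 : 4 * a * (1 - f (1 / 2)) ≤ C6 * a ^ 2 * (cd_l r) ^ 2 := by
    have : (1 - 4 * a) * f 0 ≤ (1 - 4 * a) * 1 :=
      mul_le_mul_of_nonneg_left hf0 (by linarith)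
    nlinarith
  have h6' : 4 * (1 - f (1 / 2)) ≤ C6 * a * (cd_l r) ^ 2 := by
    have : a * (4 * (1 - f (1 / 2))) ≤ a * (C6 * a * (cd_l r) ^ 2) := by nlinarith
    exact le_of_mul_le_mul_left this ha
  have h7 : 0 ≤ C6 * a * (cd_l r) ^ 2 := by positivity
  linarith

/-- LEAF S4-t10 (eq:conditional-phase-hellinger with its universal constant; immediate from
`hsn_phase_sub_mul_sqrt_le` + `exists_phase_hellinger_const`). -/
theorem cd_phase_hellinger :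
    ∃ C : ℝ, 0 < C ∧
      ∀ (n : Type) [Fintype n] [DecidableEq n] (R X : Matrix n n ℂ), R.PosSemidef → X.PosSemidef →
        ∀ b : ℝ,
          hsn ((hpow R ((b : ℂ) * Complex.I) - hpow X ((b : ℂ) * Complex.I)) * spow X (1 / 2)) ≤
            C * (1 + |b|) * hsn (spow R (1 / 2) - spow X (1 / 2)) := by
  obtain ⟨C, hC, h⟩ := exists_phase_hellinger_const
  exact ⟨C, hC, fun n _ _ R X hR hX b =>
    hsn_phase_sub_mul_sqrt_le hR hX b (C * (1 + |b|)) (fun v w hv hw => h b v w hv hw)⟩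

/-- scalar identity behind t12 -/
theorem cdu_phase_term {t x : ℝ} (ht : 0 < t) (hx : 0 < x) (s : ℝ) :
    ‖hpowS (-((s : ℝ) : ℂ) * Complex.I) t - hpowS (-((s : ℝ) : ℂ) * Complex.I) x‖ =
      ‖1 - Complex.exp ((-(s * (Real.log t - Real.log x)) : ℝ) * Complex.I)‖ := by
  rw [hpowS_pos ht, hpowS_pos hx]
  have e1 : Complex.exp (-((s : ℝ) : ℂ) * Complex.I * (Real.log t : ℂ)) -
      Complex.exp (-((s : ℝ) : ℂ) * Complex.I * (Real.log x : ℂ)) =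
      Complex.exp (((-(s * Real.log x) : ℝ) : ℂ) * Complex.I) *
        (Complex.exp ((-(s * (Real.log t - Real.log x)) : ℝ) * Complex.I) - 1) := by
    rw [mul_sub, ← Complex.exp_add, mul_one]
    congr 2 <;> (push_cast; ring)
  rw [e1, norm_mul, Complex.norm_exp_ofReal_mul_I, one_mul, norm_sub_rev]

/-- LEAF S4-t12 (slack controls the phases).  `τ` PD with `Tr τ ≤ 1`, `ξ` a density,
`Tr τ^{2a} ξ^{1-2a} ≥ e^{-2λ}`:  `‖(τ^{-iau} - ξ̂^{-iau}) √ξ‖₂² ≤ C (1+u²)(λ + a)`.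
Two-basis formula + `cd_slack_phase`. -/
theorem cd_slack_phase_matrix :
    ∃ C : ℝ, 0 < C ∧
      ∀ (n : Type) [Fintype n] [DecidableEq n] (τ ξ : Matrix n n ℂ), τ.PosDef → τ.trace.re ≤ 1 →
        IsDensity ξ → ∀ a lam u : ℝ, 0 < a → a ≤ 1 / 4 → 0 ≤ lam →
          Real.exp (-(2 * lam)) ≤
            (spow τ ((2 * a : ℝ) : ℂ) * spow ξ ((1 - 2 * a : ℝ) : ℂ)).trace.re →
          hsSq ((hpow τ (-((a * u : ℝ) : ℂ) * Complex.I) - hpow ξ (-((a * u : ℝ) : ℂ) * Complex.I)) *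
              spow ξ (1 / 2)) ≤ C * (1 + u ^ 2) * (lam + a) := by
  obtain ⟨C, hC, hS⟩ := cd_slack_phase
  refine ⟨C, hC, ?_⟩
  intro n _ _ τ ξ hτ hτ1 hξ a lam u ha ha4 hlam hov
  have hA := hτ.1
  have hB := hξ.1.1
  set t : n → ℝ := hA.eigenvalues with ht
  set x : n → ℝ := hB.eigenvalues with hx
  have ht0 : ∀ i, 0 < t i := fun i => hτ.eigenvalues_pos i
  have hx0 : ∀ j, 0 ≤ x j := fun j => hξ.1.eigenvalues_nonneg j
  have hW := ovw_nonneg hA hB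
  set w : n × n → ℝ := fun k => x k.2 * ovw hA hB k.1 k.2 with hw
  set v : n × n → ℝ := fun k => Real.log (t k.1) - Real.log (x k.2) with hv
  have hw0 : ∀ k, 0 ≤ w k := fun k => mul_nonneg (hx0 _) (hW _ _)
  have hw1 : ∑ k, w k = 1 := by
    rw [Fintype.sum_prod_type_right]
    simp only [hw]
    have : ∀ j, ∑ i, x j * ovw hA hB i j = x j := fun j => by
      rw [← Finset.mul_sum, sum_ovw_left, mul_one]
    simp only [this]
    rw [hx, ← tb_trace_re_eq_sum hB, hξ.2]; simp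
  have hexp : ∑ k, w k * Real.exp (v k) ≤ 1 := by
    calc ∑ k, w k * Real.exp (v k) ≤ ∑ k : n × n, t k.1 * ovw hA hB k.1 k.2 := by
          refine Finset.sum_le_sum fun k _ => ?_
          simp only [hw, hv]
          rcases (hx0 k.2).lt_or_eq with h | h
          · rw [Real.exp_sub, Real.exp_log (ht0 _), Real.exp_log h]
            apply le_of_eq; field_simp
          · rw [← h, zero_mul, zero_mul]
            exact mul_nonneg (ht0 _).le (hW _ _)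
      _ = ∑ i, t i := by
          rw [Fintype.sum_prod_type]
          refine Finset.sum_congr rfl fun i _ => ?_
          simp only []
          rw [← Finset.mul_sum, sum_ovw_right, mul_one]
      _ = τ.trace.re := by rw [ht, ← tb_trace_re_eq_sum hA]
      _ ≤ 1 := hτ1
  have hov' : Real.exp (-(2 * lam)) ≤ ∑ k, w k * Real.exp (2 * a * v k) := by
    refine hov.trans (le_of_eq ?_)
    rw [tb_trace_spow_mul_spow_re hA hB, Fintype.sum_prod_type]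
    refine Finset.sum_congr rfl fun i _ => Finset.sum_congr rfl fun j _ => ?_
    simp only [hw, hv]
    rcases (hx0 j).lt_or_eq with h | h
    · have h' : 0 < hB.eigenvalues j := h
      have ht' : 0 < hA.eigenvalues i := ht0 i
      simp only [rpowS, h', ht', if_true]
      have e1 : Real.exp (2 * a * (Real.log (t i) - Real.log (x j))) =
          t i ^ (2 * a) * (x j ^ (2 * a))⁻¹ := by
        rw [Real.rpow_def_of_pos (ht0 i), Real.rpow_def_of_pos h, ← Real.exp_neg, ← Real.exp_add]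
        congr 1; ring
      have e2 : x j ^ (1 - 2 * a) = x j * (x j ^ (2 * a))⁻¹ := by
        rw [Real.rpow_sub h, Real.rpow_one, div_eq_mul_inv]
      rw [e1]
      change t i ^ (2 * a) * x j ^ (1 - 2 * a) * _ = _
      rw [e2]; ring
    · have h' : ¬ 0 < hB.eigenvalues j := by
        change ¬ 0 < x j
        rw [← h]; exact lt_irrefl _
      simp only [rpowS, h', if_false]
      rw [← h]; ring
  have key := hS (n × n) w v a lam u ha ha4 hlam hw0 hw1 hexp hov'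
  refine le_trans (le_of_eq ?_) key
  unfold hpow spow
  rw [hsSq_sub_mul_mfun hA hB, Fintype.sum_prod_type]
  refine Finset.sum_congr rfl fun i _ => Finset.sum_congr rfl fun j _ => ?_
  simp only [hw, hv]
  change ‖hpowS _ (t i) - hpowS _ (x j)‖ ^ 2 * ‖spowS (1 / 2) (x j)‖ ^ 2 * _ = _
  rw [tb_spowS_half (hx0 j), Complex.norm_real, Real.norm_eq_abs, sq_abs, Real.sq_sqrt (hx0 j)]
  rcases (hx0 j).lt_or_eq with h | h
  · rw [cdu_phase_term (ht0 i) h (a * u)]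
    have e3 : -(a * u * (Real.log (t i) - Real.log (x j))) =
        -(a * u * (Real.log (t i) - Real.log (x j))) := rfl
    ring
  · rw [← h]; ring

theorem cdu_hsSq_neg (A : Matrix n n ℂ) : hsSq (-A) = hsSq A := by
  rw [← hsn_sq, ← hsn_sq, hsn_neg]

theorem cdu_hsSq_add4_le (A B C D : Matrix n n ℂ) :
    hsSq (A + B + C + D) ≤ 4 * (hsSq A + hsSq B + hsSq C + hsSq D) := by
  have h1 : hsn (A + B + C + D) ≤ hsn A + hsn B + hsn C + hsn D := by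
    have := hsn_add_le (A + B + C) D
    have := hsn_add_le (A + B) C
    have := hsn_add_le A B
    linarith
  have h2 : hsn (A + B + C + D) ^ 2 ≤ (hsn A + hsn B + hsn C + hsn D) ^ 2 :=
    pow_le_pow_left₀ (hsn_nonneg _) h1 2
  simp only [← hsn_sq]
  nlinarith [sq_nonneg (hsn A - hsn B), sq_nonneg (hsn A - hsn C), sq_nonneg (hsn A - hsn D),
    sq_nonneg (hsn B - hsn C), sq_nonneg (hsn B - hsn D), sq_nonneg (hsn C - hsn D)]

theorem cdu_stab_arith {a l lam u H C9 C10 C11 C12 x1 x2 x3 x4 : ℝ} (ha : 0 < a) (ha4 : a ≤ 1 / 4)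
    (hl : 1 ≤ l) (hlam0 : 0 ≤ lam) (hC9 : 0 < C9) (hC10 : 0 < C10) (hC11 : 0 < C11) (hC12 : 0 < C12)
    (hH2 : H ^ 2 ≤ C9 * a * l ^ 2) (s1 : x1 ≤ 4 * H ^ 2)
    (t2 : x2 ≤ C12 * (1 + u ^ 2) * (lam + a))
    (s3 : x3 ≤ C10 ^ 2 * (1 + |a * u|) ^ 2 * H ^ 2) (t4 : x4 ≤ C11 * (a * u) ^ 2 * l ^ 2) :
    4 * (x1 + x2 + x3 + x4) ≤
      4 * (4 * C9 + C12 + 2 * C10 ^ 2 * C9 + C11) * (1 + u ^ 2) * (lam + a * l ^ 2) := by
  set P := a * l ^ 2 with hP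
  have hl2 : 1 ≤ l ^ 2 := by nlinarith
  have hP0 : 0 ≤ P := by positivity
  have haP : a ≤ P := by rw [hP]; nlinarith
  have hu : 0 ≤ u ^ 2 := sq_nonneg u
  set X := (1 + u ^ 2) * (lam + P) with hX
  have hPX' : (1 + u ^ 2) * P ≤ X := by rw [hX]; nlinarith
  have hPX : P ≤ X := by nlinarith
  have hH2' : H ^ 2 ≤ C9 * P := by rw [hP]; linarith
  have b1 : 4 * H ^ 2 ≤ 4 * C9 * X := by nlinarith
  have b2 : C12 * (1 + u ^ 2) * (lam + a) ≤ C12 * X := by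
    rw [hX, mul_assoc]
    apply mul_le_mul_of_nonneg_left _ hC12.le
    apply mul_le_mul_of_nonneg_left _ (by positivity)
    linarith
  have b3 : C10 ^ 2 * (1 + |a * u|) ^ 2 * H ^ 2 ≤ 2 * C10 ^ 2 * C9 * X := by
    have h1 : (1 + |a * u|) ^ 2 ≤ 2 * (1 + u ^ 2) := by
      have h2 : |a * u| ^ 2 = a ^ 2 * u ^ 2 := by rw [sq_abs]; ring
      have h3 : a ^ 2 ≤ 1 := by nlinarith
      have h4 : a ^ 2 * u ^ 2 ≤ u ^ 2 := by nlinarith
      nlinarith [sq_nonneg (1 - |a * u|)]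
    calc C10 ^ 2 * (1 + |a * u|) ^ 2 * H ^ 2
        ≤ C10 ^ 2 * (2 * (1 + u ^ 2)) * (C9 * P) := by
          apply mul_le_mul _ hH2' (by positivity) (by positivity)
          exact mul_le_mul_of_nonneg_left h1 (by positivity)
      _ = 2 * C10 ^ 2 * C9 * ((1 + u ^ 2) * P) := by ring
      _ ≤ 2 * C10 ^ 2 * C9 * X := mul_le_mul_of_nonneg_left hPX' (by positivity)
  have b4 : C11 * (a * u) ^ 2 * l ^ 2 ≤ C11 * X := by
    have h1 : (a * u) ^ 2 * l ^ 2 = a * (u ^ 2 * P) := by rw [hP]; ring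
    rw [mul_assoc, h1]
    apply mul_le_mul_of_nonneg_left _ hC11.le
    have h2 : 0 ≤ u ^ 2 * P := by positivity
    nlinarith
  calc _ ≤ 4 * (4 * C9 * X + C12 * X + 2 * C10 ^ 2 * C9 * X + C11 * X) := by linarith
    _ = _ := by rw [hX]; ring


/-- **S4-T (two-party stability lemma = eq:conditional-state-movement in HS form).**
`τ` PD, `Tr τ ≤ 1`.  Put `λ = -a S(x|U) + C₀ a² ℓ² - ½ log Tr(τ^{2a} K)`.  Then `λ ≥ 0` and
`‖(τ^{-iau} - Q^{-iau}) √ρ‖₂ ≤ C (1+|u|)(√λ + √a ℓ)`.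
Assembly of t6--t12: `λ ≥ 0` by t7 + t6 (`C₀ ≥ C_{t6}/2`); overlap `Tr τ^{2a} ξ^{1-2a} = Tr τ^{2a} K / Z ≥ e^{-2λ}` (t8, t6);
`(τ^{-iau} - Q^{-iau}) √ρ = (τ^{-iau} - ξ̂^{-iau})(√ρ - √ξ) + (τ^{-iau} - ξ̂^{-iau}) √ξ + (ξ̂^{-iau} - ρ̂^{-iau}) √ρ
 + (ρ̂^{-iau} - Q^{-iau}) √ρ`; the four HS norms are `≤ 2H` (unitaries, `hsn_mul_le`), t12, t10 (`R = ξ, X = ρ`,
`b = -au`) with t9, t11 (`s = -au`); `a ≤ 1`, `ℓ ≥ 1`. -/
theorem cd_two_stability :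
    ∃ c C₀ C : ℝ, 0 < c ∧ 0 < C₀ ∧ 0 < C ∧
      ∀ (n m r : Type) [Fintype n] [DecidableEq n] [Fintype m] [DecidableEq m] [Fintype r]
        [DecidableEq r] (e : n ≃ m × r) (ρ τ : Matrix n n ℂ), IsDensity ρ → τ.PosDef →
        τ.trace.re ≤ 1 → ∀ a u : ℝ, 0 < a → a * cd_l r ≤ c →
          0 < (spow τ ((2 * a : ℝ) : ℂ) * cd_K e ρ a).trace.re ∧
          0 ≤ -(a * cd_S e ρ) + C₀ * a ^ 2 * (cd_l r) ^ 2 -
              Real.log ((spow τ ((2 * a : ℝ) : ℂ) * cd_K e ρ a).trace.re) / 2 ∧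
          hsSq ((hpow τ (-((a * u : ℝ) : ℂ) * Complex.I) - cd_Q e ρ (-((a * u : ℝ) : ℂ) * Complex.I)) *
              spow ρ (1 / 2)) ≤
            C * (1 + u ^ 2) * ((-(a * cd_S e ρ) + C₀ * a ^ 2 * (cd_l r) ^ 2 -
              Real.log ((spow τ ((2 * a : ℝ) : ℂ) * cd_K e ρ a).trace.re) / 2) + a * (cd_l r) ^ 2) := by
  obtain ⟨c6, C6, hc6, hC6, h6⟩ := cd_two_schatten
  obtain ⟨c9, C9, hc9, hC9, h9⟩ := cd_two_hellinger
  obtain ⟨C12, hC12, h12⟩ := cd_slack_phase_matrix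
  obtain ⟨C10, hC10, h10⟩ := cd_phase_hellinger
  obtain ⟨C11, hC11, h11⟩ := cd_two_phase_Q
  refine ⟨min (min c6 c9) (1 / 4), C6 / 2, 4 * (4 * C9 + C12 + 2 * C10 ^ 2 * C9 + C11),
    lt_min (lt_min hc6 hc9) (by norm_num), by positivity, by positivity, ?_⟩
  intro n m r _ _ _ _ _ _ e ρ τ hρ hτ hτ1 a u ha hal
  have : Nonempty r := (cd_nonempty_of_density e hρ).2
  have hl := cd_l_ge_one r
  have hal6 : a * cd_l r ≤ c6 := hal.trans ((min_le_left _ _).trans (min_le_left _ _))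
  have hal9 : a * cd_l r ≤ c9 := hal.trans ((min_le_left _ _).trans (min_le_right _ _))
  have ha4 : a ≤ 1 / 4 := by
    have h1 : a * cd_l r ≤ 1 / 4 := hal.trans (min_le_right _ _)
    nlinarith
  have ha2 : 2 * a < 1 := by linarith
  obtain ⟨hZ, hZle⟩ := h6 n m r e ρ hρ a ha hal6
  obtain ⟨hξ, hξpow⟩ := cd_xi_props e hρ ha ha2
  have hT := cd_trace_spow_mul_K_pos e hρ hτ a
  have hTZ := cd_two_holder e hρ hτ.posSemidef hτ1 ha ha2
  have hH9 := h9 n m r e ρ hρ a ha hal9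
  set T := (spow τ ((2 * a : ℝ) : ℂ) * cd_K e ρ a).trace.re with hTdef
  set ξ := cd_xi e ρ a with hξdef
  set l := cd_l r with hldef
  set S := cd_S e ρ with hSdef
  have hlogT : Real.log T ≤ -(2 * a * S) + C6 * a ^ 2 * l ^ 2 := by
    have := Real.log_le_log hT (hTZ.trans hZle)
    rwa [Real.log_exp] at this
  set lam := -(a * S) + C6 / 2 * a ^ 2 * l ^ 2 - Real.log T / 2 with hlam
  have hlam0 : 0 ≤ lam := by rw [hlam]; linarith
  refine ⟨hT, hlam0, ?_⟩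
  have hov : Real.exp (-(2 * lam)) ≤
      (spow τ ((2 * a : ℝ) : ℂ) * spow ξ ((1 - 2 * a : ℝ) : ℂ)).trace.re := by
    rw [hξpow, Matrix.mul_smul, trace_smul, smul_eq_mul, ← Complex.ofReal_inv,
      Complex.re_ofReal_mul, ← hTdef]
    have e1 : Real.exp (-(2 * lam)) =
        Real.exp (-(-(2 * a * S) + C6 * a ^ 2 * l ^ 2)) * T := by
      have : T = Real.exp (Real.log T) := (Real.exp_log hT).symm
      rw [hlam]
      conv_rhs => rw [this]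
      rw [← Real.exp_add]; congr 1; ring
    rw [e1]
    apply mul_le_mul_of_nonneg_right _ hT.le
    rw [Real.exp_neg]
    exact inv_anti₀ hZ hZle
  set z : ℂ := -((a * u : ℝ) : ℂ) * Complex.I with hz
  have hzre : z.re = 0 := by simp [hz]
  have hzs : ((-(a * u) : ℝ) : ℂ) * Complex.I = z := by rw [hz]; push_cast; ring
  set H := hsn (spow ρ (1 / 2) - spow ξ (1 / 2)) with hH
  have hH0 : 0 ≤ H := hsn_nonneg _
  have hH2 : H ^ 2 ≤ C9 * a * l ^ 2 := by rw [hH, hsn_sq]; exact hH9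
  have t1 : hsn ((hpow τ z - hpow ξ z) * (spow ρ (1 / 2) - spow ξ (1 / 2))) ≤ 2 * H := by
    refine (hsn_mul_le_left _ _).trans ?_
    apply mul_le_mul_of_nonneg_right _ (hsn_nonneg _)
    calc ‖hpow τ z - hpow ξ z‖ ≤ ‖hpow τ z‖ + ‖hpow ξ z‖ := norm_sub_le _ _
      _ ≤ 1 + 1 := add_le_add (norm_hpow_le_one hτ.1 hzre) (norm_hpow_le_one hξ.1.1 hzre)
      _ = 2 := by norm_num
  have t2 : hsSq ((hpow τ z - hpow ξ z) * spow ξ (1 / 2)) ≤ C12 * (1 + u ^ 2) * (lam + a) :=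
    h12 n τ ξ hτ hτ1 hξ a lam u ha ha4 hlam0 hov
  have t3 : hsn ((hpow ξ z - hpow ρ z) * spow ρ (1 / 2)) ≤ C10 * (1 + |a * u|) * H := by
    have h := h10 n ξ ρ hξ.1 hρ.1 (-(a * u))
    rw [hzs, abs_neg] at h
    have e2 : hsn (spow ξ (1 / 2) - spow ρ (1 / 2)) = H := by
      rw [hH, ← hsn_neg, neg_sub]
    rwa [e2] at h
  have t4 : hsSq ((hpow ρ z - cd_Q e ρ z) * spow ρ (1 / 2)) ≤ C11 * (a * u) ^ 2 * l ^ 2 := by
    have h := h11 n m r e ρ hρ (-(a * u))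
    rw [hzs, neg_sq] at h
    rw [← cdu_hsSq_neg, ← Matrix.neg_mul, neg_sub]
    exact h
  have hsplit : (hpow τ z - cd_Q e ρ z) * spow ρ (1 / 2) =
      (hpow τ z - hpow ξ z) * (spow ρ (1 / 2) - spow ξ (1 / 2)) +
        (hpow τ z - hpow ξ z) * spow ξ (1 / 2) + (hpow ξ z - hpow ρ z) * spow ρ (1 / 2) +
        (hpow ρ z - cd_Q e ρ z) * spow ρ (1 / 2) := by
    simp only [Matrix.sub_mul, Matrix.mul_sub]; abel
  rw [hsplit]
  refine (cdu_hsSq_add4_le _ _ _ _).trans ?_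
  have s1 : hsSq ((hpow τ z - hpow ξ z) * (spow ρ (1 / 2) - spow ξ (1 / 2))) ≤ 4 * H ^ 2 := by
    rw [← hsn_sq]
    calc _ ≤ (2 * H) ^ 2 := pow_le_pow_left₀ (hsn_nonneg _) t1 2
      _ = 4 * H ^ 2 := by ring
  have s3 : hsSq ((hpow ξ z - hpow ρ z) * spow ρ (1 / 2)) ≤ C10 ^ 2 * (1 + |a * u|) ^ 2 * H ^ 2 := by
    rw [← hsn_sq]
    calc _ ≤ (C10 * (1 + |a * u|) * H) ^ 2 := pow_le_pow_left₀ (hsn_nonneg _) t3 2
      _ = _ := by ring
  exact cdu_stab_arith ha ha4 hl hlam0 hC9 hC10 hC11 hC12 hH2 s1 t2 s3 t4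

end Claimed.Agent.R296
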