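import Claimed.Agent.R296.EntRelMain

/-!
# Row 296, ENT-REL file 7: support calculus

* `psd_mul_eq_zero_of_trace`: `A, B ≥ 0`, `tr (A B) = 0`  ⟹  `A B = 0`;
* `mul_embE_supp_ptrE`: a positive matrix is supported on the support of its marginal;
* `mul_supp_of_le_smul`: `ρ ≤ κ σ`  ⟹  `ρ (supp σ) = ρ`;
* `ovw_mul_eq_zero_of_mul_supp`: the scalar form of the kernel inclusion.
Owner: helper19.
-/

set_option autoImplicit false
set_option linter.unusedSectionVars false
set_option linter.unusedDecidableInType false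
set_option linter.unusedFintypeInType false

namespace Claimed.Agent.R296

open Matrix
open scoped ComplexOrder

section Supp

variable {n m r : Type} [Fintype n] [DecidableEq n] [Fintype m] [DecidableEq m]
  [Fintype r] [DecidableEq r]

theorem trace_mul_nonneg_of_psd {A B : Matrix n n ℂ} (hA : A.PosSemidef) (hB : B.PosSemidef) :
    0 ≤ (A * B).trace := by
  obtain ⟨D, rfl⟩ := exists_eq_conjTranspose_mul_self hB
  rw [← Matrix.mul_assoc, Matrix.trace_mul_comm, ← Matrix.mul_assoc]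
  exact (hA.mul_mul_conjTranspose_same D).trace_nonneg

theorem psd_mul_eq_zero_of_trace {A B : Matrix n n ℂ} (hA : A.PosSemidef) (hB : B.PosSemidef)
    (h : (A * B).trace = 0) : A * B = 0 := by
  obtain ⟨C, rfl⟩ := exists_eq_conjTranspose_mul_self hA
  obtain ⟨D, rfl⟩ := exists_eq_conjTranspose_mul_self hB
  have h1 : ((C * Dᴴ)ᴴ * (C * Dᴴ)).trace = 0 := by
    rw [conjTranspose_mul, conjTranspose_conjTranspose, ← h]
    calc (D * Cᴴ * (C * Dᴴ)).trace = (D * (Cᴴ * C * Dᴴ)).trace := by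
          simp only [Matrix.mul_assoc]
      _ = ((Cᴴ * C * Dᴴ) * D).trace := Matrix.trace_mul_comm _ _
      _ = _ := by simp only [Matrix.mul_assoc]
  have h2 : C * Dᴴ = 0 := trace_conjTranspose_mul_self_eq_zero_iff.1 h1
  calc Cᴴ * C * (Dᴴ * D) = Cᴴ * (C * Dᴴ) * D := by simp only [Matrix.mul_assoc]
    _ = 0 := by rw [h2]; simp

/-- the kernel projection `1 - supp A` as a spectral function -/
theorem one_sub_supp_eq {A : Matrix n n ℂ} (hA : A.IsHermitian) :
    1 - supp A = mfun (fun x => (((if 0 < x then 0 else 1 : ℝ)) : ℂ)) A := by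
  unfold supp
  rw [← mfun_one hA, ← mfun_sub]
  congr 1
  funext x
  by_cases hx : 0 < x <;> simp [suppS, hx]

theorem one_sub_supp_posSemidef {A : Matrix n n ℂ} (hA : A.IsHermitian) :
    (1 - supp A).PosSemidef := by
  rw [one_sub_supp_eq hA]
  refine mfun_posSemidef hA _ fun i => ?_
  split_ifs <;> norm_num

theorem mul_one_sub_supp {A : Matrix n n ℂ} (hA : A.PosSemidef) : A * (1 - supp A) = 0 := by
  rw [Matrix.mul_sub, Matrix.mul_one, self_mul_supp hA, sub_self]

/-- a positive matrix lives on the support of its marginal -/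
theorem mul_embE_supp_ptrE (e : n ≃ m × r) {ρ : Matrix n n ℂ} (hρ : ρ.PosSemidef) :
    ρ * embE e (supp (ptrE e ρ)) = ρ := by
  have hτ := ptrE_posSemidef e hρ
  have h1 : (ρ * embE e (1 - supp (ptrE e ρ))).trace = 0 := by
    rw [trace_mul_embE, mul_one_sub_supp hτ, Matrix.trace_zero]
  have h2 := psd_mul_eq_zero_of_trace hρ
    (embE_posSemidef e (one_sub_supp_posSemidef hτ.isHermitian)) h1
  rw [embE_sub, embE_one, Matrix.mul_sub, Matrix.mul_one, sub_eq_zero] at h2
  exact h2.symm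

theorem embE_supp_ptrE_mul (e : n ≃ m × r) {ρ : Matrix n n ℂ} (hρ : ρ.PosSemidef) :
    embE e (supp (ptrE e ρ)) * ρ = ρ := by
  have h := congrArg conjTranspose (mul_embE_supp_ptrE e hρ)
  rw [conjTranspose_mul, ← embE_conjTranspose, (supp_isHermitian _).eq, hρ.isHermitian.eq] at h
  exact h

/-- domination implies inclusion of supports -/
theorem mul_supp_of_le_smul {κ : ℝ} {ρ σ : Matrix n n ℂ} (hρ : ρ.PosSemidef) (hσ : σ.PosSemidef)
    (h : ((κ : ℂ) • σ - ρ).PosSemidef) : ρ * supp σ = ρ := by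
  have hPi := one_sub_supp_posSemidef hσ.isHermitian
  have h1 := trace_mul_nonneg_of_psd h hPi
  have h2 := trace_mul_nonneg_of_psd hρ hPi
  rw [Matrix.sub_mul, Matrix.smul_mul, mul_one_sub_supp hσ, smul_zero, zero_sub,
    Matrix.trace_neg] at h1
  have h3 : (ρ * (1 - supp σ)).trace = 0 := le_antisymm (by simpa using h1) h2
  have h4 := psd_mul_eq_zero_of_trace hρ hPi h3
  rw [Matrix.mul_sub, Matrix.mul_one, sub_eq_zero] at h4
  exact h4.symm

theorem supp_mul_of_mul_supp {ρ σ : Matrix n n ℂ} (hρ : ρ.IsHermitian)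
    (h : ρ * supp σ = ρ) : supp σ * ρ = ρ := by
  have h' := congrArg conjTranspose h
  rw [conjTranspose_mul, (supp_isHermitian _).eq, hρ.eq] at h'
  exact h'

/-- scalar form of the kernel inclusion: `q_j ≤ 0 ⟹ w_ij p_i = 0` -/
theorem ovw_mul_eq_zero_of_mul_supp {ρ σ : Matrix n n ℂ} (hρ : ρ.PosSemidef) (hσ : σ.IsHermitian)
    (h : ρ * supp σ = ρ) (i j : n) (hj : hσ.eigenvalues j ≤ 0) :
    ovw hρ.isHermitian hσ i j * hρ.isHermitian.eigenvalues i = 0 := by
  have h1 : (ρ * (1 - supp σ)).trace = 0 := by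
    rw [Matrix.mul_sub, Matrix.mul_one, h, sub_self, Matrix.trace_zero]
  rw [one_sub_supp_eq hσ, trace_mul_mfun hρ.isHermitian hσ] at h1
  have h2 : ∑ i, ∑ j, hρ.isHermitian.eigenvalues i * (if 0 < hσ.eigenvalues j then 0 else 1 : ℝ)
      * ovw hρ.isHermitian hσ i j = 0 := by
    have : ((∑ i, ∑ j, hρ.isHermitian.eigenvalues i *
        (if 0 < hσ.eigenvalues j then 0 else 1 : ℝ) * ovw hρ.isHermitian hσ i j : ℝ) : ℂ) = 0 := by
      rw [← h1]; push_cast; rfl
    exact_mod_cast this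
  have hnn : ∀ i j, 0 ≤ hρ.isHermitian.eigenvalues i *
      (if 0 < hσ.eigenvalues j then 0 else 1 : ℝ) * ovw hρ.isHermitian hσ i j := by
    intro i j
    have := hρ.eigenvalues_nonneg i
    have := ovw_nonneg hρ.isHermitian hσ i j
    split_ifs <;> positivity
  have h3 := (Finset.sum_eq_zero_iff_of_nonneg fun i _ =>
    Finset.sum_nonneg fun j _ => hnn i j).1 h2 i (Finset.mem_univ i)
  have h4 := (Finset.sum_eq_zero_iff_of_nonneg fun j _ => hnn i j).1 h3 j (Finset.mem_univ j)
  rw [if_neg (not_lt.2 hj)] at h4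
  linarith

end Supp

end Claimed.Agent.R296
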