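import Claimed.Agent.R296.PurePow
import Claimed.Agent.R296.EntSupp

/-!
# Row 296: local domination `ρ ≤ d (ρ_m ⊗ 1)`, `d = card r`  (P1 eq:conditional-log-moments)

Rank one case: `|⟨w,v⟩|² = |tr (A_wᴴ A_v)|² ≤ d ‖A_wᴴ A_v‖₂² = d tr (ρ_v,m ρ_w,m)`.
Owner: helper19.
-/

set_option autoImplicit false
set_option linter.unusedSectionVars false
set_option linter.unusedDecidableInType false
set_option linter.unusedFintypeInType false

namespace Claimed.Agent.R296

open Matrix
open scoped ComplexOrder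

variable {n m r : Type} [Fintype n] [DecidableEq n] [Fintype m] [DecidableEq m]
  [Fintype r] [DecidableEq r]

theorem dotProduct_eq_trace_ppCoef (e : n ≃ m × r) (w v : n → ℂ) :
    star w ⬝ᵥ v = ((ppCoef e w)ᴴ * ppCoef e v).trace := by
  simp only [dotProduct, Pi.star_apply, Matrix.trace, Matrix.diag_apply, Matrix.mul_apply,
    conjTranspose_apply, ppCoef, Matrix.of_apply]
  rw [← e.symm.sum_comp, Fintype.sum_prod_type, Finset.sum_comm]

theorem hsSq_one_eq_card : hsSq (1 : Matrix r r ℂ) = Fintype.card r := by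
  have h := hsSq_eq_trace (1 : Matrix r r ℂ)
  rw [conjTranspose_one, Matrix.one_mul, Matrix.trace_one] at h
  exact_mod_cast h

theorem normSq_dotProduct_le (e : n ≃ m × r) (w v : n → ℂ) :
    ‖star w ⬝ᵥ v‖ ^ 2
      ≤ Fintype.card r * (ptrE e (pureOp w) * ptrE e (pureOp v)).trace.re := by
  set M := (ppCoef e w)ᴴ * ppCoef e v with hM
  have h1 : (ptrE e (pureOp w) * ptrE e (pureOp v)).trace = ((hsSq M : ℝ) : ℂ) := by
    rw [hsSq_eq_trace', ptrE_pureOp, ptrE_pureOp, hM, conjTranspose_mul,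
      conjTranspose_conjTranspose]
    calc (ppCoef e w * (ppCoef e w)ᴴ * (ppCoef e v * (ppCoef e v)ᴴ)).trace
        = (ppCoef e w * ((ppCoef e w)ᴴ * ppCoef e v * (ppCoef e v)ᴴ)).trace := by
          simp only [Matrix.mul_assoc]
      _ = (((ppCoef e w)ᴴ * ppCoef e v * (ppCoef e v)ᴴ) * ppCoef e w).trace :=
          Matrix.trace_mul_comm _ _
      _ = _ := by simp only [Matrix.mul_assoc]
  rw [h1, Complex.ofReal_re, dotProduct_eq_trace_ppCoef e]
  have h2 := norm_trace_mul_le (1 : Matrix r r ℂ) M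
  rw [Matrix.one_mul] at h2
  calc ‖M.trace‖ ^ 2 ≤ (hsn (1 : Matrix r r ℂ) * hsn M) ^ 2 :=
        pow_le_pow_left₀ (norm_nonneg _) h2 2
    _ = Fintype.card r * hsSq M := by
        rw [mul_pow, hsn_sq, hsn_sq, hsSq_one_eq_card]

theorem domination_pureOp (e : n ≃ m × r) (w : n → ℂ) :
    ((Fintype.card r : ℂ) • embE e (ptrE e (pureOp w)) - pureOp w).PosSemidef := by
  have hw : (pureOp w).PosSemidef := pureOp_posSemidef w
  have hH : ((Fintype.card r : ℂ) • embE e (ptrE e (pureOp w)) - pureOp w).IsHermitian := by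
    refine IsHermitian.sub ?_ hw.isHermitian
    have h1 := embE_isHermitian e (ptrE_isHermitian e hw.isHermitian)
    rw [IsHermitian, conjTranspose_smul, h1.eq]
    simp
  refine PosSemidef.of_dotProduct_mulVec_nonneg hH fun v => ?_
  rw [Matrix.sub_mulVec, Matrix.smul_mulVec, dotProduct_sub, dotProduct_smul, quad_embE,
    smul_eq_mul]
  have h1 : star v ⬝ᵥ (pureOp w *ᵥ v) = ((‖star w ⬝ᵥ v‖ ^ 2 : ℝ) : ℂ) := by
    rw [pureOp, vecMulVec_mulVec, dotProduct_smul, MulOpposite.smul_eq_mul_unop,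
      MulOpposite.unop_op]
    have h2 : star v ⬝ᵥ w = star (star w ⬝ᵥ v) := by
      rw [star_dotProduct]
    rw [h2, RCLike.star_def, mul_comm, Complex.mul_conj, Complex.normSq_eq_norm_sq]
  have h3 : (ptrE e (pureOp w) * ptrE e (pureOp v)).trace
      = (((ptrE e (pureOp w) * ptrE e (pureOp v)).trace.re : ℝ) : ℂ) := by
    have h4 := trace_mul_nonneg_of_psd (ptrE_posSemidef e hw)
      (ptrE_posSemidef e (pureOp_posSemidef v))
    exact (Complex.eq_re_of_ofReal_le h4)
  rw [h1, h3, sub_nonneg]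
  have := normSq_dotProduct_le e w v
  exact_mod_cast this

/-- **local domination**: `ρ ≤ d (ρ_m ⊗ 1)` -/
theorem ptrE_domination (e : n ≃ m × r) {ρ : Matrix n n ℂ} (hρ : ρ.PosSemidef) :
    ((Fintype.card r : ℂ) • embE e (ptrE e ρ) - ρ).PosSemidef := by
  obtain ⟨B, rfl⟩ := exists_eq_conjTranspose_mul_self hρ
  have h1 : Bᴴ * B = ∑ a, pureOp (star (B a)) := by
    ext u u'
    rw [Matrix.mul_apply, Matrix.sum_apply]
    refine Finset.sum_congr rfl fun a _ => ?_
    simp [pureOp, vecMulVec_apply, conjTranspose_apply]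
  have h2 : (Fintype.card r : ℂ) • embE e (ptrE e (Bᴴ * B)) - Bᴴ * B
      = ∑ a, ((Fintype.card r : ℂ) • embE e (ptrE e (pureOp (star (B a)))) - pureOp (star (B a))) := by
    rw [h1, ptrE_sum, Finset.sum_sub_distrib, ← Finset.smul_sum]
    congr 2
    exact map_sum (embEHom e) _ _
  rw [h2]
  exact posSemidef_sum _ fun a _ => domination_pureOp e _

end Claimed.Agent.R296
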