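import Claimed.Agent.R296.EntRelMain

/-!
# Row 296, ENT-REL file 6: bounds on the resolvent form `relF` and on the resolvent defect
(the inequalities `0 ≤ h(v) ≤ min(κ, v⁻²)`, `v ‖δ_v‖² ≤ h(v)` of P1 lem:conditional-phases).
Owner: helper19.
-/

set_option autoImplicit false
set_option linter.unusedSectionVars false
set_option linter.unusedDecidableInType false
set_option linter.unusedFintypeInType false

namespace Claimed.Agent.R296

open Matrix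
open scoped ComplexOrder

section Bounds

variable {n : Type} [Fintype n] [DecidableEq n]

theorem relF_nonneg {t : ℝ} (ht : 0 ≤ t) {ρ σ : Matrix n n ℂ} (hρ : ρ.PosSemidef)
    (hσ : σ.PosDef) : 0 ≤ relF t ρ σ := by
  rw [relF_eq_sum t hρ.isHermitian hσ.isHermitian]
  refine Finset.sum_nonneg fun i _ => Finset.sum_nonneg fun j _ => ?_
  have := denom_pos ht hρ hσ i j
  have := ovw_nonneg hρ.isHermitian hσ.isHermitian i j
  positivity

/-- `F_t ≤ tr ρ / t` -/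
theorem relF_le_trace_div {t : ℝ} (ht : 0 < t) {ρ σ : Matrix n n ℂ} (hρ : ρ.PosSemidef)
    (hσ : σ.PosDef) : relF t ρ σ ≤ ρ.trace.re / t := by
  rw [relF_eq_sum t hρ.isHermitian hσ.isHermitian, er_trace_re_eq_sum hρ.isHermitian,
    Finset.sum_div]
  refine Finset.sum_le_sum fun i _ => ?_
  have h1 : hρ.isHermitian.eigenvalues i / t
      = ∑ j, ovw hρ.isHermitian hσ.isHermitian i j * (hρ.isHermitian.eigenvalues i / t) := by
    rw [← Finset.sum_mul, sum_ovw_right, one_mul]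
  rw [h1]
  refine Finset.sum_le_sum fun j _ => mul_le_mul_of_nonneg_left ?_ (ovw_nonneg _ _ i j)
  have hd := denom_pos ht.le hρ hσ i j
  have hp := hρ.eigenvalues_nonneg i
  have hq := hσ.eigenvalues_pos j
  rw [div_le_div_iff₀ hd ht]
  nlinarith [mul_nonneg hp hq.le]

/-- `F_t ≥ tr ρ / t - tr σ / t²` -/
theorem relF_ge_trace_div_sub {t : ℝ} (ht : 0 < t) {ρ σ : Matrix n n ℂ} (hρ : ρ.PosSemidef)
    (hσ : σ.PosDef) : ρ.trace.re / t - σ.trace.re / t ^ 2 ≤ relF t ρ σ := by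
  rw [relF_eq_sum t hρ.isHermitian hσ.isHermitian]
  have h1 : ρ.trace.re / t - σ.trace.re / t ^ 2
      = ∑ i, ∑ j, ovw hρ.isHermitian hσ.isHermitian i j *
        (hρ.isHermitian.eigenvalues i / t - hσ.isHermitian.eigenvalues j / t ^ 2) := by
    simp only [mul_sub, Finset.sum_sub_distrib]
    congr 1
    · rw [er_trace_re_eq_sum hρ.isHermitian, Finset.sum_div]
      refine Finset.sum_congr rfl fun i _ => ?_
      rw [← Finset.sum_mul, sum_ovw_right, one_mul]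
    · rw [er_trace_re_eq_sum hσ.isHermitian, Finset.sum_div, Finset.sum_comm]
      refine Finset.sum_congr rfl fun j _ => ?_
      rw [← Finset.sum_mul, sum_ovw_left, one_mul]
  rw [h1]
  refine Finset.sum_le_sum fun i _ => Finset.sum_le_sum fun j _ =>
    mul_le_mul_of_nonneg_left ?_ (ovw_nonneg _ _ i j)
  have hd := denom_pos ht.le hρ hσ i j
  set p := hρ.isHermitian.eigenvalues i
  set q := hσ.isHermitian.eigenvalues j
  rw [le_div_iff₀ hd]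
  have h2 : (p / t - q / t ^ 2) * (q + t * p) = p ^ 2 - q ^ 2 / t ^ 2 := by
    field_simp
    ring
  rw [h2]
  have : 0 ≤ q ^ 2 / t ^ 2 := by positivity
  linarith

/-- `t ↦ F_t` is antitone on `[0,∞)` -/
theorem relF_antitone {s t : ℝ} (hs : 0 ≤ s) (hst : s ≤ t) {ρ σ : Matrix n n ℂ}
    (hρ : ρ.PosSemidef) (hσ : σ.PosDef) : relF t ρ σ ≤ relF s ρ σ := by
  rw [relF_eq_sum t hρ.isHermitian hσ.isHermitian, relF_eq_sum s hρ.isHermitian hσ.isHermitian]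
  refine Finset.sum_le_sum fun i _ => Finset.sum_le_sum fun j _ =>
    mul_le_mul_of_nonneg_left ?_ (ovw_nonneg _ _ i j)
  have hd := denom_pos hs hρ hσ i j
  have hp := hρ.eigenvalues_nonneg i
  refine div_le_div_of_nonneg_left (by positivity) hd ?_
  nlinarith

theorem relF_continuousOn {ρ σ : Matrix n n ℂ} (hρ : ρ.PosSemidef) (hσ : σ.PosDef) :
    ContinuousOn (fun t => relF t ρ σ) (Set.Ici 0) := by
  have : (fun t => relF t ρ σ) = fun t => ∑ i, ∑ j, ovw hρ.isHermitian hσ.isHermitian i j *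
      (hρ.isHermitian.eigenvalues i ^ 2 /
        (hσ.isHermitian.eigenvalues j + t * hρ.isHermitian.eigenvalues i)) := by
    funext t; exact relF_eq_sum t hρ.isHermitian hσ.isHermitian
  rw [this]
  refine continuousOn_finsetSum _ fun i _ => continuousOn_finsetSum _ fun j _ => ?_
  refine ContinuousOn.mul continuousOn_const (ContinuousOn.div continuousOn_const ?_ ?_)
  · fun_prop
  · intro t ht
    exact (denom_pos ht hρ hσ i j).ne'

/-- domination `ρ ≤ κ σ` gives `F_t ≤ κ tr ρ` (in the paper: `⟨a₀,A⁻¹a₀⟩ = tr ρ²σ⁻¹ ≤ d²`) -/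
theorem relF_le_of_le_smul {t : ℝ} (ht : 0 ≤ t) {κ : ℝ} (hκ : 0 < κ) {ρ σ : Matrix n n ℂ}
    (hρ : ρ.PosSemidef) (hσ : σ.PosDef) (h : ((κ : ℂ) • σ - ρ).PosSemidef) :
    relF t ρ σ ≤ κ * ρ.trace.re := by
  rw [← relG_relY ht hρ hσ]
  set Y := relY t ρ σ
  unfold relG
  rw [relQ_eq]
  -- `tr Yᴴ ρ Y ≤ κ tr Yᴴ σ Y`
  have h1 : 0 ≤ (Yᴴ * ((κ : ℂ) • σ - ρ) * Y).trace.re :=
    (Complex.le_def.1 (h.conjTranspose_mul_mul_same Y).trace_nonneg).1
  have h1' : (Yᴴ * ((κ : ℂ) • σ - ρ) * Y).trace.re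
      = κ * (Yᴴ * σ * Y).trace.re - (Yᴴ * ρ * Y).trace.re := by
    simp only [Matrix.mul_sub, Matrix.sub_mul, Matrix.mul_smul, Matrix.smul_mul, Matrix.trace_sub,
      Matrix.trace_smul, smul_eq_mul, Complex.sub_re, Complex.re_ofReal_mul]
  -- complete the square with `Y - κ`
  have h2 : 0 ≤ ((Y - (κ : ℂ) • 1)ᴴ * ρ * (Y - (κ : ℂ) • 1)).trace.re :=
    (Complex.le_def.1 (hρ.conjTranspose_mul_mul_same _).trace_nonneg).1
  have h2' : ((Y - (κ : ℂ) • 1)ᴴ * ρ * (Y - (κ : ℂ) • 1)).trace.re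
      = (Yᴴ * ρ * Y).trace.re - 2 * κ * (ρ * Y).trace.re + κ ^ 2 * ρ.trace.re := by
    have e1 : (Y - (κ : ℂ) • 1)ᴴ = Yᴴ - (κ : ℂ) • 1 := by
      rw [conjTranspose_sub, conjTranspose_smul, conjTranspose_one]
      simp
    rw [e1]
    simp only [Matrix.mul_sub, Matrix.sub_mul, Matrix.mul_smul, Matrix.smul_mul, Matrix.trace_sub,
      Matrix.trace_smul, smul_eq_mul, Complex.sub_re, Complex.re_ofReal_mul, Matrix.mul_one,
      Matrix.one_mul]
    rw [re_trace_conjTranspose_mul hρ.isHermitian]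
    ring
  have h3 : 0 ≤ (Y * ρ * Yᴴ).trace.re :=
    (Complex.le_def.1 (hρ.mul_mul_conjTranspose_same Y).trace_nonneg).1
  have h4 : 0 ≤ t * (Y * ρ * Yᴴ).trace.re := mul_nonneg ht h3
  rw [h1'] at h1
  rw [h2'] at h2
  -- `2 a - s ≤ κ T` from `r ≤ κ s`, `r - 2 κ a + κ² T ≥ 0`
  have h5 : κ * (2 * (ρ * Y).trace.re - (Yᴴ * σ * Y).trace.re) ≤ κ * (κ * ρ.trace.re) := by
    nlinarith
  have h6 := le_of_mul_le_mul_left h5 hκ
  linarith

variable {m r : Type} [Fintype m] [DecidableEq m] [Fintype r] [DecidableEq r]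

/-- the resolvent defect `h(t)` -/
noncomputable def relH (e : n ≃ m × r) (ρ σ : Matrix n n ℂ) (t : ℝ) : ℝ :=
  relF t ρ σ - relF t (ptrE e ρ) (ptrE e σ)

/-- the defect operator `Z_t = Y_s ⊗ 1 - Y_f`; in the paper `δ_t = - Z_t √ρ` -/
noncomputable def relZ (e : n ≃ m × r) (ρ σ : Matrix n n ℂ) (t : ℝ) : Matrix n n ℂ :=
  embE e (relY t (ptrE e ρ) (ptrE e σ)) - relY t ρ σ

theorem relH_eq_relQ [Nonempty r] {t : ℝ} (ht : 0 ≤ t) (e : n ≃ m × r) {ρ σ : Matrix n n ℂ}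
    (hρ : ρ.PosSemidef) (hσ : σ.PosDef) : relH e ρ σ t = relQ t ρ σ (relZ e ρ σ t) :=
  relF_sub_relF_ptrE ht e hρ hσ

theorem relH_nonneg [Nonempty r] {t : ℝ} (ht : 0 ≤ t) (e : n ≃ m × r) {ρ σ : Matrix n n ℂ}
    (hρ : ρ.PosSemidef) (hσ : σ.PosDef) : 0 ≤ relH e ρ σ t := by
  rw [relH_eq_relQ ht e hρ hσ]
  exact relQ_nonneg ht hρ hσ.posSemidef _

/-- `t ‖Z_t √ρ‖₂² ≤ h(t)` -/
theorem mul_trace_relZ_le_relH [Nonempty r] {t : ℝ} (ht : 0 ≤ t) (e : n ≃ m × r)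
    {ρ σ : Matrix n n ℂ} (hρ : ρ.PosSemidef) (hσ : σ.PosDef) :
    t * (relZ e ρ σ t * ρ * (relZ e ρ σ t)ᴴ).trace.re ≤ relH e ρ σ t := by
  rw [relH_eq_relQ ht e hρ hσ, relQ_eq]
  have h1 : 0 ≤ ((relZ e ρ σ t)ᴴ * σ * relZ e ρ σ t).trace.re :=
    (Complex.le_def.1 (hσ.posSemidef.conjTranspose_mul_mul_same _).trace_nonneg).1
  linarith

/-- `h(t) ≤ tr σ / t²` -/
theorem relH_le_div_sq [Nonempty r] {t : ℝ} (ht : 0 < t) (e : n ≃ m × r) {ρ σ : Matrix n n ℂ}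
    (hρ : ρ.PosSemidef) (hσ : σ.PosDef) : relH e ρ σ t ≤ σ.trace.re / t ^ 2 := by
  have h1 := relF_le_trace_div ht hρ hσ
  have h2 := relF_ge_trace_div_sub ht (ptrE_posSemidef e hρ) (ptrE_posDef e hσ)
  rw [trace_ptrE, trace_ptrE] at h2
  unfold relH
  linarith

/-- `h(t) ≤ κ tr ρ` if `ρ ≤ κ σ` -/
theorem relH_le_of_le_smul [Nonempty r] {t : ℝ} (ht : 0 ≤ t) {κ : ℝ} (hκ : 0 < κ) (e : n ≃ m × r)
    {ρ σ : Matrix n n ℂ} (hρ : ρ.PosSemidef) (hσ : σ.PosDef)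
    (h : ((κ : ℂ) • σ - ρ).PosSemidef) : relH e ρ σ t ≤ κ * ρ.trace.re := by
  have h1 := relF_le_of_le_smul ht hκ hρ hσ h
  have h2 := relF_nonneg ht (ptrE_posSemidef e hρ) (ptrE_posDef e hσ)
  unfold relH
  linarith

theorem relH_continuousOn [Nonempty r] (e : n ≃ m × r) {ρ σ : Matrix n n ℂ}
    (hρ : ρ.PosSemidef) (hσ : σ.PosDef) : ContinuousOn (relH e ρ σ) (Set.Ici 0) :=
  (relF_continuousOn hρ hσ).sub (relF_continuousOn (ptrE_posSemidef e hρ) (ptrE_posDef e hσ))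

theorem relH_integrableOn [Nonempty r] (e : n ≃ m × r) {ρ σ : Matrix n n ℂ}
    (hρ : ρ.PosSemidef) (hσ : σ.PosDef) :
    MeasureTheory.IntegrableOn (relH e ρ σ) (Set.Ioi 0) :=
  relF_sub_relF_ptrE_integrableOn e hρ hσ

/-- `∫₀^∞ h = D(ρ‖σ) - D(ρ_m‖σ_m)` -/
theorem integral_relH [Nonempty r] (e : n ≃ m × r) {ρ σ : Matrix n n ℂ}
    (hρ : ρ.PosSemidef) (hσ : σ.PosDef) :
    ∫ t in Set.Ioi 0, relH e ρ σ t = relEnt ρ σ - relEnt (ptrE e ρ) (ptrE e σ) :=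
  (relEnt_sub_relEnt_ptrE e hρ hσ).symm

end Bounds

end Claimed.Agent.R296
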