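import Claimed.Agent.R296.EntRelCore

/-!
# Row 296, ENT-REL file 4: relative entropy: spectral formula, resolvent integral, data processing,
joint convexity, Klein's inequality.
Owner: helper19.
-/

set_option autoImplicit false
set_option linter.unusedSectionVars false
set_option linter.unusedDecidableInType false
set_option linter.unusedFintypeInType false

namespace Claimed.Agent.R296

open Matrix MeasureTheory Set
open scoped ComplexOrder

section Main

variable {n : Type} [Fintype n] [DecidableEq n]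

theorem er_trace_re_eq_sum {ρ : Matrix n n ℂ} (hρ : ρ.IsHermitian) :
    ρ.trace.re = ∑ i, hρ.eigenvalues i := by
  rw [hρ.trace_eq_sum_eigenvalues]
  simp

/-- `tr (ρ log ρ) = ∑ p log p` -/
theorem trace_mul_mlog_self {ρ : Matrix n n ℂ} (hρ : ρ.IsHermitian) :
    (ρ * mlog ρ).trace = ((∑ i, hρ.eigenvalues i * Real.log (hρ.eigenvalues i) : ℝ) : ℂ) := by
  unfold mlog
  have h : ρ * mfun (fun x => (Real.log x : ℂ)) ρ
      = mfun (fun x => (x : ℂ) * (Real.log x : ℂ)) ρ := by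
    rw [mfun_mul, mfun_id hρ]
  rw [h, trace_mfun hρ]
  push_cast
  rfl

/-- `tr (ρ f(σ)) = ∑ p_i f(q_j) w_ij` -/
theorem trace_mul_mfun {ρ σ : Matrix n n ℂ} (hρ : ρ.IsHermitian) (hσ : σ.IsHermitian)
    (g : ℝ → ℂ) :
    (ρ * mfun g σ).trace
      = ∑ i, ∑ j, (hρ.eigenvalues i : ℂ) * g (hσ.eigenvalues j) * (ovw hρ hσ i j : ℂ) := by
  conv_lhs => rw [← mfun_id hρ]
  rw [trace_mfun_mul_mfun hρ hσ]

/-- spectral formula for the relative entropy -/
theorem relEnt_eq_sum {ρ σ : Matrix n n ℂ} (hρ : ρ.IsHermitian) (hσ : σ.IsHermitian) :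
    relEnt ρ σ = ∑ i, ∑ j, ovw hρ hσ i j *
      (hρ.eigenvalues i * Real.log (hρ.eigenvalues i)
        - hρ.eigenvalues i * Real.log (hσ.eigenvalues j)) := by
  unfold relEnt
  rw [Matrix.mul_sub, Matrix.trace_sub, trace_mul_mlog_self hρ]
  unfold mlog
  rw [trace_mul_mfun hρ hσ, Complex.sub_re, Complex.ofReal_re]
  have h1 : (∑ i, ∑ j, (hρ.eigenvalues i : ℂ) * (Real.log (hσ.eigenvalues j) : ℂ)
      * (ovw hρ hσ i j : ℂ)).re
      = ∑ i, ∑ j, ovw hρ hσ i j * (hρ.eigenvalues i * Real.log (hσ.eigenvalues j)) := by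
    simp only [← Complex.ofReal_mul, ← Complex.ofReal_sum, Complex.ofReal_re]
    refine Finset.sum_congr rfl fun i _ => Finset.sum_congr rfl fun j _ => ?_
    ring
  rw [h1, ← Finset.sum_sub_distrib]
  refine Finset.sum_congr rfl fun i _ => ?_
  simp only [mul_sub, Finset.sum_sub_distrib]
  rw [← Finset.sum_mul, sum_ovw_right, one_mul]

/-- `F_t - tr ρ/(1+t)` as a sum of scalar integrands -/
theorem relF_sub_eq_sum (t : ℝ) {ρ σ : Matrix n n ℂ} (hρ : ρ.IsHermitian) (hσ : σ.IsHermitian) :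
    relF t ρ σ - ρ.trace.re / (1 + t)
      = ∑ i, ∑ j, ovw hρ hσ i j * relPhi (hρ.eigenvalues i) (hσ.eigenvalues j) t := by
  rw [relF_eq_sum t hρ hσ, er_trace_re_eq_sum hρ, Finset.sum_div,
    ← Finset.sum_sub_distrib]
  refine Finset.sum_congr rfl fun i _ => ?_
  simp only [relPhi, mul_sub, Finset.sum_sub_distrib]
  rw [← Finset.sum_mul, sum_ovw_right, one_mul]

theorem relF_sub_integrableOn {ρ σ : Matrix n n ℂ} (hρ : ρ.PosSemidef) (hσ : σ.PosDef) :
    IntegrableOn (fun t => relF t ρ σ - ρ.trace.re / (1 + t)) (Ioi 0) := by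
  have : (fun t => relF t ρ σ - ρ.trace.re / (1 + t)) = fun t => ∑ i, ∑ j,
      ovw hρ.isHermitian hσ.isHermitian i j *
        relPhi (hρ.isHermitian.eigenvalues i) (hσ.isHermitian.eigenvalues j) t := by
    funext t; exact relF_sub_eq_sum t hρ.isHermitian hσ.isHermitian
  rw [this]
  refine integrable_finsetSum _ fun i _ => integrable_finsetSum _ fun j _ => ?_
  exact (relPhi_integrableOn (hρ.eigenvalues_nonneg i) (hσ.eigenvalues_pos j)).const_mul _

/-- **resolvent integral representation** of the relative entropy -/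
theorem relEnt_eq_integral {ρ σ : Matrix n n ℂ} (hρ : ρ.PosSemidef) (hσ : σ.PosDef) :
    relEnt ρ σ = ∫ t in Ioi 0, (relF t ρ σ - ρ.trace.re / (1 + t)) := by
  have : (fun t => relF t ρ σ - ρ.trace.re / (1 + t)) = fun t => ∑ i, ∑ j,
      ovw hρ.isHermitian hσ.isHermitian i j *
        relPhi (hρ.isHermitian.eigenvalues i) (hσ.isHermitian.eigenvalues j) t := by
    funext t; exact relF_sub_eq_sum t hρ.isHermitian hσ.isHermitian
  rw [this, relEnt_eq_sum hρ.isHermitian hσ.isHermitian]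
  have hint : ∀ i j, Integrable (fun t => ovw hρ.isHermitian hσ.isHermitian i j *
      relPhi (hρ.isHermitian.eigenvalues i) (hσ.isHermitian.eigenvalues j) t)
      (volume.restrict (Ioi 0)) := fun i j =>
    (relPhi_integrableOn (hρ.eigenvalues_nonneg i) (hσ.eigenvalues_pos j)).const_mul _
  rw [integral_finsetSum _ fun i _ => integrable_finsetSum _ fun j _ => hint i j]
  refine Finset.sum_congr rfl fun i _ => ?_
  rw [integral_finsetSum _ fun j _ => hint i j]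
  refine Finset.sum_congr rfl fun j _ => ?_
  rw [integral_const_mul, relPhi_integral (hρ.eigenvalues_nonneg i) (hσ.eigenvalues_pos j)]

/-- comparison principle: `F_t` ordered for all `t > 0` and equal traces order the entropies -/
theorem relEnt_le_of_relF_le {m : Type} [Fintype m] [DecidableEq m]
    {ρ σ : Matrix n n ℂ} {ρ' σ' : Matrix m m ℂ}
    (hρ : ρ.PosSemidef) (hσ : σ.PosDef) (hρ' : ρ'.PosSemidef) (hσ' : σ'.PosDef)
    (htr : ρ'.trace.re = ρ.trace.re) (h : ∀ t : ℝ, 0 < t → relF t ρ' σ' ≤ relF t ρ σ) :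
    relEnt ρ' σ' ≤ relEnt ρ σ := by
  rw [relEnt_eq_integral hρ hσ, relEnt_eq_integral hρ' hσ']
  refine setIntegral_mono_on (relF_sub_integrableOn hρ' hσ') (relF_sub_integrableOn hρ hσ)
    measurableSet_Ioi fun t ht => ?_
  rw [htr]
  have := h t ht
  linarith

/-! ### Klein's inequality -/

theorem scalar_klein {p q : ℝ} (hp : 0 ≤ p) (hq : 0 < q) :
    p - q ≤ p * Real.log p - p * Real.log q := by
  rcases hp.eq_or_lt with rfl | hp'
  · simp; exact hq.le
  · have h := Real.log_le_sub_one_of_pos (div_pos hq hp')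
    rw [Real.log_div hq.ne' hp'.ne'] at h
    have h2 := mul_le_mul_of_nonneg_left h hp
    have h3 : p * (q / p - 1) = q - p := by field_simp
    rw [h3] at h2
    linarith

/-- **Klein's inequality** `D(ρ‖σ) ≥ tr ρ - tr σ` -/
theorem relEnt_ge_trace_sub {ρ σ : Matrix n n ℂ} (hρ : ρ.PosSemidef) (hσ : σ.PosDef) :
    ρ.trace.re - σ.trace.re ≤ relEnt ρ σ := by
  rw [relEnt_eq_sum hρ.isHermitian hσ.isHermitian]
  have h1 : ρ.trace.re - σ.trace.re = ∑ i, ∑ j, ovw hρ.isHermitian hσ.isHermitian i j *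
      (hρ.isHermitian.eigenvalues i - hσ.isHermitian.eigenvalues j) := by
    simp only [mul_sub, Finset.sum_sub_distrib]
    congr 1
    · rw [er_trace_re_eq_sum hρ.isHermitian]
      refine Finset.sum_congr rfl fun i _ => ?_
      rw [← Finset.sum_mul, sum_ovw_right, one_mul]
    · rw [er_trace_re_eq_sum hσ.isHermitian, Finset.sum_comm]
      refine Finset.sum_congr rfl fun j _ => ?_
      rw [← Finset.sum_mul, sum_ovw_left, one_mul]
  rw [h1]
  refine Finset.sum_le_sum fun i _ => Finset.sum_le_sum fun j _ => ?_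
  exact mul_le_mul_of_nonneg_left (scalar_klein (hρ.eigenvalues_nonneg i) (hσ.eigenvalues_pos j))
    (ovw_nonneg _ _ i j)

theorem relEnt_nonneg {ρ σ : Matrix n n ℂ} (hρ : ρ.PosSemidef) (hσ : σ.PosDef)
    (htr : σ.trace.re ≤ ρ.trace.re) : 0 ≤ relEnt ρ σ := by
  have := relEnt_ge_trace_sub hρ hσ
  linarith

/-! ### data processing under a partial trace -/

variable {m r : Type} [Fintype m] [DecidableEq m] [Fintype r] [DecidableEq r]

theorem relQ_embE (t : ℝ) (e : n ≃ m × r) (ρ σ : Matrix n n ℂ) (Y : Matrix m m ℂ) :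
    relQ t ρ σ (embE e Y) = relQ t (ptrE e ρ) (ptrE e σ) Y := by
  rw [relQ_eq, relQ_eq]
  congr 1
  · rw [← Matrix.trace_mul_cycle σ (embE e Y) (embE e Y)ᴴ, ← embE_conjTranspose, Matrix.mul_assoc,
      ← embE_mul, trace_mul_embE, ← Matrix.mul_assoc, Matrix.trace_mul_cycle]
  · rw [Matrix.trace_mul_cycle (embE e Y) ρ (embE e Y)ᴴ, Matrix.trace_mul_cycle,
      ← embE_conjTranspose, Matrix.mul_assoc, ← embE_mul, trace_mul_embE, ← Matrix.mul_assoc,
      Matrix.trace_mul_cycle, Matrix.trace_mul_cycle]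

theorem relG_embE (t : ℝ) (e : n ≃ m × r) (ρ σ : Matrix n n ℂ) (Y : Matrix m m ℂ) :
    relG t ρ σ (embE e Y) = relG t (ptrE e ρ) (ptrE e σ) Y := by
  unfold relG
  rw [relQ_embE, trace_mul_embE]

/-- the exact resolvent defect `h(t) = F_t(ρ,σ) - F_t(ρ_m,σ_m) = Q(Y_m ⊗ 1 - Y)`
(the resolvent compression identity of P1 lem:conditional-phases) -/
theorem relF_sub_relF_ptrE [Nonempty r] {t : ℝ} (ht : 0 ≤ t) (e : n ≃ m × r)
    {ρ σ : Matrix n n ℂ} (hρ : ρ.PosSemidef) (hσ : σ.PosDef) :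
    relF t ρ σ - relF t (ptrE e ρ) (ptrE e σ)
      = relQ t ρ σ (embE e (relY t (ptrE e ρ) (ptrE e σ)) - relY t ρ σ) := by
  rw [← relF_sub_relG ht hρ hσ, relG_embE, relG_relY ht (ptrE_posSemidef e hρ) (ptrE_posDef e hσ)]

theorem relF_ptrE_le [Nonempty r] {t : ℝ} (ht : 0 ≤ t) (e : n ≃ m × r)
    {ρ σ : Matrix n n ℂ} (hρ : ρ.PosSemidef) (hσ : σ.PosDef) :
    relF t (ptrE e ρ) (ptrE e σ) ≤ relF t ρ σ := by
  have h1 := relF_sub_relF_ptrE ht e hρ hσ
  have h2 := relQ_nonneg ht hρ hσ.posSemidef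
    (embE e (relY t (ptrE e ρ) (ptrE e σ)) - relY t ρ σ)
  linarith

/-- **monotonicity of the relative entropy under partial traces** -/
theorem relEnt_ptrE_le [Nonempty r] (e : n ≃ m × r) {ρ σ : Matrix n n ℂ} (hρ : ρ.PosSemidef)
    (hσ : σ.PosDef) : relEnt (ptrE e ρ) (ptrE e σ) ≤ relEnt ρ σ :=
  relEnt_le_of_relF_le hρ hσ (ptrE_posSemidef e hρ) (ptrE_posDef e hσ) (by rw [trace_ptrE])
    fun _ ht => relF_ptrE_le ht.le e hρ hσ

/-- the entropy defect is the integral of the resolvent defect -/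
theorem relEnt_sub_relEnt_ptrE [Nonempty r] (e : n ≃ m × r) {ρ σ : Matrix n n ℂ}
    (hρ : ρ.PosSemidef) (hσ : σ.PosDef) :
    relEnt ρ σ - relEnt (ptrE e ρ) (ptrE e σ)
      = ∫ t in Ioi 0, (relF t ρ σ - relF t (ptrE e ρ) (ptrE e σ)) := by
  rw [relEnt_eq_integral hρ hσ, relEnt_eq_integral (ptrE_posSemidef e hρ) (ptrE_posDef e hσ),
    ← integral_sub (relF_sub_integrableOn hρ hσ)
      (relF_sub_integrableOn (ptrE_posSemidef e hρ) (ptrE_posDef e hσ))]
  refine integral_congr_ae (Filter.Eventually.of_forall fun t => ?_)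
  simp only [trace_ptrE]
  ring

theorem relF_sub_relF_ptrE_integrableOn [Nonempty r] (e : n ≃ m × r) {ρ σ : Matrix n n ℂ}
    (hρ : ρ.PosSemidef) (hσ : σ.PosDef) :
    IntegrableOn (fun t => relF t ρ σ - relF t (ptrE e ρ) (ptrE e σ)) (Ioi 0) := by
  have h := (relF_sub_integrableOn hρ hσ).sub
      (relF_sub_integrableOn (ptrE_posSemidef e hρ) (ptrE_posDef e hσ))
  refine h.congr (Filter.Eventually.of_forall fun t => ?_)
  simp only [trace_ptrE, Pi.sub_apply]
  ring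

/-! ### joint convexity -/

theorem relG_affine (t a b : ℝ) (ρ₁ ρ₂ σ₁ σ₂ Y : Matrix n n ℂ) :
    relG t ((a : ℂ) • ρ₁ + (b : ℂ) • ρ₂) ((a : ℂ) • σ₁ + (b : ℂ) • σ₂) Y
      = a * relG t ρ₁ σ₁ Y + b * relG t ρ₂ σ₂ Y := by
  unfold relG
  simp only [relQ_eq, Matrix.add_mul, Matrix.mul_add, Matrix.smul_mul, Matrix.mul_smul,
    Matrix.trace_add, Matrix.trace_smul, smul_eq_mul, Complex.add_re, Complex.re_ofReal_mul]
  ring

theorem relF_jointly_convex {t : ℝ} (ht : 0 ≤ t) {a b : ℝ} (ha : 0 ≤ a) (hb : 0 ≤ b)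
    {ρ₁ ρ₂ σ₁ σ₂ : Matrix n n ℂ} (hρ₁ : ρ₁.PosSemidef) (hρ₂ : ρ₂.PosSemidef) (hσ₁ : σ₁.PosDef)
    (hσ₂ : σ₂.PosDef) (hρ : ((a : ℂ) • ρ₁ + (b : ℂ) • ρ₂).PosSemidef)
    (hσ : ((a : ℂ) • σ₁ + (b : ℂ) • σ₂).PosDef) :
    relF t ((a : ℂ) • ρ₁ + (b : ℂ) • ρ₂) ((a : ℂ) • σ₁ + (b : ℂ) • σ₂)
      ≤ a * relF t ρ₁ σ₁ + b * relF t ρ₂ σ₂ := by
  rw [← relG_relY ht hρ hσ, relG_affine]
  exact add_le_add (mul_le_mul_of_nonneg_left (relG_le_relF ht hρ₁ hσ₁ _) ha)
    (mul_le_mul_of_nonneg_left (relG_le_relF ht hρ₂ hσ₂ _) hb)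

end Main

end Claimed.Agent.R296
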