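import Claimed.Agent.R296.EntSupp
import Claimed.Agent.R296.EntRelBounds

/-!
# Row 296, ENT-REL file 8: the resolvent calculus for SINGULAR `σ`

Everything of `EntRelCore/Main/Bounds` for `ρ, σ` merely positive semidefinite and `t > 0`;
the integral representation needs the support inclusion `ρ * supp σ = ρ`
(which follows from a domination `ρ ≤ κ σ`, `mul_supp_of_le_smul`).  Names carry the suffix `_sg`.
Owner: helper19.
-/

set_option autoImplicit false
set_option linter.unusedSectionVars false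
set_option linter.unusedDecidableInType false
set_option linter.unusedFintypeInType false

namespace Claimed.Agent.R296

open Matrix MeasureTheory Set
open scoped ComplexOrder

section Sing

variable {n : Type} [Fintype n] [DecidableEq n]

theorem relYc_eq_sg (p q : n → ℝ) (W : Matrix n n ℂ) (t : ℝ)
    (h : ∀ i j, q j + t * p i = 0 → p i = 0) :
    dg q * relYc p q W t + (t : ℂ) • (relYc p q W t * dg p) = Wᴴ * dg p := by
  ext j i
  simp only [Matrix.add_apply, Matrix.smul_apply, diagonal_mul, mul_diagonal, relYc,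
    Matrix.of_apply, conjTranspose_apply, smul_eq_mul]
  by_cases h0 : q j + t * p i = 0
  · have hp := h i j h0
    simp [hp]
  · have hh : ((q j + t * p i : ℝ) : ℂ) ≠ 0 := by exact_mod_cast h0
    field_simp
    push_cast
    ring

theorem relL_decomp_sg (U V : Matrix n n ℂ) (hU : Uᴴ * U = 1) (hV : Vᴴ * V = 1)
    (hV' : V * Vᴴ = 1) (p q : n → ℝ) (t : ℝ) (h : ∀ i j, q j + t * p i = 0 → p i = 0) :
    relL t (U * dg p * Uᴴ) (V * dg q * Vᴴ) (V * relYc p q (Uᴴ * V) t * Uᴴ) = U * dg p * Uᴴ := by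
  unfold relL
  set Y := relYc p q (Uᴴ * V) t with hY
  calc V * dg q * Vᴴ * (V * Y * Uᴴ) + (t : ℂ) • (V * Y * Uᴴ * (U * dg p * Uᴴ))
      = V * (dg q * (Vᴴ * V) * Y + (t : ℂ) • (Y * (Uᴴ * U) * dg p)) * Uᴴ := by
        simp only [Matrix.mul_add, Matrix.add_mul, Matrix.mul_smul, Matrix.smul_mul,
          Matrix.mul_assoc]
    _ = V * ((Uᴴ * V)ᴴ * dg p) * Uᴴ := by
        rw [hU, hV, Matrix.mul_one, Matrix.mul_one, hY, relYc_eq_sg p q _ t h]
    _ = (V * Vᴴ) * U * dg p * Uᴴ := by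
        rw [conjTranspose_mul, conjTranspose_conjTranspose]
        simp only [Matrix.mul_assoc]
    _ = U * dg p * Uᴴ := by rw [hV', Matrix.one_mul]

theorem denom_nonneg_sg {t : ℝ} (ht : 0 ≤ t) {ρ σ : Matrix n n ℂ} (hρ : ρ.PosSemidef)
    (hσ : σ.PosSemidef) (i j : n) :
    0 ≤ hσ.isHermitian.eigenvalues j + t * hρ.isHermitian.eigenvalues i := by
  have h1 := hσ.eigenvalues_nonneg j
  have h2 := hρ.eigenvalues_nonneg i
  positivity

theorem denom_zero_sg {t : ℝ} (ht : 0 < t) {ρ σ : Matrix n n ℂ} (hρ : ρ.PosSemidef)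
    (hσ : σ.PosSemidef) (i j : n)
    (h : hσ.isHermitian.eigenvalues j + t * hρ.isHermitian.eigenvalues i = 0) :
    hρ.isHermitian.eigenvalues i = 0 ∧ hσ.isHermitian.eigenvalues j = 0 := by
  have h1 := hσ.eigenvalues_nonneg j
  have h2 := hρ.eigenvalues_nonneg i
  have h3 : 0 ≤ t * hρ.isHermitian.eigenvalues i := by positivity
  have h4 : t * hρ.isHermitian.eigenvalues i = 0 := by linarith
  have h5 : hρ.isHermitian.eigenvalues i = 0 := by
    rcases mul_eq_zero.1 h4 with h | h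
    · exact absurd h ht.ne'
    · exact h
  exact ⟨h5, by linarith⟩

theorem relL_relY_sg {t : ℝ} (ht : 0 < t) {ρ σ : Matrix n n ℂ} (hρ : ρ.PosSemidef)
    (hσ : σ.PosSemidef) : relL t ρ σ (relY t ρ σ) = ρ := by
  have h := relL_decomp_sg (hρ.isHermitian.eigenvectorUnitary : Matrix n n ℂ)
    (hσ.isHermitian.eigenvectorUnitary : Matrix n n ℂ) (eigU_conjTranspose_mul _)
    (eigU_conjTranspose_mul _) (eigU_mul_conjTranspose _) hρ.isHermitian.eigenvalues
    hσ.isHermitian.eigenvalues t (fun i j h0 => (denom_zero_sg ht hρ hσ i j h0).1)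
  rw [← spectral_plain hρ.isHermitian, ← spectral_plain hσ.isHermitian] at h
  rw [relY_eq t hρ.isHermitian hσ.isHermitian]
  exact h

theorem relG_le_relF_sg {t : ℝ} (ht : 0 < t) {ρ σ : Matrix n n ℂ} (hρ : ρ.PosSemidef)
    (hσ : σ.PosSemidef) (Y : Matrix n n ℂ) : relG t ρ σ Y ≤ relF t ρ σ := by
  rw [relG_eq_sub_relQ t hρ.isHermitian hσ.isHermitian (relL_relY_sg ht hρ hσ)]
  have := relQ_nonneg ht.le hρ hσ (Y - relY t ρ σ)
  unfold relF
  linarith

theorem relG_relY_sg {t : ℝ} (ht : 0 < t) {ρ σ : Matrix n n ℂ} (hρ : ρ.PosSemidef)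
    (hσ : σ.PosSemidef) : relG t ρ σ (relY t ρ σ) = relF t ρ σ := by
  rw [relG_eq_sub_relQ t hρ.isHermitian hσ.isHermitian (relL_relY_sg ht hρ hσ), sub_self]
  simp [relQ, relF]

theorem relF_sub_relG_sg {t : ℝ} (ht : 0 < t) {ρ σ : Matrix n n ℂ} (hρ : ρ.PosSemidef)
    (hσ : σ.PosSemidef) (Y : Matrix n n ℂ) :
    relF t ρ σ - relG t ρ σ Y = relQ t ρ σ (Y - relY t ρ σ) := by
  rw [relG_eq_sub_relQ t hρ.isHermitian hσ.isHermitian (relL_relY_sg ht hρ hσ)]
  unfold relF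
  ring

/-! ### bounds -/

theorem relF_nonneg_sg {t : ℝ} (ht : 0 ≤ t) {ρ σ : Matrix n n ℂ} (hρ : ρ.PosSemidef)
    (hσ : σ.PosSemidef) : 0 ≤ relF t ρ σ := by
  rw [relF_eq_sum t hρ.isHermitian hσ.isHermitian]
  refine Finset.sum_nonneg fun i _ => Finset.sum_nonneg fun j _ => ?_
  have := denom_nonneg_sg ht hρ hσ i j
  have := ovw_nonneg hρ.isHermitian hσ.isHermitian i j
  positivity

theorem scalar_le_div_sg {p q t : ℝ} (hp : 0 ≤ p) (hq : 0 ≤ q) (ht : 0 < t) :
    p ^ 2 / (q + t * p) ≤ p / t := by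
  rcases hp.eq_or_lt with rfl | hp'
  · simp
  · have hd : 0 < q + t * p := by positivity
    rw [div_le_div_iff₀ hd ht]
    nlinarith [mul_nonneg hp hq]

theorem scalar_ge_sub_sg {p q t : ℝ} (hp : 0 ≤ p) (hq : 0 ≤ q) (ht : 0 < t) :
    p / t - q / t ^ 2 ≤ p ^ 2 / (q + t * p) := by
  by_cases hd0 : q + t * p = 0
  · have h3 : 0 ≤ t * p := by positivity
    have h4 : t * p = 0 := by linarith
    have hp0 : p = 0 := by
      rcases mul_eq_zero.1 h4 with h | h
      · exact absurd h ht.ne'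
      · exact h
    have hq0 : q = 0 := by linarith
    simp [hp0, hq0]
  · have hd : 0 < q + t * p := lt_of_le_of_ne (by positivity) (Ne.symm hd0)
    rw [le_div_iff₀ hd]
    have h2 : (p / t - q / t ^ 2) * (q + t * p) = p ^ 2 - q ^ 2 / t ^ 2 := by
      field_simp
      ring
    rw [h2]
    have : 0 ≤ q ^ 2 / t ^ 2 := by positivity
    linarith

theorem relF_le_trace_div_sg {t : ℝ} (ht : 0 < t) {ρ σ : Matrix n n ℂ} (hρ : ρ.PosSemidef)
    (hσ : σ.PosSemidef) : relF t ρ σ ≤ ρ.trace.re / t := by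
  rw [relF_eq_sum t hρ.isHermitian hσ.isHermitian, er_trace_re_eq_sum hρ.isHermitian,
    Finset.sum_div]
  refine Finset.sum_le_sum fun i _ => ?_
  have h1 : hρ.isHermitian.eigenvalues i / t
      = ∑ j, ovw hρ.isHermitian hσ.isHermitian i j * (hρ.isHermitian.eigenvalues i / t) := by
    rw [← Finset.sum_mul, sum_ovw_right, one_mul]
  rw [h1]
  exact Finset.sum_le_sum fun j _ => mul_le_mul_of_nonneg_left
    (scalar_le_div_sg (hρ.eigenvalues_nonneg i) (hσ.eigenvalues_nonneg j) ht) (ovw_nonneg _ _ i j)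

theorem relF_ge_trace_div_sub_sg {t : ℝ} (ht : 0 < t) {ρ σ : Matrix n n ℂ} (hρ : ρ.PosSemidef)
    (hσ : σ.PosSemidef) : ρ.trace.re / t - σ.trace.re / t ^ 2 ≤ relF t ρ σ := by
  rw [relF_eq_sum t hρ.isHermitian hσ.isHermitian]
  have h1 : ρ.trace.re / t - σ.trace.re / t ^ 2
      = ∑ i, ∑ j, ovw hρ.isHermitian hσ.isHermitian i j *
        (hρ.isHermitian.eigenvalues i / t - hσ.isHermitian.eigenvalues j / t ^ 2) := by
    simp only [mul_sub, Finset.sum_sub_distrib]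
    congr 1
    · rw [er_trace_re_eq_sum hρ.isHermitian, Finset.sum_div]
      refine Finset.sum_congr rfl fun i _ => ?_
      rw [← Finset.sum_mul, sum_ovw_right, one_mul]
    · rw [er_trace_re_eq_sum hσ.isHermitian, Finset.sum_div, Finset.sum_comm]
      refine Finset.sum_congr rfl fun j _ => ?_
      rw [← Finset.sum_mul, sum_ovw_left, one_mul]
  rw [h1]
  exact Finset.sum_le_sum fun i _ => Finset.sum_le_sum fun j _ => mul_le_mul_of_nonneg_left
    (scalar_ge_sub_sg (hρ.eigenvalues_nonneg i) (hσ.eigenvalues_nonneg j) ht) (ovw_nonneg _ _ i j)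

theorem relF_continuousOn_sg {ρ σ : Matrix n n ℂ} (hρ : ρ.PosSemidef) (hσ : σ.PosSemidef) :
    ContinuousOn (fun t => relF t ρ σ) (Ioi 0) := by
  have : (fun t => relF t ρ σ) = fun t => ∑ i, ∑ j, ovw hρ.isHermitian hσ.isHermitian i j *
      (hρ.isHermitian.eigenvalues i ^ 2 /
        (hσ.isHermitian.eigenvalues j + t * hρ.isHermitian.eigenvalues i)) := by
    funext t; exact relF_eq_sum t hρ.isHermitian hσ.isHermitian
  rw [this]
  refine continuousOn_finsetSum _ fun i _ => continuousOn_finsetSum _ fun j _ => ?_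
  refine ContinuousOn.mul continuousOn_const ?_
  rcases (hρ.eigenvalues_nonneg i).eq_or_lt with h0 | hpos
  · rw [← h0]; simp only [ne_eq, OfNat.ofNat_ne_zero, not_false_eq_true, zero_pow, zero_div]
    exact continuousOn_const
  · refine ContinuousOn.div continuousOn_const (by fun_prop) ?_
    intro t ht
    have ht' : 0 < t := ht
    have := hσ.eigenvalues_nonneg j
    positivity

theorem relF_le_of_le_smul_sg {t : ℝ} (ht : 0 < t) {κ : ℝ} (hκ : 0 < κ) {ρ σ : Matrix n n ℂ}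
    (hρ : ρ.PosSemidef) (hσ : σ.PosSemidef) (h : ((κ : ℂ) • σ - ρ).PosSemidef) :
    relF t ρ σ ≤ κ * ρ.trace.re := by
  rw [← relG_relY_sg ht hρ hσ]
  set Y := relY t ρ σ
  unfold relG
  rw [relQ_eq]
  have h1 : 0 ≤ (Yᴴ * ((κ : ℂ) • σ - ρ) * Y).trace.re :=
    (Complex.le_def.1 (h.conjTranspose_mul_mul_same Y).trace_nonneg).1
  have h1' : (Yᴴ * ((κ : ℂ) • σ - ρ) * Y).trace.re
      = κ * (Yᴴ * σ * Y).trace.re - (Yᴴ * ρ * Y).trace.re := by
    simp only [Matrix.mul_sub, Matrix.sub_mul, Matrix.mul_smul, Matrix.smul_mul, Matrix.trace_sub,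
      Matrix.trace_smul, smul_eq_mul, Complex.sub_re, Complex.re_ofReal_mul]
  have h2 : 0 ≤ ((Y - (κ : ℂ) • 1)ᴴ * ρ * (Y - (κ : ℂ) • 1)).trace.re :=
    (Complex.le_def.1 (hρ.conjTranspose_mul_mul_same _).trace_nonneg).1
  have h2' : ((Y - (κ : ℂ) • 1)ᴴ * ρ * (Y - (κ : ℂ) • 1)).trace.re
      = (Yᴴ * ρ * Y).trace.re - 2 * κ * (ρ * Y).trace.re + κ ^ 2 * ρ.trace.re := by
    have e1 : (Y - (κ : ℂ) • 1)ᴴ = Yᴴ - (κ : ℂ) • 1 := by
      rw [conjTranspose_sub, conjTranspose_smul, conjTranspose_one]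
      simp
    rw [e1]
    simp only [Matrix.mul_sub, Matrix.sub_mul, Matrix.mul_smul, Matrix.smul_mul, Matrix.trace_sub,
      Matrix.trace_smul, smul_eq_mul, Complex.sub_re, Complex.re_ofReal_mul, Matrix.mul_one,
      Matrix.one_mul]
    rw [re_trace_conjTranspose_mul hρ.isHermitian]
    ring
  have h3 : 0 ≤ (Y * ρ * Yᴴ).trace.re :=
    (Complex.le_def.1 (hρ.mul_mul_conjTranspose_same Y).trace_nonneg).1
  have h4 : 0 ≤ t * (Y * ρ * Yᴴ).trace.re := mul_nonneg ht.le h3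
  rw [h1'] at h1
  rw [h2'] at h2
  have h5 : κ * (2 * (ρ * Y).trace.re - (Yᴴ * σ * Y).trace.re) ≤ κ * (κ * ρ.trace.re) := by
    nlinarith
  have h6 := le_of_mul_le_mul_left h5 hκ
  linarith

/-! ### the integral representation under the support inclusion -/

theorem ovw_mul_relPhi_integrable_sg {ρ σ : Matrix n n ℂ} (hρ : ρ.PosSemidef)
    (hσ : σ.PosSemidef) (hk : ρ * supp σ = ρ) (i j : n) :
    Integrable (fun t => ovw hρ.isHermitian hσ.isHermitian i j *
      relPhi (hρ.isHermitian.eigenvalues i) (hσ.isHermitian.eigenvalues j) t)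
      (volume.restrict (Ioi 0)) := by
  rcases (hσ.eigenvalues_nonneg j).eq_or_lt with h0 | hpos
  · have h1 := ovw_mul_eq_zero_of_mul_supp hρ hσ.isHermitian hk i j h0.symm.le
    rcases mul_eq_zero.1 h1 with h | h
    · simp only [h, zero_mul]; exact integrable_zero _ _ _
    · simp only [h, relPhi_zero, mul_zero]; exact integrable_zero _ _ _
  · exact (relPhi_integrableOn (hρ.eigenvalues_nonneg i) hpos).const_mul _

theorem ovw_mul_relPhi_integral_sg {ρ σ : Matrix n n ℂ} (hρ : ρ.PosSemidef)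
    (hσ : σ.PosSemidef) (hk : ρ * supp σ = ρ) (i j : n) :
    ∫ t in Ioi 0, ovw hρ.isHermitian hσ.isHermitian i j *
      relPhi (hρ.isHermitian.eigenvalues i) (hσ.isHermitian.eigenvalues j) t
      = ovw hρ.isHermitian hσ.isHermitian i j *
        (hρ.isHermitian.eigenvalues i * Real.log (hρ.isHermitian.eigenvalues i)
          - hρ.isHermitian.eigenvalues i * Real.log (hσ.isHermitian.eigenvalues j)) := by
  rcases (hσ.eigenvalues_nonneg j).eq_or_lt with h0 | hpos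
  · have h1 := ovw_mul_eq_zero_of_mul_supp hρ hσ.isHermitian hk i j h0.symm.le
    rcases mul_eq_zero.1 h1 with h | h
    · simp [h]
    · simp [h, relPhi_zero]
  · rw [integral_const_mul, relPhi_integral (hρ.eigenvalues_nonneg i) hpos]

theorem relF_sub_integrableOn_sg {ρ σ : Matrix n n ℂ} (hρ : ρ.PosSemidef) (hσ : σ.PosSemidef)
    (hk : ρ * supp σ = ρ) :
    IntegrableOn (fun t => relF t ρ σ - ρ.trace.re / (1 + t)) (Ioi 0) := by
  have : (fun t => relF t ρ σ - ρ.trace.re / (1 + t)) = fun t => ∑ i, ∑ j,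
      ovw hρ.isHermitian hσ.isHermitian i j *
        relPhi (hρ.isHermitian.eigenvalues i) (hσ.isHermitian.eigenvalues j) t := by
    funext t; exact relF_sub_eq_sum t hρ.isHermitian hσ.isHermitian
  rw [this]
  exact integrable_finsetSum _ fun i _ => integrable_finsetSum _ fun j _ =>
    ovw_mul_relPhi_integrable_sg hρ hσ hk i j

theorem relEnt_eq_integral_sg {ρ σ : Matrix n n ℂ} (hρ : ρ.PosSemidef) (hσ : σ.PosSemidef)
    (hk : ρ * supp σ = ρ) :
    relEnt ρ σ = ∫ t in Ioi 0, (relF t ρ σ - ρ.trace.re / (1 + t)) := by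
  have : (fun t => relF t ρ σ - ρ.trace.re / (1 + t)) = fun t => ∑ i, ∑ j,
      ovw hρ.isHermitian hσ.isHermitian i j *
        relPhi (hρ.isHermitian.eigenvalues i) (hσ.isHermitian.eigenvalues j) t := by
    funext t; exact relF_sub_eq_sum t hρ.isHermitian hσ.isHermitian
  rw [this, relEnt_eq_sum hρ.isHermitian hσ.isHermitian]
  rw [integral_finsetSum _ fun i _ => integrable_finsetSum _ fun j _ =>
    ovw_mul_relPhi_integrable_sg hρ hσ hk i j]
  refine Finset.sum_congr rfl fun i _ => ?_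
  rw [integral_finsetSum _ fun j _ => ovw_mul_relPhi_integrable_sg hρ hσ hk i j]
  exact Finset.sum_congr rfl fun j _ => (ovw_mul_relPhi_integral_sg hρ hσ hk i j).symm

/-! ### the resolvent defect -/

variable {m r : Type} [Fintype m] [DecidableEq m] [Fintype r] [DecidableEq r]

theorem relH_eq_relQ_sg {t : ℝ} (ht : 0 < t) (e : n ≃ m × r) {ρ σ : Matrix n n ℂ}
    (hρ : ρ.PosSemidef) (hσ : σ.PosSemidef) : relH e ρ σ t = relQ t ρ σ (relZ e ρ σ t) := by
  unfold relH relZ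
  rw [← relF_sub_relG_sg ht hρ hσ, relG_embE,
    relG_relY_sg ht (ptrE_posSemidef e hρ) (ptrE_posSemidef e hσ)]

theorem relH_nonneg_sg {t : ℝ} (ht : 0 < t) (e : n ≃ m × r) {ρ σ : Matrix n n ℂ}
    (hρ : ρ.PosSemidef) (hσ : σ.PosSemidef) : 0 ≤ relH e ρ σ t := by
  rw [relH_eq_relQ_sg ht e hρ hσ]
  exact relQ_nonneg ht.le hρ hσ _

theorem mul_trace_relZ_le_relH_sg {t : ℝ} (ht : 0 < t) (e : n ≃ m × r)
    {ρ σ : Matrix n n ℂ} (hρ : ρ.PosSemidef) (hσ : σ.PosSemidef) :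
    t * (relZ e ρ σ t * ρ * (relZ e ρ σ t)ᴴ).trace.re ≤ relH e ρ σ t := by
  rw [relH_eq_relQ_sg ht e hρ hσ, relQ_eq]
  have h1 : 0 ≤ ((relZ e ρ σ t)ᴴ * σ * relZ e ρ σ t).trace.re :=
    (Complex.le_def.1 (hσ.conjTranspose_mul_mul_same _).trace_nonneg).1
  linarith

theorem relH_le_div_sq_sg {t : ℝ} (ht : 0 < t) (e : n ≃ m × r) {ρ σ : Matrix n n ℂ}
    (hρ : ρ.PosSemidef) (hσ : σ.PosSemidef) : relH e ρ σ t ≤ σ.trace.re / t ^ 2 := by
  have h1 := relF_le_trace_div_sg ht hρ hσ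
  have h2 := relF_ge_trace_div_sub_sg ht (ptrE_posSemidef e hρ) (ptrE_posSemidef e hσ)
  rw [trace_ptrE, trace_ptrE] at h2
  unfold relH
  linarith

theorem relH_le_of_le_smul_sg {t : ℝ} (ht : 0 < t) {κ : ℝ} (hκ : 0 < κ) (e : n ≃ m × r)
    {ρ σ : Matrix n n ℂ} (hρ : ρ.PosSemidef) (hσ : σ.PosSemidef)
    (h : ((κ : ℂ) • σ - ρ).PosSemidef) : relH e ρ σ t ≤ κ * ρ.trace.re := by
  have h1 := relF_le_of_le_smul_sg ht hκ hρ hσ h
  have h2 := relF_nonneg_sg ht.le (ptrE_posSemidef e hρ) (ptrE_posSemidef e hσ)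
  unfold relH
  linarith

theorem relH_continuousOn_sg (e : n ≃ m × r) {ρ σ : Matrix n n ℂ}
    (hρ : ρ.PosSemidef) (hσ : σ.PosSemidef) : ContinuousOn (relH e ρ σ) (Ioi 0) :=
  (relF_continuousOn_sg hρ hσ).sub
    (relF_continuousOn_sg (ptrE_posSemidef e hρ) (ptrE_posSemidef e hσ))

/-- the domination passes to the marginals -/
theorem ptrE_le_smul {κ : ℝ} (e : n ≃ m × r) {ρ σ : Matrix n n ℂ}
    (h : ((κ : ℂ) • σ - ρ).PosSemidef) : ((κ : ℂ) • ptrE e σ - ptrE e ρ).PosSemidef := by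
  rw [← ptrE_smul, ← ptrE_sub]
  exact ptrE_posSemidef e h

theorem relH_integrableOn_sg (e : n ≃ m × r) {ρ σ : Matrix n n ℂ}
    (hρ : ρ.PosSemidef) (hσ : σ.PosSemidef) (hk : ρ * supp σ = ρ)
    (hk' : ptrE e ρ * supp (ptrE e σ) = ptrE e ρ) :
    IntegrableOn (relH e ρ σ) (Ioi 0) := by
  have h := (relF_sub_integrableOn_sg hρ hσ hk).sub
      (relF_sub_integrableOn_sg (ptrE_posSemidef e hρ) (ptrE_posSemidef e hσ) hk')
  refine h.congr (Filter.Eventually.of_forall fun t => ?_)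
  simp only [trace_ptrE, Pi.sub_apply, relH]
  ring

theorem integral_relH_sg (e : n ≃ m × r) {ρ σ : Matrix n n ℂ}
    (hρ : ρ.PosSemidef) (hσ : σ.PosSemidef) (hk : ρ * supp σ = ρ)
    (hk' : ptrE e ρ * supp (ptrE e σ) = ptrE e ρ) :
    ∫ t in Ioi 0, relH e ρ σ t = relEnt ρ σ - relEnt (ptrE e ρ) (ptrE e σ) := by
  rw [relEnt_eq_integral_sg hρ hσ hk,
    relEnt_eq_integral_sg (ptrE_posSemidef e hρ) (ptrE_posSemidef e hσ) hk',
    ← integral_sub (relF_sub_integrableOn_sg hρ hσ hk)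
      (relF_sub_integrableOn_sg (ptrE_posSemidef e hρ) (ptrE_posSemidef e hσ) hk')]
  refine integral_congr_ae (Filter.Eventually.of_forall fun t => ?_)
  simp only [trace_ptrE, relH]
  ring

/-- monotonicity of the relative entropy for singular `σ` -/
theorem relEnt_ptrE_le_sg (e : n ≃ m × r) {ρ σ : Matrix n n ℂ}
    (hρ : ρ.PosSemidef) (hσ : σ.PosSemidef) (hk : ρ * supp σ = ρ)
    (hk' : ptrE e ρ * supp (ptrE e σ) = ptrE e ρ) :
    relEnt (ptrE e ρ) (ptrE e σ) ≤ relEnt ρ σ := by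
  have h1 := integral_relH_sg e hρ hσ hk hk'
  have h2 : 0 ≤ ∫ t in Ioi 0, relH e ρ σ t :=
    setIntegral_nonneg measurableSet_Ioi fun t ht => relH_nonneg_sg ht e hρ hσ
  linarith

end Sing

end Claimed.Agent.R296
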