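import Claimed.Agent.R296.EntRelMain
import Claimed.Agent.R296.EntSupp

/-!
# Row 296, P2 lem:fidelity: the abstract affinity bound

`tr √ρ √σ ≥ exp (- D(ρ‖σ) / 2)` for a density `ρ` with `supp ρ ≤ supp σ` (Jensen in the double eigenbasis).
Owner: helper19.  Prefix `fid_`.
-/

set_option autoImplicit false
set_option linter.unusedSectionVars false
set_option linter.unusedDecidableInType false
set_option linter.unusedFintypeInType false

namespace Claimed.Agent.R296

open Matrix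
open scoped ComplexOrder

variable {n : Type} [Fintype n] [DecidableEq n]

theorem fid_spowS_half {x : ℝ} (hx : 0 ≤ x) : spowS (1 / 2) x = (Real.sqrt x : ℂ) := by
  have h : (1 / 2 : ℂ) = ((1 / 2 : ℝ) : ℂ) := by push_cast; rfl
  rcases hx.eq_or_lt with h0 | h0
  · rw [← h0, spowS_nonpos le_rfl]
    simp
  · rw [h, spowS_ofReal h0, Real.sqrt_eq_rpow]

/-- `spow ρ (1/2)` is the function `√` applied to `ρ` -/
theorem fid_sqrt_eq_mfun {ρ : Matrix n n ℂ} (hρ : ρ.PosSemidef) :
    spow ρ (1 / 2) = mfun (fun x => (Real.sqrt x : ℂ)) ρ := by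
  unfold spow
  exact mfun_congr hρ.isHermitian fun i => fid_spowS_half (hρ.eigenvalues_nonneg i)

theorem fid_trace_sqrt_mul_sqrt {ρ σ : Matrix n n ℂ} (hρ : ρ.PosSemidef) (hσ : σ.PosSemidef) :
    (spow ρ (1 / 2) * spow σ (1 / 2)).trace.re
      = ∑ i, ∑ j, Real.sqrt (hρ.isHermitian.eigenvalues i) *
          Real.sqrt (hσ.isHermitian.eigenvalues j) * ovw hρ.isHermitian hσ.isHermitian i j := by
  rw [fid_sqrt_eq_mfun hρ, fid_sqrt_eq_mfun hσ, trace_mfun_mul_mfun hρ.isHermitian hσ.isHermitian]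
  have : (∑ i, ∑ j, (Real.sqrt (hρ.isHermitian.eigenvalues i) : ℂ) *
      (Real.sqrt (hσ.isHermitian.eigenvalues j) : ℂ) * (ovw hρ.isHermitian hσ.isHermitian i j : ℂ))
      = ((∑ i, ∑ j, Real.sqrt (hρ.isHermitian.eigenvalues i) *
          Real.sqrt (hσ.isHermitian.eigenvalues j) * ovw hρ.isHermitian hσ.isHermitian i j : ℝ) : ℂ) := by
    push_cast; rfl
  rw [this, Complex.ofReal_re]

theorem fid_scalar {p q : ℝ} (hp : 0 < p) (hq : 0 < q) :
    p * Real.exp ((Real.log q - Real.log p) / 2) = Real.sqrt p * Real.sqrt q := by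
  rw [Real.exp_half, Real.exp_sub, Real.exp_log hq, Real.exp_log hp, Real.sqrt_div hq.le]
  have h := Real.mul_self_sqrt hp.le
  have h0 : Real.sqrt p ≠ 0 := (Real.sqrt_pos.2 hp).ne'
  field_simp
  nlinarith

/-- **AFF, abstract form** -/
theorem fid_aff {ρ σ : Matrix n n ℂ} (hρ : ρ.PosSemidef) (htr : ρ.trace = 1) (hσ : σ.PosSemidef)
    (hk : ρ * supp σ = ρ) :
    Real.exp (-(relEnt ρ σ) / 2) ≤ (spow ρ (1 / 2) * spow σ (1 / 2)).trace.re := by
  rw [fid_trace_sqrt_mul_sqrt hρ hσ, relEnt_eq_sum hρ.isHermitian hσ.isHermitian]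
  set p := hρ.isHermitian.eigenvalues with hp
  set q := hσ.isHermitian.eigenvalues with hq
  set w := ovw hρ.isHermitian hσ.isHermitian with hw
  have hp0 : ∀ i, 0 ≤ p i := hρ.eigenvalues_nonneg
  have hq0 : ∀ j, 0 ≤ q j := hσ.eigenvalues_nonneg
  have hw0 : ∀ i j, 0 ≤ w i j := ovw_nonneg _ _
  have hsum : ∑ x : n × n, w x.1 x.2 * p x.1 = 1 := by
    rw [Fintype.sum_prod_type]
    have h1 : ∀ i, ∑ j, w i j * p i = p i := fun i => by
      rw [← Finset.sum_mul, hw, sum_ovw_right, one_mul]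
    simp only [h1]
    rw [hp, ← er_trace_re_eq_sum, htr, Complex.one_re]
  have hJ := convexOn_exp.map_sum_le (t := (Finset.univ : Finset (n × n)))
    (w := fun x => w x.1 x.2 * p x.1)
    (p := fun x => (Real.log (q x.2) - Real.log (p x.1)) / 2)
    (fun x _ => mul_nonneg (hw0 _ _) (hp0 _)) hsum (fun _ _ => Set.mem_univ _)
  simp only [smul_eq_mul] at hJ
  have hL : ∑ x : n × n, w x.1 x.2 * p x.1 * ((Real.log (q x.2) - Real.log (p x.1)) / 2)
      = -(∑ i, ∑ j, w i j * (p i * Real.log (p i) - p i * Real.log (q j))) / 2 := by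
    rw [Fintype.sum_prod_type, neg_div, Finset.sum_div, ← Finset.sum_neg_distrib]
    refine Finset.sum_congr rfl fun i _ => ?_
    rw [Finset.sum_div, ← Finset.sum_neg_distrib]
    refine Finset.sum_congr rfl fun j _ => ?_
    ring
  rw [hL] at hJ
  refine hJ.trans ?_
  rw [Fintype.sum_prod_type]
  refine Finset.sum_le_sum fun i _ => Finset.sum_le_sum fun j _ => ?_
  simp only
  rcases (hp0 i).eq_or_lt with h0 | h0
  · rw [← h0]
    simp
  rcases (hq0 j).eq_or_lt with h1 | h1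
  · have := ovw_mul_eq_zero_of_mul_supp hρ hσ.isHermitian hk i j (by rw [← hq, ← h1])
    rw [← hw, ← hp] at this
    rw [this, zero_mul]
    have := hw0 i j
    positivity
  · rw [mul_assoc, fid_scalar h0 h1]
    exact le_of_eq (by ring)

end Claimed.Agent.R296
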