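import Claimed.Agent.R296.GeoDefs

/-!
# Row 296, paper 1, Section 10: exponent thresholds (LEAF, self-contained; owner helper175)

`expBeta = 1 - 2 / 10^6`, `expEll = 1 / 10^5`, `geoNx a = a - (a / 10^6 + 1)`.
All scales are powers of two, so every inequality is `2 ^ (linear) < 2 ^ (linear)`:
`((2 ^ E : ℕ) : ℝ) ^ β = 2 ^ (β * E)` (`Real.rpow_natCast`, `Real.rpow_mul`), and
`Real.rpow_lt_rpow_left_iff`.
* rep : `1 + β (a + cB) < a - a / 10^6 - 1`  as soon as `10^6 (cB + 3) ≤ a`.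
* base: `E = k + 2 (k / (2 * 10^6)) + ct ≤ (1 + 10⁻⁶) k + ct`, `β (1 + 10⁻⁶) < 1 - 10⁻⁶`,
  `(1 - ℓ)(1 + 10⁻⁶) < 1 - 10⁻⁶`.
-/

set_option autoImplicit false

namespace Claimed.Agent.R296

/-- thresholds for the new tiles: scale `2 ^ (a + cB)`, piece size `2 ^ a` -/
def GeoThrRep (cB nstar as : ℕ) : Prop :=
  ∀ a, as ≤ a →
    2 * ((2 ^ (a + cB) : ℕ) : ℝ) ^ expBeta < (((2 : ℤ) ^ geoNx a : ℤ) : ℝ) ∧
    ⌊((2 ^ (a + cB) : ℕ) : ℝ) ^ (1 - expEll)⌋₊ ≤ 2 ^ a ∧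
    nstar ≤ 2 ^ (a + cB)

/-- thresholds for the base tiles of level `k`: scale `2 ^ (k + 2 (k / 2000000) + cb)`, piece size
`2 ^ (k - 4)` -/
def GeoThrBase (cb nstar k0 : ℕ) : Prop :=
  ∀ k, k0 ≤ k →
    2 * ((2 ^ (k + 2 * (k / 2000000) + cb) : ℕ) : ℝ) ^ expBeta < (((2 : ℤ) ^ (k - 10) : ℤ) : ℝ) ∧
    ⌊((2 ^ (k + 2 * (k / 2000000) + cb) : ℕ) : ℝ) ^ (1 - expEll)⌋₊ ≤ 2 ^ (k - 4) ∧
    nstar ≤ 2 ^ (k + 2 * (k / 2000000) + cb)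

theorem geo_exp_pow_rpow (E : ℕ) (β : ℝ) : ((2 ^ E : ℕ) : ℝ) ^ β = (2 : ℝ) ^ ((E : ℝ) * β) := by
  rw [Nat.cast_pow, Nat.cast_ofNat, ← Real.rpow_natCast, ← Real.rpow_mul (by norm_num)]

/-- `2 (2^E)^β < 2^g` from the linear inequality between the exponents -/
theorem geo_exp_lt {E g : ℕ} {β : ℝ} (h : 1 + (E : ℝ) * β < g) :
    2 * ((2 ^ E : ℕ) : ℝ) ^ β < (((2 : ℤ) ^ g : ℤ) : ℝ) := by
  rw [geo_exp_pow_rpow]
  have e1 : (2 : ℝ) * (2 : ℝ) ^ ((E : ℝ) * β) = (2 : ℝ) ^ (1 + (E : ℝ) * β) := by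
    rw [Real.rpow_add (by norm_num), Real.rpow_one]
  have e2 : (((2 : ℤ) ^ g : ℤ) : ℝ) = (2 : ℝ) ^ (g : ℝ) := by
    rw [Real.rpow_natCast]; push_cast; rfl
  rw [e1, e2]
  exact Real.rpow_lt_rpow_of_exponent_lt (by norm_num) h

/-- `⌊(2^E)^γ⌋ ≤ 2^g` from the linear inequality between the exponents -/
theorem geo_exp_floor_le {E g : ℕ} {γ : ℝ} (h : (E : ℝ) * γ ≤ g) :
    ⌊((2 ^ E : ℕ) : ℝ) ^ γ⌋₊ ≤ 2 ^ g := by
  apply Nat.floor_le_of_le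
  rw [geo_exp_pow_rpow]
  have e2 : ((2 ^ g : ℕ) : ℝ) = (2 : ℝ) ^ (g : ℝ) := by
    rw [Real.rpow_natCast]; push_cast; rfl
  rw [e2]
  exact Real.rpow_le_rpow_of_exponent_le (by norm_num) h

theorem geo_exp_le_two_pow {n E : ℕ} (h : n ≤ E) : n ≤ 2 ^ E :=
  h.trans Nat.lt_two_pow_self.le

theorem geo_exp_rep (cB nstar : ℕ) :
    ∃ as : ℕ, 2000000 ≤ as ∧ GeoThrRep cB nstar as := by
  refine ⟨1000000 * (cB + 3) + nstar, by omega, fun a ha => ⟨?_, ?_, ?_⟩⟩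
  · apply geo_exp_lt
    have h1 : a / 1000000 + 1 ≤ a := by omega
    have h2 : ((a / 1000000 : ℕ) : ℝ) ≤ (a : ℝ) / 1000000 := Nat.cast_div_le
    have h3 : (1000000 : ℝ) * (cB + 3) + nstar ≤ a := by exact_mod_cast ha
    have h4 : (0 : ℝ) ≤ nstar := Nat.cast_nonneg _
    have h5 : (0 : ℝ) ≤ cB := Nat.cast_nonneg _
    unfold geoNx expBeta
    rw [Nat.cast_sub h1]
    push_cast
    nlinarith
  · apply geo_exp_floor_le
    have h3 : (1000000 : ℝ) * (cB + 3) + nstar ≤ a := by exact_mod_cast ha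
    have h4 : (0 : ℝ) ≤ nstar := Nat.cast_nonneg _
    have h5 : (0 : ℝ) ≤ cB := Nat.cast_nonneg _
    unfold expEll
    push_cast
    nlinarith
  · exact geo_exp_le_two_pow (by omega)

theorem geo_exp_base (ct nstar : ℕ) :
    ∃ k0 : ℕ, 12 ≤ k0 ∧ GeoThrBase ct nstar k0 := by
  refine ⟨1000000 * (ct + 12) + nstar, by omega, fun k hk => ⟨?_, ?_, ?_⟩⟩
  · apply geo_exp_lt
    have h1 : 10 ≤ k := by omega
    have h2 : ((k / 2000000 : ℕ) : ℝ) ≤ (k : ℝ) / 2000000 := Nat.cast_div_le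
    have h2' : (0 : ℝ) ≤ ((k / 2000000 : ℕ) : ℝ) := Nat.cast_nonneg _
    have h3 : (1000000 : ℝ) * (ct + 12) + nstar ≤ k := by exact_mod_cast hk
    have h4 : (0 : ℝ) ≤ nstar := Nat.cast_nonneg _
    have h5 : (0 : ℝ) ≤ ct := Nat.cast_nonneg _
    unfold expBeta
    rw [Nat.cast_sub h1]
    push_cast
    nlinarith
  · apply geo_exp_floor_le
    have h1 : 4 ≤ k := by omega
    have h2 : ((k / 2000000 : ℕ) : ℝ) ≤ (k : ℝ) / 2000000 := Nat.cast_div_le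
    have h2' : (0 : ℝ) ≤ ((k / 2000000 : ℕ) : ℝ) := Nat.cast_nonneg _
    have h3 : (1000000 : ℝ) * (ct + 12) + nstar ≤ k := by exact_mod_cast hk
    have h4 : (0 : ℝ) ≤ nstar := Nat.cast_nonneg _
    have h5 : (0 : ℝ) ≤ ct := Nat.cast_nonneg _
    unfold expEll
    rw [Nat.cast_sub h1]
    push_cast
    nlinarith
  · exact geo_exp_le_two_pow (by omega)

end Claimed.Agent.R296
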