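import Claimed.Agent.R296.GeoRepairB
import Claimed.Agent.R296.GeoExp

/-!
# Row 296, paper 1, Section 10: templates of the tiles (owner helper68)

Box Finsets, "a finite union of lattice squares is a template", and the verification of
`IsTemplate` / `TemplateClear` for every tile of the construction (`geo_tile_template`).
-/

set_option autoImplicit false

namespace Claimed.Agent.R296

noncomputable def geoBoxF (u : ℤ × ℤ) (d : ℤ) : Finset (ℤ × ℤ) :=
  Finset.Ico u.1 (u.1 + d) ×ˢ Finset.Ico u.2 (u.2 + d)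

theorem geo_mem_boxF {u : ℤ × ℤ} {d : ℤ} {y : ℤ × ℤ} : y ∈ geoBoxF u d ↔ geoBox u d y := by
  unfold geoBoxF geoBox
  rw [Finset.mem_product, Finset.mem_Ico, Finset.mem_Ico]
  tauto

theorem geo_card_boxF (u : ℤ × ℤ) (d : ℕ) : (geoBoxF u d).card = d * d := by
  unfold geoBoxF
  rw [Finset.card_product, Int.card_Ico, Int.card_Ico]
  simp

theorem geo_sq_iff_box {v : ℤ × ℤ} {d : ℤ} {y : ℤ × ℤ} :
    geoSq v d y ↔ geoBox (v.1 - d, v.2 - d) (2 * d) y := by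
  unfold geoSq geoBox
  simp only
  omega

theorem geo_sq_diag_iff {v : ℤ × ℤ} {d : ℤ} {y : ℤ × ℤ} (dg : Bool) :
    (geoSq v d y ∧ geoDiag v y = dg) ↔
      (geoBox (if dg then v else (v.1 - d, v.2)) d y ∨
        geoBox (if dg then (v.1 - d, v.2 - d) else (v.1, v.2 - d)) d y) := by
  unfold geoSq geoBox geoDiag
  cases dg
  · simp only [decide_eq_false_iff_not, Bool.false_eq_true, if_false]
    omega
  · simp only [decide_eq_true_eq, if_true]
    omega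

theorem geo_isTemplate (Ctpl : ℕ) (T cs : Finset (ℤ × ℤ)) (d n : ℕ) (hd : 1 ≤ d)
    (hT : T.Nonempty) (hmem : ∀ y, y ∈ T ↔ ∃ u ∈ cs, geoBox u d y)
    (hn : Ctpl * cs.card * (d + 1) ≤ n) (hdiam : ∀ x ∈ T, ∀ y ∈ T, dInf x y ≤ n) :
    IsTemplate Ctpl T n d := by
  refine ⟨hT, hd, cs.card,
    fun a => ⟨(cs.equivFin.symm a).1.1, (cs.equivFin.symm a).1.1 + d - 1,
      (cs.equivFin.symm a).1.2, (cs.equivFin.symm a).1.2 + d - 1⟩, ?_, ?_, ?_, hn, hdiam⟩
  · obtain ⟨y, hy⟩ := hT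
    obtain ⟨u, hu, -⟩ := (hmem y).1 hy
    exact Finset.card_pos.2 ⟨u, hu⟩
  · intro a
    simp only
    omega
  · intro p
    rw [hmem]
    constructor
    · rintro ⟨u, hu, hp⟩
      refine ⟨cs.equivFin ⟨u, hu⟩, ?_⟩
      unfold RectP.Mem
      unfold geoBox at hp
      simp only [Equiv.symm_apply_apply]
      omega
    · rintro ⟨a, ha⟩
      refine ⟨(cs.equivFin.symm a).1, (cs.equivFin.symm a).2, ?_⟩
      unfold RectP.Mem at ha
      unfold geoBox
      simp only at ha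
      omega

/-- scanner scale of a tile -/
def geoScale (cb cB : ℕ) : GeoTile → ℕ
  | .base k _ _ => 2 ^ (k + 2 * (k / 2000000) + cb)
  | .rep _ _ a _ _ => 2 ^ (a + cB)

/-- piece size of a tile -/
def geoS0 : GeoTile → ℕ
  | .base k _ _ => 2 ^ (k - 4)
  | .rep _ _ a _ _ => 2 ^ a

theorem geo_tile_template_base {B : GeoBase} {C0 k0 Cm : ℕ} {Z : Finset (ℤ × ℤ)}
    (hB : B.Good C0 k0 2000000 Cm Z) (hk0 : 12 ≤ k0)
    (Ctpl D0 nstar ct : ℕ) (hct : Ctpl ≤ 2 ^ ct) (hC0 : D0 + 5 ≤ C0)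
    (hbase : GeoThrBase (ct + 9) nstar k0)
    (k : ℕ) (w : ℤ × ℤ) (c : Bool) (hk : k0 ≤ k) (hne : ∃ y, geoTpl B (.base k w c) y) :
    ∃ T : Finset (ℤ × ℤ), (∀ y, y ∈ T ↔ geoTpl B (.base k w c) y) ∧
      nstar ≤ 2 ^ (k + 2 * (k / 2000000) + (ct + 9)) ∧
      IsTemplate Ctpl T (2 ^ (k + 2 * (k / 2000000) + (ct + 9))) (2 ^ (k - 4)) ∧
      TemplateClear D0 Z T (2 ^ (k + 2 * (k / 2000000) + (ct + 9))) (2 ^ (k - 4)) ∧
      2 * ((2 ^ (k + 2 * (k / 2000000) + (ct + 9)) : ℕ) : ℝ) ^ expBeta <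
        (((2 : ℤ) ^ (k - 10) : ℤ) : ℝ) := by
  classical
  obtain ⟨cs, hcard, hmem⟩ := hB.tile k w c hk
  obtain ⟨h1, h2, h3⟩ := hbase k hk
  have hcast : (((2 ^ (k - 4) : ℕ) : ℤ)) = (2 : ℤ) ^ (k - 4) := by push_cast; rfl
  have hT : ∀ y, y ∈ cs.biUnion (fun u => geoBoxF u (2 ^ (k - 4))) ↔ geoTpl B (.base k w c) y := by
    intro y
    rw [Finset.mem_biUnion]
    simp only [geo_mem_boxF]
    exact (hmem y).symm
  have hP : (0 : ℤ) < 2 ^ (k - 4) := by positivity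
  have hk16 : (2 : ℤ) ^ k = 16 * 2 ^ (k - 4) := by
    have : k = (k - 4) + 4 := by omega
    conv_lhs => rw [this, pow_add]
    norm_num; ring
  have hclear : ∀ x ∈ cs.biUnion (fun u => geoBoxF u (2 ^ (k - 4))), ∀ z ∈ Z,
      ((D0 : ℤ) + 5) * (16 * 2 ^ (k - 4)) ≤ dInf x z := by
    intro x hx z hz
    have hx' := (hT x).1 hx
    have hl : B.lev x = k := hx'.1
    have := hB.clear x (by omega) z hz
    rw [hl, hk16] at this
    refine le_trans ?_ this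
    have : ((D0 : ℤ) + 5) ≤ (C0 : ℤ) := by exact_mod_cast hC0
    exact mul_le_mul_of_nonneg_right this (by positivity)
  refine ⟨cs.biUnion (fun u => geoBoxF u (2 ^ (k - 4))), hT, h3, ?_, ⟨?_, h2, ?_⟩, h1⟩
  · refine geo_isTemplate Ctpl _ cs (2 ^ (k - 4)) _ Nat.one_le_two_pow ?_ ?_ ?_ ?_
    · obtain ⟨y, hy⟩ := hne
      exact ⟨y, (hT y).2 hy⟩
    · intro y
      rw [hT, hcast]
      exact hmem y
    · have e : k + 2 * (k / 2000000) + (ct + 9) = ct + (2 * (k / 2000000) + 12) + (k - 3) := by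
        omega
      rw [e, pow_add, pow_add]
      have h4 : 2 ^ (k - 4) + 1 ≤ 2 ^ (k - 3) := by
        have : k - 3 = (k - 4) + 1 := by omega
        rw [this, pow_succ]
        have : 1 ≤ 2 ^ (k - 4) := Nat.one_le_two_pow
        omega
      exact Nat.mul_le_mul (Nat.mul_le_mul hct hcard) h4
    · intro x hx y hy
      have hx' := (hT x).1 hx
      have hy' := (hT y).1 hy
      have hd := hB.diam x y (by rw [hx'.1, hy'.1]) (by rw [hx'.2.1, hy'.2.1])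
      rw [hx'.1] at hd
      refine le_trans hd ?_
      push_cast
      exact pow_le_pow_right₀ (by norm_num) (by omega)
  · intro x hx z hz
    have := hclear x hx z hz
    push_cast
    have hD : (0 : ℤ) ≤ D0 := Int.natCast_nonneg _
    nlinarith
  · intro x hx z hz
    have h5 := hclear x hx z hz
    have h6 : (2 : ℤ) ^ (k - 10) ≤ dInf x z := by
      have : (2 : ℤ) ^ (k - 10) ≤ 2 ^ (k - 4) := pow_le_pow_right₀ (by norm_num) (by omega)
      have hD : (0 : ℤ) ≤ D0 := Int.natCast_nonneg _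
      nlinarith
    have h7 : (((2 : ℤ) ^ (k - 10) : ℤ) : ℝ) ≤ ((dInf x z : ℤ) : ℝ) := by exact_mod_cast h6
    exact lt_of_lt_of_le h1 h7

theorem geo_tile_template_rep {B : GeoBase} {C0 k0 Cm as : ℕ} {Z : Finset (ℤ × ℤ)}
    (hB : B.Good C0 k0 2000000 Cm Z) (hk0 : 12 ≤ k0) (has : 2000000 ≤ as)
    (Ctpl D0 nstar ct : ℕ) (hct : Ctpl ≤ 2 ^ ct) (hC0 : D0 + 5 ≤ C0)
    (hrep : GeoThrRep (ct + 2) nstar as)
    (g : ℕ) (v : ℤ × ℤ) (a : ℕ) (dg c : Bool) (ha : as ≤ a) (c0 : Bool)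
    (hn : GeoNode B as g v a c0) (hne : ∃ y, geoTpl B (.rep g v a dg c) y) :
    ∃ T : Finset (ℤ × ℤ), (∀ y, y ∈ T ↔ geoTpl B (.rep g v a dg c) y) ∧
      nstar ≤ 2 ^ (a + (ct + 2)) ∧
      IsTemplate Ctpl T (2 ^ (a + (ct + 2))) (2 ^ a) ∧
      TemplateClear D0 Z T (2 ^ (a + (ct + 2))) (2 ^ a) ∧
      2 * ((2 ^ (a + (ct + 2)) : ℕ) : ℝ) ^ expBeta < (((2 : ℤ) ^ geoNx a : ℤ) : ℝ) := by
  classical
  obtain ⟨h1, h2, h3⟩ := hrep a ha
  have hcast : (((2 ^ a : ℕ) : ℤ)) = (2 : ℤ) ^ a := by push_cast; rfl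
  set u1 : ℤ × ℤ := if dg then v else (v.1 - 2 ^ a, v.2) with hu1
  set u2 : ℤ × ℤ := if dg then (v.1 - 2 ^ a, v.2 - 2 ^ a) else (v.1, v.2 - 2 ^ a) with hu2
  have hmem : ∀ y, geoTpl B (.rep g v a dg c) y ↔
      ∃ u ∈ ({u1, u2} : Finset (ℤ × ℤ)), geoBox u (2 ^ a) y := by
    intro y
    have := geo_sq_diag_iff (v := v) (d := 2 ^ a) (y := y) dg
    show (geoSq v (2 ^ a) y ∧ geoDiag v y = dg) ↔ _
    rw [this]
    simp [hu1, hu2]
  have hT : ∀ y, y ∈ ({u1, u2} : Finset (ℤ × ℤ)).biUnion (fun u => geoBoxF u (2 ^ a)) ↔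
      geoTpl B (.rep g v a dg c) y := by
    intro y
    rw [Finset.mem_biUnion]
    simp only [geo_mem_boxF]
    exact (hmem y).symm
  have hP : (0 : ℤ) < 2 ^ a := by positivity
  have hclear : ∀ x ∈ ({u1, u2} : Finset (ℤ × ℤ)).biUnion (fun u => geoBoxF u (2 ^ a)), ∀ z ∈ Z,
      ((D0 : ℤ) + 3) * (256 * 2 ^ a) ≤ dInf x z := by
    intro x hx z hz
    have hx' : geoSq v (2 ^ a) x := ((hT x).1 hx).1
    have := geo_rep_clear hB hk0 has (by omega) hn hx' hz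
    refine le_trans ?_ this
    have : ((D0 : ℤ) + 3) ≤ (C0 : ℤ) - 2 := by
      have : ((D0 + 5 : ℕ) : ℤ) ≤ (C0 : ℤ) := by exact_mod_cast hC0
      push_cast at this
      omega
    exact mul_le_mul_of_nonneg_right this (by positivity)
  refine ⟨({u1, u2} : Finset (ℤ × ℤ)).biUnion (fun u => geoBoxF u (2 ^ a)), hT, h3, ?_,
    ⟨?_, h2, ?_⟩, h1⟩
  · refine geo_isTemplate Ctpl _ {u1, u2} (2 ^ a) _ Nat.one_le_two_pow ?_ ?_ ?_ ?_
    · obtain ⟨y, hy⟩ := hne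
      exact ⟨y, (hT y).2 hy⟩
    · intro y
      rw [hT, hcast]
      exact hmem y
    · have e : a + (ct + 2) = ct + 1 + (a + 1) := by omega
      rw [e, pow_add, pow_add]
      have h4 : 2 ^ a + 1 ≤ 2 ^ (a + 1) := by
        rw [pow_succ]
        have : 1 ≤ 2 ^ a := Nat.one_le_two_pow
        omega
      have h5 : ({u1, u2} : Finset (ℤ × ℤ)).card ≤ 2 ^ 1 := Finset.card_le_two
      exact Nat.mul_le_mul (Nat.mul_le_mul hct h5) h4
    · intro x hx y hy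
      have hx' : geoSq v (2 ^ a) x := ((hT x).1 hx).1
      have hy' : geoSq v (2 ^ a) y := ((hT y).1 hy).1
      have hd : dInf x y ≤ 2 * 2 ^ a := by
        unfold geoSq at hx' hy'
        rw [geo_dInf_le]
        omega
      refine le_trans hd ?_
      push_cast
      have : (2 : ℤ) * 2 ^ a = 2 ^ (a + 1) := by rw [pow_succ]; ring
      rw [this]
      exact pow_le_pow_right₀ (by norm_num) (by omega)
  · intro x hx z hz
    have := hclear x hx z hz
    push_cast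
    have hD : (0 : ℤ) ≤ D0 := Int.natCast_nonneg _
    nlinarith
  · intro x hx z hz
    have h5 := hclear x hx z hz
    have h6 : (2 : ℤ) ^ geoNx a ≤ dInf x z := by
      have : (2 : ℤ) ^ geoNx a ≤ 2 ^ a :=
        pow_le_pow_right₀ (by norm_num) (by unfold geoNx; omega)
      have hD : (0 : ℤ) ≤ D0 := Int.natCast_nonneg _
      nlinarith
    have h7 : (((2 : ℤ) ^ geoNx a : ℤ) : ℝ) ≤ ((dInf x z : ℤ) : ℝ) := by exact_mod_cast h6
    exact lt_of_lt_of_le h1 h7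

/-- every tile of the construction has a template with all the required properties -/
theorem geo_tile_template {B : GeoBase} {C0 k0 Cm as : ℕ} {Z : Finset (ℤ × ℤ)}
    (hB : B.Good C0 k0 2000000 Cm Z) (hk0 : 12 ≤ k0) (has : 2000000 ≤ as)
    (Ctpl D0 nstar ct : ℕ) (hct : Ctpl ≤ 2 ^ ct) (hC0 : D0 + 5 ≤ C0)
    (hrep : GeoThrRep (ct + 2) nstar as) (hbase : GeoThrBase (ct + 9) nstar k0)
    (t : GeoTile) (ht : geoValid B as k0 t) (hne : ∃ y, geoTpl B t y) :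
    ∃ T : Finset (ℤ × ℤ), (∀ y, y ∈ T ↔ geoTpl B t y) ∧
      nstar ≤ geoScale (ct + 9) (ct + 2) t ∧
      IsTemplate Ctpl T (geoScale (ct + 9) (ct + 2) t) (geoS0 t) ∧
      TemplateClear D0 Z T (geoScale (ct + 9) (ct + 2) t) (geoS0 t) ∧
      2 * ((geoScale (ct + 9) (ct + 2) t : ℕ) : ℝ) ^ expBeta < ((geoRad t : ℤ) : ℝ) := by
  cases t with
  | base k w c =>
    exact geo_tile_template_base hB hk0 Ctpl D0 nstar ct hct hC0 hbase k w c ht hne
  | rep g v a dg c =>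
    obtain ⟨ha, c0, hn, -⟩ := ht
    exact geo_tile_template_rep hB hk0 has Ctpl D0 nstar ct hct hC0 hrep g v a dg c ha c0 hn hne

end Claimed.Agent.R296
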