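import Mathlib
import Claimed.Agent.R296.TopDefs
import Claimed.Agent.R296.Count

/-!
# Row 296, P1 Section 10: dyadic layers around a finite set `Z` of lattice points

Everything is integer arithmetic on `ℤ × ℤ`.

* `geoIdx k y`     : index of the dyadic cell of side `2^k` containing `y`;
* `geoN C0 Z k`    : the union `N_k` of the `2^k`-cells whose index is within `C0` of a cell of `Z`;
* `geoLev C0 Z k0` : the level function, the least `k ≥ k0` with `y ∈ N_{k+1}`;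
* `geo_far`        : `y ∉ N_k` is at sup distance `> C0 2^k` from `Z`;
* `geo_thick`      : `y ∈ N_k`, `|y - y'| ≤ (C0 - 1) 2^k` implies `y' ∈ N_{k+1}`;
* `geo_lev_near`   : levels of near points differ by at most one;
* `geoCells`, `geo_card_cells` : counting of the `2^j`-cells of `N_k`;
* `geo_pigeon`     : averaging over residues.
Prefix `geo_`.
-/

set_option autoImplicit false

namespace Claimed.Agent.R296

open Finset

/-- index of the dyadic cell of side `2^k` containing `y` -/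
def geoIdx (k : ℕ) (y : ℤ × ℤ) : ℤ × ℤ := (y.1 / 2 ^ k, y.2 / 2 ^ k)

/-- `N_k`: the points whose `2^k`-cell has index within `C0` of the cell of some `z ∈ Z` -/
def geoN (C0 : ℕ) (Z : Finset (ℤ × ℤ)) (k : ℕ) (y : ℤ × ℤ) : Prop :=
  ∃ z ∈ Z, dInf (geoIdx k y) (geoIdx k z) ≤ C0

theorem geo_dInf_le_iff {x y : ℤ × ℤ} {r : ℤ} :
    dInf x y ≤ r ↔ |x.1 - y.1| ≤ r ∧ |x.2 - y.2| ≤ r := by
  unfold dInf; exact max_le_iff

theorem geo_lt_dInf_iff {x y : ℤ × ℤ} {r : ℤ} :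
    r < dInf x y ↔ r < |x.1 - y.1| ∨ r < |x.2 - y.2| := by
  unfold dInf; exact lt_max_iff

theorem geo_idx_succ (k : ℕ) (y : ℤ × ℤ) :
    geoIdx (k + 1) y = ((geoIdx k y).1 / 2, (geoIdx k y).2 / 2) := by
  unfold geoIdx
  simp only [pow_succ]
  rw [Int.ediv_ediv_of_nonneg (by positivity), Int.ediv_ediv_of_nonneg (by positivity)]

theorem geo_idx_add (j i : ℕ) (y : ℤ × ℤ) :
    geoIdx (j + i) y = ((geoIdx j y).1 / 2 ^ i, (geoIdx j y).2 / 2 ^ i) := by
  unfold geoIdx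
  simp only [pow_add]
  rw [Int.ediv_ediv_of_nonneg (by positivity), Int.ediv_ediv_of_nonneg (by positivity)]

/-- halving contracts distances of indices -/
theorem geo_abs_half {a b t : ℤ} (h : |a - b| ≤ 2 * t) : |a / 2 - b / 2| ≤ t := by
  rw [abs_le] at h ⊢
  constructor <;> omega

/-- floor division by `s` is `1/s`-Lipschitz up to one unit -/
theorem geo_abs_div {a b t s : ℤ} (hs : 0 < s) (h : |a - b| ≤ t * s) :
    |a / s - b / s| ≤ t + 1 := by
  rw [abs_le] at h ⊢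
  have ha := Int.emod_add_mul_ediv a s
  have hb := Int.emod_add_mul_ediv b s
  have ha0 := Int.emod_nonneg a hs.ne'
  have hb0 := Int.emod_nonneg b hs.ne'
  have ha1 := Int.emod_lt_of_pos a hs
  have hb1 := Int.emod_lt_of_pos b hs
  constructor
  · by_contra hc
    have hc' : a / s - b / s + (t + 2) ≤ 0 := by omega
    have := mul_le_mul_of_nonneg_left hc' hs.le
    nlinarith
  · by_contra hc
    have hc' : (t + 2) - (a / s - b / s) ≤ 0 := by omega
    have := mul_le_mul_of_nonneg_left hc' hs.le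
    nlinarith

/-- far indices force far points -/
theorem geo_abs_of_div {a b t s : ℤ} (hs : 0 < s) (h : t < |a / s - b / s|) :
    t * s < |a - b| := by
  by_contra hc
  have hc' : |a - b| ≤ t * s := not_lt.mp hc
  rw [abs_le] at hc'
  rw [lt_abs] at h
  have ha := Int.emod_add_mul_ediv a s
  have hb := Int.emod_add_mul_ediv b s
  have ha0 := Int.emod_nonneg a hs.ne'
  have hb0 := Int.emod_nonneg b hs.ne'
  have ha1 := Int.emod_lt_of_pos a hs
  have hb1 := Int.emod_lt_of_pos b hs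
  rcases h with h | h
  · have h' : t + 1 - (a / s - b / s) ≤ 0 := by omega
    have := mul_le_mul_of_nonneg_left h' hs.le
    nlinarith
  · have h' : t + 1 + (a / s - b / s) ≤ 0 := by omega
    have := mul_le_mul_of_nonneg_left h' hs.le
    nlinarith

variable {C0 : ℕ} {Z : Finset (ℤ × ℤ)}

/-- `N_k` depends only on the `2^k`-cell -/
theorem geo_N_congr {k : ℕ} {y y' : ℤ × ℤ} (h : geoIdx k y = geoIdx k y') :
    geoN C0 Z k y ↔ geoN C0 Z k y' := by
  unfold geoN; rw [h]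

theorem geo_N_of_mem {k : ℕ} {z : ℤ × ℤ} (hz : z ∈ Z) : geoN C0 Z k z :=
  ⟨z, hz, by rw [ct_dInf_self]; positivity⟩

/-- (L1) the sets `N_k` increase -/
theorem geo_N_succ (hC : 1 ≤ C0) {k : ℕ} {y : ℤ × ℤ} (h : geoN C0 Z k y) :
    geoN C0 Z (k + 1) y := by
  obtain ⟨z, hz, hd⟩ := h
  refine ⟨z, hz, ?_⟩
  rw [geo_idx_succ, geo_idx_succ]
  rw [geo_dInf_le_iff] at hd ⊢
  have hC' : (1 : ℤ) ≤ C0 := by exact_mod_cast hC
  exact ⟨geo_abs_half (by linarith [hd.1]), geo_abs_half (by linarith [hd.2])⟩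

theorem geo_N_mono (hC : 1 ≤ C0) {k l : ℕ} (hkl : k ≤ l) {y : ℤ × ℤ} (h : geoN C0 Z k y) :
    geoN C0 Z l y := by
  induction l, hkl using Nat.le_induction with
  | base => exact h
  | succ l _ ih => exact geo_N_succ hC ih

/-- (L2) points outside `N_k` are far from `Z` -/
theorem geo_far {k : ℕ} {y : ℤ × ℤ} (h : ¬ geoN C0 Z k y) {z : ℤ × ℤ} (hz : z ∈ Z) :
    (C0 : ℤ) * 2 ^ k < dInf y z := by
  have h1 : (C0 : ℤ) < dInf (geoIdx k y) (geoIdx k z) := by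
    by_contra hc
    exact h ⟨z, hz, not_lt.mp hc⟩
  rw [geo_lt_dInf_iff] at h1 ⊢
  have hs : (0 : ℤ) < 2 ^ k := by positivity
  rcases h1 with h1 | h1
  · exact Or.inl (geo_abs_of_div hs h1)
  · exact Or.inr (geo_abs_of_div hs h1)

/-- (L2) points of `N_k` are near `Z` -/
theorem geo_near {k : ℕ} {y : ℤ × ℤ} (h : geoN C0 Z k y) :
    ∃ z ∈ Z, dInf y z < ((C0 : ℤ) + 1) * 2 ^ k := by
  obtain ⟨z, hz, hd⟩ := h
  refine ⟨z, hz, ?_⟩
  by_contra hc
  have hc' : ((C0 : ℤ) + 1) * 2 ^ k ≤ dInf y z := not_lt.mp hc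
  have hs : (0 : ℤ) < 2 ^ k := by positivity
  rw [geo_dInf_le_iff] at hd
  unfold geoIdx at hd
  simp only at hd
  obtain ⟨h1, h2⟩ := hd
  have key : ∀ a b : ℤ, |a / 2 ^ k - b / 2 ^ k| ≤ (C0 : ℤ) → |a - b| < ((C0 : ℤ) + 1) * 2 ^ k := by
    intro a b hab
    rw [abs_le] at hab
    rw [abs_lt]
    have ha := Int.emod_add_mul_ediv a (2 ^ k)
    have hb := Int.emod_add_mul_ediv b (2 ^ k)
    have ha0 := Int.emod_nonneg a hs.ne'
    have hb0 := Int.emod_nonneg b hs.ne'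
    have ha1 := Int.emod_lt_of_pos a hs
    have hb1 := Int.emod_lt_of_pos b hs
    have e1 := mul_le_mul_of_nonneg_left hab.1 hs.le
    have e2 := mul_le_mul_of_nonneg_left hab.2 hs.le
    constructor <;> nlinarith
  have := max_lt (key _ _ h1) (key _ _ h2)
  unfold dInf at hc'
  linarith

/-- (L3) thickness of the layers -/
theorem geo_thick {k : ℕ} {y y' : ℤ × ℤ} (h : geoN C0 Z k y)
    (hd : dInf y y' ≤ ((C0 : ℤ) - 1) * 2 ^ k) : geoN C0 Z (k + 1) y' := by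
  obtain ⟨z, hz, hz'⟩ := h
  refine ⟨z, hz, ?_⟩
  rw [geo_idx_succ, geo_idx_succ]
  have hs : (0 : ℤ) < 2 ^ k := by positivity
  rw [geo_dInf_le_iff] at hd hz' ⊢
  have e1 : |(geoIdx k y').1 - (geoIdx k y).1| ≤ ((C0 : ℤ) - 1) + 1 :=
    geo_abs_div hs (by rw [abs_sub_comm]; exact hd.1)
  have e2 : |(geoIdx k y').2 - (geoIdx k y).2| ≤ ((C0 : ℤ) - 1) + 1 :=
    geo_abs_div hs (by rw [abs_sub_comm]; exact hd.2)
  constructor
  · apply geo_abs_half
    have := abs_sub_le (geoIdx k y').1 (geoIdx k y).1 (geoIdx k z).1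
    linarith [hz'.1]
  · apply geo_abs_half
    have := abs_sub_le (geoIdx k y').2 (geoIdx k y).2 (geoIdx k z).2
    linarith [hz'.2]

/-- every point lies in `N_k` for large `k` -/
theorem geo_N_eventually (hC : 1 ≤ C0) (hZ : Z.Nonempty) (y : ℤ × ℤ) :
    ∃ K : ℕ, ∀ k, K ≤ k → geoN C0 Z k y := by
  obtain ⟨z, hz⟩ := hZ
  -- a power of two dominating all coordinates
  obtain ⟨K, hK⟩ : ∃ K : ℕ, |y.1| + |y.2| + |z.1| + |z.2| < 2 ^ K := by
    obtain ⟨K, hK⟩ := pow_unbounded_of_one_lt ((|y.1| + |y.2| + |z.1| + |z.2|).toNat : ℕ)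
      (by norm_num : (1 : ℕ) < 2)
    refine ⟨K, ?_⟩
    have h0 : 0 ≤ |y.1| + |y.2| + |z.1| + |z.2| := by positivity
    have : ((|y.1| + |y.2| + |z.1| + |z.2|).toNat : ℤ) < ((2 ^ K : ℕ) : ℤ) := by exact_mod_cast hK
    rw [Int.toNat_of_nonneg h0] at this
    simpa using this
  refine ⟨K, fun k hk => geo_N_mono hC hk ⟨z, hz, ?_⟩⟩
  have hs : (0 : ℤ) < 2 ^ K := by positivity
  have small : ∀ a : ℤ, |a| < 2 ^ K → -1 ≤ a / 2 ^ K ∧ a / 2 ^ K ≤ 0 := by
    intro a ha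
    rw [abs_lt] at ha
    constructor
    · rw [Int.le_ediv_iff_mul_le hs]; linarith
    · have : a / 2 ^ K < 1 := by rw [Int.ediv_lt_iff_lt_mul hs]; linarith
      omega
  have a1 := abs_nonneg y.1
  have a2 := abs_nonneg y.2
  have a3 := abs_nonneg z.1
  have a4 := abs_nonneg z.2
  have s1 := small y.1 (by linarith)
  have s2 := small y.2 (by linarith)
  have s3 := small z.1 (by linarith)
  have s4 := small z.2 (by linarith)
  have hC' : (1 : ℤ) ≤ C0 := by exact_mod_cast hC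
  rw [geo_dInf_le_iff]
  unfold geoIdx
  simp only
  constructor <;> rw [abs_le] <;> constructor <;> omega

/-- the level of `y`: the least `k ≥ k0` with `y ∈ N_{k+1}` -/
noncomputable def geoLev (C0 : ℕ) (Z : Finset (ℤ × ℤ)) (k0 : ℕ) (y : ℤ × ℤ) : ℕ :=
  sInf {k | k0 ≤ k ∧ geoN C0 Z (k + 1) y}

theorem geo_lev_set_nonempty (hC : 1 ≤ C0) (hZ : Z.Nonempty) (k0 : ℕ) (y : ℤ × ℤ) :
    {k | k0 ≤ k ∧ geoN C0 Z (k + 1) y}.Nonempty := by
  obtain ⟨K, hK⟩ := geo_N_eventually (C0 := C0) hC hZ y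
  exact ⟨max k0 K, le_max_left _ _, hK _ ((le_max_right _ _).trans (Nat.le_succ _))⟩

theorem geo_geoLev_ge (hC : 1 ≤ C0) (hZ : Z.Nonempty) (k0 : ℕ) (y : ℤ × ℤ) :
    k0 ≤ geoLev C0 Z k0 y :=
  (Nat.sInf_mem (geo_lev_set_nonempty hC hZ k0 y)).1

theorem geo_lev_mem (hC : 1 ≤ C0) (hZ : Z.Nonempty) (k0 : ℕ) (y : ℤ × ℤ) :
    geoN C0 Z (geoLev C0 Z k0 y + 1) y :=
  (Nat.sInf_mem (geo_lev_set_nonempty hC hZ k0 y)).2

theorem geo_lev_le {k0 k : ℕ} {y : ℤ × ℤ} (hk : k0 ≤ k) (h : geoN C0 Z (k + 1) y) :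
    geoLev C0 Z k0 y ≤ k :=
  Nat.sInf_le ⟨hk, h⟩

/-- above the bottom level, `y ∉ N_{lev y}` -/
theorem geo_lev_not_mem {k0 : ℕ} {y : ℤ × ℤ} (h : k0 < geoLev C0 Z k0 y) :
    ¬ geoN C0 Z (geoLev C0 Z k0 y) y := by
  intro hN
  obtain ⟨l, hl⟩ : ∃ l, geoLev C0 Z k0 y = l + 1 := ⟨geoLev C0 Z k0 y - 1, by omega⟩
  rw [hl] at hN
  have := geo_lev_le (k0 := k0) (by omega) hN
  omega

/-- characterisation of the level -/
theorem geo_lev_eq_iff (hC : 1 ≤ C0) (hZ : Z.Nonempty) {k0 k : ℕ} {y : ℤ × ℤ} (hk : k0 < k) :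
    geoLev C0 Z k0 y = k ↔ geoN C0 Z (k + 1) y ∧ ¬ geoN C0 Z k y := by
  constructor
  · rintro rfl
    exact ⟨geo_lev_mem hC hZ k0 y, geo_lev_not_mem hk⟩
  · rintro ⟨h1, h2⟩
    apply le_antisymm (geo_lev_le hk.le h1)
    by_contra hc
    exact h2 (geo_N_mono hC (by omega) (geo_lev_mem hC hZ k0 y))

theorem geo_lev_eq_bot_iff (hC : 1 ≤ C0) (hZ : Z.Nonempty) {k0 : ℕ} {y : ℤ × ℤ} :
    geoLev C0 Z k0 y = k0 ↔ geoN C0 Z (k0 + 1) y := by
  constructor
  · intro h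
    have := geo_lev_mem hC hZ k0 y
    rwa [h] at this
  · intro h
    exact le_antisymm (geo_lev_le le_rfl h) (geo_geoLev_ge hC hZ k0 y)

/-- the level depends only on the `2^j`-cell, as long as `j ≤ k0 + 1` -/
theorem geo_lev_congr {k0 j : ℕ} (hj : j ≤ k0 + 1) {y y' : ℤ × ℤ}
    (h : geoIdx j y = geoIdx j y') : geoLev C0 Z k0 y = geoLev C0 Z k0 y' := by
  unfold geoLev
  congr 1
  ext k
  change (k0 ≤ k ∧ geoN C0 Z (k + 1) y) ↔ (k0 ≤ k ∧ geoN C0 Z (k + 1) y')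
  refine and_congr_right fun hk => geo_N_congr ?_
  obtain ⟨i, hi⟩ : ∃ i, k + 1 = j + i := ⟨k + 1 - j, by omega⟩
  rw [hi, geo_idx_add, geo_idx_add, h]

/-- the level of `y` is locally determined by the `2^j`-cell for `j ≤ lev y`: two points in the
same `2^j`-cell, one of them of level `≥ j`, have the same level -/
theorem geo_lev_congr' (hC : 1 ≤ C0) (hZ : Z.Nonempty) {k0 j : ℕ} {y y' : ℤ × ℤ}
    (hj : j ≤ geoLev C0 Z k0 y) (h : geoIdx j y = geoIdx j y') :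
    geoLev C0 Z k0 y' = geoLev C0 Z k0 y := by
  have hcong : ∀ k, j ≤ k → (geoN C0 Z k y ↔ geoN C0 Z k y') := by
    intro k hk
    obtain ⟨i, rfl⟩ : ∃ i, k = j + i := ⟨k - j, by omega⟩
    exact geo_N_congr (by rw [geo_idx_add, geo_idx_add, h])
  rcases (geo_geoLev_ge hC hZ k0 y).eq_or_lt with h0 | h0
  · rw [← h0]
    rw [geo_lev_eq_bot_iff hC hZ, ← hcong _ (by omega), ← geo_lev_eq_bot_iff hC hZ]
    exact h0.symm
  · rw [geo_lev_eq_iff hC hZ h0, ← hcong _ (by omega), ← hcong _ hj]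
    exact ⟨geo_lev_mem hC hZ k0 y, geo_lev_not_mem h0⟩

/-- (L2) for the level function -/
theorem geo_lev_far {k0 : ℕ} {y : ℤ × ℤ} (h : k0 < geoLev C0 Z k0 y) {z : ℤ × ℤ} (hz : z ∈ Z) :
    (C0 : ℤ) * 2 ^ (geoLev C0 Z k0 y) < dInf y z :=
  geo_far (geo_lev_not_mem h) hz

/-- (L3) upper half: near points have level at most one more -/
theorem geo_lev_le_succ (hC : 1 ≤ C0) (hZ : Z.Nonempty) {k0 : ℕ} {y y' : ℤ × ℤ}
    (hd : dInf y y' ≤ ((C0 : ℤ) - 1) * 2 ^ (geoLev C0 Z k0 y + 1)) :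
    geoLev C0 Z k0 y' ≤ geoLev C0 Z k0 y + 1 :=
  geo_lev_le ((geo_geoLev_ge hC hZ k0 y).trans (Nat.le_succ _))
    (geo_thick (geo_lev_mem hC hZ k0 y) hd)

/-- (L3): if `|y - y'| ≤ (C0 - 1) 2^k` with `k + 1 ≤ lev y` then the levels differ by at most
one -/
theorem geo_lev_near (hC : 1 ≤ C0) (hZ : Z.Nonempty) {k0 k : ℕ} {y y' : ℤ × ℤ}
    (hk : k + 1 ≤ geoLev C0 Z k0 y) (hd : dInf y y' ≤ ((C0 : ℤ) - 1) * 2 ^ k) :
    geoLev C0 Z k0 y' ≤ geoLev C0 Z k0 y + 1 ∧ geoLev C0 Z k0 y ≤ geoLev C0 Z k0 y' + 1 := by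
  have hC' : (0 : ℤ) ≤ (C0 : ℤ) - 1 := by
    have : (1 : ℤ) ≤ C0 := by exact_mod_cast hC
    linarith
  constructor
  · apply geo_lev_le_succ hC hZ
    refine hd.trans (mul_le_mul_of_nonneg_left ?_ hC')
    exact pow_le_pow_right₀ (by norm_num) (by omega)
  · by_contra hc
    have hlt : geoLev C0 Z k0 y' + 1 < geoLev C0 Z k0 y := by omega
    have h0 : k0 < geoLev C0 Z k0 y := by
      have := geo_geoLev_ge hC hZ k0 y'
      omega
    -- `y' ∈ N_{max (lev y' + 1) k}` and thickness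
    have h1 : geoN C0 Z (geoLev C0 Z k0 y - 1) y' :=
      geo_N_mono hC (by omega) (geo_lev_mem hC hZ k0 y')
    have h2 : geoN C0 Z (geoLev C0 Z k0 y - 1 + 1) y := by
      apply geo_thick h1
      rw [ct_dInf_comm]
      refine hd.trans (mul_le_mul_of_nonneg_left ?_ hC')
      exact pow_le_pow_right₀ (by norm_num) (by omega)
    rw [Nat.sub_add_cancel (by omega)] at h2
    exact geo_lev_not_mem h0 h2

/-! ### Counting -/

/-- the indices of the `2^j`-cells contained in `N_{j+i}` -/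
noncomputable def geoCells (C0 : ℕ) (Z : Finset (ℤ × ℤ)) (j i : ℕ) : Finset (ℤ × ℤ) :=
  Z.biUnion fun z =>
    Finset.Ico (2 ^ i * ((geoIdx (j + i) z).1 - C0)) (2 ^ i * ((geoIdx (j + i) z).1 + C0 + 1)) ×ˢ
    Finset.Ico (2 ^ i * ((geoIdx (j + i) z).2 - C0)) (2 ^ i * ((geoIdx (j + i) z).2 + C0 + 1))

theorem geo_mem_cells {j i : ℕ} {y : ℤ × ℤ} :
    geoIdx j y ∈ geoCells C0 Z j i ↔ geoN C0 Z (j + i) y := by
  unfold geoCells geoN
  simp only [mem_biUnion, mem_product, Finset.mem_Ico]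
  refine exists_congr fun z => and_congr_right fun _ => ?_
  rw [geo_dInf_le_iff, geo_idx_add j i y]
  simp only
  have hs : (0 : ℤ) < 2 ^ i := by positivity
  have key : ∀ a c : ℤ, (2 ^ i * (c - C0) ≤ a ∧ a < 2 ^ i * (c + C0 + 1)) ↔
      |a / 2 ^ i - c| ≤ (C0 : ℤ) := by
    intro a c
    rw [abs_le, mul_comm, mul_comm (2 ^ i : ℤ), ← Int.le_ediv_iff_mul_le hs,
      ← Int.ediv_lt_iff_lt_mul hs]
    constructor
    · rintro ⟨h1, h2⟩; constructor <;> omega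
    · rintro ⟨h1, h2⟩; constructor <;> omega
  rw [key, key]

/-- (L4) -/
theorem geo_card_cells (C0 : ℕ) (Z : Finset (ℤ × ℤ)) (j i : ℕ) :
    (geoCells C0 Z j i).card ≤ Z.card * (2 ^ i * (2 * C0 + 1)) ^ 2 := by
  unfold geoCells
  refine Finset.card_biUnion_le_card_mul _ _ _ fun z _ => ?_
  rw [Finset.card_product, Int.card_Ico, Int.card_Ico, sq]
  have e : ∀ c : ℤ, (2 ^ i * (c + C0 + 1) - 2 ^ i * (c - C0)).toNat = 2 ^ i * (2 * C0 + 1) := by
    intro c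
    have : 2 ^ i * (c + C0 + 1) - 2 ^ i * (c - C0) = ((2 ^ i * (2 * C0 + 1) : ℕ) : ℤ) := by
      push_cast; ring
    rw [this, Int.toNat_natCast]
  rw [e, e]

/-- the sites of `N_k` as a finite set -/
noncomputable def geoSites (C0 : ℕ) (Z : Finset (ℤ × ℤ)) (k : ℕ) : Finset (ℤ × ℤ) := geoCells C0 Z 0 k

theorem geo_mem_sites {k : ℕ} {y : ℤ × ℤ} : y ∈ geoSites C0 Z k ↔ geoN C0 Z k y := by
  have h := geo_mem_cells (C0 := C0) (Z := Z) (j := 0) (i := k) (y := y)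
  have e : geoIdx 0 y = y := by simp [geoIdx]
  rw [e, Nat.zero_add] at h
  exact h

theorem geo_card_sites (C0 : ℕ) (Z : Finset (ℤ × ℤ)) (k : ℕ) :
    (geoSites C0 Z k).card ≤ Z.card * (2 ^ k * (2 * C0 + 1)) ^ 2 :=
  geo_card_cells C0 Z 0 k

/-- (L5) averaging over residues: some residue class carries at most the average -/
theorem geo_pigeon {ι : Type*} (Q : Finset ι) (r : ι → ℕ) {M : ℕ} (hM : 0 < M)
    (hr : ∀ c ∈ Q, r c < M) : ∃ a < M, (Q.filter fun c => r c = a).card * M ≤ Q.card := by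
  by_contra hc
  have hc' : ∀ a ∈ Finset.range M, Q.card < (Q.filter fun c => r c = a).card * M := by
    intro a ha
    by_contra h
    exact hc ⟨a, Finset.mem_range.mp ha, not_lt.mp h⟩
  have hsum : ∑ a ∈ Finset.range M, (Q.filter fun c => r c = a).card = Q.card :=
    (Finset.card_eq_sum_card_fiberwise (fun c hc => Finset.mem_coe.mpr
      (Finset.mem_range.mpr (hr c hc)))).symm
  have h1 : ∑ _a ∈ Finset.range M, Q.card <
      ∑ a ∈ Finset.range M, (Q.filter fun c => r c = a).card * M :=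
    Finset.sum_lt_sum_of_nonempty ⟨0, Finset.mem_range.mpr hM⟩ hc'
  rw [← Finset.sum_mul, hsum, Finset.sum_const, Finset.card_range, smul_eq_mul, mul_comm] at h1
  exact lt_irrefl _ h1

/-- (L5) for cell indices: a residue `a` of the first (or any integer valued) coordinate modulo
`M` which is met by at most `|Q| / M` cells -/
theorem geo_pigeon_int {ι : Type*} (Q : Finset ι) (r : ι → ℤ) {M : ℕ} (hM : 0 < M) :
    ∃ a : ℕ, a < M ∧ (Q.filter fun c => r c % (M : ℤ) = a).card * M ≤ Q.card := by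
  have hM' : (0 : ℤ) < M := by exact_mod_cast hM
  obtain ⟨a, ha, h⟩ := geo_pigeon Q (fun c => (r c % (M : ℤ)).toNat) hM (by
    intro c _
    have h1 := Int.emod_lt_of_pos (r c) hM'
    have h0 := Int.emod_nonneg (r c) hM'.ne'
    omega)
  refine ⟨a, ha, ?_⟩
  have e : (Q.filter fun c => r c % (M : ℤ) = a) = Q.filter fun c => (r c % (M : ℤ)).toNat = a := by
    apply Finset.filter_congr
    intro c _
    have h0 := Int.emod_nonneg (r c) hM'.ne'
    omega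
  rw [e]; exact h

end Claimed.Agent.R296
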