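import Mathlib
import Claimed.Agent.R296.GeoLayer

/-!
# Row 296, P1 Section 10: the base colouring, part A (arithmetic of the shifted grids)

The grid `G_j` has cells of side `2^j` and offset `2^(j-3)`: its lines are the integers
`≡ 2^(j-3)  (mod 2^j)`.  Lines of different grids, and lines of the dyadic grids, never coincide.
Prefix `gb_`.
-/

set_option autoImplicit false

namespace Claimed.Agent.R296

/-- index of the cell of the shifted grid `G_j` containing `x` -/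
def gbIdx (j : ℕ) (x : ℤ × ℤ) : ℤ × ℤ :=
  ((x.1 - 2 ^ (j - 3)) / 2 ^ j, (x.2 - 2 ^ (j - 3)) / 2 ^ j)

/-- one step changes a floor quotient by at most one, and only at a multiple -/
theorem gb_div_succ {s : ℤ} (hs : 0 < s) (a : ℤ) :
    (a + 1) / s = a / s ∨ ((a + 1) / s = a / s + 1 ∧ s ∣ a + 1) := by
  have h0 := Int.emod_nonneg a hs.ne'
  have h1 := Int.emod_lt_of_pos a hs
  have h2 := Int.emod_add_mul_ediv a s
  by_cases h : a % s + 1 < s
  · left
    have e : a + 1 = (a % s + 1) + (a / s) * s := by linarith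
    rw [e, Int.add_mul_ediv_right _ _ hs.ne', Int.ediv_eq_zero_of_lt (by linarith) h, zero_add]
  · right
    have e : a + 1 = (a / s + 1) * s := by
      have : a % s = s - 1 := by omega
      rw [this] at h2
      linarith
    refine ⟨?_, ?_⟩
    · rw [e, Int.mul_ediv_cancel _ hs.ne']
    · rw [e]; exact Dvd.intro_left _ rfl

/-- scalar form of `gb_idx_congr` -/
theorem gb_shift_congr {i j : ℕ} (hij : i + 3 ≤ j) {a b : ℤ} (h : a / 2 ^ i = b / 2 ^ i) :
    (a - 2 ^ (j - 3)) / 2 ^ j = (b - 2 ^ (j - 3)) / 2 ^ j := by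
  obtain ⟨t, rfl⟩ : ∃ t, j = i + 3 + t := ⟨j - (i + 3), by omega⟩
  have e1 : i + 3 + t - 3 = t + i := by omega
  have e2 : (2 : ℤ) ^ (i + 3 + t) = 2 ^ i * 2 ^ (3 + t) := by rw [← pow_add]; congr 1; omega
  have hi : (2 : ℤ) ^ i ≠ 0 := by positivity
  have key : ∀ c : ℤ, (c - 2 ^ (t + i)) / 2 ^ i = c / 2 ^ i - 2 ^ t := by
    intro c
    have : c - 2 ^ (t + i) = c + (-(2 ^ t)) * 2 ^ i := by rw [pow_add]; ring
    rw [this, Int.add_mul_ediv_right _ _ hi]; ring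
  rw [e1, e2, ← Int.ediv_ediv_of_nonneg (by positivity), ← Int.ediv_ediv_of_nonneg (by positivity),
    key, key, h]

/-- the cell of `G_j` is determined by the dyadic cell of side `2^i`, `i ≤ j - 3` -/
theorem gb_idx_congr {i j : ℕ} (hij : i + 3 ≤ j) {x y : ℤ × ℤ} (h : geoIdx i x = geoIdx i y) :
    gbIdx j x = gbIdx j y := by
  unfold geoIdx at h
  unfold gbIdx
  rw [Prod.mk.injEq] at h
  rw [gb_shift_congr hij h.1, gb_shift_congr hij h.2]

/-- lines of two different shifted grids are different -/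
theorem gb_lines_ne {i j : ℕ} (hi : 3 ≤ i) (hij : i < j) {a : ℤ}
    (h1 : (2 : ℤ) ^ i ∣ a - 2 ^ (i - 3)) (h2 : (2 : ℤ) ^ j ∣ a - 2 ^ (j - 3)) : False := by
  obtain ⟨t, rfl⟩ : ∃ t, i = t + 3 := ⟨i - 3, by omega⟩
  obtain ⟨r, rfl⟩ : ∃ r, j = t + 3 + (r + 1) := ⟨j - (t + 3) - 1, by omega⟩
  obtain ⟨u, hu⟩ := h1
  obtain ⟨w, hw⟩ := h2
  have e1 : t + 3 - 3 = t := by omega
  have e2 : t + 3 + (r + 1) - 3 = t + (r + 1) := by omega
  rw [e1] at hu
  rw [e2] at hw
  have ht : (2 : ℤ) ^ t ≠ 0 := by positivity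
  have h3 : (2 : ℤ) ^ t * (1 + 8 * u) = 2 ^ t * (2 * (2 ^ r * (1 + 8 * w))) := by
    have a1 : a = 2 ^ t + 2 ^ (t + 3) * u := by linarith
    have a2 : a = 2 ^ (t + (r + 1)) + 2 ^ (t + 3 + (r + 1)) * w := by linarith
    have : (2 : ℤ) ^ t + 2 ^ (t + 3) * u = 2 ^ (t + (r + 1)) + 2 ^ (t + 3 + (r + 1)) * w := by
      rw [← a1, ← a2]
    calc (2 : ℤ) ^ t * (1 + 8 * u) = 2 ^ t + 2 ^ (t + 3) * u := by ring
      _ = 2 ^ (t + (r + 1)) + 2 ^ (t + 3 + (r + 1)) * w := this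
      _ = 2 ^ t * (2 * (2 ^ r * (1 + 8 * w))) := by ring
  have h4 := mul_left_cancel₀ ht h3
  omega

/-- a line of `G_j` is not a multiple of `2^l` if `j ≤ l + 2` -/
theorem gb_line_ne_dyadic {j l : ℕ} (hj : 3 ≤ j) (hjl : j ≤ l + 2) {a : ℤ}
    (h1 : (2 : ℤ) ^ l ∣ a) (h2 : (2 : ℤ) ^ j ∣ a - 2 ^ (j - 3)) : False := by
  obtain ⟨t, rfl⟩ : ∃ t, j = t + 3 := ⟨j - 3, by omega⟩
  obtain ⟨r, rfl⟩ : ∃ r, l = t + 1 + r := ⟨l - (t + 1), by omega⟩
  obtain ⟨u, hu⟩ := h1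
  obtain ⟨w, hw⟩ := h2
  have e1 : t + 3 - 3 = t := by omega
  rw [e1] at hw
  have ht : (2 : ℤ) ^ t ≠ 0 := by positivity
  have h3 : (2 : ℤ) ^ t * (2 * (2 ^ r * u)) = 2 ^ t * (1 + 8 * w) := by
    calc (2 : ℤ) ^ t * (2 * (2 ^ r * u)) = 2 ^ (t + 1 + r) * u := by ring
      _ = a := hu.symm
      _ = 2 ^ t + 2 ^ (t + 3) * w := by linarith
      _ = 2 ^ t * (1 + 8 * w) := by ring
  have h4 := mul_left_cancel₀ ht h3
  omega

/-- points of one cell of `G_j` are closer than `2^j` (scalar form) -/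
theorem gb_abs_lt_of_div_eq {s a b : ℤ} (hs : 0 < s) (h : a / s = b / s) : |a - b| < s := by
  have ha := Int.emod_add_mul_ediv a s
  have hb := Int.emod_add_mul_ediv b s
  have ha0 := Int.emod_nonneg a hs.ne'
  have hb0 := Int.emod_nonneg b hs.ne'
  have ha1 := Int.emod_lt_of_pos a hs
  have hb1 := Int.emod_lt_of_pos b hs
  rw [h] at ha
  rw [abs_lt]
  constructor <;> linarith

theorem gb_dInf_lt_of_idx_eq {j : ℕ} {x y : ℤ × ℤ} (h : gbIdx j x = gbIdx j y) :
    dInf x y < 2 ^ j := by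
  unfold gbIdx at h
  rw [Prod.mk.injEq] at h
  have hs : (0 : ℤ) < 2 ^ j := by positivity
  have h1 := gb_abs_lt_of_div_eq hs h.1
  have h2 := gb_abs_lt_of_div_eq hs h.2
  unfold dInf
  apply max_lt
  · have : x.1 - y.1 = x.1 - 2 ^ (j - 3) - (y.1 - 2 ^ (j - 3)) := by ring
    rw [this]; exact h1
  · have : x.2 - y.2 = x.2 - 2 ^ (j - 3) - (y.2 - 2 ^ (j - 3)) := by ring
    rw [this]; exact h2

theorem gb_dInf_lt_of_geoIdx_eq {j : ℕ} {x y : ℤ × ℤ} (h : geoIdx j x = geoIdx j y) :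
    dInf x y < 2 ^ j := by
  unfold geoIdx at h
  rw [Prod.mk.injEq] at h
  have hs : (0 : ℤ) < 2 ^ j := by positivity
  exact max_lt (gb_abs_lt_of_div_eq hs h.1) (gb_abs_lt_of_div_eq hs h.2)

/-- a horizontal step in the grid `G_j` -/
theorem gb_idx_stepH (j : ℕ) (x : ℤ × ℤ) :
    gbIdx j (x.1 + 1, x.2) = gbIdx j x ∨
      (gbIdx j (x.1 + 1, x.2) = ((gbIdx j x).1 + 1, (gbIdx j x).2) ∧
        (2 : ℤ) ^ j ∣ x.1 + 1 - 2 ^ (j - 3)) := by
  have hs : (0 : ℤ) < 2 ^ j := by positivity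
  have e : x.1 + 1 - 2 ^ (j - 3) = x.1 - 2 ^ (j - 3) + 1 := by ring
  unfold gbIdx
  simp only
  rw [e]
  rcases gb_div_succ hs (x.1 - 2 ^ (j - 3)) with h | ⟨h, h'⟩
  · left; rw [h]
  · right; rw [h]; exact ⟨rfl, h'⟩

/-- a vertical step in the grid `G_j` -/
theorem gb_idx_stepV (j : ℕ) (x : ℤ × ℤ) :
    gbIdx j (x.1, x.2 + 1) = gbIdx j x ∨
      (gbIdx j (x.1, x.2 + 1) = ((gbIdx j x).1, (gbIdx j x).2 + 1) ∧
        (2 : ℤ) ^ j ∣ x.2 + 1 - 2 ^ (j - 3)) := by
  have hs : (0 : ℤ) < 2 ^ j := by positivity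
  have e : x.2 + 1 - 2 ^ (j - 3) = x.2 - 2 ^ (j - 3) + 1 := by ring
  unfold gbIdx
  simp only
  rw [e]
  rcases gb_div_succ hs (x.2 - 2 ^ (j - 3)) with h | ⟨h, h'⟩
  · left; rw [h]
  · right; rw [h]; exact ⟨rfl, h'⟩

/-- a horizontal step in the dyadic grid -/
theorem gb_geoIdx_stepH (i : ℕ) (x : ℤ × ℤ) :
    geoIdx i (x.1 + 1, x.2) = geoIdx i x ∨ (2 : ℤ) ^ i ∣ x.1 + 1 := by
  have hs : (0 : ℤ) < 2 ^ i := by positivity
  unfold geoIdx
  simp only
  rcases gb_div_succ hs x.1 with h | ⟨_, h'⟩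
  · left; rw [h]
  · right; exact h'

/-- a vertical step in the dyadic grid -/
theorem gb_geoIdx_stepV (i : ℕ) (x : ℤ × ℤ) :
    geoIdx i (x.1, x.2 + 1) = geoIdx i x ∨ (2 : ℤ) ^ i ∣ x.2 + 1 := by
  have hs : (0 : ℤ) < 2 ^ i := by positivity
  unfold geoIdx
  simp only
  rcases gb_div_succ hs x.2 with h | ⟨_, h'⟩
  · left; rw [h]
  · right; exact h'

/-! ### chain cells and windows -/

/-- chain cells of a grid: two families of diagonals of pitch `m` -/
def gbChain (m : ℕ) (al al' : ℕ) (c : ℤ × ℤ) : Prop :=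
  (c.1 - c.2) % (m : ℤ) = al ∨ (c.1 + c.2) % (m : ℤ) = al'

/-- the window (diamond) index of a cell -/
def gbWin (m : ℕ) (al al' : ℕ) (c : ℤ × ℤ) : ℤ × ℤ :=
  ((c.1 - c.2 - al) / (m : ℤ), (c.1 + c.2 - al') / (m : ℤ))

/-- chain cells have even coordinate sum -/
theorem gb_chain_even {m al al' : ℕ} (hm : 2 ∣ m) (ha : 2 ∣ al) (ha' : 2 ∣ al') {c : ℤ × ℤ}
    (h : gbChain m al al' c) : (c.1 + c.2) % 2 = 0 := by
  have hm' : (2 : ℤ) ∣ (m : ℤ) := by exact_mod_cast hm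
  have ha2 : (al : ℤ) % 2 = 0 := by omega
  have ha2' : (al' : ℤ) % 2 = 0 := by omega
  rcases h with h | h
  · have := Int.emod_emod_of_dvd (c.1 - c.2) hm'
    rw [h] at this
    omega
  · have := Int.emod_emod_of_dvd (c.1 + c.2) hm'
    rw [h] at this
    omega

/-- scalar: the quotient does not change at a step which does not hit the residue -/
theorem gb_win_step {m : ℤ} (hm : 0 < m) {t al : ℤ} (h0 : 0 ≤ al) (h1 : al < m)
    (h : (t + 1) % m ≠ al) : (t + 1 - al) / m = (t - al) / m := by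
  have e : t + 1 - al = t - al + 1 := by ring
  rw [e]
  rcases gb_div_succ hm (t - al) with h' | ⟨_, h'⟩
  · exact h'
  · exfalso
    apply h
    obtain ⟨u, hu⟩ := h'
    have : t + 1 = al + u * m := by linarith
    rw [this, Int.add_mul_emod_self_right, Int.emod_eq_of_lt h0 h1]

/-- edge adjacent cells (horizontal): not both chain cells; if neither is, same window -/
theorem gb_chain_stepH {m al al' : ℕ} (hm : 2 ∣ m) (hm0 : 0 < m) (ha : 2 ∣ al) (ha' : 2 ∣ al')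
    (hal : al < m) (hal' : al' < m) (c : ℤ × ℤ) :
    ¬ (gbChain m al al' c ∧ gbChain m al al' (c.1 + 1, c.2)) ∧
    (¬ gbChain m al al' (c.1 + 1, c.2) →
      gbWin m al al' (c.1 + 1, c.2) = gbWin m al al' c) := by
  constructor
  · rintro ⟨h1, h2⟩
    have e1 := gb_chain_even hm ha ha' h1
    have e2 := gb_chain_even hm ha ha' h2
    simp only at e2
    omega
  · intro h
    unfold gbChain at h
    simp only at h
    rw [not_or] at h
    have hm' : (0 : ℤ) < m := by exact_mod_cast hm0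
    unfold gbWin
    simp only
    have e1 : c.1 + 1 - c.2 = (c.1 - c.2) + 1 := by ring
    have e2 : c.1 + 1 + c.2 = (c.1 + c.2) + 1 := by ring
    rw [e1] at h ⊢
    rw [e2] at h ⊢
    rw [gb_win_step hm' (by positivity) (by exact_mod_cast hal) h.1,
      gb_win_step hm' (by positivity) (by exact_mod_cast hal') h.2]

/-- edge adjacent cells (vertical): not both chain cells; if neither is, same window -/
theorem gb_chain_stepV {m al al' : ℕ} (hm : 2 ∣ m) (hm0 : 0 < m) (ha : 2 ∣ al) (ha' : 2 ∣ al')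
    (hal : al < m) (hal' : al' < m) (c : ℤ × ℤ) :
    ¬ (gbChain m al al' c ∧ gbChain m al al' (c.1, c.2 + 1)) ∧
    (¬ gbChain m al al' c → ¬ gbChain m al al' (c.1, c.2 + 1) →
      gbWin m al al' (c.1, c.2 + 1) = gbWin m al al' c) := by
  constructor
  · rintro ⟨h1, h2⟩
    have e1 := gb_chain_even hm ha ha' h1
    have e2 := gb_chain_even hm ha ha' h2
    simp only at e2
    omega
  · intro h0 h
    unfold gbChain at h h0
    simp only at h
    rw [not_or] at h h0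
    have hm' : (0 : ℤ) < m := by exact_mod_cast hm0
    unfold gbWin
    simp only
    have e1 : c.1 - c.2 = (c.1 - (c.2 + 1)) + 1 := by ring
    have e2 : c.1 + (c.2 + 1) = (c.1 + c.2) + 1 := by ring
    rw [e2] at h ⊢
    rw [gb_win_step hm' (by positivity) (by exact_mod_cast hal') h.2]
    have h3 := h0.1
    rw [e1] at h3
    rw [e1, gb_win_step hm' (by positivity) (by exact_mod_cast hal) h3]

/-- cells with the same window are closer than `m` -/
theorem gb_win_diam {m al al' : ℕ} (hm0 : 0 < m) {c c' : ℤ × ℤ}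
    (h : gbWin m al al' c = gbWin m al al' c') : dInf c c' < m := by
  have hm' : (0 : ℤ) < m := by exact_mod_cast hm0
  unfold gbWin at h
  rw [Prod.mk.injEq] at h
  have h1 := gb_abs_lt_of_div_eq hm' h.1
  have h2 := gb_abs_lt_of_div_eq hm' h.2
  rw [abs_lt] at h1 h2
  unfold dInf
  apply max_lt <;> rw [abs_lt] <;> constructor <;> linarith [h1.1, h1.2, h2.1, h2.2]

end Claimed.Agent.R296
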