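import Mathlib
import Claimed.Agent.R296.GeoBaseA

/-!
# Row 296, P1 Section 10: the base colouring, part B (definitions, locality, cell constancy)

`GbCtx` collects the parameters; `lev`, `kap`, `col`, `win` are the level, the indicator of the
active chain cells, the colour and the window index.  Prefix `gb_` / namespace `GbCtx`.
-/

set_option autoImplicit false

namespace Claimed.Agent.R296

/-- parameters of the base colouring: `kb` is the bottom (dummy) level, `al j`, `al' j` are the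
even residues selecting the chains of the grid `G_j` -/
structure GbCtx where
  C0 : ℕ
  kb : ℕ
  q0 : ℕ
  Z : Finset (ℤ × ℤ)
  al : ℕ → ℕ
  al' : ℕ → ℕ
  hC : 5 ≤ C0
  hk : 11 ≤ kb
  hq : 1 ≤ q0
  hZ : Z.Nonempty
  hal : ∀ j, 2 ∣ al j
  hal' : ∀ j, 2 ∣ al' j
  hlt : ∀ j, al j < 2 ^ (j / q0 + 1)
  hlt' : ∀ j, al' j < 2 ^ (j / q0 + 1)

namespace GbCtx

variable (G : GbCtx)

/-- the level function -/
noncomputable def lev (y : ℤ × ℤ) : ℕ := geoLev G.C0 G.Z G.kb y

/-- pitch of the chains of `G_j` -/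
def m (j : ℕ) : ℕ := 2 ^ (j / G.q0 + 1)

/-- a cell of `G_j` is active if it contains a site of level `j` -/
def Active (j : ℕ) (c : ℤ × ℤ) : Prop := ∃ y, gbIdx j y = c ∧ G.lev y = j

/-- chain cells of `G_j` -/
def Chain (j : ℕ) (c : ℤ × ℤ) : Prop := gbChain (G.m j) (G.al j) (G.al' j) c

/-- indicator of the union of the active chain cells of `G_j` -/
noncomputable def kap (j : ℕ) (x : ℤ × ℤ) : Bool :=
  @decide (G.Chain j (gbIdx j x) ∧ G.Active j (gbIdx j x)) (Classical.propDecidable _)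

/-- the base colour -/
noncomputable def col (x : ℤ × ℤ) : Bool :=
  xor (Nat.bodd (G.lev x))
    (xor (G.kap (G.lev x - 1) x) (xor (G.kap (G.lev x) x) (G.kap (G.lev x + 1) x)))

/-- the window index -/
noncomputable def win (x : ℤ × ℤ) : ℤ × ℤ :=
  gbWin (G.m (G.lev x)) (G.al (G.lev x)) (G.al' (G.lev x)) (gbIdx (G.lev x) x)

theorem hC1 : 1 ≤ G.C0 := le_trans (by norm_num) G.hC

theorem m_pos (j : ℕ) : 0 < G.m j := by unfold m; positivity

theorem two_dvd_m (j : ℕ) : 2 ∣ G.m j := by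
  unfold m; rw [pow_succ]; exact Dvd.intro_left _ rfl

theorem kb_le_lev (y : ℤ × ℤ) : G.kb ≤ G.lev y := geo_geoLev_ge G.hC1 G.hZ G.kb y

theorem kap_eq_true {j : ℕ} {x : ℤ × ℤ} :
    G.kap j x = true ↔ G.Chain j (gbIdx j x) ∧ G.Active j (gbIdx j x) := by
  unfold kap; exact @decide_eq_true_iff _ (Classical.propDecidable _)

theorem kap_congr {j : ℕ} {x y : ℤ × ℤ} (h : gbIdx j x = gbIdx j y) : G.kap j x = G.kap j y := by
  unfold kap; rw [h]

/-- for a site of level `j` the indicator only tests the chain condition -/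
theorem kap_self {x : ℤ × ℤ} :
    G.kap (G.lev x) x = true ↔ G.Chain (G.lev x) (gbIdx (G.lev x) x) := by
  rw [kap_eq_true]
  exact ⟨fun h => h.1, fun h => ⟨h, x, rfl, rfl⟩⟩

/-- levels of sites at distance `≤ 2^(lev y)` differ by at most one -/
theorem lev_lip {y y' : ℤ × ℤ} (h : dInf y y' ≤ 2 ^ G.lev y) :
    G.lev y ≤ G.lev y' + 1 ∧ G.lev y' ≤ G.lev y + 1 := by
  have hk := G.kb_le_lev y
  have hk' := G.hk
  have hC : (5 : ℤ) ≤ G.C0 := by exact_mod_cast G.hC
  have h2 : (2 : ℤ) ^ G.lev y = 2 * 2 ^ (G.lev y - 1) := by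
    rw [← pow_succ']; congr 1; omega
  have hp : (0 : ℤ) < 2 ^ (G.lev y - 1) := by positivity
  have := geo_lev_near (C0 := G.C0) (Z := G.Z) (k0 := G.kb) (k := G.lev y - 1) (y := y) (y' := y')
    G.hC1 G.hZ (by unfold lev at *; omega) (by nlinarith)
  exact ⟨this.2, this.1⟩

/-- adjacent (also diagonally) sites -/
theorem lev_adj {y y' : ℤ × ℤ} (h : dInf y y' ≤ 1) :
    G.lev y ≤ G.lev y' + 1 ∧ G.lev y' ≤ G.lev y + 1 :=
  G.lev_lip (h.trans (one_le_pow₀ (by norm_num)))

/-- locality of the chain indicators -/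
theorem kap_local {j : ℕ} {x : ℤ × ℤ} (h : G.kap j x = true) :
    j ≤ G.lev x + 1 ∧ G.lev x ≤ j + 1 := by
  obtain ⟨_, y, hy, hl⟩ := G.kap_eq_true.mp h
  have hd := gb_dInf_lt_of_idx_eq hy
  have := G.lev_lip (y := y) (y' := x) (by rw [hl]; exact hd.le)
  rw [hl] at this
  exact this

theorem kap_eq_false_of_lt {j : ℕ} {x : ℤ × ℤ} (h : G.lev x + 1 < j) : G.kap j x = false := by
  by_contra hc
  have := G.kap_local (Bool.eq_true_of_not_eq_false hc)
  omega

theorem kap_eq_false_of_gt {j : ℕ} {x : ℤ × ℤ} (h : j + 1 < G.lev x) : G.kap j x = false := by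
  by_contra hc
  have := G.kap_local (Bool.eq_true_of_not_eq_false hc)
  omega

/-- the level is constant on dyadic cells of side at most `2^lev` -/
theorem lev_congr {i : ℕ} {b y : ℤ × ℤ} (hi : i ≤ G.lev b) (h : geoIdx i b = geoIdx i y) :
    G.lev y = G.lev b :=
  geo_lev_congr' G.hC1 G.hZ hi h

/-- **cell constancy**: level, window and colour are constant on the dyadic cells of side
`2^(lev - 4)` -/
theorem cell_const {i : ℕ} {b y : ℤ × ℤ} (hi : i + 4 ≤ G.lev b) (h : geoIdx i b = geoIdx i y) :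
    G.lev y = G.lev b ∧ G.win y = G.win b ∧ G.col y = G.col b := by
  have hl : G.lev y = G.lev b := G.lev_congr (by omega) h
  refine ⟨hl, ?_, ?_⟩
  · unfold win
    rw [hl, gb_idx_congr (by omega) h]
  · unfold col
    rw [hl, G.kap_congr (gb_idx_congr (j := G.lev b - 1) (by omega) h),
      G.kap_congr (gb_idx_congr (j := G.lev b) (by omega) h),
      G.kap_congr (gb_idx_congr (j := G.lev b + 1) (by omega) h)]

/-- sites above the bottom level are far from `Z` -/
theorem lev_far {y : ℤ × ℤ} (h : G.kb < G.lev y) {z : ℤ × ℤ} (hz : z ∈ G.Z) :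
    (G.C0 : ℤ) * 2 ^ G.lev y < dInf y z :=
  geo_lev_far h hz

/-- a colour change between two sites of consecutive levels which lie in the same cells of the
four relevant grids -/
theorem col_of_lev_succ {x y : ℤ × ℤ} (hl : G.lev y = G.lev x + 1)
    (h0 : gbIdx (G.lev x - 1) x = gbIdx (G.lev x - 1) y)
    (h1 : gbIdx (G.lev x) x = gbIdx (G.lev x) y)
    (h2 : gbIdx (G.lev x + 1) x = gbIdx (G.lev x + 1) y)
    (h3 : gbIdx (G.lev x + 2) x = gbIdx (G.lev x + 2) y) : G.col y = !G.col x := by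
  have hk := G.kb_le_lev x
  have hk' := G.hk
  have e0 : G.kap (G.lev x - 1) x = false := by
    rw [G.kap_congr h0]; exact G.kap_eq_false_of_gt (by omega)
  have e3 : G.kap (G.lev x + 2) y = false := by
    rw [← G.kap_congr h3]; exact G.kap_eq_false_of_lt (by omega)
  unfold col
  rw [hl, e0, Nat.add_sub_cancel, ← G.kap_congr h1, ← G.kap_congr h2, e3, Nat.bodd_succ]
  cases Nat.bodd (G.lev x) <;> cases G.kap (G.lev x) x <;> cases G.kap (G.lev x + 1) x <;> rfl

end GbCtx

end Claimed.Agent.R296
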