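import Mathlib
import Claimed.Agent.R296.GeoBaseB

/-!
# Row 296, P1 Section 10: the base colouring, part C (the flip lemma)

Two lattice neighbours have the same level and window, or opposite colours.
-/

set_option autoImplicit false

namespace Claimed.Agent.R296

/-- `x'` is obtained from `x` by crossing the line with coordinate `a` -/
structure GbStep (x x' : ℤ × ℤ) (a : ℤ) : Prop where
  grid : ∀ j, gbIdx j x' = gbIdx j x ∨ (2 : ℤ) ^ j ∣ a - 2 ^ (j - 3)
  dyad : ∀ i, geoIdx i x' = geoIdx i x ∨ (2 : ℤ) ^ i ∣ a
  near : dInf x x' ≤ 1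

theorem gb_stepH (x : ℤ × ℤ) : GbStep x (x.1 + 1, x.2) (x.1 + 1) where
  grid j := (gb_idx_stepH j x).imp id fun h => h.2
  dyad i := gb_geoIdx_stepH i x
  near := by unfold dInf; simp

theorem gb_stepV (x : ℤ × ℤ) : GbStep x (x.1, x.2 + 1) (x.2 + 1) where
  grid j := (gb_idx_stepV j x).imp id fun h => h.2
  dyad i := gb_geoIdx_stepV i x
  near := by unfold dInf; simp

namespace GbCtx

variable (G : GbCtx)

/-- crossing a line at which the level changes flips the colour -/
theorem flip_lev {x x' : ℤ × ℤ} {a : ℤ} (hs : GbStep x x' a) (hl : G.lev x' ≠ G.lev x) :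
    G.col x' = !G.col x := by
  have hadj := G.lev_adj hs.near
  have hk := G.kb_le_lev x
  have hk1 := G.kb_le_lev x'
  have hk' := G.hk
  rcases Nat.lt_or_gt_of_ne hl with hlt | hlt
  · -- `lev x = lev x' + 1`
    have hl' : G.lev x = G.lev x' + 1 := by omega
    have hdiv : (2 : ℤ) ^ G.lev x' ∣ a := by
      rcases hs.dyad (G.lev x') with h | h
      · exact absurd (G.lev_congr le_rfl h) (by omega)
      · exact h
    have hg : ∀ j, 3 ≤ j → j ≤ G.lev x' + 2 → gbIdx j x' = gbIdx j x := by
      intro j h3 hj
      rcases hs.grid j with h | h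
      · exact h
      · exact (gb_line_ne_dyadic h3 hj hdiv h).elim
    have := G.col_of_lev_succ (x := x') (y := x) hl' (hg _ (by omega) (by omega))
      (hg _ (by omega) (by omega)) (hg _ (by omega) (by omega)) (hg _ (by omega) (by omega))
    rw [this, Bool.not_not]
  · have hl' : G.lev x' = G.lev x + 1 := by omega
    have hdiv : (2 : ℤ) ^ G.lev x ∣ a := by
      rcases hs.dyad (G.lev x) with h | h
      · exact absurd (G.lev_congr le_rfl h.symm) (by omega)
      · exact h
    have hg : ∀ j, 3 ≤ j → j ≤ G.lev x + 2 → gbIdx j x = gbIdx j x' := by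
      intro j h3 hj
      rcases hs.grid j with h | h
      · exact h.symm
      · exact (gb_line_ne_dyadic h3 hj hdiv h).elim
    exact G.col_of_lev_succ (x := x) (y := x') hl' (hg _ (by omega) (by omega))
      (hg _ (by omega) (by omega)) (hg _ (by omega) (by omega)) (hg _ (by omega) (by omega))

/-- crossing a line of the grid of the own level: only the indicator of that grid can change -/
theorem flip_same {x x' : ℤ × ℤ} {a : ℤ} (hs : GbStep x x' a) (hl : G.lev x' = G.lev x)
    (hne : gbIdx (G.lev x) x' ≠ gbIdx (G.lev x) x) :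
    G.col x' = xor (G.col x) (xor (G.kap (G.lev x) x) (G.kap (G.lev x) x')) := by
  have hk := G.kb_le_lev x
  have hk' := G.hk
  have hdiv : (2 : ℤ) ^ G.lev x ∣ a - 2 ^ (G.lev x - 3) := by
    rcases hs.grid (G.lev x) with h | h
    · exact absurd h hne
    · exact h
  have h0 : gbIdx (G.lev x - 1) x' = gbIdx (G.lev x - 1) x := by
    rcases hs.grid (G.lev x - 1) with h | h
    · exact h
    · exact (gb_lines_ne (by omega) (by omega) h hdiv).elim
  have h2 : gbIdx (G.lev x + 1) x' = gbIdx (G.lev x + 1) x := by
    rcases hs.grid (G.lev x + 1) with h | h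
    · exact h
    · exact (gb_lines_ne (by omega) (by omega) hdiv h).elim
  unfold col
  rw [hl, G.kap_congr h0, G.kap_congr h2]
  cases Nat.bodd (G.lev x) <;> cases G.kap (G.lev x - 1) x <;> cases G.kap (G.lev x) x <;>
    cases G.kap (G.lev x) x' <;> cases G.kap (G.lev x + 1) x <;> rfl

/-- **flip lemma**, horizontal neighbours -/
theorem flipH (x : ℤ × ℤ) :
    (G.lev (x.1 + 1, x.2) = G.lev x ∧ G.win (x.1 + 1, x.2) = G.win x) ∨
      G.col (x.1 + 1, x.2) = !G.col x := by
  have hs := gb_stepH x
  by_cases hl : G.lev (x.1 + 1, x.2) = G.lev x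
  · rcases gb_idx_stepH (G.lev x) x with h | ⟨h, _⟩
    · left
      refine ⟨hl, ?_⟩
      unfold win
      rw [hl, h]
    · have hne : gbIdx (G.lev x) (x.1 + 1, x.2) ≠ gbIdx (G.lev x) x := by
        rw [h]
        intro hc
        have := congrArg Prod.fst hc
        simp at this
      have hst := gb_chain_stepH (G.two_dvd_m (G.lev x)) (G.m_pos _) (G.hal _) (G.hal' _)
        (G.hlt _) (G.hlt' _) (gbIdx (G.lev x) x)
      by_cases hc : G.Chain (G.lev x) ((gbIdx (G.lev x) x).1 + 1, (gbIdx (G.lev x) x).2)
      · right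
        have k1 : G.kap (G.lev x) (x.1 + 1, x.2) = true := by
          have := G.kap_self (x := (x.1 + 1, x.2))
          rw [hl, h] at this
          exact this.mpr hc
        have k0 : G.kap (G.lev x) x = false := by
          by_contra hk
          exact hst.1 ⟨G.kap_self.mp (Bool.eq_true_of_not_eq_false hk), hc⟩
        rw [G.flip_same hs hl hne, k0, k1]
        cases G.col x <;> rfl
      · left
        refine ⟨hl, ?_⟩
        unfold win
        rw [hl, h]
        exact hst.2 hc
  · right
    exact G.flip_lev hs hl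

/-- **flip lemma**, vertical neighbours -/
theorem flipV (x : ℤ × ℤ) :
    (G.lev (x.1, x.2 + 1) = G.lev x ∧ G.win (x.1, x.2 + 1) = G.win x) ∨
      G.col (x.1, x.2 + 1) = !G.col x := by
  have hs := gb_stepV x
  by_cases hl : G.lev (x.1, x.2 + 1) = G.lev x
  · rcases gb_idx_stepV (G.lev x) x with h | ⟨h, _⟩
    · left
      refine ⟨hl, ?_⟩
      unfold win
      rw [hl, h]
    · have hne : gbIdx (G.lev x) (x.1, x.2 + 1) ≠ gbIdx (G.lev x) x := by
        rw [h]
        intro hc
        have := congrArg Prod.snd hc
        simp at this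
      have hst := gb_chain_stepV (G.two_dvd_m (G.lev x)) (G.m_pos _) (G.hal _) (G.hal' _)
        (G.hlt _) (G.hlt' _) (gbIdx (G.lev x) x)
      have ks : G.kap (G.lev x) (x.1, x.2 + 1) = true ↔
          G.Chain (G.lev x) ((gbIdx (G.lev x) x).1, (gbIdx (G.lev x) x).2 + 1) := by
        have := G.kap_self (x := (x.1, x.2 + 1))
        rw [hl, h] at this
        exact this
      by_cases hc : G.Chain (G.lev x) ((gbIdx (G.lev x) x).1, (gbIdx (G.lev x) x).2 + 1)
      · right
        have k1 : G.kap (G.lev x) (x.1, x.2 + 1) = true := ks.mpr hc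
        have k0 : G.kap (G.lev x) x = false := by
          by_contra hk
          exact hst.1 ⟨G.kap_self.mp (Bool.eq_true_of_not_eq_false hk), hc⟩
        rw [G.flip_same hs hl hne, k0, k1]
        cases G.col x <;> rfl
      · by_cases hc0 : G.Chain (G.lev x) (gbIdx (G.lev x) x)
        · right
          have k1 : G.kap (G.lev x) (x.1, x.2 + 1) = false := by
            by_contra hk
            exact hc (ks.mp (Bool.eq_true_of_not_eq_false hk))
          have k0 : G.kap (G.lev x) x = true := G.kap_self.mpr hc0
          rw [G.flip_same hs hl hne, k0, k1]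
          cases G.col x <;> rfl
        · left
          refine ⟨hl, ?_⟩
          unfold win
          rw [hl, h]
          exact hst.2 hc0 hc
  · right
    exact G.flip_lev hs hl

end GbCtx

end Claimed.Agent.R296
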