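import Claimed.Agent.R296.TopDefs

/-!
# Row 296, paper 1, Section 10: geometry of the two families (definitions and interfaces)

Target: `TwoFamStmt Ctpl D0 nstar` of `TopDefs.lean` (paper 1, Proposition 10.2).

REDESIGN (helper68 + helper292), squares only, everything on `ℤ × ℤ` with integer arithmetic.

* BASE (owner helper292, `GeoLayer.lean`, `GeoBase*.lean`): a level function `lev`, a colour
  `col`, a window index `win` and a set of marks.  A base tile is a fibre of `(lev, win, col)`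
  (it need not be connected).  Neighbouring sites have the same tile or opposite colours, so two
  different base tiles of the same colour can only come close to each other at a `2 × 2`
  checkerboard block: a mark.  Around a mark `p` the colouring is an exact four quadrant cross
  in the square of half side `2 ^ (lev p - 5)`.  Everything the rest of the proof uses is
  collected in `GeoBase.Good`.
* REPAIR (owner helper68, `GeoRepair*.lean`): a node `(v, a)` swaps the two colours in the half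
  closed square `geoSq v (2 ^ a)`.  If `a < as` the square is terminal (its sites are
  exceptional).  Otherwise each of the two diagonal pairs of quadrant squares is ONE new tile,
  and the four side midpoints become nodes of exponent `geoNx a`.  Roots are the marks `p` with
  exponent `lev p - 8`.  The centre and the corners need no repair.
* A site belongs to the tile created by the deepest node whose square contains it.
* ORDER: base tiles first, then the new tiles by depth.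
-/

set_option autoImplicit false

namespace Claimed.Agent.R296

/-! ### sup distance: reduction to linear arithmetic -/

theorem geo_dInf_le {x y : ℤ × ℤ} {r : ℤ} :
    dInf x y ≤ r ↔ (x.1 - y.1 ≤ r ∧ y.1 - x.1 ≤ r ∧ x.2 - y.2 ≤ r ∧ y.2 - x.2 ≤ r) := by
  unfold dInf
  rw [max_le_iff, abs_le, abs_le]
  constructor
  · rintro ⟨⟨h1, h2⟩, h3, h4⟩
    refine ⟨h2, ?_, h4, ?_⟩ <;> omega
  · rintro ⟨h1, h2, h3, h4⟩
    refine ⟨⟨?_, h1⟩, ?_, h3⟩ <;> omega

theorem geo_dInf_lt {x y : ℤ × ℤ} {r : ℤ} :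
    dInf x y < r ↔ (x.1 - y.1 < r ∧ y.1 - x.1 < r ∧ x.2 - y.2 < r ∧ y.2 - x.2 < r) := by
  have h := geo_dInf_le (x := x) (y := y) (r := r - 1)
  constructor
  · intro h1
    have := h.1 (by omega)
    omega
  · intro h1
    have := h.2 (by omega)
    omega

theorem geo_le_dInf {x y : ℤ × ℤ} {r : ℤ} :
    r ≤ dInf x y ↔ (r ≤ x.1 - y.1 ∨ r ≤ y.1 - x.1 ∨ r ≤ x.2 - y.2 ∨ r ≤ y.2 - x.2) := by
  have h := geo_dInf_lt (x := x) (y := y) (r := r)
  constructor
  · intro h1
    by_contra h2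
    have := h.2 (by omega)
    omega
  · intro h1
    by_contra h2
    have := h.1 (by omega)
    omega

theorem geo_lt_dInf {x y : ℤ × ℤ} {r : ℤ} :
    r < dInf x y ↔ (r < x.1 - y.1 ∨ r < y.1 - x.1 ∨ r < x.2 - y.2 ∨ r < y.2 - x.2) := by
  have h := geo_dInf_le (x := x) (y := y) (r := r)
  constructor
  · intro h1
    by_contra h2
    have := h.2 (by omega)
    omega
  · intro h1
    by_contra h2
    have := h.1 (by omega)
    omega

/-! ### squares and crosses -/

/-- the half closed square `v + [-d, d)²` -/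
def geoSq (v : ℤ × ℤ) (d : ℤ) (y : ℤ × ℤ) : Prop :=
  v.1 - d ≤ y.1 ∧ y.1 < v.1 + d ∧ v.2 - d ≤ y.2 ∧ y.2 < v.2 + d

/-- the half closed square `u + [0, d)²` with lower left corner `u` -/
def geoBox (u : ℤ × ℤ) (d : ℤ) (y : ℤ × ℤ) : Prop :=
  u.1 ≤ y.1 ∧ y.1 < u.1 + d ∧ u.2 ≤ y.2 ∧ y.2 < u.2 + d

/-- `true` on the quadrants `{y ≥ v}` and `{y < v}` (both coordinates), `false` on the others -/
def geoDiag (v y : ℤ × ℤ) : Bool := decide (v.1 ≤ y.1 ↔ v.2 ≤ y.2)

/-- the four quadrant cross colouring centred at `v` with colour `c` at `v` itself -/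
def geoCross (c : Bool) (v y : ℤ × ℤ) : Bool := xor c (!(geoDiag v y))

/-! ### the interface of the base construction -/

/-- data of the base construction -/
structure GeoBase where
  /-- dyadic distance level; `k0 - 1` on the dummy region around `Z` -/
  lev : ℤ × ℤ → ℕ
  /-- base colour -/
  col : ℤ × ℤ → Bool
  /-- window index inside the level -/
  win : ℤ × ℤ → ℤ × ℤ
  /-- the marks (`p` stands for the corner point common to `p, p-(1,0), p-(0,1), p-(1,1)`) -/
  mark : ℤ × ℤ → Prop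

/-- everything the repair step and the final assembly use about the base construction.
`Cm` may depend on `C0` only. -/
structure GeoBase.Good (B : GeoBase) (C0 k0 q0 Cm : ℕ) (Z : Finset (ℤ × ℤ)) : Prop where
  lev_ge : ∀ y, k0 ≤ B.lev y + 1
  clear : ∀ y, k0 ≤ B.lev y → ∀ z ∈ Z, (C0 : ℤ) * 2 ^ B.lev y ≤ dInf y z
  dummy : ∃ dm : Finset (ℤ × ℤ), dm.card ≤ Cm * 4 ^ k0 * Z.card ∧ ∀ y, B.lev y < k0 → y ∈ dm
  lip : ∀ y y', dInf y y' ≤ 2 ^ B.lev y → B.lev y ≤ B.lev y' + 1 ∧ B.lev y' ≤ B.lev y + 1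
  star : ∀ p, B.mark p → ∀ y, geoSq p (2 ^ (B.lev p - 5)) y → B.col y = geoCross (B.col p) p y
  iso : ∀ p p', B.mark p → B.mark p' → p ≠ p' → (2 : ℤ) ^ (B.lev p - 5) ≤ dInf p p'
  mark_clear : ∀ p, B.mark p → ∀ z ∈ Z, ((C0 : ℤ) - 1) * 2 ^ B.lev p ≤ dInf p z
  sep : ∀ x y, k0 ≤ B.lev x → k0 ≤ B.lev y → B.col x = B.col y →
    (B.lev x, B.win x) ≠ (B.lev y, B.win y) → dInf x y * 2 ^ 10 < 2 ^ B.lev x →
    ∃ p, B.mark p ∧ geoSq p (2 ^ (B.lev p - 8)) y
  tile : ∀ (k : ℕ) (w : ℤ × ℤ) (c : Bool), k0 ≤ k →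
    ∃ cs : Finset (ℤ × ℤ), cs.card ≤ 2 ^ (2 * (k / q0) + 12) ∧
      ∀ y, (B.lev y = k ∧ B.win y = w ∧ B.col y = c) ↔ ∃ u ∈ cs, geoBox u (2 ^ (k - 4)) y
  diam : ∀ y y', B.lev y = B.lev y' → B.win y = B.win y' →
    dInf y y' ≤ 2 ^ (B.lev y + B.lev y / q0 + 2)
  wins : ∀ k, ∃ ws : Finset (ℤ × ℤ), ws.card ≤ Cm * Z.card ∧ ∀ y, B.lev y = k → B.win y ∈ ws
  marks : ∀ k, ∃ ms : Finset (ℤ × ℤ), ms.card * 2 ^ ((k - 1) / q0) ≤ Cm * Z.card ∧
    ∀ p, B.mark p → B.lev p = k → p ∈ ms

/-- DELIVERABLE of the base package (helper292): to be proved in `GeoBase*.lean`. -/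
def GeoBaseStmt : Prop :=
  ∀ C0 : ℕ, 5 ≤ C0 → ∃ Cm : ℕ, ∀ (k0 q0 : ℕ), 12 ≤ k0 → 1 ≤ q0 →
    ∀ Z : Finset (ℤ × ℤ), Z.Nonempty → ∃ B : GeoBase, B.Good C0 k0 q0 Cm Z

/-! ### the repair recursion -/

/-- next exponent: roughly `(1 - 10⁻⁶) a` -/
def geoNx (a : ℕ) : ℕ := a - (a / 1000000 + 1)

/-- the four directions of the side midpoints -/
def geoDirs : Finset (ℤ × ℤ) := {(1, 0), (-1, 0), (0, 1), (0, -1)}

/-- `GeoNode B as g v a c`: at depth `g` there is a node at `v` with half side `2 ^ a`; before its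
repair the colouring around `v` is `geoCross c v`.  Nodes with `a < as` are terminal. -/
inductive GeoNode (B : GeoBase) (as : ℕ) : ℕ → ℤ × ℤ → ℕ → Bool → Prop
  | root (p : ℤ × ℤ) (hp : B.mark p) : GeoNode B as 0 p (B.lev p - 8) (B.col p)
  | child (g : ℕ) (v : ℤ × ℤ) (a : ℕ) (c : Bool) (e : ℤ × ℤ) (h : GeoNode B as g v a c)
      (ha : as ≤ a) (he : e ∈ geoDirs) :
      GeoNode B as (g + 1) (v.1 + 2 ^ a * e.1, v.2 + 2 ^ a * e.2) (geoNx a) c

/-- descendants of one root `(p, a0)`, without reference to the base construction (used for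
counting) -/
inductive GeoDesc (as : ℕ) (p : ℤ × ℤ) (a0 : ℕ) : ℕ → ℤ × ℤ → ℕ → Prop
  | root : GeoDesc as p a0 0 p a0
  | child (g : ℕ) (v : ℤ × ℤ) (a : ℕ) (e : ℤ × ℤ) (h : GeoDesc as p a0 g v a)
      (ha : as ≤ a) (he : e ∈ geoDirs) :
      GeoDesc as p a0 (g + 1) (v.1 + 2 ^ a * e.1, v.2 + 2 ^ a * e.2) (geoNx a)

/-- `y` lies in the square of a node of depth `g` -/
def geoCov (B : GeoBase) (as g : ℕ) (y : ℤ × ℤ) : Prop :=
  ∃ v a c, GeoNode B as g v a c ∧ geoSq v (2 ^ a) y

open Classical in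
/-- the colouring after the repairs of all depths `< g` -/
noncomputable def geoCol (B : GeoBase) (as : ℕ) : ℕ → ℤ × ℤ → Bool
  | 0, y => B.col y
  | g + 1, y => xor (geoCol B as g y) (decide (geoCov B as g y))

/-- identifiers of the tiles -/
inductive GeoTile
  | base (k : ℕ) (w : ℤ × ℤ) (c : Bool)
  | rep (g : ℕ) (v : ℤ × ℤ) (a : ℕ) (dg : Bool) (c : Bool)
  deriving DecidableEq

/-- family label -/
def GeoTile.lab : GeoTile → Bool
  | .base _ _ c => c
  | .rep _ _ _ _ c => c

/-- position in the order: base tiles first, then by depth -/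
def GeoTile.rank : GeoTile → ℕ
  | .base _ _ _ => 0
  | .rep g _ _ _ _ => g + 1

/-- birth template of a tile -/
def geoTpl (B : GeoBase) : GeoTile → ℤ × ℤ → Prop
  | .base k w c, y => B.lev y = k ∧ B.win y = w ∧ B.col y = c
  | .rep _ v a dg _, y => geoSq v (2 ^ a) y ∧ geoDiag v y = dg

/-- the tile identifier really occurs in the construction -/
def geoValid (B : GeoBase) (as k0 : ℕ) : GeoTile → Prop
  | .base k _ _ => k0 ≤ k
  | .rep g v a dg c => as ≤ a ∧ ∃ c0, GeoNode B as g v a c0 ∧ c = xor c0 dg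

/-- final (actual) region of a tile -/
def geoIn (B : GeoBase) (as k0 : ℕ) (t : GeoTile) (y : ℤ × ℤ) : Prop :=
  geoValid B as k0 t ∧ geoTpl B t y ∧ ∀ g, t.rank ≤ g → ¬ geoCov B as g y

/-- exceptional sites: uncovered dummy sites and sites whose deepest square is terminal -/
def geoExc (B : GeoBase) (as k0 : ℕ) (y : ℤ × ℤ) : Prop :=
  ((∀ g, ¬ geoCov B as g y) ∧ B.lev y < k0) ∨
  ∃ g v a c, GeoNode B as g v a c ∧ a < as ∧ geoSq v (2 ^ a) y ∧ ∀ g', g < g' → ¬ geoCov B as g' y

/-- integer form of the separation radius of a tile (`dInf x y` is at least this number) -/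
def geoRad : GeoTile → ℤ
  | .base k _ _ => 2 ^ (k - 10)
  | .rep _ _ a _ _ => 2 ^ geoNx a

end Claimed.Agent.R296
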