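import Mathlib
import Claimed.Agent.R296.GeoBaseC
import Claimed.Agent.R296.GeoDefs

/-!
# Row 296, P1 Section 10: the base colouring, part D (marks, stars, isolation, separation)
-/

set_option autoImplicit false

namespace Claimed.Agent.R296

/-- the site of the `2 × 2` block at `p` in the quadrant given by two booleans -/
def gbBlk (p : ℤ × ℤ) (e1 e2 : Bool) : ℤ × ℤ :=
  (if e1 then p.1 else p.1 - 1, if e2 then p.2 else p.2 - 1)

/-- the site of the block at `p` lying in the same quadrant as `y` -/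
def gbRep (p y : ℤ × ℤ) : ℤ × ℤ := gbBlk p (decide (p.1 ≤ y.1)) (decide (p.2 ≤ y.2))

theorem gb_div_eq {r t u : ℤ} (hr : 0 < r) (h1 : u * r ≤ t) (h2 : t < (u + 1) * r) :
    t / r = u := by
  have a1 : u ≤ t / r := (Int.le_ediv_iff_mul_le hr).mpr h1
  have a2 : t / r < u + 1 := (Int.ediv_lt_iff_lt_mul hr).mpr h2
  omega

/-- scalar form of `gb_rep_idx` -/
theorem gb_rep_div {r P t : ℤ} (hr : 0 < r) (hP : r ∣ P) (h1 : P - r ≤ t) (h2 : t < P + r) :
    (if decide (P ≤ t) = true then P else P - 1) / r = t / r := by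
  obtain ⟨u, rfl⟩ := hP
  by_cases h : r * u ≤ t
  · rw [if_pos (by simpa using h)]
    rw [gb_div_eq hr (u := u) (by linarith) (by linarith),
      gb_div_eq hr (u := u) (by linarith) (by linarith)]
  · rw [if_neg (by simpa using h)]
    rw [gb_div_eq hr (u := u - 1) (by linarith) (by linarith),
      gb_div_eq hr (u := u - 1) (by linarith) (by linarith)]

/-- inside the star of a grid point the block site of the quadrant lies in the same dyadic cell -/
theorem gb_rep_idx {i : ℕ} {p y : ℤ × ℤ} (h1 : (2 : ℤ) ^ i ∣ p.1) (h2 : (2 : ℤ) ^ i ∣ p.2)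
    (hy : geoSq p (2 ^ i) y) : geoIdx i (gbRep p y) = geoIdx i y := by
  have hr : (0 : ℤ) < 2 ^ i := by positivity
  obtain ⟨a1, a2, a3, a4⟩ := hy
  unfold geoIdx gbRep gbBlk
  simp only
  rw [gb_rep_div hr h1 a1 a2, gb_rep_div hr h2 a3 a4]

/-- a multiple of `s` whose star contains both `t` and `t'` -/
theorem gb_exists_corner {s t t' : ℤ} (hs : 0 < s) (h : |t - t'| < s) :
    ∃ a, s ∣ a ∧ a - s ≤ t ∧ t < a + s ∧ a - s ≤ t' ∧ t' < a + s := by
  refine ⟨s * (max t t' / s), Dvd.intro _ rfl, ?_⟩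
  have h0 := Int.emod_nonneg (max t t') hs.ne'
  have h1 := Int.emod_lt_of_pos (max t t') hs
  have h2 := Int.emod_add_mul_ediv (max t t') s
  rw [abs_lt] at h
  have m1 := le_max_left t t'
  have m2 := le_max_right t t'
  rcases max_choice t t' with hm | hm <;> rw [hm] at h0 h1 h2 m1 m2 ⊢ <;>
    refine ⟨?_, ?_, ?_, ?_⟩ <;> linarith [h.1, h.2]

/-- propositional core of the block argument -/
theorem gb_block_logic {α : Type*} {t00 t10 t01 t11 : α} {c00 c10 c01 c11 : Bool}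
    (F1 : t10 = t00 ∨ c10 = !c00) (F2 : t11 = t01 ∨ c11 = !c01)
    (F3 : t01 = t00 ∨ c01 = !c00) (F4 : t11 = t10 ∨ c11 = !c10) :
    (c00 = c11 → t00 ≠ t11 → c10 = !c11 ∧ c01 = !c11) ∧
    (c10 = c01 → t10 ≠ t01 → c10 = !c11 ∧ c00 = c11) := by
  constructor
  · intro hc ht
    constructor
    · rcases F1 with h1 | h1
      · rcases F4 with h4 | h4
        · exact absurd (h1.symm.trans h4.symm) ht
        · rw [h4, Bool.not_not]
      · rw [h1, hc]
    · rcases F3 with h3 | h3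
      · rcases F2 with h2 | h2
        · exact absurd (h3.symm.trans h2.symm) ht
        · rw [h2, Bool.not_not]
      · rw [h3, hc]
  · intro hc ht
    have a1 : c10 = !c11 := by
      rcases F4 with h4 | h4
      · rcases F2 with h2 | h2
        · exact absurd (h4.symm.trans h2) ht
        · rw [h2, Bool.not_not, hc]
      · rw [h4, Bool.not_not]
    refine ⟨a1, ?_⟩
    rcases F1 with h1 | h1
    · rcases F3 with h3 | h3
      · exact absurd (h1.trans h3.symm) ht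
      · rw [← hc, a1] at h3
        cases c00 <;> cases c11 <;> simp_all
    · rw [a1] at h1
      cases c00 <;> cases c11 <;> simp_all

theorem gb_blk_near (p : ℤ × ℤ) (e1 e2 : Bool) : dInf p (gbBlk p e1 e2) ≤ 1 := by
  unfold dInf gbBlk
  cases e1 <;> cases e2 <;> simp

namespace GbCtx

variable (G : GbCtx)

/-- tile identifier without the colour -/
noncomputable def tid (x : ℤ × ℤ) : ℕ × (ℤ × ℤ) := (G.lev x, G.win x)

/-- a mark: a checkerboard block one of whose diagonals joins two different tiles above the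
dummy level -/
def Mark (p : ℤ × ℤ) : Prop :=
  G.col (p.1 - 1, p.2) = (!G.col p) ∧ G.col (p.1, p.2 - 1) = (!G.col p) ∧
  G.col (p.1 - 1, p.2 - 1) = G.col p ∧
  ((G.kb < G.lev p ∧ G.kb < G.lev (p.1 - 1, p.2 - 1) ∧ G.tid p ≠ G.tid (p.1 - 1, p.2 - 1)) ∨
   (G.kb < G.lev (p.1 - 1, p.2) ∧ G.kb < G.lev (p.1, p.2 - 1) ∧
      G.tid (p.1 - 1, p.2) ≠ G.tid (p.1, p.2 - 1)))

/-- a colour change across the vertical line at `p` forces divisibility -/
theorem dvd_of_colH {p : ℤ × ℤ} (h : G.col (p.1 - 1, p.2) = !G.col p) :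
    (2 : ℤ) ^ (G.lev p - 4) ∣ p.1 := by
  have hk := G.kb_le_lev p
  have hk' := G.hk
  rcases gb_geoIdx_stepH (G.lev p - 4) (p.1 - 1, p.2) with h1 | h1
  · simp only [sub_add_cancel] at h1
    have := (G.cell_const (i := G.lev p - 4) (b := p) (y := (p.1 - 1, p.2)) (by omega) h1).2.2
    rw [this] at h
    cases hc : G.col p <;> simp [hc] at h
  · simpa using h1

theorem dvd_of_colV {p : ℤ × ℤ} (h : G.col (p.1, p.2 - 1) = !G.col p) :
    (2 : ℤ) ^ (G.lev p - 4) ∣ p.2 := by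
  have hk := G.kb_le_lev p
  have hk' := G.hk
  rcases gb_geoIdx_stepV (G.lev p - 4) (p.1, p.2 - 1) with h1 | h1
  · simp only [sub_add_cancel] at h1
    have := (G.cell_const (i := G.lev p - 4) (b := p) (y := (p.1, p.2 - 1)) (by omega) h1).2.2
    rw [this] at h
    cases hc : G.col p <;> simp [hc] at h
  · simpa using h1

theorem Mark.dvd {p : ℤ × ℤ} (h : G.Mark p) :
    (2 : ℤ) ^ (G.lev p - 4) ∣ p.1 ∧ (2 : ℤ) ^ (G.lev p - 4) ∣ p.2 :=
  ⟨G.dvd_of_colH h.1, G.dvd_of_colV h.2.1⟩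

theorem Mark.dvd5 {p : ℤ × ℤ} (h : G.Mark p) :
    (2 : ℤ) ^ (G.lev p - 5) ∣ p.1 ∧ (2 : ℤ) ^ (G.lev p - 5) ∣ p.2 := by
  have hd : (2 : ℤ) ^ (G.lev p - 5) ∣ 2 ^ (G.lev p - 4) := pow_dvd_pow _ (by omega)
  exact ⟨hd.trans (Mark.dvd G h).1, hd.trans (Mark.dvd G h).2⟩

/-- labels in the star of a grid point are the labels of the block sites -/
theorem rep_label {i : ℕ} {p y : ℤ × ℤ} (h1 : (2 : ℤ) ^ i ∣ p.1) (h2 : (2 : ℤ) ^ i ∣ p.2)
    (hy : geoSq p (2 ^ i) y) (hl : i + 4 ≤ G.lev (gbRep p y)) :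
    G.lev y = G.lev (gbRep p y) ∧ G.win y = G.win (gbRep p y) ∧ G.col y = G.col (gbRep p y) :=
  G.cell_const hl (gb_rep_idx h1 h2 hy)

/-- colour of the block sites of a mark -/
theorem Mark.col_blk {p : ℤ × ℤ} (h : G.Mark p) (e1 e2 : Bool) :
    G.col (gbBlk p e1 e2) = xor (G.col p) (xor e1 e2) := by
  obtain ⟨h1, h2, h3, _⟩ := h
  cases e1 <;> cases e2 <;> simp [gbBlk, h1, h2, h3]

/-- **star**: around a mark the colouring is an exact cross -/
theorem Mark.star {p : ℤ × ℤ} (h : G.Mark p) {y : ℤ × ℤ} (hy : geoSq p (2 ^ (G.lev p - 5)) y) :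
    G.col y = geoCross (G.col p) p y := by
  have hk := G.kb_le_lev p
  have hk' := G.hk
  have hadj := G.lev_adj (gb_blk_near p (decide (p.1 ≤ y.1)) (decide (p.2 ≤ y.2)))
  have := (G.rep_label (Mark.dvd5 G h).1 (Mark.dvd5 G h).2 hy (by unfold gbRep; omega)).2.2
  rw [this]
  unfold gbRep
  rw [Mark.col_blk G h]
  unfold geoCross geoDiag
  by_cases a1 : p.1 ≤ y.1 <;> by_cases a2 : p.2 ≤ y.2 <;> simp [a1, a2]

/-- **isolation** of the marks -/
theorem Mark.iso {p p' : ℤ × ℤ} (h : G.Mark p) (h' : G.Mark p') (hne : p ≠ p') :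
    (2 : ℤ) ^ (G.lev p - 5) ≤ dInf p p' := by
  by_contra hc
  have hlt : dInf p p' < 2 ^ (G.lev p - 5) := not_le.mp hc
  rw [geo_dInf_lt] at hlt
  obtain ⟨b1, b2, b3, b4⟩ := hlt
  have s0 := Mark.star G h (y := p') ⟨by linarith, by linarith, by linarith, by linarith⟩
  have s1 := Mark.star G h (y := (p'.1 - 1, p'.2))
    ⟨by simp only; linarith, by simp only; linarith, by simp only; linarith,
      by simp only; linarith⟩
  have s2 := Mark.star G h (y := (p'.1, p'.2 - 1))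
    ⟨by simp only; linarith, by simp only; linarith, by simp only; linarith,
      by simp only; linarith⟩
  rw [h'.1, s0] at s1
  rw [h'.2.1, s0] at s2
  unfold geoCross geoDiag at s1 s2
  apply hne
  have e1 : p.1 = p'.1 := by
    by_contra hn
    have : (p.1 ≤ p'.1 - 1 ↔ p.1 ≤ p'.1) := by omega
    simp only [this] at s1
    cases G.col p <;> cases decide (p.1 ≤ p'.1 ↔ p.2 ≤ p'.2) <;> simp at s1
  have e2 : p.2 = p'.2 := by
    by_contra hn
    have : (p.2 ≤ p'.2 - 1 ↔ p.2 ≤ p'.2) := by omega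
    simp only [this] at s2
    cases G.col p <;> cases decide (p.1 ≤ p'.1 ↔ p.2 ≤ p'.2) <;> simp at s2
  exact Prod.ext e1 e2

/-- marks are far from `Z` -/
theorem Mark.clear {p : ℤ × ℤ} (h : G.Mark p) {z : ℤ × ℤ} (hz : z ∈ G.Z) :
    ((G.C0 : ℤ) - 1) * 2 ^ G.lev p ≤ dInf p z := by
  have hC : (5 : ℤ) ≤ G.C0 := by exact_mod_cast G.hC
  have hp : (1 : ℤ) ≤ 2 ^ G.lev p := one_le_pow₀ (by norm_num)
  by_cases h0 : G.kb < G.lev p
  · have := G.lev_far h0 hz
    nlinarith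
  rcases h.2.2.2 with ⟨h1, _, _⟩ | ⟨h1, _, _⟩
  · exact absurd h1 h0
  · -- the north-west site is above the dummy level
    have hfar := G.lev_far h1 hz
    have e : gbBlk p false true = (p.1 - 1, p.2) := by simp [gbBlk]
    have htri := ct_dInf_triangle (p.1 - 1, p.2) p z
    have hn : dInf (p.1 - 1, p.2) p ≤ 1 := by
      rw [ct_dInf_comm, ← e]; exact gb_blk_near p false true
    have hpow : (2 : ℤ) ^ G.lev p ≤ 2 ^ G.lev (p.1 - 1, p.2) :=
      pow_le_pow_right₀ (by norm_num) (by omega)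
    have hq : (1 : ℤ) ≤ 2 ^ G.lev (p.1 - 1, p.2) := one_le_pow₀ (by norm_num)
    nlinarith

/-- flip relations around a block -/
theorem blk_flips (p : ℤ × ℤ) :
    (G.tid (p.1, p.2 - 1) = G.tid (p.1 - 1, p.2 - 1) ∨
      G.col (p.1, p.2 - 1) = !G.col (p.1 - 1, p.2 - 1)) ∧
    (G.tid p = G.tid (p.1 - 1, p.2) ∨ G.col p = !G.col (p.1 - 1, p.2)) ∧
    (G.tid (p.1 - 1, p.2) = G.tid (p.1 - 1, p.2 - 1) ∨
      G.col (p.1 - 1, p.2) = !G.col (p.1 - 1, p.2 - 1)) ∧
    (G.tid p = G.tid (p.1, p.2 - 1) ∨ G.col p = !G.col (p.1, p.2 - 1)) := by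
  have f1 := G.flipH (p.1 - 1, p.2 - 1)
  have f2 := G.flipH (p.1 - 1, p.2)
  have f3 := G.flipV (p.1 - 1, p.2 - 1)
  have f4 := G.flipV (p.1, p.2 - 1)
  simp only [sub_add_cancel] at f1 f2 f3 f4
  unfold tid
  refine ⟨f1.imp (fun h => by rw [h.1, h.2]) id, f2.imp (fun h => by rw [h.1, h.2]) id,
    f3.imp (fun h => by rw [h.1, h.2]) id, f4.imp (fun h => by rw [h.1, h.2]) id⟩

/-- the block argument: two block sites of the same colour in different tiles -/
theorem blk_mark (p : ℤ × ℤ) (e1 e2 f1 f2 : Bool)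
    (hc : G.col (gbBlk p e1 e2) = G.col (gbBlk p f1 f2))
    (ht : G.tid (gbBlk p e1 e2) ≠ G.tid (gbBlk p f1 f2))
    (hl : G.kb < G.lev (gbBlk p e1 e2)) (hl' : G.kb < G.lev (gbBlk p f1 f2)) :
    G.Mark p ∧ f1 = (!e1) ∧ f2 = !e2 := by
  obtain ⟨F1, F2, F3, F4⟩ := G.blk_flips p
  have L := gb_block_logic F1 F2 F3 F4
  have adj : ∀ {a b : ℤ × ℤ}, (G.tid a = G.tid b ∨ G.col a = !G.col b) → G.col a = G.col b →
      G.tid a = G.tid b := by
    intro a b h hab
    rcases h with h | h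
    · exact h
    · rw [hab] at h
      cases hb : G.col b <;> simp [hb] at h
  cases e1 <;> cases e2 <;> cases f1 <;> cases f2 <;>
    simp only [gbBlk, if_true, if_false, Bool.false_eq_true, Prod.mk.eta] at hc ht hl hl'
  · exact absurd rfl ht
  · exact absurd (adj F3 hc.symm).symm ht
  · exact absurd (adj F1 hc.symm).symm ht
  · obtain ⟨a1, a2⟩ := L.1 hc ht
    exact ⟨⟨a2, a1, hc, Or.inl ⟨hl', hl, ht.symm⟩⟩, rfl, rfl⟩
  · exact absurd (adj F3 hc) ht
  · exact absurd rfl ht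
  · obtain ⟨a1, a2⟩ := L.2 hc.symm ht.symm
    exact ⟨⟨by rw [hc, a1], a1, a2, Or.inr ⟨hl, hl', ht⟩⟩, rfl, rfl⟩
  · exact absurd (adj F2 hc.symm).symm ht
  · exact absurd (adj F1 hc) ht
  · obtain ⟨a1, a2⟩ := L.2 hc ht
    exact ⟨⟨by rw [← hc, a1], a1, a2, Or.inr ⟨hl', hl, ht.symm⟩⟩, rfl, rfl⟩
  · exact absurd rfl ht
  · exact absurd (adj F4 hc.symm).symm ht
  · obtain ⟨a1, a2⟩ := L.1 hc.symm ht.symm
    exact ⟨⟨a2, a1, hc.symm, Or.inl ⟨hl, hl', ht⟩⟩, rfl, rfl⟩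
  · exact absurd (adj F2 hc) ht
  · exact absurd (adj F4 hc) ht
  · exact absurd rfl ht

/-- **separation**: two near sites of the same colour in different tiles see a mark -/
theorem sep {x y : ℤ × ℤ} (hx : G.kb < G.lev x) (hy : G.kb < G.lev y) (hc : G.col x = G.col y)
    (ht : G.tid x ≠ G.tid y) (hd : dInf x y * 2 ^ 10 < 2 ^ G.lev x) :
    ∃ p, G.Mark p ∧ geoSq p (2 ^ (G.lev p - 8)) y := by
  have hk' := G.hk
  have hk := G.kb_le_lev x
  set l := G.lev x with hl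
  have hs : (0 : ℤ) < 2 ^ (l - 5) := by positivity
  have e10 : (2 : ℤ) ^ l = 2 ^ (l - 10) * 2 ^ 10 := by rw [← pow_add]; congr 1; omega
  have hd1 : dInf x y < 2 ^ (l - 10) := by
    rw [e10] at hd
    exact lt_of_mul_lt_mul_right hd (by positivity)
  have e5 : (2 : ℤ) ^ (l - 5) = 2 ^ (l - 10) * 32 := by
    have : l - 5 = l - 10 + 5 := by omega
    rw [this, pow_add]; norm_num
  have e0 : (2 : ℤ) ^ l = 2 ^ (l - 10) * 1024 := by rw [e10]; norm_num
  have hq : (0 : ℤ) < 2 ^ (l - 10) := by positivity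
  have hd5 : dInf x y < 2 ^ (l - 5) := by linarith
  have hdx := hd5
  unfold dInf at hdx
  rw [max_lt_iff] at hdx
  obtain ⟨a, ha, a1, a2, a3, a4⟩ := gb_exists_corner hs hdx.1
  obtain ⟨b, hb, b1, b2, b3, b4⟩ := gb_exists_corner hs hdx.2
  have sx : geoSq (a, b) (2 ^ (l - 5)) x := ⟨a1, a2, b1, b2⟩
  have sy : geoSq (a, b) (2 ^ (l - 5)) y := ⟨a3, a4, b3, b4⟩
  -- levels near `x`
  have near : ∀ w : ℤ × ℤ, dInf x w ≤ 2 ^ l → l ≤ G.lev w + 1 := fun w hw => (G.lev_lip hw).1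
  have dxp : dInf x (a, b) ≤ 2 ^ (l - 5) := by
    rw [geo_dInf_le]; simp only; refine ⟨?_, ?_, ?_, ?_⟩ <;> linarith
  have nb : ∀ e1 e2, l ≤ G.lev (gbBlk (a, b) e1 e2) + 1 := by
    intro e1 e2
    apply near
    have := ct_dInf_triangle x (a, b) (gbBlk (a, b) e1 e2)
    have := gb_blk_near (a, b) e1 e2
    linarith
  have lx := G.rep_label (p := (a, b)) ha hb sx (by
    have := nb (decide ((a, b).1 ≤ x.1)) (decide ((a, b).2 ≤ x.2)); unfold gbRep; omega)
  have ly := G.rep_label (p := (a, b)) ha hb sy (by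
    have := nb (decide ((a, b).1 ≤ y.1)) (decide ((a, b).2 ≤ y.2)); unfold gbRep; omega)
  unfold gbRep at lx ly
  simp only at lx ly
  obtain ⟨hM, o1, o2⟩ := G.blk_mark (a, b) (decide (a ≤ x.1)) (decide (b ≤ x.2))
    (decide (a ≤ y.1)) (decide (b ≤ y.2)) (by rw [← lx.2.2, ← ly.2.2, hc])
    (by unfold tid at ht ⊢; rw [← lx.1, ← lx.2.1, ← ly.1, ← ly.2.1]; exact ht)
    (by rw [← lx.1]; exact hx) (by rw [← ly.1]; exact hy)
  refine ⟨(a, b), hM, ?_⟩
  have lp : l ≤ G.lev (a, b) + 1 := by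
    have := nb true true
    simpa [gbBlk] using this
  have hpow : (2 : ℤ) ^ (l - 10) ≤ 2 ^ (G.lev (a, b) - 8) :=
    pow_le_pow_right₀ (by norm_num) (by omega)
  rw [geo_dInf_lt] at hd1
  obtain ⟨c1, c2, c3, c4⟩ := hd1
  have o1' : (a ≤ y.1) ↔ ¬ (a ≤ x.1) := by
    by_cases u : a ≤ x.1 <;> by_cases v : a ≤ y.1 <;> simp [u, v] at o1 ⊢
  have o2' : (b ≤ y.2) ↔ ¬ (b ≤ x.2) := by
    by_cases u : b ≤ x.2 <;> by_cases v : b ≤ y.2 <;> simp [u, v] at o2 ⊢
  refine ⟨?_, ?_, ?_, ?_⟩ <;> simp only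
  · by_cases u : a ≤ x.1
    · linarith
    · have := o1'.mpr u; linarith
  · by_cases u : a ≤ x.1
    · have := (not_congr o1').mpr (not_not.mpr u); linarith
    · linarith
  · by_cases u : b ≤ x.2
    · linarith
    · have := o2'.mpr u; linarith
  · by_cases u : b ≤ x.2
    · have := (not_congr o2').mpr (not_not.mpr u); linarith
    · linarith

end GbCtx

end Claimed.Agent.R296
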