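import Mathlib
import Claimed.Agent.R296.GeoBaseD

/-!
# Row 296, P1 Section 10: the base colouring, part E (diameter, tiles as unions of squares,
active cells, windows)
-/

set_option autoImplicit false

namespace Claimed.Agent.R296

open Finset

/-- a finite set of lattice points of sup diameter `≤ D` has at most `(D+1)²` elements -/
theorem gb_card_le_of_diam (S : Finset (ℤ × ℤ)) (D : ℕ)
    (h : ∀ x ∈ S, ∀ y ∈ S, dInf x y ≤ D) : S.card ≤ (D + 1) ^ 2 := by
  rcases S.eq_empty_or_nonempty with rfl | hne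
  · simp
  have hne1 : (S.image Prod.fst).Nonempty := hne.image _
  have hne2 : (S.image Prod.snd).Nonempty := hne.image _
  set a0 := (S.image Prod.fst).min' hne1 with ha0
  set b0 := (S.image Prod.snd).min' hne2 with hb0
  obtain ⟨xa, hxa, exa⟩ := Finset.mem_image.mp ((S.image Prod.fst).min'_mem hne1)
  obtain ⟨xb, hxb, exb⟩ := Finset.mem_image.mp ((S.image Prod.snd).min'_mem hne2)
  have hsub : S ⊆ Finset.Icc a0 (a0 + D) ×ˢ Finset.Icc b0 (b0 + D) := by
    intro x hx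
    rw [Finset.mem_product, Finset.mem_Icc, Finset.mem_Icc]
    have l1 : a0 ≤ x.1 := Finset.min'_le _ _ (Finset.mem_image_of_mem _ hx)
    have l2 : b0 ≤ x.2 := Finset.min'_le _ _ (Finset.mem_image_of_mem _ hx)
    have d1 := (geo_dInf_le.mp (h x hx xa hxa)).1
    have d2 := (geo_dInf_le.mp (h x hx xb hxb)).2.2.1
    rw [exa] at d1
    rw [exb] at d2
    refine ⟨⟨l1, by linarith⟩, l2, by linarith⟩
  calc S.card ≤ (Finset.Icc a0 (a0 + D) ×ˢ Finset.Icc b0 (b0 + D)).card := Finset.card_le_card hsub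
    _ = (D + 1) ^ 2 := by
      rw [Finset.card_product, Int.card_Icc, Int.card_Icc, sq]
      have e1 : (a0 + D + 1 - a0).toNat = D + 1 := by omega
      have e2 : (b0 + D + 1 - b0).toNat = D + 1 := by omega
      rw [e1, e2]

/-- near quotients force near numbers -/
theorem gb_abs_lt_of_div_le {s a b t : ℤ} (hs : 0 < s) (h : |a / s - b / s| ≤ t) :
    |a - b| < (t + 1) * s := by
  rw [abs_le] at h
  rw [abs_lt]
  have ha := Int.emod_add_mul_ediv a s
  have hb := Int.emod_add_mul_ediv b s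
  have ha0 := Int.emod_nonneg a hs.ne'
  have hb0 := Int.emod_nonneg b hs.ne'
  have ha1 := Int.emod_lt_of_pos a hs
  have hb1 := Int.emod_lt_of_pos b hs
  have e1 := mul_le_mul_of_nonneg_left h.1 hs.le
  have e2 := mul_le_mul_of_nonneg_left h.2 hs.le
  constructor <;> nlinarith

/-- the corner of the dyadic cell with index `c` -/
def gbCorner (i : ℕ) (c : ℤ × ℤ) : ℤ × ℤ := (2 ^ i * c.1, 2 ^ i * c.2)

theorem gb_idx_corner (i : ℕ) (c : ℤ × ℤ) : geoIdx i (gbCorner i c) = c := by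
  have hs : (2 : ℤ) ^ i ≠ 0 := by positivity
  unfold geoIdx gbCorner
  simp only
  rw [Int.mul_ediv_cancel_left _ hs, Int.mul_ediv_cancel_left _ hs]

theorem gb_box_iff (i : ℕ) (c y : ℤ × ℤ) : geoBox (gbCorner i c) (2 ^ i) y ↔ geoIdx i y = c := by
  have hs : (0 : ℤ) < 2 ^ i := by positivity
  unfold geoBox gbCorner geoIdx
  simp only
  constructor
  · rintro ⟨h1, h2, h3, h4⟩
    rw [gb_div_eq hs (u := c.1) (by linarith) (by linarith),
      gb_div_eq hs (u := c.2) (by linarith) (by linarith)]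
  · intro h
    have e1 : y.1 / 2 ^ i = c.1 := congrArg Prod.fst h
    have e2 : y.2 / 2 ^ i = c.2 := congrArg Prod.snd h
    have a1 := Int.emod_add_mul_ediv y.1 (2 ^ i)
    have a2 := Int.emod_add_mul_ediv y.2 (2 ^ i)
    have b1 := Int.emod_nonneg y.1 hs.ne'
    have b2 := Int.emod_nonneg y.2 hs.ne'
    have c1 := Int.emod_lt_of_pos y.1 hs
    have c2 := Int.emod_lt_of_pos y.2 hs
    rw [e1] at a1
    rw [e2] at a2
    refine ⟨?_, ?_, ?_, ?_⟩ <;> linarith

/-- a cell of the shifted grid versus the dyadic cell (scalar) -/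
theorem gb_shift_div {s th a : ℤ} (hs : 0 < s) (h0 : 0 ≤ th) (h1 : th ≤ s) :
    (a - th) / s = a / s ∨ (a - th) / s = a / s - 1 := by
  have ha := Int.emod_add_mul_ediv a s
  have ha0 := Int.emod_nonneg a hs.ne'
  have ha1 := Int.emod_lt_of_pos a hs
  by_cases h : th ≤ a % s
  · left
    exact gb_div_eq hs (by nlinarith) (by nlinarith)
  · right
    exact gb_div_eq hs (by nlinarith) (by nlinarith)

/-- standalone form of `GbCtx.Active` -/
def gbActive (C0 : ℕ) (Z : Finset (ℤ × ℤ)) (kb j : ℕ) (c : ℤ × ℤ) : Prop :=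
  ∃ y, gbIdx j y = c ∧ geoLev C0 Z kb y = j

open Classical in
/-- the finite set of the active cells of `G_j` -/
noncomputable def gbActF (C0 : ℕ) (Z : Finset (ℤ × ℤ)) (kb j : ℕ) : Finset (ℤ × ℤ) :=
  ((geoCells C0 Z j 1).biUnion fun c =>
    ({c, (c.1 - 1, c.2), (c.1, c.2 - 1), (c.1 - 1, c.2 - 1)} : Finset (ℤ × ℤ))).filter
    (gbActive C0 Z kb j)

open Classical in
theorem gb_mem_actF {C0 : ℕ} {Z : Finset (ℤ × ℤ)} (hC : 1 ≤ C0) (hZ : Z.Nonempty) {kb j : ℕ}
    {c : ℤ × ℤ} : c ∈ gbActF C0 Z kb j ↔ gbActive C0 Z kb j c := by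
  unfold gbActF
  rw [Finset.mem_filter]
  refine ⟨fun h => h.2, fun h => ⟨?_, h⟩⟩
  obtain ⟨y, hy, hl⟩ := h
  rw [Finset.mem_biUnion]
  refine ⟨geoIdx j y, ?_, ?_⟩
  · rw [geo_mem_cells, ← hl]
    exact geo_lev_mem hC hZ kb y
  · have hs : (0 : ℤ) < 2 ^ j := by positivity
    have hth : (2 : ℤ) ^ (j - 3) ≤ 2 ^ j := pow_le_pow_right₀ (by norm_num) (by omega)
    have h0 : (0 : ℤ) ≤ 2 ^ (j - 3) := by positivity
    rw [← hy]
    unfold gbIdx geoIdx
    simp only [Finset.mem_insert, Finset.mem_singleton, Prod.mk.injEq]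
    rcases gb_shift_div (a := y.1) hs h0 hth with e1 | e1 <;>
      rcases gb_shift_div (a := y.2) hs h0 hth with e2 | e2 <;> rw [e1, e2] <;> simp

open Classical in
theorem gb_card_actF (C0 : ℕ) (Z : Finset (ℤ × ℤ)) (kb j : ℕ) :
    (gbActF C0 Z kb j).card ≤ 16 * (2 * C0 + 1) ^ 2 * Z.card := by
  unfold gbActF
  refine (Finset.card_filter_le _ _).trans ?_
  have h1 : ((geoCells C0 Z j 1).biUnion fun c =>
      ({c, (c.1 - 1, c.2), (c.1, c.2 - 1), (c.1 - 1, c.2 - 1)} : Finset (ℤ × ℤ))).card ≤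
      (geoCells C0 Z j 1).card * 4 := by
    refine Finset.card_biUnion_le_card_mul _ _ _ fun c _ => ?_
    exact Finset.card_le_four
  have h2 := geo_card_cells C0 Z j 1
  calc _ ≤ (geoCells C0 Z j 1).card * 4 := h1
    _ ≤ (Z.card * (2 ^ 1 * (2 * C0 + 1)) ^ 2) * 4 := Nat.mul_le_mul_right _ h2
    _ = 16 * (2 * C0 + 1) ^ 2 * Z.card := by ring

namespace GbCtx

variable (G : GbCtx)

/-- the finite set of active cells -/
noncomputable def actF (j : ℕ) : Finset (ℤ × ℤ) := gbActF G.C0 G.Z G.kb j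

theorem mem_actF {j : ℕ} {c : ℤ × ℤ} : c ∈ G.actF j ↔ G.Active j c :=
  gb_mem_actF G.hC1 G.hZ

theorem card_actF (j : ℕ) : (G.actF j).card ≤ 16 * (2 * G.C0 + 1) ^ 2 * G.Z.card :=
  gb_card_actF _ _ _ _

/-- sites of the same level and window are closer than `m 2^k` -/
theorem diam_lt {y y' : ℤ × ℤ} (hl : G.lev y = G.lev y') (hw : G.win y = G.win y') :
    dInf y y' < (G.m (G.lev y) : ℤ) * 2 ^ G.lev y := by
  unfold win at hw
  rw [← hl] at hw
  have h := gb_win_diam (G.m_pos _) hw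
  have hs : (0 : ℤ) < 2 ^ G.lev y := by positivity
  unfold dInf at h
  rw [max_lt_iff] at h
  unfold gbIdx at h
  simp only at h
  have h1 := gb_abs_lt_of_div_le (a := y.1 - 2 ^ (G.lev y - 3)) (b := y'.1 - 2 ^ (G.lev y - 3))
    (t := (G.m (G.lev y) : ℤ) - 1) hs (by linarith [h.1])
  have h2 := gb_abs_lt_of_div_le (a := y.2 - 2 ^ (G.lev y - 3)) (b := y'.2 - 2 ^ (G.lev y - 3))
    (t := (G.m (G.lev y) : ℤ) - 1) hs (by linarith [h.2])
  unfold dInf
  apply max_lt
  · have e : y.1 - y'.1 = y.1 - 2 ^ (G.lev y - 3) - (y'.1 - 2 ^ (G.lev y - 3)) := by ring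
    rw [e]; linarith
  · have e : y.2 - y'.2 = y.2 - 2 ^ (G.lev y - 3) - (y'.2 - 2 ^ (G.lev y - 3)) := by ring
    rw [e]; linarith

theorem m_cast (j : ℕ) : (G.m j : ℤ) = 2 ^ (j / G.q0 + 1) := by unfold m; push_cast; rfl

theorem diam {y y' : ℤ × ℤ} (hl : G.lev y = G.lev y') (hw : G.win y = G.win y') :
    dInf y y' ≤ 2 ^ (G.lev y + G.lev y / G.q0 + 2) := by
  have h := G.diam_lt hl hw
  rw [m_cast, ← pow_add] at h
  refine h.le.trans (pow_le_pow_right₀ (by norm_num) (by omega))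

/-- **tiles are unions of few equal dyadic squares** -/
theorem tile (k : ℕ) (w : ℤ × ℤ) (c : Bool) (hk : 4 ≤ k) :
    ∃ cs : Finset (ℤ × ℤ), cs.card ≤ 2 ^ (2 * (k / G.q0) + 12) ∧
      ∀ y, (G.lev y = k ∧ G.win y = w ∧ G.col y = c) ↔ ∃ u ∈ cs, geoBox u (2 ^ (k - 4)) y := by
  classical
  by_cases hex : ∃ y0, G.lev y0 = k ∧ G.win y0 = w ∧ G.col y0 = c
  swap
  · refine ⟨∅, by simp, fun y => ⟨fun h => (hex ⟨y, h⟩).elim, fun h => ?_⟩⟩
    obtain ⟨u, hu, _⟩ := h
    simp at hu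
  obtain ⟨y0, hy0⟩ := hex
  set P : ℤ × ℤ → Prop := fun y => G.lev y = k ∧ G.win y = w ∧ G.col y = c with hP
  set i := k - 4 with hi
  have hs : (0 : ℤ) < 2 ^ i := by positivity
  have e16 : (2 : ℤ) ^ k = 16 * 2 ^ i := by
    have : k = 4 + i := by omega
    rw [this, pow_add]; norm_num
  -- `P` is constant on cells
  have hcell : ∀ y y', P y → geoIdx i y = geoIdx i y' → P y' := by
    intro y y' hy hyy
    have := G.cell_const (i := i) (b := y) (y := y') (by rw [hy.1]; omega) hyy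
    exact ⟨this.1.trans hy.1, this.2.1.trans hy.2.1, this.2.2.trans hy.2.2⟩
  have hdist : ∀ y y', P y → P y' → dInf y y' < 16 * (G.m k : ℤ) * 2 ^ i := by
    intro y y' hy hy'
    have := G.diam_lt (y := y) (y' := y') (hy.1.trans hy'.1.symm) (hy.2.1.trans hy'.2.1.symm)
    rw [hy.1, e16] at this
    linarith
  set R : ℤ := 16 * (G.m k : ℤ) + 1 with hR
  set c0 := geoIdx i y0 with hc0
  set F : Finset (ℤ × ℤ) :=
    (Finset.Icc (c0.1 - R) (c0.1 + R) ×ˢ Finset.Icc (c0.2 - R) (c0.2 + R)).filter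
      fun d => P (gbCorner i d) with hF
  refine ⟨F.image (gbCorner i), ?_, ?_⟩
  · refine Finset.card_image_le.trans ?_
    have hdiam : ∀ x ∈ F, ∀ y ∈ F, dInf x y ≤ ((16 * G.m k - 1 : ℕ) : ℤ) := by
      intro x hx y hy
      have hx' := (Finset.mem_filter.mp hx).2
      have hy' := (Finset.mem_filter.mp hy).2
      have h := hdist _ _ hx' hy'
      have hm := G.m_pos k
      have ecast : ((16 * G.m k - 1 : ℕ) : ℤ) = 16 * (G.m k : ℤ) - 1 := by
        rw [Nat.cast_sub (by omega)]; push_cast; ring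
      rw [ecast]
      rw [geo_dInf_lt] at h
      unfold gbCorner at h
      simp only at h
      obtain ⟨h1, h2, h3, h4⟩ := h
      rw [geo_dInf_le]
      refine ⟨?_, ?_, ?_, ?_⟩
      · have : 2 ^ i * (x.1 - y.1) < 2 ^ i * (16 * (G.m k : ℤ)) := by linarith
        have := lt_of_mul_lt_mul_left this hs.le
        omega
      · have : 2 ^ i * (y.1 - x.1) < 2 ^ i * (16 * (G.m k : ℤ)) := by linarith
        have := lt_of_mul_lt_mul_left this hs.le
        omega
      · have : 2 ^ i * (x.2 - y.2) < 2 ^ i * (16 * (G.m k : ℤ)) := by linarith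
        have := lt_of_mul_lt_mul_left this hs.le
        omega
      · have : 2 ^ i * (y.2 - x.2) < 2 ^ i * (16 * (G.m k : ℤ)) := by linarith
        have := lt_of_mul_lt_mul_left this hs.le
        omega
    have h1 := gb_card_le_of_diam F _ hdiam
    have hm := G.m_pos k
    have e : 16 * G.m k - 1 + 1 = 16 * G.m k := by omega
    rw [e] at h1
    refine h1.trans ?_
    unfold m
    calc (16 * 2 ^ (k / G.q0 + 1)) ^ 2 = 2 ^ (2 * (k / G.q0) + 10) := by
          have : (16 : ℕ) = 2 ^ 4 := by norm_num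
          rw [this, ← pow_add, ← pow_mul]; congr 1; ring
      _ ≤ 2 ^ (2 * (k / G.q0) + 12) := Nat.pow_le_pow_right (by norm_num) (by omega)
  · intro y
    constructor
    · intro hy
      refine ⟨gbCorner i (geoIdx i y), ?_, (gb_box_iff i _ y).mpr rfl⟩
      apply Finset.mem_image_of_mem
      rw [hF, Finset.mem_filter]
      refine ⟨?_, hcell y _ hy (gb_idx_corner i _).symm⟩
      have h := (hdist y y0 hy hy0).le
      rw [geo_dInf_le_iff] at h
      have h1 := geo_abs_div hs h.1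
      have h2 := geo_abs_div hs h.2
      rw [abs_le] at h1 h2
      rw [Finset.mem_product, Finset.mem_Icc, Finset.mem_Icc]
      have f1 : (geoIdx i y).1 = y.1 / 2 ^ i := rfl
      have f2 : (geoIdx i y).2 = y.2 / 2 ^ i := rfl
      have g1 : c0.1 = y0.1 / 2 ^ i := rfl
      have g2 : c0.2 = y0.2 / 2 ^ i := rfl
      rw [f1, f2, g1, g2]
      refine ⟨⟨?_, ?_⟩, ?_, ?_⟩ <;> linarith [h1.1, h1.2, h2.1, h2.2]
    · rintro ⟨u, hu, hbox⟩
      obtain ⟨d, hd, rfl⟩ := Finset.mem_image.mp hu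
      have hd' := (Finset.mem_filter.mp hd).2
      have := (gb_box_iff i d y).mp hbox
      exact hcell _ y hd' (by rw [gb_idx_corner, this])

/-- **windows per level** -/
theorem wins (k : ℕ) : ∃ ws : Finset (ℤ × ℤ), ws.card ≤ 16 * (2 * G.C0 + 1) ^ 2 * G.Z.card ∧
    ∀ y, G.lev y = k → G.win y ∈ ws := by
  classical
  refine ⟨(G.actF k).image (gbWin (G.m k) (G.al k) (G.al' k)),
    Finset.card_image_le.trans (G.card_actF k), fun y hy => ?_⟩
  unfold win
  rw [hy]
  exact Finset.mem_image_of_mem _ (G.mem_actF.mpr ⟨y, rfl, hy⟩)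

end GbCtx

end Claimed.Agent.R296
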