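import Mathlib
import Claimed.Agent.R296.GeoBaseE

/-!
# Row 296, P1 Section 10: the base colouring, part F (every mark touches an active chain cell;
counting of the marks)
-/

set_option autoImplicit false

namespace Claimed.Agent.R296

open Finset

namespace GbCtx

variable (G : GbCtx)

/-- if no chain indicator is on, the colour is the parity of the level -/
theorem col_of_kap_false {b : ℤ × ℤ} (h : ∀ j, G.kap j b = false) :
    G.col b = Nat.bodd (G.lev b) := by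
  unfold col
  rw [h, h, h]
  simp

/-- a level change across a line forces divisibility by `2 ^ (min level)` -/
theorem dvd_of_lev_ne {x x' : ℤ × ℤ} {a : ℤ} (hs : GbStep x x' a) (hl : G.lev x' ≠ G.lev x)
    {i : ℕ} (h1 : i ≤ G.lev x) : (2 : ℤ) ^ i ∣ a := by
  rcases hs.dyad i with h | h
  · exact absurd (G.lev_congr h1 h.symm) hl
  · exact h

/-- **every mark touches an active chain cell** -/
theorem Mark.exists_kap {p : ℤ × ℤ} (h : G.Mark p) :
    ∃ e1 e2 j, G.kap j (gbBlk p e1 e2) = true := by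
  by_contra hcon
  have hall : ∀ e1 e2 j, G.kap j (gbBlk p e1 e2) = false := by
    intro e1 e2 j
    by_contra hc
    exact hcon ⟨e1, e2, j, Bool.eq_true_of_not_eq_false hc⟩
  have hk := G.kb_le_lev p
  have hk' := G.hk
  have b11 : gbBlk p true true = p := by simp [gbBlk]
  have b01 : gbBlk p false true = (p.1 - 1, p.2) := by simp [gbBlk]
  have b10 : gbBlk p true false = (p.1, p.2 - 1) := by simp [gbBlk]
  have b00 : gbBlk p false false = (p.1 - 1, p.2 - 1) := by simp [gbBlk]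
  have c11 := G.col_of_kap_false (hall true true)
  have c01 := G.col_of_kap_false (hall false true)
  have c10 := G.col_of_kap_false (hall true false)
  have c00 := G.col_of_kap_false (hall false false)
  rw [b11] at c11
  rw [b01] at c01
  rw [b10] at c10
  rw [b00] at c00
  obtain ⟨h1, h2, h3, h4⟩ := h
  rw [c01, c11] at h1
  rw [c10, c11] at h2
  rw [c00, c11] at h3
  -- adjacency of the levels
  have a01 := G.lev_adj (gb_blk_near p false true)
  have a10 := G.lev_adj (gb_blk_near p true false)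
  have a00 := G.lev_adj (gb_blk_near p false false)
  rw [b01] at a01
  rw [b10] at a10
  rw [b00] at a00
  have ad : dInf (p.1 - 1, p.2) (p.1, p.2 - 1) ≤ 1 := by unfold dInf; simp
  have a2 := G.lev_adj ad
  -- parities
  have par : ∀ a b : ℕ, Nat.bodd a = Nat.bodd b → a % 2 = b % 2 := by
    intro a b hab
    rw [Nat.mod_two_of_bodd, Nat.mod_two_of_bodd, hab]
  have par' : ∀ a b : ℕ, Nat.bodd a = (!Nat.bodd b) → a % 2 ≠ b % 2 := by
    intro a b hab
    rw [Nat.mod_two_of_bodd, Nat.mod_two_of_bodd, hab]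
    cases Nat.bodd b <;> simp
  have p1 := par' _ _ h1
  have p2 := par' _ _ h2
  have p3 := par _ _ h3
  have l00 : G.lev (p.1 - 1, p.2 - 1) = G.lev p := by omega
  have l01 : G.lev (p.1 - 1, p.2) = G.lev (p.1, p.2 - 1) := by omega
  -- steps
  have sH := gb_stepH (p.1 - 1, p.2)
  have sV := gb_stepV (p.1, p.2 - 1)
  have sH' := gb_stepH (p.1 - 1, p.2 - 1)
  simp only [sub_add_cancel, Prod.mk.eta] at sH sV sH'
  have d1 : (2 : ℤ) ^ (G.lev p - 1) ∣ p.1 :=
    G.dvd_of_lev_ne sH (by omega) (by omega)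
  have d2 : (2 : ℤ) ^ (G.lev p - 1) ∣ p.2 :=
    G.dvd_of_lev_ne sV (by omega) (by omega)
  have gH : ∀ j, 3 ≤ j → j ≤ G.lev p + 1 → gbIdx j p = gbIdx j (p.1 - 1, p.2) := by
    intro j h3 hj
    rcases sH.grid j with hh | hh
    · exact hh
    · exact (gb_line_ne_dyadic h3 (by omega) d1 hh).elim
  have gV : ∀ j, 3 ≤ j → j ≤ G.lev p + 1 → gbIdx j p = gbIdx j (p.1, p.2 - 1) := by
    intro j h3 hj
    rcases sV.grid j with hh | hh
    · exact hh
    · exact (gb_line_ne_dyadic h3 (by omega) d2 hh).elim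
  have gH' : ∀ j, 3 ≤ j → j ≤ G.lev p + 1 →
      gbIdx j (p.1, p.2 - 1) = gbIdx j (p.1 - 1, p.2 - 1) := by
    intro j h3 hj
    rcases sH'.grid j with hh | hh
    · exact hh
    · exact (gb_line_ne_dyadic h3 (by omega) d1 hh).elim
  rcases h4 with ⟨_, _, ht⟩ | ⟨_, _, ht⟩
  · apply ht
    unfold tid win
    rw [l00, (gV _ (by omega) (by omega)).trans (gH' _ (by omega) (by omega))]
  · apply ht
    unfold tid win
    rw [l01, ← gH _ (by omega) (by omega), ← gV _ (by omega) (by omega)]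

/-- the active chain cells of `G_j` -/
noncomputable def acF (j : ℕ) : Finset (ℤ × ℤ) := by
  classical exact (G.actF j).filter (G.Chain j)

theorem mem_acF {j : ℕ} {c : ℤ × ℤ} : c ∈ G.acF j ↔ G.Chain j c ∧ G.Active j c := by
  classical
  unfold acF
  rw [Finset.mem_filter, G.mem_actF, and_comm]

end GbCtx

/-- the points of the closed cell `c` of `G_j` whose coordinates relative to the corner are
multiples of `2 ^ (k - 5)` -/
noncomputable def gbPts (j k : ℕ) (c : ℤ × ℤ) : Finset (ℤ × ℤ) :=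
  (Finset.range (2 ^ (j + 5 - k) + 1) ×ˢ Finset.range (2 ^ (j + 5 - k) + 1)).image fun u =>
    (2 ^ (j - 3) + 2 ^ j * c.1 + 2 ^ (k - 5) * (u.1 : ℤ),
      2 ^ (j - 3) + 2 ^ j * c.2 + 2 ^ (k - 5) * (u.2 : ℤ))

theorem gb_card_pts (j k : ℕ) (c : ℤ × ℤ) : (gbPts j k c).card ≤ (2 ^ (j + 5 - k) + 1) ^ 2 := by
  unfold gbPts
  refine Finset.card_image_le.trans ?_
  rw [Finset.card_product, Finset.card_range, sq]

/-- scalar: position of `P` relative to the cell of `G_j` containing `P` or `P - 1` -/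
theorem gb_pts_scalar {j k : ℕ} (h5 : 5 ≤ k) (hkj : k ≤ j + 2) {P b : ℤ}
    (hb : b = P ∨ b = P - 1) (hP : (2 : ℤ) ^ (k - 5) ∣ P) :
    ∃ u : ℕ, u < 2 ^ (j + 5 - k) + 1 ∧
      P = 2 ^ (j - 3) + 2 ^ j * ((b - 2 ^ (j - 3)) / 2 ^ j) + 2 ^ (k - 5) * (u : ℤ) := by
  have hs : (0 : ℤ) < 2 ^ j := by positivity
  have ht : (0 : ℤ) < 2 ^ (k - 5) := by positivity
  set q := (b - 2 ^ (j - 3)) / 2 ^ j with hq
  have e0 := Int.emod_add_mul_ediv (b - 2 ^ (j - 3)) (2 ^ j)
  have e1 := Int.emod_nonneg (b - 2 ^ (j - 3)) hs.ne'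
  have e2 := Int.emod_lt_of_pos (b - 2 ^ (j - 3)) hs
  rw [← hq] at e0
  have dj : (2 : ℤ) ^ j = 2 ^ (k - 5) * 2 ^ (j + 5 - k) := by
    rw [← pow_add]; congr 1; omega
  have d3 : (2 : ℤ) ^ (k - 5) ∣ 2 ^ (j - 3) := pow_dvd_pow _ (by omega)
  have dj' : (2 : ℤ) ^ (k - 5) ∣ 2 ^ j := pow_dvd_pow _ (by omega)
  have hdiv : (2 : ℤ) ^ (k - 5) ∣ P - 2 ^ (j - 3) - 2 ^ j * q :=
    Dvd.dvd.sub (Dvd.dvd.sub hP d3) (Dvd.dvd.mul_right dj' q)
  obtain ⟨u, hu⟩ := hdiv
  have lo : 0 ≤ P - 2 ^ (j - 3) - 2 ^ j * q := by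
    rcases hb with rfl | rfl <;> linarith
  have hi : P - 2 ^ (j - 3) - 2 ^ j * q ≤ 2 ^ j := by
    rcases hb with rfl | rfl <;> linarith
  rw [hu] at lo hi
  have u0 : 0 ≤ u := by
    by_contra hc
    have : u ≤ -1 := by omega
    nlinarith
  have u1 : u ≤ 2 ^ (j + 5 - k) := by
    rw [dj] at hi
    exact le_of_mul_le_mul_left hi ht
  refine ⟨u.toNat, ?_, ?_⟩
  · have : (u.toNat : ℤ) < ((2 ^ (j + 5 - k) + 1 : ℕ) : ℤ) := by
      rw [Int.toNat_of_nonneg u0]; push_cast; linarith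
    exact_mod_cast this
  · rw [Int.toNat_of_nonneg u0]; linarith

namespace GbCtx

variable (G : GbCtx)

/-- candidates for the marks of level `k` -/
noncomputable def markF (k : ℕ) : Finset (ℤ × ℤ) :=
  (Finset.Icc (k - 2) (k + 2)).biUnion fun j => (G.acF j).biUnion fun c => gbPts j k c

theorem Mark.mem_markF {p : ℤ × ℤ} (h : G.Mark p) : p ∈ G.markF (G.lev p) := by
  obtain ⟨e1, e2, j, hkap⟩ := Mark.exists_kap G h
  have hk := G.kb_le_lev p
  have hk' := G.hk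
  have hloc := G.kap_local hkap
  have hadj := G.lev_adj (gb_blk_near p e1 e2)
  obtain ⟨hch, hact⟩ := G.kap_eq_true.mp hkap
  unfold markF
  rw [Finset.mem_biUnion]
  refine ⟨j, Finset.mem_Icc.mpr ⟨by omega, by omega⟩, ?_⟩
  rw [Finset.mem_biUnion]
  refine ⟨gbIdx j (gbBlk p e1 e2), G.mem_acF.mpr ⟨hch, hact⟩, ?_⟩
  obtain ⟨d1, d2⟩ := Mark.dvd5 G h
  have hb1 : (gbBlk p e1 e2).1 = p.1 ∨ (gbBlk p e1 e2).1 = p.1 - 1 := by
    cases e1 <;> simp [gbBlk]
  have hb2 : (gbBlk p e1 e2).2 = p.2 ∨ (gbBlk p e1 e2).2 = p.2 - 1 := by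
    cases e2 <;> simp [gbBlk]
  obtain ⟨u, hu, eu⟩ := gb_pts_scalar (j := j) (k := G.lev p) (by omega) (by omega) hb1 d1
  obtain ⟨v, hv, ev⟩ := gb_pts_scalar (j := j) (k := G.lev p) (by omega) (by omega) hb2 d2
  unfold gbPts
  rw [Finset.mem_image]
  refine ⟨(u, v), ?_, ?_⟩
  · rw [Finset.mem_product, Finset.mem_range, Finset.mem_range]
    exact ⟨hu, hv⟩
  · unfold gbIdx
    simp only
    rw [← eu, ← ev]

/-- the pigeonhole property of the residues -/
def Sparse : Prop :=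
  ∀ j, (G.acF j).card * 2 ^ (j / G.q0) ≤ 2 * (16 * (2 * G.C0 + 1) ^ 2 * G.Z.card)

theorem card_markF (hS : G.Sparse) (k : ℕ) (hk : 2 ≤ k) :
    (G.markF k).card * 2 ^ ((k - 1) / G.q0) ≤
      5 * (129 ^ 2 * (2 * (2 * (16 * (2 * G.C0 + 1) ^ 2 * G.Z.card)))) := by
  unfold markF
  have h1 : ∀ j ∈ Finset.Icc (k - 2) (k + 2),
      ((G.acF j).biUnion fun c => gbPts j k c).card * 2 ^ ((k - 1) / G.q0) ≤
        129 ^ 2 * (2 * (2 * (16 * (2 * G.C0 + 1) ^ 2 * G.Z.card))) := by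
    intro j hj
    rw [Finset.mem_Icc] at hj
    have c1 : ((G.acF j).biUnion fun c => gbPts j k c).card ≤ (G.acF j).card * 129 ^ 2 := by
      refine Finset.card_biUnion_le_card_mul _ _ _ fun c _ => ?_
      refine (gb_card_pts j k c).trans ?_
      have : 2 ^ (j + 5 - k) ≤ 2 ^ 7 := Nat.pow_le_pow_right (by norm_num) (by omega)
      exact Nat.pow_le_pow_left (by omega) 2
    have c2 : 2 ^ ((k - 1) / G.q0) ≤ 2 * 2 ^ (j / G.q0) := by
      rw [← pow_succ']
      apply Nat.pow_le_pow_right (by norm_num)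
      have hq := G.hq
      calc (k - 1) / G.q0 ≤ (j + G.q0) / G.q0 := Nat.div_le_div_right (by omega)
        _ = j / G.q0 + 1 := Nat.add_div_right _ (by omega)
    calc _ ≤ ((G.acF j).card * 129 ^ 2) * (2 * 2 ^ (j / G.q0)) := Nat.mul_le_mul c1 c2
      _ = 129 ^ 2 * (2 * ((G.acF j).card * 2 ^ (j / G.q0))) := by ring
      _ ≤ _ := Nat.mul_le_mul_left _ (Nat.mul_le_mul_left _ (hS j))
  calc _ ≤ (∑ j ∈ Finset.Icc (k - 2) (k + 2), ((G.acF j).biUnion fun c => gbPts j k c).card) *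
        2 ^ ((k - 1) / G.q0) := Nat.mul_le_mul_right _ Finset.card_biUnion_le
    _ = ∑ j ∈ Finset.Icc (k - 2) (k + 2),
        ((G.acF j).biUnion fun c => gbPts j k c).card * 2 ^ ((k - 1) / G.q0) := Finset.sum_mul _ _ _
    _ ≤ ∑ _j ∈ Finset.Icc (k - 2) (k + 2),
        129 ^ 2 * (2 * (2 * (16 * (2 * G.C0 + 1) ^ 2 * G.Z.card))) := Finset.sum_le_sum h1
    _ = _ := by
      rw [Finset.sum_const, Nat.card_Icc, smul_eq_mul]
      congr 1
      omega

end GbCtx

end Claimed.Agent.R296
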