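import Mathlib
import Claimed.Agent.R296.GeoBaseF

/-!
# Row 296, P1 Section 10: the base colouring, final assembly

`gb_geoBaseStmt : GeoBaseStmt` (the interface of `GeoDefs.lean`).
-/

set_option autoImplicit false

namespace Claimed.Agent.R296

open Finset

/-- an even residue modulo `2 M` which is met by at most `|Q| / M` elements -/
theorem gb_pigeon_even (Q : Finset (ℤ × ℤ)) (r : ℤ × ℤ → ℤ) {M : ℕ} (hM : 0 < M) :
    ∃ a : ℕ, 2 ∣ a ∧ a < 2 * M ∧
      (Q.filter fun c => r c % ((2 * M : ℕ) : ℤ) = a).card * M ≤ Q.card := by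
  classical
  obtain ⟨a0, ha0, h⟩ := geo_pigeon_int (Q.filter fun c => r c % 2 = 0) (fun c => r c / 2) hM
  refine ⟨2 * a0, Dvd.intro _ rfl, by omega, ?_⟩
  have hsub : (Q.filter fun c => r c % ((2 * M : ℕ) : ℤ) = ((2 * a0 : ℕ) : ℤ)) ⊆
      ((Q.filter fun c => r c % 2 = 0).filter fun c => r c / 2 % (M : ℤ) = a0) := by
    intro c hc
    rw [Finset.mem_filter] at hc
    obtain ⟨hcQ, hc⟩ := hc
    have e := Int.emod_add_mul_ediv (r c) ((2 * M : ℕ) : ℤ)
    rw [hc] at e
    push_cast at e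
    set q := r c / (2 * (M : ℤ)) with hq
    have e2 : r c = 2 * ((a0 : ℤ) + q * M) := by rw [← e]; ring
    rw [Finset.mem_filter, Finset.mem_filter]
    refine ⟨⟨hcQ, ?_⟩, ?_⟩
    · rw [e2]; exact Int.mul_emod_right _ _
    · rw [e2, Int.mul_ediv_cancel_left _ (by norm_num), Int.add_mul_emod_self_right]
      exact Int.emod_eq_of_lt (by positivity) (by exact_mod_cast ha0)
  calc _ ≤ ((Q.filter fun c => r c % 2 = 0).filter fun c => r c / 2 % (M : ℤ) = a0).card * M :=
        Nat.mul_le_mul_right _ (Finset.card_le_card hsub)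
    _ ≤ (Q.filter fun c => r c % 2 = 0).card := h
    _ ≤ Q.card := Finset.card_filter_le _ _

/-- existence of a sparse context -/
theorem gb_exists_ctx (C0 kb q0 : ℕ) (Z : Finset (ℤ × ℤ)) (hC : 5 ≤ C0) (hk : 11 ≤ kb)
    (hq : 1 ≤ q0) (hZ : Z.Nonempty) :
    ∃ G : GbCtx, G.C0 = C0 ∧ G.kb = kb ∧ G.q0 = q0 ∧ G.Z = Z ∧ G.Sparse := by
  classical
  have hM : ∀ j : ℕ, 0 < 2 ^ (j / q0) := fun j => by positivity
  choose al h1 h2 h3 using fun j : ℕ =>
    gb_pigeon_even (gbActF C0 Z kb j) (fun c => c.1 - c.2) (hM j)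
  choose al' h1' h2' h3' using fun j : ℕ =>
    gb_pigeon_even (gbActF C0 Z kb j) (fun c => c.1 + c.2) (hM j)
  let G : GbCtx :=
    { C0 := C0
      kb := kb
      q0 := q0
      Z := Z
      al := al
      al' := al'
      hC := hC
      hk := hk
      hq := hq
      hZ := hZ
      hal := h1
      hal' := h1'
      hlt := fun j => by rw [pow_succ']; exact h2 j
      hlt' := fun j => by rw [pow_succ']; exact h2' j }
  refine ⟨G, rfl, rfl, rfl, rfl, ?_⟩
  intro j
  change (G.acF j).card * 2 ^ (j / q0) ≤ 2 * (16 * (2 * C0 + 1) ^ 2 * Z.card)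
  have hsub : G.acF j ⊆
      ((gbActF C0 Z kb j).filter fun c => (c.1 - c.2) % ((2 * 2 ^ (j / q0) : ℕ) : ℤ) = al j) ∪
      ((gbActF C0 Z kb j).filter fun c => (c.1 + c.2) % ((2 * 2 ^ (j / q0) : ℕ) : ℤ) = al' j) := by
    intro c hc
    obtain ⟨hch, hact⟩ := G.mem_acF.mp hc
    have hmem : c ∈ gbActF C0 Z kb j := G.mem_actF.mpr hact
    have hm : G.m j = 2 * 2 ^ (j / q0) := by
      unfold GbCtx.m; rw [pow_succ']
    unfold GbCtx.Chain gbChain at hch
    rw [hm] at hch
    rw [Finset.mem_union, Finset.mem_filter, Finset.mem_filter]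
    exact hch.imp (fun h => ⟨hmem, h⟩) (fun h => ⟨hmem, h⟩)
  have hc := gb_card_actF C0 Z kb j
  calc (G.acF j).card * 2 ^ (j / q0) ≤
      (((gbActF C0 Z kb j).filter fun c =>
          (c.1 - c.2) % ((2 * 2 ^ (j / q0) : ℕ) : ℤ) = al j).card +
        ((gbActF C0 Z kb j).filter fun c =>
          (c.1 + c.2) % ((2 * 2 ^ (j / q0) : ℕ) : ℤ) = al' j).card) * 2 ^ (j / q0) :=
        Nat.mul_le_mul_right _ ((Finset.card_le_card hsub).trans (Finset.card_union_le _ _))
    _ ≤ (gbActF C0 Z kb j).card + (gbActF C0 Z kb j).card := by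
        rw [add_mul]; exact Nat.add_le_add (h3 j) (h3' j)
    _ ≤ 2 * (16 * (2 * C0 + 1) ^ 2 * Z.card) := by omega

/-- the constant of the base construction -/
def gbCm (C0 : ℕ) : ℕ := 5 * (129 ^ 2 * (2 * (2 * (16 * (2 * C0 + 1) ^ 2))))

/-- **the base construction** (interface of `GeoDefs.lean`) -/
theorem gb_geoBaseStmt : GeoBaseStmt := by
  intro C0 hC
  refine ⟨gbCm C0, fun k0 q0 hk0 hq0 Z hZ => ?_⟩
  obtain ⟨G, rfl, hkb, rfl, rfl, hS⟩ := gb_exists_ctx C0 (k0 - 1) q0 Z hC (by omega) hq0 hZ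
  have hsmall : 16 * (2 * G.C0 + 1) ^ 2 ≤ gbCm G.C0 := by
    unfold gbCm
    nlinarith [Nat.zero_le ((2 * G.C0 + 1) ^ 2)]
  refine ⟨⟨G.lev, G.col, G.win, G.Mark⟩, ?_⟩
  constructor
  · intro y
    have := G.kb_le_lev y
    simp only
    omega
  · intro y hy z hz
    exact (G.lev_far (y := y) (by simp only at hy; omega) hz).le
  · refine ⟨geoSites G.C0 G.Z k0, ?_, ?_⟩
    · refine (geo_card_sites _ _ _).trans ?_
      have e : G.Z.card * (2 ^ k0 * (2 * G.C0 + 1)) ^ 2 = (2 * G.C0 + 1) ^ 2 * 4 ^ k0 * G.Z.card := by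
        have : (4 : ℕ) ^ k0 = (2 ^ k0) ^ 2 := by
          rw [← pow_mul, mul_comm, pow_mul]; norm_num
        rw [this]; ring
      rw [e]
      apply Nat.mul_le_mul_right
      apply Nat.mul_le_mul_right
      refine le_trans ?_ hsmall
      nlinarith [Nat.zero_le ((2 * G.C0 + 1) ^ 2)]
    · intro y hy
      simp only at hy
      have h1 := G.kb_le_lev y
      have h2 : G.lev y = G.kb := by omega
      rw [geo_mem_sites]
      have := (geo_lev_eq_bot_iff G.hC1 G.hZ (k0 := G.kb) (y := y)).mp h2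
      have e : G.kb + 1 = k0 := by omega
      rwa [e] at this
  · intro y y' h
    exact G.lev_lip h
  · intro p hp y hy
    exact GbCtx.Mark.star G hp hy
  · intro p p' hp hp' hne
    exact GbCtx.Mark.iso G hp hp' hne
  · intro p hp z hz
    exact GbCtx.Mark.clear G hp hz
  · intro x y hx hy hc ht hd
    exact G.sep (by simp only at hx; omega) (by simp only at hy; omega) hc ht hd
  · intro k w c hk
    exact G.tile k w c (by omega)
  · intro y y' hl hw
    exact G.diam hl hw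
  · intro k
    obtain ⟨ws, h1, h2⟩ := G.wins k
    exact ⟨ws, h1.trans (Nat.mul_le_mul_right _ hsmall), h2⟩
  · intro k
    by_cases hk : 2 ≤ k
    · refine ⟨G.markF k, ?_, ?_⟩
      · refine (G.card_markF hS k hk).trans (le_of_eq ?_)
        unfold gbCm; ring
      · intro p hp hl
        simp only at hl
        rw [← hl]
        exact GbCtx.Mark.mem_markF G hp
    · refine ⟨∅, by simp, ?_⟩
      intro p _ hl
      simp only at hl
      have := G.kb_le_lev p
      have := G.hk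
      omega

end Claimed.Agent.R296
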