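import Claimed.Agent.R296.GeoDefs

/-!
# Row 296, paper 1, Section 10: counting the nodes of the repair recursion (owner helper68)

`GeoDesc as p a0 g v a` : `(v, a)` is a descendant of depth `g` of the root `(p, a0)`; a node with
exponent `a ≥ as` has four children of exponent `geoNx a = a - (a / 10^6 + 1)`, a node with
`a < as` has none.  The number of descendants is at most `W a0 = 2 (a0 + 1) ^ M`, where
`8 (geoNx a + 1) ^ M ≤ (a + 1) ^ M`; polynomial growth is beaten by `2 ^ ((k - 1) / 2000000)`.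
-/

set_option autoImplicit false

namespace Claimed.Agent.R296

/-- decomposition of a descendant at the root -/
theorem geo_desc_root {as : ℕ} {p : ℤ × ℤ} {a0 g : ℕ} {v : ℤ × ℤ} {a : ℕ}
    (h : GeoDesc as p a0 g v a) :
    (g = 0 ∧ v = p ∧ a = a0) ∨
      ∃ g' e, g = g' + 1 ∧ e ∈ geoDirs ∧ as ≤ a0 ∧
        GeoDesc as (p.1 + 2 ^ a0 * e.1, p.2 + 2 ^ a0 * e.2) (geoNx a0) g' v a := by
  induction h with
  | root => exact Or.inl ⟨rfl, rfl, rfl⟩
  | child g v a e h ha he ih =>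
    right
    rcases ih with ⟨rfl, rfl, rfl⟩ | ⟨g', e0, rfl, he0, ha0, hd⟩
    · exact ⟨0, e, rfl, he, ha, GeoDesc.root⟩
    · exact ⟨g' + 1, e0, rfl, he0, ha0, GeoDesc.child g' v a e hd ha he⟩

/-- the contraction of the exponents, in real form -/
theorem geo_nx_real {a : ℕ} (h : 2000000 ≤ a) :
    ((geoNx a + 1 : ℕ) : ℝ) ≤ (3999999 / 4000000 : ℝ) * ((a + 1 : ℕ) : ℝ) := by
  have h1 : 4000000 * (geoNx a + 1) ≤ 3999999 * (a + 1) := by
    unfold geoNx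
    omega
  have h2 : ((4000000 * (geoNx a + 1) : ℕ) : ℝ) ≤ ((3999999 * (a + 1) : ℕ) : ℝ) := by
    exact_mod_cast h1
  push_cast at h2 ⊢
  linarith

/-- there is an exponent `M` such that one step of the recursion gains a factor `8` -/
theorem geo_exists_M : ∃ M : ℕ, ∀ a : ℕ, 2000000 ≤ a → 8 * (geoNx a + 1) ^ M ≤ (a + 1) ^ M := by
  obtain ⟨M, hM⟩ := exists_pow_lt_of_lt_one (show (0 : ℝ) < 1 / 8 by norm_num)
    (show (3999999 / 4000000 : ℝ) < 1 by norm_num)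
  refine ⟨M, fun a ha => ?_⟩
  have h1 := geo_nx_real ha
  have h2 : ((geoNx a + 1 : ℕ) : ℝ) ^ M ≤ ((3999999 / 4000000 : ℝ) * ((a + 1 : ℕ) : ℝ)) ^ M :=
    pow_le_pow_left₀ (Nat.cast_nonneg _) h1 M
  rw [mul_pow] at h2
  have h3 : (0 : ℝ) ≤ ((a + 1 : ℕ) : ℝ) ^ M := by positivity
  have h4 : (8 : ℝ) * ((geoNx a + 1 : ℕ) : ℝ) ^ M ≤ ((a + 1 : ℕ) : ℝ) ^ M := by
    have : (3999999 / 4000000 : ℝ) ^ M * ((a + 1 : ℕ) : ℝ) ^ M ≤ 1 / 8 * ((a + 1 : ℕ) : ℝ) ^ M :=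
      mul_le_mul_of_nonneg_right hM.le h3
    linarith
  exact_mod_cast h4

theorem geo_card_dirs : geoDirs.card ≤ 4 := by
  unfold geoDirs
  exact Finset.card_le_four

/-- the descendants of a root are contained in a `Finset` of polynomial size -/
theorem geo_desc_finset (as : ℕ) (has : 2000000 ≤ as) (M : ℕ)
    (hM : ∀ a : ℕ, 2000000 ≤ a → 8 * (geoNx a + 1) ^ M ≤ (a + 1) ^ M) (a0 : ℕ) :
    ∀ p : ℤ × ℤ, ∃ S : Finset (ℕ × (ℤ × ℤ) × ℕ), S.card ≤ 2 * (a0 + 1) ^ M ∧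
        ∀ g v a, GeoDesc as p a0 g v a → (g, v, a) ∈ S := by
  classical
  induction a0 using Nat.strong_induction_on with
  | _ a0 ih =>
    intro p
    have hpos : 1 ≤ (a0 + 1) ^ M := Nat.one_le_pow _ _ (by omega)
    by_cases ha : as ≤ a0
    · have hlt : geoNx a0 < a0 := by unfold geoNx; omega
      have ih' := ih (geoNx a0) hlt
      choose S hScard hS using ih'
      refine ⟨insert (0, p, a0) (geoDirs.biUnion fun e =>
        (S (p.1 + 2 ^ a0 * e.1, p.2 + 2 ^ a0 * e.2)).image fun ν => (ν.1 + 1, ν.2)), ?_, ?_⟩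
      · have h1 : (geoDirs.biUnion fun e =>
            (S (p.1 + 2 ^ a0 * e.1, p.2 + 2 ^ a0 * e.2)).image
              fun ν => (ν.1 + 1, ν.2)).card ≤ 4 * (2 * (geoNx a0 + 1) ^ M) := by
          refine le_trans Finset.card_biUnion_le ?_
          refine le_trans (Finset.sum_le_card_nsmul _ _ (2 * (geoNx a0 + 1) ^ M) ?_) ?_
          · intro e _
            exact le_trans Finset.card_image_le (hScard _)
          · rw [smul_eq_mul]
            exact Nat.mul_le_mul_right _ geo_card_dirs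
        have h2 := hM a0 (le_trans has ha)
        have h3 := Finset.card_insert_le (0, p, a0) (geoDirs.biUnion fun e =>
          (S (p.1 + 2 ^ a0 * e.1, p.2 + 2 ^ a0 * e.2)).image fun ν => (ν.1 + 1, ν.2))
        omega
      · intro g v a hd
        rcases geo_desc_root hd with ⟨rfl, rfl, rfl⟩ | ⟨g', e, rfl, he, -, hd'⟩
        · exact Finset.mem_insert_self _ _
        · refine Finset.mem_insert_of_mem (Finset.mem_biUnion.2 ⟨e, he, ?_⟩)
          exact Finset.mem_image.2 ⟨(g', v, a), hS _ _ _ _ hd', rfl⟩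
    · refine ⟨{(0, p, a0)}, by simp; omega, ?_⟩
      intro g v a hd
      rcases geo_desc_root hd with ⟨rfl, rfl, rfl⟩ | ⟨g', e, rfl, he, ha', -⟩
      · exact Finset.mem_singleton_self _
      · exact absurd ha' ha

/-- `(1/2) ^ (j / 2000000) ≤ 2 x ^ j` for `x = 1 - 1 / 4000000` -/
theorem geo_half_pow_le (j : ℕ) :
    ((1 : ℝ) / 2) ^ (j / 2000000) ≤ 2 * (3999999 / 4000000 : ℝ) ^ j := by
  obtain ⟨x, hx⟩ : ∃ x : ℝ, x = 3999999 / 4000000 := ⟨_, rfl⟩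
  rw [← hx]
  have hx0 : 0 < x := by rw [hx]; norm_num
  have hx1 : x ≤ 1 := by rw [hx]; norm_num
  have hb : (1 : ℝ) / 2 ≤ x ^ 2000000 := by
    have := one_add_mul_le_pow (show (-2 : ℝ) ≤ -(1 / 4000000) by norm_num) 2000000
    have e : (1 : ℝ) + -(1 / 4000000) = x := by rw [hx]; norm_num
    rw [e] at this
    refine le_trans ?_ this
    norm_num
  have h1 : ((1 : ℝ) / 2) ^ (j / 2000000) ≤ (x ^ 2000000) ^ (j / 2000000) :=
    pow_le_pow_left₀ (by norm_num) hb _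
  rw [← pow_mul] at h1
  have h2 : x ^ j = x ^ (2000000 * (j / 2000000)) * x ^ (j % 2000000) := by
    rw [← pow_add, Nat.div_add_mod]
  have h3 : x ^ 2000000 ≤ x ^ (j % 2000000) :=
    pow_le_pow_of_le_one hx0.le hx1 (Nat.mod_lt _ (by norm_num)).le
  have h4 : (0 : ℝ) ≤ x ^ (2000000 * (j / 2000000)) := by positivity
  have h5 : x ^ (2000000 * (j / 2000000)) * (1 / 2) ≤ x ^ j := by
    rw [h2]
    exact mul_le_mul_of_nonneg_left (le_trans hb h3) h4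
  linarith

theorem geo_desc_count (as : ℕ) (has : 2000000 ≤ as) :
    ∃ W : ℕ → ℕ,
      (∀ (p : ℤ × ℤ) (a0 : ℕ), ∃ S : Finset (ℕ × (ℤ × ℤ) × ℕ), S.card ≤ W a0 ∧
        ∀ g v a, GeoDesc as p a0 g v a → (g, v, a) ∈ S) ∧
      ∃ Cs : ℝ, ∀ K : ℕ,
        ∑ k ∈ Finset.range K, (W (k - 8) : ℝ) / 2 ^ ((k - 1) / 2000000) ≤ Cs := by
  obtain ⟨M, hM⟩ := geo_exists_M
  refine ⟨fun a => 2 * (a + 1) ^ M, fun p a0 => geo_desc_finset as has M hM a0 p, ?_⟩
  obtain ⟨x, hx⟩ : ∃ x : ℝ, x = 3999999 / 4000000 := ⟨_, rfl⟩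
  have hx0 : 0 < x := by rw [hx]; norm_num
  have hx1 : x < 1 := by rw [hx]; norm_num
  have hxh : (1 : ℝ) / 2 ≤ x := by rw [hx]; norm_num
  have hs : Summable (fun n : ℕ => ((n : ℝ)) ^ M * x ^ n) :=
    summable_pow_mul_geometric_of_norm_lt_one M (by rw [Real.norm_of_nonneg hx0.le]; exact hx1)
  have hs' : Summable (fun n : ℕ => (((n + 1 : ℕ) : ℝ)) ^ M * x ^ (n + 1)) :=
    (summable_nat_add_iff 1).2 hs
  refine ⟨16 * ∑' n : ℕ, (((n + 1 : ℕ) : ℝ)) ^ M * x ^ (n + 1), fun K => ?_⟩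
  have hterm : ∀ k : ℕ, ((2 * (k - 8 + 1) ^ M : ℕ) : ℝ) / 2 ^ ((k - 1) / 2000000) ≤
      16 * ((((k + 1 : ℕ) : ℝ)) ^ M * x ^ (k + 1)) := by
    intro k
    have h1 : ((2 * (k - 8 + 1) ^ M : ℕ) : ℝ) ≤ 2 * (((k + 1 : ℕ) : ℝ)) ^ M := by
      have : (k - 8 + 1) ^ M ≤ (k + 1) ^ M := Nat.pow_le_pow_left (by omega) M
      have h' : ((2 * (k - 8 + 1) ^ M : ℕ) : ℝ) ≤ ((2 * (k + 1) ^ M : ℕ) : ℝ) := by
        exact_mod_cast Nat.mul_le_mul_left 2 this
      refine le_trans h' (le_of_eq ?_)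
      push_cast
      ring
    have h2 := geo_half_pow_le (k - 1)
    rw [← hx] at h2
    have h3 : x ^ (k - 1) ≤ 4 * x ^ (k + 1) := by
      rcases Nat.eq_zero_or_pos k with rfl | hk
      · simp
        linarith
      · have e : k + 1 = (k - 1) + 2 := by omega
        rw [e, pow_add]
        have : (1 : ℝ) / 4 ≤ x ^ 2 := by nlinarith
        have hp : (0 : ℝ) ≤ x ^ (k - 1) := by positivity
        nlinarith
    have h4 : (1 : ℝ) / 2 ^ ((k - 1) / 2000000) = (1 / 2) ^ ((k - 1) / 2000000) := by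
      rw [one_div, one_div, inv_pow]
    have h5 : (0 : ℝ) ≤ (((k + 1 : ℕ) : ℝ)) ^ M := by positivity
    have h6 : (0 : ℝ) ≤ (1 / 2 : ℝ) ^ ((k - 1) / 2000000) := by positivity
    calc ((2 * (k - 8 + 1) ^ M : ℕ) : ℝ) / 2 ^ ((k - 1) / 2000000)
        = ((2 * (k - 8 + 1) ^ M : ℕ) : ℝ) * (1 / 2) ^ ((k - 1) / 2000000) := by
          rw [← h4]; ring
      _ ≤ (2 * (((k + 1 : ℕ) : ℝ)) ^ M) * (1 / 2) ^ ((k - 1) / 2000000) :=
          mul_le_mul_of_nonneg_right h1 h6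
      _ ≤ (2 * (((k + 1 : ℕ) : ℝ)) ^ M) * (2 * (4 * x ^ (k + 1))) := by
          refine mul_le_mul_of_nonneg_left ?_ (by positivity)
          linarith
      _ = 16 * ((((k + 1 : ℕ) : ℝ)) ^ M * x ^ (k + 1)) := by ring
  calc ∑ k ∈ Finset.range K, ((2 * (k - 8 + 1) ^ M : ℕ) : ℝ) / 2 ^ ((k - 1) / 2000000)
      ≤ ∑ k ∈ Finset.range K, 16 * ((((k + 1 : ℕ) : ℝ)) ^ M * x ^ (k + 1)) :=
        Finset.sum_le_sum fun k _ => hterm k
    _ = 16 * ∑ k ∈ Finset.range K, ((((k + 1 : ℕ) : ℝ)) ^ M * x ^ (k + 1)) := by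
        rw [Finset.mul_sum]
    _ ≤ 16 * ∑' n : ℕ, (((n + 1 : ℕ) : ℝ)) ^ M * x ^ (n + 1) := by
        refine mul_le_mul_of_nonneg_left ?_ (by norm_num)
        exact hs'.sum_le_tsum _ (fun k _ => by positivity)

end Claimed.Agent.R296
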