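import Mathlib
import Claimed.Agent.R296.TopDefs

/-!
# Row 296, paper 1, Section 10: abstract-index form of Proposition 10.2

The geometric construction produces tiles indexed by an arbitrary finite type together with a
rank (primary tiles `0`, belt cells `1`, replacement tiles of generation `j` have rank `1 + j`);
the clearance holds against all *earlier or peer* regions of the same family.
`twoFam_of_idx` sorts the index type by rank and yields `TwoFamStmt`.
-/

set_option autoImplicit false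

namespace Claimed.Agent.R296

/-- paper 1, Proposition 10.2 with an arbitrary finite index type and a rank function -/
def TwoFamIdxStmt (Ctpl D0 nstar : ℕ) : Prop :=
  ∃ C : ℝ, ∀ Z A : Finset (ℤ × ℤ), Z.Nonempty →
    ∃ (ι : Type) (_ : Fintype ι) (rank : ι → ℕ) (D : Finset (ℤ × ℤ))
      (X : ι → Finset (ℤ × ℤ)) (f : ι → Bool) (T : ι → Finset (ℤ × ℤ)) (n s0 : ι → ℕ),
      (∀ p, p ∈ A ↔ p ∈ D ∨ ∃ i, p ∈ X i) ∧
      (∀ i, Disjoint D (X i)) ∧ (∀ i j, i ≠ j → Disjoint (X i) (X j)) ∧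
      (D.card : ℝ) ≤ C * Z.card ∧
      (∀ i, nstar ≤ n i ∧ X i ⊆ T i ∧ IsTemplate Ctpl (T i) (n i) (s0 i) ∧
        TemplateClear D0 Z (T i) (n i) (s0 i)) ∧
      (∀ i j, i ≠ j → rank j ≤ rank i → f j = f i → ∀ x ∈ T i, ∀ y ∈ X j,
        2 * (n i : ℝ) ^ expBeta < (dInf x y : ℝ)) ∧
      ∑ i, ((n i : ℝ) ^ 100)⁻¹ ≤ C * Z.card

/-- sorting by rank: the abstract-index form implies `TwoFamStmt` -/
theorem twoFam_of_idx {Ctpl D0 nstar : ℕ} (h : TwoFamIdxStmt Ctpl D0 nstar) :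
    TwoFamStmt Ctpl D0 nstar := by
  classical
  obtain ⟨C, hC⟩ := h
  refine ⟨C, fun Z A hZ => ?_⟩
  obtain ⟨ι, hι, rank, D, X, f, T, n, s0, h1, h2, h3, h4, h5, h6, h7⟩ := hC Z A hZ
  let e : ι ≃ Fin (Fintype.card ι) := Fintype.equivFin ι
  let σ : Equiv.Perm (Fin (Fintype.card ι)) := Tuple.sort (rank ∘ e.symm)
  have hmono : Monotone ((rank ∘ e.symm) ∘ σ) := Tuple.monotone_sort _
  let g : Fin (Fintype.card ι) ≃ ι := σ.trans e.symm
  refine ⟨Fintype.card ι, D, X ∘ g, f ∘ g, T ∘ g, n ∘ g, s0 ∘ g, ?_, ?_, ?_, h4, ?_, ?_, ?_⟩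
  · intro p
    rw [h1 p]
    constructor
    · rintro (hp | ⟨i, hi⟩)
      · exact Or.inl hp
      · exact Or.inr ⟨g.symm i, by simpa using hi⟩
    · rintro (hp | ⟨i, hi⟩)
      · exact Or.inl hp
      · exact Or.inr ⟨g i, hi⟩
  · intro i
    exact h2 (g i)
  · intro i j hij
    exact h3 (g i) (g j) (fun h => hij (g.injective h))
  · intro i
    exact h5 (g i)
  · intro i j hji hf x hx y hy
    refine h6 (g i) (g j) (fun h => ?_) (hmono hji.le) hf x hx y hy
    exact (ne_of_gt hji) (g.injective h)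
  · have : ∑ i, (((n ∘ g) i : ℝ) ^ 100)⁻¹ = ∑ i, ((n i : ℝ) ^ 100)⁻¹ :=
      Equiv.sum_comp g (fun i => ((n i : ℝ) ^ 100)⁻¹)
    rw [this]
    exact h7

end Claimed.Agent.R296
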