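import Claimed.Agent.R296.GeoSum
import Claimed.Agent.R296.GeoCount
import Claimed.Agent.R296.TwoFamIdx

/-!
# Row 296, paper 1, Section 10: assembly of Proposition 10.2 (owner helper68)

`geo_twoFam : GeoBaseStmt → TwoFamStmt Ctpl D0 nstar`.
-/

set_option autoImplicit false

namespace Claimed.Agent.R296

open Classical in
theorem geo_twoFamIdx (hbase : GeoBaseStmt) (Ctpl D0 nstar : ℕ) :
    TwoFamIdxStmt Ctpl D0 nstar := by
  have hct : Ctpl ≤ 2 ^ Ctpl := Nat.lt_two_pow_self.le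
  obtain ⟨as, has, hrep⟩ := geo_exp_rep (Ctpl + 2) nstar
  obtain ⟨k0, hk0, hbs⟩ := geo_exp_base (Ctpl + 9) nstar
  obtain ⟨Cm, hCm⟩ := hbase (D0 + 5) (by omega)
  obtain ⟨W, hW, Cs, hCs⟩ := geo_desc_count as has
  have hCs0 : 0 ≤ Cs := by simpa using hCs 0
  refine ⟨Cm * 4 ^ k0 + Cm * Cs * (4 * 4 ^ as) + 4 * Cm + 4 * (Cm * Cs), fun Z A hZ => ?_⟩
  obtain ⟨B, hB⟩ := hCm k0 2000000 hk0 (by norm_num) Z hZ
  obtain ⟨NS, hNScard, hNS⟩ := geo_nodes_finite hB hk0 has W hW Cs hCs A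
  -- the index set: all tiles whose final region meets `A`
  let τ : ℤ × ℤ → GeoTile := fun y =>
    if h : ∃ t, geoIn B as k0 t y then h.choose else .base 0 0 false
  have hτ : ∀ y t, geoIn B as k0 t y → τ y = t := by
    intro y t ht
    have hex : ∃ t, geoIn B as k0 t y := ⟨t, ht⟩
    have : τ y = hex.choose := dif_pos hex
    rw [this]
    exact geo_in_unique hB hk0 has hex.choose_spec ht
  let I : Finset GeoTile := (A.filter fun y => ∃ t, geoIn B as k0 t y).image τ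
  have hI : ∀ t ∈ I, ∃ y ∈ A, geoIn B as k0 t y := by
    intro t ht
    obtain ⟨y, hy, rfl⟩ := Finset.mem_image.1 ht
    obtain ⟨hyA, t', ht'⟩ := Finset.mem_filter.1 hy
    exact ⟨y, hyA, by rw [hτ y t' ht']; exact ht'⟩
  have hI' : ∀ y ∈ A, ∀ t, geoIn B as k0 t y → t ∈ I := by
    intro y hy t ht
    exact Finset.mem_image.2 ⟨y, Finset.mem_filter.2 ⟨hy, t, ht⟩, hτ y t ht⟩
  have hT : ∀ t : {t // t ∈ I}, ∃ T : Finset (ℤ × ℤ), (∀ y, y ∈ T ↔ geoTpl B t.1 y) ∧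
      nstar ≤ geoScale (Ctpl + 9) (Ctpl + 2) t.1 ∧
      IsTemplate Ctpl T (geoScale (Ctpl + 9) (Ctpl + 2) t.1) (geoS0 t.1) ∧
      TemplateClear D0 Z T (geoScale (Ctpl + 9) (Ctpl + 2) t.1) (geoS0 t.1) ∧
      2 * ((geoScale (Ctpl + 9) (Ctpl + 2) t.1 : ℕ) : ℝ) ^ expBeta < ((geoRad t.1 : ℤ) : ℝ) := by
    intro t
    obtain ⟨y, -, hy⟩ := hI t.1 t.2
    exact geo_tile_template hB hk0 has Ctpl D0 nstar Ctpl hct le_rfl hrep hbs t.1 hy.1 ⟨y, hy.2.1⟩
  choose T hTmem hTn hTtpl hTclear hTrad using hT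
  have hZc : (0 : ℝ) ≤ Z.card := Nat.cast_nonneg _
  have hCm0 : (0 : ℝ) ≤ Cm := Nat.cast_nonneg _
  refine ⟨{t // t ∈ I}, inferInstance, fun t => t.1.rank, A.filter (geoExc B as k0),
    fun t => A.filter (geoIn B as k0 t.1), fun t => t.1.lab, T,
    fun t => geoScale (Ctpl + 9) (Ctpl + 2) t.1, fun t => geoS0 t.1, ?_, ?_, ?_, ?_, ?_, ?_, ?_⟩
  · intro p
    constructor
    · intro hp
      rcases geo_cover hB hk0 has p with he | ⟨t, ht⟩
      · exact Or.inl (Finset.mem_filter.2 ⟨hp, he⟩)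
      · exact Or.inr ⟨⟨t, hI' p hp t ht⟩, Finset.mem_filter.2 ⟨hp, ht⟩⟩
    · rintro (hp | ⟨t, hp⟩)
      · exact (Finset.mem_filter.1 hp).1
      · exact (Finset.mem_filter.1 hp).1
  · intro t
    rw [Finset.disjoint_left]
    intro p hp hp'
    exact geo_exc_not_in hB hk0 has (Finset.mem_filter.1 hp).2 (Finset.mem_filter.1 hp').2
  · intro t t' hne
    rw [Finset.disjoint_left]
    intro p hp hp'
    exact hne (Subtype.ext
      (geo_in_unique hB hk0 has (Finset.mem_filter.1 hp).2 (Finset.mem_filter.1 hp').2))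
  · have h1 := geo_card_exc (as := as) hB A NS hNS
    have h2 : (NS.card : ℝ) * (4 * 4 ^ as) ≤ Cm * Cs * Z.card * (4 * 4 ^ as) :=
      mul_le_mul_of_nonneg_right hNScard (by positivity)
    have h3 : 0 ≤ (4 * (Cm : ℝ) + 4 * (Cm * Cs)) * Z.card := by positivity
    nlinarith
  · intro t
    refine ⟨hTn t, ?_, hTtpl t, hTclear t⟩
    intro p hp
    exact (hTmem t p).2 (Finset.mem_filter.1 hp).2.2.1
  · intro t t' hne hr hl x hx y hy
    obtain ⟨y0, -, hy0⟩ := hI t.1 t.2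
    have hsep := geo_sep hB hk0 has hy0.1 hl hr (fun h => hne (Subtype.ext h).symm)
      ((hTmem t x).1 hx) (Finset.mem_filter.1 hy).2
    have : ((geoRad t.1 : ℤ) : ℝ) ≤ ((dInf x y : ℤ) : ℝ) := by exact_mod_cast hsep
    exact lt_of_lt_of_le (hTrad t) this
  · have h1 := geo_sum_scale (as := as) hB A NS hNS I hI (Ctpl + 9) (Ctpl + 2)
    rw [Finset.sum_coe_sort I (fun t => (((geoScale (Ctpl + 9) (Ctpl + 2) t : ℕ) : ℝ) ^ 100)⁻¹)]
    have h3 : 0 ≤ ((Cm : ℝ) * 4 ^ k0 + Cm * Cs * (4 * 4 ^ as)) * Z.card := by positivity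
    nlinarith

/-- paper 1, Proposition 10.2, modulo the base construction -/
theorem geo_twoFam (hbase : GeoBaseStmt) (Ctpl D0 nstar : ℕ) : TwoFamStmt Ctpl D0 nstar :=
  twoFam_of_idx (geo_twoFamIdx hbase Ctpl D0 nstar)

end Claimed.Agent.R296
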