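import Claimed.Agent.R296.GeoDefs

/-!
# Row 296, paper 1, Section 10: the repair recursion, part A (owner helper68)

Invariants of the nodes: descent from a mark, isolation, uniqueness, exact cross stars.
-/

set_option autoImplicit false

namespace Claimed.Agent.R296

variable {B : GeoBase} {C0 k0 q0 Cm as : ℕ} {Z : Finset (ℤ × ℤ)}

theorem geo_nx_le {a : ℕ} (h : 2000000 ≤ a) : geoNx a + 3 ≤ a := by
  unfold geoNx; omega

theorem geo_two_pow_nx {a : ℕ} (h : 2000000 ≤ a) : (8 : ℤ) * 2 ^ geoNx a ≤ 2 ^ a := by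
  have h1 := geo_nx_le h
  calc (8 : ℤ) * 2 ^ geoNx a = 2 ^ (geoNx a + 3) := by rw [pow_add]; norm_num; ring
    _ ≤ 2 ^ a := pow_le_pow_right₀ (by norm_num) h1

theorem geo_dInf_comm (x y : ℤ × ℤ) : dInf x y = dInf y x := by
  simp [dInf, abs_sub_comm]

theorem geo_dInf_self (x : ℤ × ℤ) : dInf x x = 0 := by simp [dInf]

theorem geo_dInf_nonneg (x y : ℤ × ℤ) : 0 ≤ dInf x y :=
  le_max_of_le_left (abs_nonneg _)

theorem geo_dInf_triangle (x y z : ℤ × ℤ) : dInf x z ≤ dInf x y + dInf y z := by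
  have h1 := geo_dInf_le.1 (le_refl (dInf x y))
  have h2 := geo_dInf_le.1 (le_refl (dInf y z))
  rw [geo_dInf_le]
  omega

theorem geo_mem_dirs {e : ℤ × ℤ} :
    e ∈ geoDirs ↔ e = (1, 0) ∨ e = (-1, 0) ∨ e = (0, 1) ∨ e = (0, -1) := by
  simp [geoDirs]

/-- a child sits at distance exactly `A` from its parent -/
theorem geo_dInf_child {v e : ℤ × ℤ} {A : ℤ} (hA : 0 ≤ A) (he : e ∈ geoDirs) :
    dInf (v.1 + A * e.1, v.2 + A * e.2) v ≤ A := by
  rw [geo_dInf_le]
  rcases geo_mem_dirs.1 he with rfl | rfl | rfl | rfl <;> simp <;> omega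

theorem geo_sq_dInf {v y : ℤ × ℤ} {d : ℤ} (h : geoSq v d y) : dInf y v ≤ d := by
  unfold geoSq at h
  rw [geo_dInf_le]
  omega

theorem geo_sq_mono {v y : ℤ × ℤ} {d d' : ℤ} (h : geoSq v d y) (hd : d ≤ d') : geoSq v d' y := by
  unfold geoSq at *
  omega

/-- descendants of a root stay close to it and lose at least three exponents per step -/
theorem geo_desc_dist (has : 2000000 ≤ as) {p : ℤ × ℤ} {a0 g : ℕ} {v : ℤ × ℤ} {a : ℕ}
    (h : GeoDesc as p a0 g v a) :
    a + 3 * g ≤ a0 ∧ dInf v p + 2 * 2 ^ a ≤ 2 * 2 ^ a0 := by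
  induction h with
  | root => exact ⟨by omega, by rw [geo_dInf_self]; omega⟩
  | child g v a e h ha he ih =>
    obtain ⟨ih1, ih2⟩ := ih
    have h1 := geo_nx_le (le_trans has ha)
    have h2 := geo_two_pow_nx (le_trans has ha)
    have hA : (0 : ℤ) < 2 ^ a := by positivity
    have h3 := geo_dInf_child (v := v) hA.le he
    have h4 := geo_dInf_triangle (v.1 + 2 ^ a * e.1, v.2 + 2 ^ a * e.2) v p
    refine ⟨by omega, by omega⟩

/-- every node descends from a mark and stays close to it -/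
theorem geo_node_desc (has : 2000000 ≤ as) {g : ℕ} {v : ℤ × ℤ} {a : ℕ} {c : Bool}
    (h : GeoNode B as g v a c) :
    ∃ p, B.mark p ∧ c = B.col p ∧ GeoDesc as p (B.lev p - 8) g v a ∧ a + 3 * g ≤ B.lev p - 8 ∧
      dInf v p + 2 * 2 ^ a ≤ 2 * 2 ^ (B.lev p - 8) := by
  have key : ∃ p, B.mark p ∧ c = B.col p ∧ GeoDesc as p (B.lev p - 8) g v a := by
    induction h with
    | root p hp => exact ⟨p, hp, rfl, GeoDesc.root⟩
    | child g v a c e h ha he ih =>
      obtain ⟨p, hp, hc, hd⟩ := ih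
      exact ⟨p, hp, hc, GeoDesc.child g v a e hd ha he⟩
  obtain ⟨p, hp, hc, hd⟩ := key
  exact ⟨p, hp, hc, hd, (geo_desc_dist has hd).1, (geo_desc_dist has hd).2⟩

theorem geo_lev_ge (hB : B.Good C0 k0 q0 Cm Z) (hk0 : 12 ≤ k0) (y : ℤ × ℤ) : 11 ≤ B.lev y := by
  have := hB.lev_ge y
  omega

theorem geo_pow_lev (hB : B.Good C0 k0 q0 Cm Z) (hk0 : 12 ≤ k0) (p : ℤ × ℤ) :
    (2 : ℤ) ^ (B.lev p - 5) = 8 * 2 ^ (B.lev p - 8) ∧
      (2 : ℤ) ^ (B.lev p) = 256 * 2 ^ (B.lev p - 8) := by
  have h := geo_lev_ge hB hk0 p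
  constructor
  · have : B.lev p - 5 = (B.lev p - 8) + 3 := by omega
    rw [this, pow_add]; norm_num; ring
  · have : B.lev p = (B.lev p - 8) + 8 := by omega
    conv_lhs => rw [this, pow_add]
    norm_num; ring

/-- nodes of the same depth: equal positions give equal nodes, different positions are far -/
theorem geo_node_iso (hB : B.Good C0 k0 q0 Cm Z) (hk0 : 12 ≤ k0) (has : 2000000 ≤ as) {g : ℕ}
    {v v' : ℤ × ℤ} {a a' : ℕ} {c c' : Bool}
    (h : GeoNode B as g v a c) (h' : GeoNode B as g v' a' c') :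
    (v = v' → a = a' ∧ c = c') ∧ (v ≠ v' → (8 : ℤ) * 2 ^ a ≤ dInf v v') := by
  induction g generalizing v v' a a' c c' with
  | zero =>
    cases h with
    | root _ hp =>
      cases h' with
      | root _ hp' =>
        refine ⟨fun e => by subst e; exact ⟨rfl, rfl⟩, fun hne => ?_⟩
        have := hB.iso v v' hp hp' hne
        rw [(geo_pow_lev hB hk0 v).1] at this
        exact this
  | succ g ih =>
    cases h with
    | child _ v a c e h ha he =>
      cases h' with
      | child _ v' a' c' e' h' ha' he' =>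
        have hA : (0 : ℤ) < 2 ^ a := by positivity
        have hA' : (0 : ℤ) < 2 ^ a' := by positivity
        have hn := geo_two_pow_nx (le_trans has ha)
        have hn' := geo_two_pow_nx (le_trans has ha')
        by_cases hv : v = v'
        · obtain ⟨haa, hcc⟩ := (ih h h').1 hv
          subst hv; subst haa; subst hcc
          refine ⟨fun _ => ⟨rfl, rfl⟩, fun hne => ?_⟩
          refine le_trans hn ?_
          rw [geo_le_dInf]
          rcases geo_mem_dirs.1 he with rfl | rfl | rfl | rfl <;>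
            rcases geo_mem_dirs.1 he' with rfl | rfl | rfl | rfl <;>
            first
              | exact absurd rfl hne
              | simp
        · have h1 := (ih h h').2 hv
          have h2 := (ih h' h).2 (Ne.symm hv)
          rw [geo_dInf_comm] at h2
          have t1 := geo_dInf_child (v := v) hA.le he
          have t2 := geo_dInf_child (v := v') hA'.le he'
          generalize (v.1 + 2 ^ a * e.1, v.2 + 2 ^ a * e.2) = w at t1 ⊢
          generalize (v'.1 + 2 ^ a' * e'.1, v'.2 + 2 ^ a' * e'.2) = w' at t2 ⊢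
          have t3 := geo_dInf_triangle v w v'
          have t4 := geo_dInf_triangle w w' v'
          rw [geo_dInf_comm v w] at t3
          refine ⟨fun heq => ?_, fun _ => by omega⟩
          exfalso
          subst heq
          omega

/-- inside the square of half side `6 * 2 ^ a` only the node itself covers -/
theorem geo_cov_iff (hB : B.Good C0 k0 q0 Cm Z) (hk0 : 12 ≤ k0) (has : 2000000 ≤ as) {g : ℕ}
    {v : ℤ × ℤ} {a : ℕ} {c : Bool} (h : GeoNode B as g v a c) {y : ℤ × ℤ}
    (hy : geoSq v (6 * 2 ^ a) y) : geoCov B as g y ↔ geoSq v (2 ^ a) y := by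
  constructor
  · rintro ⟨v', a', c', h', hy'⟩
    by_cases hv : v = v'
    · obtain ⟨haa, -⟩ := (geo_node_iso hB hk0 has h h').1 hv
      subst hv; subst haa; exact hy'
    · exfalso
      have h1 := (geo_node_iso hB hk0 has h h').2 hv
      have h2 := (geo_node_iso hB hk0 has h' h).2 (Ne.symm hv)
      rw [geo_dInf_comm] at h2
      have t1 := geo_sq_dInf hy
      have t2 := geo_sq_dInf hy'
      have t3 := geo_dInf_triangle v y v'
      rw [geo_dInf_comm v y] at t3
      have hA : (0 : ℤ) < 2 ^ a := by positivity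
      have hA' : (0 : ℤ) < 2 ^ a' := by positivity
      omega
  · intro hy'
    exact ⟨v, a, c, h, hy'⟩

theorem geo_xor_aux (c : Bool) (p q s : Prop) [Decidable p] [Decidable q] [Decidable s]
    (h : q ↔ ¬ (p ↔ s)) :
    xor (xor c (!decide p)) (decide s) = xor c (!decide q) := by
  by_cases hp : p <;> by_cases hs : s <;> by_cases hq : q <;> simp_all

open Classical in
/-- exact cross star before the repair of the node -/
theorem geo_node_star (hB : B.Good C0 k0 q0 Cm Z) (hk0 : 12 ≤ k0) (has : 2000000 ≤ as) {g : ℕ}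
    {v : ℤ × ℤ} {a : ℕ} {c : Bool} (h : GeoNode B as g v a c) {y : ℤ × ℤ}
    (hy : geoSq v (8 * 2 ^ a) y) : geoCol B as g y = geoCross c v y := by
  induction h generalizing y with
  | root p hp =>
    rw [← (geo_pow_lev hB hk0 p).1] at hy
    exact hB.star p hp y hy
  | child g v a c e h ha he ih =>
    have hA : (0 : ℤ) < 2 ^ a := by positivity
    have hn := geo_two_pow_nx (le_trans has ha)
    have hy2 : geoSq v (2 * 2 ^ a) y := by
      unfold geoSq at hy ⊢
      rcases geo_mem_dirs.1 he with rfl | rfl | rfl | rfl <;> simp at hy <;> omega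
    have h1 := ih (geo_sq_mono hy2 (by omega))
    have h2 := geo_cov_iff hB hk0 has h (geo_sq_mono hy2 (by omega))
    show xor (geoCol B as g y) (decide (geoCov B as g y)) = _
    rw [h1, decide_eq_decide.2 h2]
    unfold geoCross geoDiag
    apply geo_xor_aux
    unfold geoSq at hy ⊢
    rcases geo_mem_dirs.1 he with rfl | rfl | rfl | rfl <;> simp at hy ⊢ <;> omega

/-- a site covered by a node has the level of the root up to one -/
theorem geo_cov_lev (hB : B.Good C0 k0 q0 Cm Z) (hk0 : 12 ≤ k0) (has : 2000000 ≤ as) {g : ℕ}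
    {v : ℤ × ℤ} {a : ℕ} {p : ℤ × ℤ} (h : GeoDesc as p (B.lev p - 8) g v a)
    {y : ℤ × ℤ} (hy : geoSq v (2 ^ a) y) :
    dInf y p ≤ 2 * 2 ^ (B.lev p - 8) ∧ B.lev p ≤ B.lev y + 1 := by
  have h1 := (geo_desc_dist has h).2
  have h2 := geo_sq_dInf hy
  have h3 := geo_dInf_triangle y v p
  have hA : (0 : ℤ) < 2 ^ a := by positivity
  have h4 : dInf y p ≤ 2 * 2 ^ (B.lev p - 8) := by omega
  refine ⟨h4, ?_⟩
  have h5 := (geo_pow_lev hB hk0 p).2
  have hP : (0 : ℤ) < 2 ^ (B.lev p - 8) := by positivity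
  have h6 : dInf p y ≤ 2 ^ B.lev p := by rw [geo_dInf_comm]; omega
  exact (hB.lip p y h6).1

/-- the depths at which a site is covered are bounded -/
theorem geo_cov_bdd (hB : B.Good C0 k0 q0 Cm Z) (hk0 : 12 ≤ k0) (has : 2000000 ≤ as)
    (y : ℤ × ℤ) : ∃ G, ∀ g, geoCov B as g y → g ≤ G := by
  by_cases hex : ∃ g, geoCov B as g y
  · obtain ⟨g0, v0, a0, c0, h0, hy0⟩ := hex
    obtain ⟨p0, hp0, -, hd0, -, -⟩ := geo_node_desc has h0
    refine ⟨B.lev p0, ?_⟩
    rintro g ⟨v, a, c, h, hy⟩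
    obtain ⟨p, hp, -, hd, hg, -⟩ := geo_node_desc has h
    have e1 := (geo_cov_lev hB hk0 has hd0 hy0).1
    have e2 := (geo_cov_lev hB hk0 has hd hy).1
    by_cases hpp : p = p0
    · subst hpp; omega
    · exfalso
      have i1 := hB.iso p p0 hp hp0 hpp
      have i2 := hB.iso p0 p hp0 hp (Ne.symm hpp)
      rw [(geo_pow_lev hB hk0 p).1] at i1
      rw [(geo_pow_lev hB hk0 p0).1, geo_dInf_comm] at i2
      have t := geo_dInf_triangle p y p0
      rw [geo_dInf_comm p y] at t
      have hP : (0 : ℤ) < 2 ^ (B.lev p - 8) := by positivity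
      have hP0 : (0 : ℤ) < 2 ^ (B.lev p0 - 8) := by positivity
      omega
  · exact ⟨0, fun g hg => absurd ⟨g, hg⟩ hex⟩

open Classical in
/-- a covered site has a deepest covering depth -/
theorem geo_cov_last (hB : B.Good C0 k0 q0 Cm Z) (hk0 : 12 ≤ k0) (has : 2000000 ≤ as)
    {y : ℤ × ℤ} (h : ∃ g, geoCov B as g y) :
    ∃ g, geoCov B as g y ∧ ∀ g', g < g' → ¬ geoCov B as g' y := by
  obtain ⟨G, hG⟩ := geo_cov_bdd hB hk0 has y
  obtain ⟨g0, hg0⟩ := h
  refine ⟨Nat.findGreatest (fun g => geoCov B as g y) G, ?_, ?_⟩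
  · exact Nat.findGreatest_spec (P := fun g => geoCov B as g y) (hG g0 hg0) hg0
  · intro g' hg' hc
    exact Nat.findGreatest_is_greatest (P := fun g => geoCov B as g y) hg' (hG g' hc) hc

end Claimed.Agent.R296
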