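import Claimed.Agent.R296.GeoRepairA

/-!
# Row 296, paper 1, Section 10: the repair recursion, part B (owner helper68)

Partition of the lattice into exceptional sites and final tile regions; separation of a birth
template from the final regions of the earlier and peer tiles of the same label.
-/

set_option autoImplicit false

namespace Claimed.Agent.R296

variable {B : GeoBase} {C0 k0 q0 Cm as : ℕ} {Z : Finset (ℤ × ℤ)}

open Classical in
theorem geo_col_succ (g : ℕ) (y : ℤ × ℤ) :
    geoCol B as (g + 1) y = xor (geoCol B as g y) (decide (geoCov B as g y)) := rfl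

/-- colour does not change any more once no later square covers the site -/
theorem geo_col_stable {g : ℕ} {y : ℤ × ℤ} (h : ∀ g', g ≤ g' → ¬ geoCov B as g' y) (g' : ℕ)
    (hg : g ≤ g') : geoCol B as g' y = geoCol B as g y := by
  induction g', hg using Nat.le_induction with
  | base => rfl
  | succ n hn ih =>
    rw [geo_col_succ, ih]
    simp [h n hn]

/-- two nodes of the same depth whose squares meet coincide -/
theorem geo_node_same (hB : B.Good C0 k0 q0 Cm Z) (hk0 : 12 ≤ k0) (has : 2000000 ≤ as) {g : ℕ}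
    {v v' : ℤ × ℤ} {a a' : ℕ} {c c' : Bool}
    (h : GeoNode B as g v a c) (h' : GeoNode B as g v' a' c') {y : ℤ × ℤ}
    (hy : geoSq v (2 ^ a) y) (hy' : geoSq v' (2 ^ a') y) : v = v' ∧ a = a' ∧ c = c' := by
  by_cases hv : v = v'
  · exact ⟨hv, (geo_node_iso hB hk0 has h h').1 hv⟩
  · exfalso
    have h1 := (geo_node_iso hB hk0 has h h').2 hv
    have h2 := (geo_node_iso hB hk0 has h' h).2 (Ne.symm hv)
    rw [geo_dInf_comm] at h2
    have t1 := geo_sq_dInf hy
    have t2 := geo_sq_dInf hy'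
    have t3 := geo_dInf_triangle v y v'
    rw [geo_dInf_comm v y] at t3
    have hA : (0 : ℤ) < 2 ^ a := by positivity
    have hA' : (0 : ℤ) < 2 ^ a' := by positivity
    omega

/-- the label of the final tile of a site is its final colour -/
theorem geo_in_lab (hB : B.Good C0 k0 q0 Cm Z) (hk0 : 12 ≤ k0) (has : 2000000 ≤ as)
    {t : GeoTile} {y : ℤ × ℤ} (h : geoIn B as k0 t y) : t.lab = geoCol B as t.rank y := by
  obtain ⟨hv, ht, -⟩ := h
  cases t with
  | base k w c => exact ht.2.2.symm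
  | rep g v a dg c =>
    obtain ⟨-, c0, hn, hc⟩ := hv
    obtain ⟨hy, hd⟩ := ht
    have hA : (0 : ℤ) < 2 ^ a := by positivity
    have h1 := geo_node_star hB hk0 has hn (geo_sq_mono hy (by omega))
    have h2 : geoCov B as g y := ⟨v, a, c0, hn, hy⟩
    show c = geoCol B as (g + 1) y
    rw [geo_col_succ, h1, hc]
    unfold geoCross
    rw [hd]
    simp [h2]

theorem geo_cover (hB : B.Good C0 k0 q0 Cm Z) (hk0 : 12 ≤ k0) (has : 2000000 ≤ as) (y : ℤ × ℤ) :
    geoExc B as k0 y ∨ ∃ t, geoIn B as k0 t y := by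
  by_cases hex : ∃ g, geoCov B as g y
  · obtain ⟨g, ⟨v, a, c0, hn, hy⟩, hlast⟩ := geo_cov_last hB hk0 has hex
    by_cases ha : a < as
    · exact Or.inl (Or.inr ⟨g, v, a, c0, hn, ha, hy, hlast⟩)
    · refine Or.inr ⟨.rep g v a (geoDiag v y) (xor c0 (geoDiag v y)), ?_, ?_, ?_⟩
      · exact ⟨by omega, c0, hn, rfl⟩
      · exact ⟨hy, rfl⟩
      · intro g' hg'
        exact hlast g' hg'
  · have hno : ∀ g, ¬ geoCov B as g y := fun g hg => hex ⟨g, hg⟩
    by_cases hl : B.lev y < k0
    · exact Or.inl (Or.inl ⟨hno, hl⟩)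
    · refine Or.inr ⟨.base (B.lev y) (B.win y) (B.col y), ?_, ⟨rfl, rfl, rfl⟩, fun g _ => hno g⟩
      show k0 ≤ B.lev y
      omega

theorem geo_in_unique (hB : B.Good C0 k0 q0 Cm Z) (hk0 : 12 ≤ k0) (has : 2000000 ≤ as)
    {t t' : GeoTile} {y : ℤ × ℤ} (h : geoIn B as k0 t y) (h' : geoIn B as k0 t' y) : t = t' := by
  obtain ⟨hv, ht, hl⟩ := h
  obtain ⟨hv', ht', hl'⟩ := h'
  cases t with
  | base k w c =>
    cases t' with
    | base k' w' c' =>
      obtain ⟨rfl, rfl, rfl⟩ := ht
      obtain ⟨rfl, rfl, rfl⟩ := ht'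
      rfl
    | rep g' v' a' dg' c' =>
      obtain ⟨-, c0', hn', -⟩ := hv'
      exact absurd ⟨v', a', c0', hn', ht'.1⟩ (hl g' (Nat.zero_le _))
  | rep g v a dg c =>
    obtain ⟨-, c0, hn, hc⟩ := hv
    cases t' with
    | base k' w' c' =>
      exact absurd ⟨v, a, c0, hn, ht.1⟩ (hl' g (Nat.zero_le _))
    | rep g' v' a' dg' c' =>
      obtain ⟨-, c0', hn', hc'⟩ := hv'
      have hc1 : geoCov B as g y := ⟨v, a, c0, hn, ht.1⟩
      have hc2 : geoCov B as g' y := ⟨v', a', c0', hn', ht'.1⟩
      have hg : g = g' := by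
        by_contra hne
        rcases Nat.lt_or_gt_of_ne hne with hlt | hlt
        · exact hl g' hlt hc2
        · exact hl' g hlt hc1
      subst hg
      obtain ⟨rfl, rfl, rfl⟩ := geo_node_same hB hk0 has hn hn' ht.1 ht'.1
      have hd : dg = dg' := by rw [← ht.2, ← ht'.2]
      subst hd
      rw [hc, hc']

theorem geo_exc_not_in (hB : B.Good C0 k0 q0 Cm Z) (hk0 : 12 ≤ k0) (has : 2000000 ≤ as)
    {t : GeoTile} {y : ℤ × ℤ} (h : geoExc B as k0 y) : ¬ geoIn B as k0 t y := by
  rintro ⟨hv, ht, hl⟩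
  rcases h with ⟨hno, hlev⟩ | ⟨g, v, a, c, hn, ha, hy, hlast⟩
  · cases t with
    | base k w c =>
      have h1 : k0 ≤ k := hv
      have h2 : B.lev y = k := ht.1
      omega
    | rep g v a dg c =>
      obtain ⟨-, c0, hn, -⟩ := hv
      exact hno g ⟨v, a, c0, hn, ht.1⟩
  · have hc1 : geoCov B as g y := ⟨v, a, c, hn, hy⟩
    cases t with
    | base k w c' => exact hl g (Nat.zero_le _) hc1
    | rep g' v' a' dg c' =>
      obtain ⟨ha', c0, hn', -⟩ := hv
      have hc2 : geoCov B as g' y := ⟨v', a', c0, hn', ht.1⟩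
      have hg : g = g' := by
        by_contra hne
        rcases Nat.lt_or_gt_of_ne hne with hlt | hlt
        · exact hlast g' hlt hc2
        · exact hl g hlt hc1
      subst hg
      obtain ⟨-, rfl, -⟩ := geo_node_same hB hk0 has hn hn' hy ht.1
      omega

/-- geometry of one repair step: a point `y` outside the square, close to a point `x` of the
square of the other diagonal type, lies in the square of one of the four children -/
theorem geo_child_catch {v x y : ℤ × ℤ} {A A' : ℤ} (hAA : 8 * A' ≤ A)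
    (hx : geoSq v A x) (hy : ¬ geoSq v A y) (hd : geoDiag v x ≠ geoDiag v y)
    (hxy : dInf x y < A') :
    ∃ e ∈ geoDirs, geoSq (v.1 + A * e.1, v.2 + A * e.2) A' y := by
  rw [geo_dInf_lt] at hxy
  unfold geoSq at hx hy
  have hd' : ¬ ((v.1 ≤ x.1 ↔ v.2 ≤ x.2) ↔ (v.1 ≤ y.1 ↔ v.2 ≤ y.2)) := by
    intro h
    apply hd
    unfold geoDiag
    exact decide_eq_decide.2 h
  by_cases h1 : v.1 - A' ≤ y.1 ∧ y.1 < v.1 + A'
  · by_cases h2 : v.2 ≤ y.2
    · refine ⟨(0, 1), by simp [geoDirs], ?_⟩
      unfold geoSq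
      simp
      omega
    · refine ⟨(0, -1), by simp [geoDirs], ?_⟩
      unfold geoSq
      simp
      omega
  · by_cases h2 : v.1 ≤ y.1
    · refine ⟨(1, 0), by simp [geoDirs], ?_⟩
      unfold geoSq
      simp
      omega
    · refine ⟨(-1, 0), by simp [geoDirs], ?_⟩
      unfold geoSq
      simp
      omega

theorem geo_bool1 (c0 dg d : Bool) (h : xor c0 dg = xor (xor c0 (!d)) true) : d = dg := by
  revert h; cases c0 <;> cases dg <;> cases d <;> decide

theorem geo_bool2 (c0 dg d : Bool) (h : xor c0 dg = xor (xor c0 (!d)) false) : dg ≠ d := by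
  revert h; cases c0 <;> cases dg <;> cases d <;> decide

open Classical in
/-- MAIN SEPARATION: the whole birth template of `t` is far from the final region of every
other tile of the same label which is not later than `t`. -/
theorem geo_sep (hB : B.Good C0 k0 q0 Cm Z) (hk0 : 12 ≤ k0) (has : 2000000 ≤ as)
    {t t' : GeoTile} (ht : geoValid B as k0 t) (hlab : t'.lab = t.lab)
    (hr : t'.rank ≤ t.rank) (hne : t' ≠ t) {x y : ℤ × ℤ} (hx : geoTpl B t x)
    (hy : geoIn B as k0 t' y) : geoRad t ≤ dInf x y := by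
  by_contra hlt
  rw [not_le] at hlt
  cases t with
  | base k w c =>
    have hk : k0 ≤ k := ht
    cases t' with
    | rep g' v' a' dg' c' => simp [GeoTile.rank] at hr
    | base k' w' c' =>
      obtain ⟨hv', ht', hl'⟩ := hy
      have hk' : k0 ≤ k' := hv'
      obtain ⟨rfl, rfl, rfl⟩ := hx
      obtain ⟨rfl, rfl, rfl⟩ := ht'
      have hcc : B.col x = B.col y := hlab.symm
      have hw : (B.lev x, B.win x) ≠ (B.lev y, B.win y) := by
        intro h
        apply hne
        rw [Prod.mk.injEq] at h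
        rw [h.1, h.2, hcc]
      have hd : dInf x y * 2 ^ 10 < 2 ^ B.lev x := by
        have e : (2 : ℤ) ^ B.lev x = 2 ^ (B.lev x - 10) * 2 ^ 10 := by
          rw [← pow_add]; congr 1; omega
        rw [e]
        have hlt' : dInf x y < 2 ^ (B.lev x - 10) := hlt
        exact mul_lt_mul_of_pos_right hlt' (by positivity)
      obtain ⟨p, hp, hyp⟩ := hB.sep x y hk hk' hcc hw hd
      exact hl' 0 (Nat.zero_le _) ⟨p, _, _, GeoNode.root p hp, hyp⟩
  | rep g v a dg c =>
    obtain ⟨ha, c0, hn, hc⟩ := ht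
    obtain ⟨hxs, hxd⟩ := hx
    have hlt' : dInf x y < 2 ^ geoNx a := hlt
    have hA : (0 : ℤ) < 2 ^ a := by positivity
    have hA' : (0 : ℤ) < 2 ^ geoNx a := by positivity
    have hn8 := geo_two_pow_nx (le_trans has ha)
    have hr' : t'.rank ≤ g + 1 := hr
    -- `y` lies in the star of the node
    have hy2 : geoSq v (2 * 2 ^ a) y := by
      have := geo_dInf_lt.1 hlt'
      unfold geoSq at hxs ⊢
      omega
    have hlab' := geo_in_lab hB hk0 has hy
    have hstab := geo_col_stable (B := B) (as := as) (y := y) hy.2.2 (g + 1) hr'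
    have hcol : t'.lab = geoCol B as (g + 1) y := by rw [hlab', hstab]
    have hstar := geo_node_star hB hk0 has hn (geo_sq_mono hy2 (by omega))
    have hcov := geo_cov_iff hB hk0 has hn (geo_sq_mono hy2 (by omega))
    rw [geo_col_succ, hstar, hlab] at hcol
    have hcol' : c = xor (geoCross c0 v y) (decide (geoCov B as g y)) := hcol
    by_cases hys : geoSq v (2 ^ a) y
    · -- inside the square: same diagonal type, hence the same tile
      have hcy : geoCov B as g y := hcov.2 hys
      have hdy : geoDiag v y = dg := by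
        rw [hc, decide_eq_true hcy] at hcol'
        exact geo_bool1 c0 dg _ hcol'
      apply hne
      have hin : geoIn B as k0 (.rep g v a dg c) y := by
        refine ⟨⟨ha, c0, hn, hc⟩, ⟨hys, hdy⟩, ?_⟩
        intro g' hg'
        exact hy.2.2 g' (le_trans hr' hg')
      exact geo_in_unique hB hk0 has hy hin
    · -- outside: the other diagonal type, hence caught by a child
      have hcy : ¬ geoCov B as g y := fun h => hys (hcov.1 h)
      have hdy : geoDiag v x ≠ geoDiag v y := by
        rw [hc, decide_eq_false hcy] at hcol'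
        rw [hxd]
        exact geo_bool2 c0 dg _ hcol'
      obtain ⟨e, he, hye⟩ := geo_child_catch hn8 hxs hys hdy hlt'
      exact hy.2.2 (g + 1) hr' ⟨_, _, _, GeoNode.child g v a c0 e hn ha he, hye⟩

/-- clearance of the new templates from `Z` -/
theorem geo_rep_clear (hB : B.Good C0 k0 q0 Cm Z) (hk0 : 12 ≤ k0) (has : 2000000 ≤ as)
    (hC0 : 2 ≤ C0)
    {g : ℕ} {v : ℤ × ℤ} {a : ℕ} {c : Bool} (h : GeoNode B as g v a c) {x : ℤ × ℤ}
    (hx : geoSq v (2 ^ a) x) {z : ℤ × ℤ} (hz : z ∈ Z) :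
    ((C0 : ℤ) - 2) * (256 * 2 ^ a) ≤ dInf x z := by
  obtain ⟨p, hp, -, hd, hg, -⟩ := geo_node_desc has h
  have h1 := (geo_cov_lev hB hk0 has hd hx).1
  have h2 := hB.mark_clear p hp z hz
  have h3 := (geo_pow_lev hB hk0 p).2
  have h4 := geo_dInf_triangle p x z
  rw [geo_dInf_comm p x] at h4
  have h5 : (2 : ℤ) ^ a ≤ 2 ^ (B.lev p - 8) := pow_le_pow_right₀ (by norm_num) (by omega)
  have hP : (0 : ℤ) < 2 ^ (B.lev p - 8) := by positivity
  rw [h3] at h2
  have hC : (0 : ℤ) ≤ (C0 : ℤ) - 2 := by omega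
  have h6 : ((C0 : ℤ) - 2) * (256 * 2 ^ a) ≤ ((C0 : ℤ) - 2) * (256 * 2 ^ (B.lev p - 8)) :=
    mul_le_mul_of_nonneg_left (by omega) hC
  nlinarith

end Claimed.Agent.R296
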