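import Claimed.Agent.R296.GeoAux

/-!
# Row 296, paper 1, Section 10: counting exceptional sites and tiles (LEAF; proofs helper74)

Inputs: `GeoBase.Good` (fields `marks`, `wins`, `dummy`), the abstract count of descendants
(`hW`, `hCs` = conclusion of `geo_desc_count`), `geo_node_desc`, `geo_cov_lev`.

PLAN.
* `geo_nodes_finite`: `K := A.sup B.lev + 2`; `NS := (range K).biUnion fun k => (ms k).biUnion fun p => S p (k - 8)`
  with `ms k` from `hB.marks k` and `S p a0` from `hW p a0`.  A node whose square meets `A` descends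
  from a mark `p` with `lev p ≤ lev y + 1 < K` (`geo_node_desc`, `geo_cov_lev`).
  `card NS ≤ ∑ k, card (ms k) * W (k - 8)` and `card (ms k) ≤ Cm |Z| / 2^((k-1)/q0)`.
* `geo_card_exc`: an exceptional site of `A` is in the dummy Finset or in the square (at most
  `(2 * 2^a)^2 ≤ 4 * 4^as` sites) of a node of `NS` with `a < as`.
* `geo_sum_scale`: new tiles: each term is `≤ 1` and `t ↦ ((g, v, a), dg, c)` is injective into
  `NS × Bool × Bool`.  Base tiles of level `k`: at most `2 * card (ws k) ≤ 2 Cm |Z|` of them, each term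
  `≤ (2^k)⁻¹`; `∑ (1/2)^k ≤ 2`.
-/

set_option autoImplicit false

namespace Claimed.Agent.R296

variable {B : GeoBase} {C0 k0 Cm as : ℕ} {Z : Finset (ℤ × ℤ)}

theorem geo_nodes_finite (hB : B.Good C0 k0 2000000 Cm Z) (hk0 : 12 ≤ k0) (has : 2000000 ≤ as)
    (W : ℕ → ℕ)
    (hW : ∀ (p : ℤ × ℤ) (a0 : ℕ), ∃ S : Finset (ℕ × (ℤ × ℤ) × ℕ), S.card ≤ W a0 ∧
        ∀ g v a, GeoDesc as p a0 g v a → (g, v, a) ∈ S)
    (Cs : ℝ)
    (hCs : ∀ K : ℕ, ∑ k ∈ Finset.range K, (W (k - 8) : ℝ) / 2 ^ ((k - 1) / 2000000) ≤ Cs)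
    (A : Finset (ℤ × ℤ)) :
    ∃ NS : Finset (ℕ × (ℤ × ℤ) × ℕ), (NS.card : ℝ) ≤ Cm * Cs * Z.card ∧
      ∀ g v a c, GeoNode B as g v a c → (∃ y ∈ A, geoSq v (2 ^ a) y) → (g, v, a) ∈ NS := by
  classical
  choose ms hms1 hms2 using hB.marks
  choose S hS1 hS2 using hW
  set K := A.sup B.lev + 2 with hK
  refine ⟨(Finset.range K).biUnion fun k => (ms k).biUnion fun p => S p (k - 8), ?_, ?_⟩
  · have h1 : (((Finset.range K).biUnion fun k => (ms k).biUnion fun p => S p (k - 8)).card : ℝ) ≤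
        ∑ k ∈ Finset.range K, ((ms k).card : ℝ) * W (k - 8) := by
      have h2 : ((Finset.range K).biUnion fun k => (ms k).biUnion fun p => S p (k - 8)).card ≤
          ∑ k ∈ Finset.range K, (ms k).card * W (k - 8) := by
        refine Finset.card_biUnion_le.trans (Finset.sum_le_sum fun k _ => ?_)
        refine Finset.card_biUnion_le.trans ?_
        calc ∑ p ∈ ms k, (S p (k - 8)).card ≤ ∑ _p ∈ ms k, W (k - 8) :=
              Finset.sum_le_sum fun p _ => hS1 p (k - 8)
          _ = (ms k).card * W (k - 8) := by simp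
      exact_mod_cast h2
    refine h1.trans ?_
    have h3 : ∀ k ∈ Finset.range K, ((ms k).card : ℝ) * W (k - 8) ≤
        (Cm * Z.card : ℝ) * ((W (k - 8) : ℝ) / 2 ^ ((k - 1) / 2000000)) := by
      intro k _
      have hp : (0 : ℝ) < 2 ^ ((k - 1) / 2000000) := by positivity
      have h4 : ((ms k).card : ℝ) * 2 ^ ((k - 1) / 2000000) ≤ Cm * Z.card := by
        exact_mod_cast hms1 k
      have h5 : ((ms k).card : ℝ) ≤ (Cm * Z.card : ℝ) / 2 ^ ((k - 1) / 2000000) :=
        (le_div_iff₀ hp).2 h4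
      calc ((ms k).card : ℝ) * W (k - 8)
          ≤ (Cm * Z.card : ℝ) / 2 ^ ((k - 1) / 2000000) * W (k - 8) :=
            mul_le_mul_of_nonneg_right h5 (Nat.cast_nonneg _)
        _ = (Cm * Z.card : ℝ) * ((W (k - 8) : ℝ) / 2 ^ ((k - 1) / 2000000)) := by ring
    calc ∑ k ∈ Finset.range K, ((ms k).card : ℝ) * W (k - 8)
        ≤ ∑ k ∈ Finset.range K, (Cm * Z.card : ℝ) * ((W (k - 8) : ℝ) / 2 ^ ((k - 1) / 2000000)) :=
          Finset.sum_le_sum h3
      _ = (Cm * Z.card : ℝ) * ∑ k ∈ Finset.range K, (W (k - 8) : ℝ) / 2 ^ ((k - 1) / 2000000) := by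
          rw [Finset.mul_sum]
      _ ≤ (Cm * Z.card : ℝ) * Cs := mul_le_mul_of_nonneg_left (hCs K) (by positivity)
      _ = Cm * Cs * Z.card := by ring
  · rintro g v a c hn ⟨y, hyA, hy⟩
    obtain ⟨p, hp, -, hd, -, -⟩ := geo_node_desc has hn
    have h1 := (geo_cov_lev hB hk0 has hd hy).2
    have h2 : B.lev y ≤ A.sup B.lev := Finset.le_sup hyA
    rw [Finset.mem_biUnion]
    refine ⟨B.lev p, Finset.mem_range.2 (by omega), ?_⟩
    rw [Finset.mem_biUnion]
    exact ⟨p, hms2 _ p hp rfl, hS2 _ _ g v a hd⟩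

open Classical in
theorem geo_card_exc (hB : B.Good C0 k0 2000000 Cm Z) (A : Finset (ℤ × ℤ))
    (NS : Finset (ℕ × (ℤ × ℤ) × ℕ))
    (hNS : ∀ g v a c, GeoNode B as g v a c → (∃ y ∈ A, geoSq v (2 ^ a) y) → (g, v, a) ∈ NS) :
    ((A.filter (geoExc B as k0)).card : ℝ) ≤ Cm * 4 ^ k0 * Z.card + NS.card * (4 * 4 ^ as) := by
  obtain ⟨dm, hdm1, hdm2⟩ := hB.dummy
  set sq : ℕ × (ℤ × ℤ) × ℕ → Finset (ℤ × ℤ) := fun n =>
    if n.2.2 < as then geoBoxF (n.2.1.1 - 2 ^ n.2.2, n.2.1.2 - 2 ^ n.2.2) ((2 * 2 ^ n.2.2 : ℕ) : ℤ)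
    else ∅ with hsq
  have hsub : A.filter (geoExc B as k0) ⊆ dm ∪ NS.biUnion sq := by
    intro y hy
    obtain ⟨hyA, hexc⟩ := Finset.mem_filter.1 hy
    rcases hexc with ⟨-, hlev⟩ | ⟨g, v, a, c, hn, ha, hys, -⟩
    · exact Finset.mem_union_left _ (hdm2 y hlev)
    · apply Finset.mem_union_right
      rw [Finset.mem_biUnion]
      refine ⟨(g, v, a), hNS g v a c hn ⟨y, hyA, hys⟩, ?_⟩
      simp only [hsq, ha, if_true]
      rw [geo_mem_boxF]
      have := geo_sq_iff_box.1 hys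
      push_cast
      exact this
  have hcsq : ∀ n ∈ NS, (sq n).card ≤ 4 * 4 ^ as := by
    intro n _
    simp only [hsq]
    split_ifs with h
    · rw [geo_card_boxF]
      have h1 : 2 ^ n.2.2 ≤ 2 ^ as := Nat.pow_le_pow_right (by norm_num) h.le
      calc 2 * 2 ^ n.2.2 * (2 * 2 ^ n.2.2) ≤ 2 * 2 ^ as * (2 * 2 ^ as) :=
            Nat.mul_le_mul (by omega) (by omega)
        _ = 4 * 4 ^ as := by
            have : (4 : ℕ) ^ as = 2 ^ as * 2 ^ as := by
              rw [← mul_pow]; norm_num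
            rw [this]; ring
    · simp
  have hcard : (A.filter (geoExc B as k0)).card ≤ Cm * 4 ^ k0 * Z.card + NS.card * (4 * 4 ^ as) := by
    calc (A.filter (geoExc B as k0)).card ≤ (dm ∪ NS.biUnion sq).card := Finset.card_le_card hsub
      _ ≤ dm.card + (NS.biUnion sq).card := Finset.card_union_le _ _
      _ ≤ Cm * 4 ^ k0 * Z.card + ∑ n ∈ NS, (sq n).card :=
          Nat.add_le_add hdm1 Finset.card_biUnion_le
      _ ≤ Cm * 4 ^ k0 * Z.card + ∑ _n ∈ NS, 4 * 4 ^ as :=
          Nat.add_le_add_left (Finset.sum_le_sum hcsq) _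
      _ = Cm * 4 ^ k0 * Z.card + NS.card * (4 * 4 ^ as) := by simp
  exact_mod_cast hcard

/-- key of a base tile -/
def geoKeyB : GeoTile → (Σ _ : ℕ, (ℤ × ℤ) × Bool)
  | .base k w c => ⟨k, (w, c)⟩
  | .rep _ _ _ _ _ => ⟨0, ((0, 0), false)⟩

/-- key of a new tile -/
def geoKeyR : GeoTile → (ℕ × (ℤ × ℤ) × ℕ) × Bool × Bool
  | .base _ _ _ => ((0, (0, 0), 0), false, false)
  | .rep g v a dg c => ((g, v, a), dg, c)

/-- base tiles -/
def GeoTile.isBase : GeoTile → Bool
  | .base _ _ _ => true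
  | .rep _ _ _ _ _ => false

theorem geo_scale_one_le (cb cB : ℕ) (t : GeoTile) : 1 ≤ geoScale cb cB t := by
  cases t <;> exact Nat.one_le_two_pow

theorem geo_scale_term_nonneg (cb cB : ℕ) (t : GeoTile) :
    0 ≤ (((geoScale cb cB t : ℕ) : ℝ) ^ 100)⁻¹ := by positivity

theorem geo_scale_term_le_one (cb cB : ℕ) (t : GeoTile) :
    (((geoScale cb cB t : ℕ) : ℝ) ^ 100)⁻¹ ≤ 1 := by
  apply inv_le_one_of_one_le₀
  apply one_le_pow₀
  exact_mod_cast geo_scale_one_le cb cB t

theorem geo_scale_term_base (cb cB k : ℕ) (w : ℤ × ℤ) (c : Bool) :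
    (((geoScale cb cB (.base k w c) : ℕ) : ℝ) ^ 100)⁻¹ ≤ (1 / 2 : ℝ) ^ k := by
  have h1 : (2 : ℝ) ^ k ≤ ((geoScale cb cB (.base k w c) : ℕ) : ℝ) ^ 100 := by
    have h2 : (1 : ℝ) ≤ ((geoScale cb cB (.base k w c) : ℕ) : ℝ) := by
      exact_mod_cast geo_scale_one_le cb cB _
    have h3 : (2 : ℝ) ^ k ≤ ((geoScale cb cB (.base k w c) : ℕ) : ℝ) := by
      have : 2 ^ k ≤ geoScale cb cB (.base k w c) :=
        Nat.pow_le_pow_right (by norm_num) (by omega)
      exact_mod_cast this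
    exact h3.trans (le_self_pow₀ h2 (by norm_num))
  rw [one_div, inv_pow]
  exact inv_anti₀ (by positivity) h1

theorem geo_sum_scale (hB : B.Good C0 k0 2000000 Cm Z) (A : Finset (ℤ × ℤ))
    (NS : Finset (ℕ × (ℤ × ℤ) × ℕ))
    (hNS : ∀ g v a c, GeoNode B as g v a c → (∃ y ∈ A, geoSq v (2 ^ a) y) → (g, v, a) ∈ NS)
    (I : Finset GeoTile) (hI : ∀ t ∈ I, ∃ y ∈ A, geoIn B as k0 t y) (cb cB : ℕ) :
    ∑ t ∈ I, (((geoScale cb cB t : ℕ) : ℝ) ^ 100)⁻¹ ≤ 4 * Cm * Z.card + 4 * NS.card := by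
  classical
  choose ws hws1 hws2 using hB.wins
  set K := A.sup B.lev + 1 with hK
  rw [← Finset.sum_filter_add_sum_filter_not I (fun t => t.isBase = true)]
  apply add_le_add
  · -- base tiles
    set Ib := I.filter (fun t => t.isBase = true) with hIb
    set P : Finset (Σ _ : ℕ, (ℤ × ℤ) × Bool) :=
      (Finset.range K).sigma fun k => ws k ×ˢ (Finset.univ : Finset Bool) with hP
    set h : (Σ _ : ℕ, (ℤ × ℤ) × Bool) → ℝ := fun x => (1 / 2 : ℝ) ^ x.1 with hh
    have hinj : Set.InjOn geoKeyB (Ib : Set GeoTile) := by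
      intro t ht t' ht' he
      have h1 := (Finset.mem_filter.1 (Finset.mem_coe.1 ht)).2
      have h2 := (Finset.mem_filter.1 (Finset.mem_coe.1 ht')).2
      cases t with
      | rep => simp [GeoTile.isBase] at h1
      | base k w c =>
        cases t' with
        | rep => simp [GeoTile.isBase] at h2
        | base k' w' c' =>
          simp only [geoKeyB, Sigma.mk.injEq] at he
          obtain ⟨rfl, he⟩ := he
          have := eq_of_heq he
          simp only [Prod.mk.injEq] at this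
          obtain ⟨rfl, rfl⟩ := this
          rfl
    have hsub : Ib.image geoKeyB ⊆ P := by
      intro x hx
      obtain ⟨t, ht, rfl⟩ := Finset.mem_image.1 hx
      obtain ⟨htI, htb⟩ := Finset.mem_filter.1 ht
      obtain ⟨y, hyA, -, htpl, -⟩ := hI t htI
      cases t with
      | rep => simp [GeoTile.isBase] at htb
      | base k w c =>
        obtain ⟨rfl, rfl, rfl⟩ := htpl
        have h2 : B.lev y ≤ A.sup B.lev := Finset.le_sup hyA
        simp only [geoKeyB, hP, Finset.mem_sigma, Finset.mem_range, Finset.mem_product,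
          Finset.mem_univ, and_true]
        exact ⟨by omega, hws2 _ y rfl⟩
    calc ∑ t ∈ Ib, (((geoScale cb cB t : ℕ) : ℝ) ^ 100)⁻¹ ≤ ∑ t ∈ Ib, h (geoKeyB t) := by
          refine Finset.sum_le_sum fun t ht => ?_
          have htb := (Finset.mem_filter.1 ht).2
          cases t with
          | rep => simp [GeoTile.isBase] at htb
          | base k w c => exact geo_scale_term_base cb cB k w c
      _ = ∑ x ∈ Ib.image geoKeyB, h x := (Finset.sum_image hinj).symm
      _ ≤ ∑ x ∈ P, h x :=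
          Finset.sum_le_sum_of_subset_of_nonneg hsub fun x _ _ => by simp only [hh]; positivity
      _ = ∑ k ∈ Finset.range K, ∑ _b ∈ ws k ×ˢ (Finset.univ : Finset Bool), (1 / 2 : ℝ) ^ k := by
          rw [hP, Finset.sum_sigma]
      _ = ∑ k ∈ Finset.range K, (((ws k).card : ℝ) * 2) * (1 / 2 : ℝ) ^ k := by
          refine Finset.sum_congr rfl fun k _ => ?_
          rw [Finset.sum_const, Finset.card_product, Finset.card_univ, Fintype.card_bool,
            nsmul_eq_mul]
          push_cast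
          ring
      _ ≤ ∑ k ∈ Finset.range K, ((Cm * Z.card : ℝ) * 2) * (1 / 2 : ℝ) ^ k := by
          refine Finset.sum_le_sum fun k _ => ?_
          have : ((ws k).card : ℝ) ≤ Cm * Z.card := by exact_mod_cast hws1 k
          apply mul_le_mul_of_nonneg_right _ (by positivity)
          linarith
      _ = ((Cm * Z.card : ℝ) * 2) * ∑ k ∈ Finset.range K, (1 / 2 : ℝ) ^ k := by
          rw [Finset.mul_sum]
      _ ≤ ((Cm * Z.card : ℝ) * 2) * 2 :=
          mul_le_mul_of_nonneg_left (sum_geometric_two_le K) (by positivity)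
      _ = 4 * Cm * Z.card := by ring
  · -- new tiles
    set Ir := I.filter (fun t => ¬ t.isBase = true) with hIr
    have hinj : Set.InjOn geoKeyR (Ir : Set GeoTile) := by
      intro t ht t' ht' he
      have h1 := (Finset.mem_filter.1 (Finset.mem_coe.1 ht)).2
      have h2 := (Finset.mem_filter.1 (Finset.mem_coe.1 ht')).2
      cases t with
      | base => simp [GeoTile.isBase] at h1
      | rep g v a dg c =>
        cases t' with
        | base => simp [GeoTile.isBase] at h2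
        | rep g' v' a' dg' c' =>
          simp only [geoKeyR, Prod.mk.injEq] at he
          obtain ⟨⟨rfl, rfl, rfl⟩, rfl, rfl⟩ := he
          rfl
    have hmaps : ∀ t ∈ Ir, geoKeyR t ∈
        NS ×ˢ ((Finset.univ : Finset Bool) ×ˢ (Finset.univ : Finset Bool)) := by
      intro t ht
      obtain ⟨htI, htb⟩ := Finset.mem_filter.1 ht
      obtain ⟨y, hyA, hval, htpl, -⟩ := hI t htI
      cases t with
      | base => simp [GeoTile.isBase] at htb
      | rep g v a dg c =>
        obtain ⟨-, c0, hn, -⟩ := hval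
        simp only [geoKeyR, Finset.mem_product, Finset.mem_univ, and_true]
        exact hNS g v a c0 hn ⟨y, hyA, htpl.1⟩
    have hcard : Ir.card ≤ NS.card * 4 := by
      have := Finset.card_le_card_of_injOn geoKeyR hmaps hinj
      simpa [Finset.card_product] using this
    calc ∑ t ∈ Ir, (((geoScale cb cB t : ℕ) : ℝ) ^ 100)⁻¹ ≤ ∑ _t ∈ Ir, (1 : ℝ) :=
          Finset.sum_le_sum fun t _ => geo_scale_term_le_one cb cB t
      _ = Ir.card := by simp
      _ ≤ 4 * NS.card := by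
          have : (Ir.card : ℝ) ≤ NS.card * 4 := by exact_mod_cast hcard
          linarith

end Claimed.Agent.R296
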