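import Claimed.Agent.R296.GeoBase
import Claimed.Agent.R296.GeoMain

/-!
# Row 296, paper 1, Proposition 10.2 (two families): final statement

`geo_twoFamStmt : TwoFamStmt Ctpl D0 nstar`, the third hypothesis of `top_area` in `Top.lean`.
-/

set_option autoImplicit false

namespace Claimed.Agent.R296

/-- paper 1, Proposition 10.2 -/
theorem geo_twoFamStmt (Ctpl D0 nstar : ℕ) : TwoFamStmt Ctpl D0 nstar :=
  geo_twoFam gb_geoBaseStmt Ctpl D0 nstar

end Claimed.Agent.R296
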