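import Mathlib

/-!
# Row 296, BB_LR (1): Lieb-Robinson bound in an abstract unital C⋆-algebra

No tensor product structure is used: the only locality input is that interaction terms with
disjoint labels commute.
-/

set_option autoImplicit false

namespace Claimed.Agent.R296

open MeasureTheory intervalIntegral

section Dyn

variable {A : Type*} [CStarAlgebra A]

/-- the unitary group `e^{itH}` -/
noncomputable def lrU (H : A) (t : ℝ) : A := NormedSpace.exp (((t : ℂ) * Complex.I) • H)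

/-- Heisenberg dynamics `τ_t(B) = e^{itH} B e^{-itH}` -/
noncomputable def lrDyn (H : A) (t : ℝ) (B : A) : A := lrU H t * B * lrU H (-t)

theorem lrU_zero (H : A) : lrU H 0 = 1 := by
  simp [lrU]

theorem lrU_mul_neg (H : A) (t : ℝ) : lrU H t * lrU H (-t) = 1 := by
  let +nondep : NormedAlgebra ℚ A := .restrictScalars ℚ ℂ A
  unfold lrU
  rw [← NormedSpace.exp_add_of_commute]
  · simp
  · exact (Commute.refl H).smul_left _ |>.smul_right _

theorem lrU_neg_mul (H : A) (t : ℝ) : lrU H (-t) * lrU H t = 1 := by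
  have := lrU_mul_neg H (-t)
  simpa using this

theorem lrU_star {H : A} (hH : IsSelfAdjoint H) (t : ℝ) : star (lrU H t) = lrU H (-t) := by
  unfold lrU
  rw [NormedSpace.star_exp, star_smul, hH.star_eq]
  congr 2
  simp

theorem lrU_mem_unitary {H : A} (hH : IsSelfAdjoint H) (t : ℝ) : lrU H t ∈ unitary A := by
  rw [Unitary.mem_iff, lrU_star hH]
  exact ⟨lrU_neg_mul H t, lrU_mul_neg H t⟩

theorem lrU_hasDerivAt (H : A) (t : ℝ) :
    HasDerivAt (fun u : ℝ => lrU H u) (lrU H t * (Complex.I • H)) t := by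
  have h1 : HasDerivAt (fun u : ℝ => NormedSpace.exp (u • (Complex.I • H)))
      (NormedSpace.exp (t • (Complex.I • H)) * (Complex.I • H)) t :=
    hasDerivAt_exp_smul_const (𝕂 := ℝ) (Complex.I • H) t
  have h2 : ∀ u : ℝ, u • (Complex.I • H) = ((u : ℂ) * Complex.I) • H := by
    intro u
    rw [mul_smul]
    exact (Complex.coe_smul u _).symm
  simpa [lrU, h2] using h1

theorem lrU_neg_hasDerivAt (H : A) (t : ℝ) :
    HasDerivAt (fun u : ℝ => lrU H (-u)) (-(lrU H (-t) * (Complex.I • H))) t := by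
  have h := (lrU_hasDerivAt H (-t)).scomp t (hasDerivAt_neg t)
  have h' : HasDerivAt (fun u : ℝ => lrU H (-u)) ((-1 : ℝ) • (lrU H (-t) * (Complex.I • H))) t := h
  simpa using h'

theorem lrU_continuous (H : A) : Continuous (fun u : ℝ => lrU H u) :=
  continuous_iff_continuousAt.2 fun t => (lrU_hasDerivAt H t).continuousAt

theorem lrU_commute {H X : A} (h : Commute X H) (t : ℝ) : Commute X (lrU H t) := by
  let +nondep : NormedAlgebra ℚ A := .restrictScalars ℚ ℂ A
  exact (h.smul_right _).exp_right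

theorem lrDyn_zero (H B : A) : lrDyn H 0 B = B := by
  simp [lrDyn, lrU_zero]

theorem lrDyn_mul (H : A) (t : ℝ) (X Y : A) :
    lrDyn H t (X * Y) = lrDyn H t X * lrDyn H t Y := by
  unfold lrDyn
  calc lrU H t * (X * Y) * lrU H (-t)
      = lrU H t * X * 1 * Y * lrU H (-t) := by simp [mul_assoc]
    _ = lrU H t * X * (lrU H (-t) * lrU H t) * Y * lrU H (-t) := by rw [lrU_neg_mul]
    _ = _ := by simp [mul_assoc]

theorem lrDyn_add (H : A) (t : ℝ) (X Y : A) :
    lrDyn H t (X + Y) = lrDyn H t X + lrDyn H t Y := by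
  simp [lrDyn, mul_add, add_mul]

theorem lrDyn_sub (H : A) (t : ℝ) (X Y : A) :
    lrDyn H t (X - Y) = lrDyn H t X - lrDyn H t Y := by
  simp [lrDyn, mul_sub, sub_mul]

theorem lrDyn_smul (H : A) (t : ℝ) (c : ℂ) (X : A) :
    lrDyn H t (c • X) = c • lrDyn H t X := by
  simp [lrDyn]

theorem lrDyn_sum {ι : Type*} (H : A) (t : ℝ) (S : Finset ι) (X : ι → A) :
    lrDyn H t (∑ i ∈ S, X i) = ∑ i ∈ S, lrDyn H t (X i) := by
  simp [lrDyn, Finset.mul_sum, Finset.sum_mul]

theorem lrDyn_one (H : A) (t : ℝ) : lrDyn H t 1 = 1 := by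
  simp [lrDyn, lrU_mul_neg]

theorem lrDyn_neg_lrDyn (H : A) (t : ℝ) (X : A) : lrDyn H (-t) (lrDyn H t X) = X := by
  unfold lrDyn
  calc lrU H (-t) * (lrU H t * X * lrU H (-t)) * lrU H (- -t)
      = (lrU H (-t) * lrU H t) * X * (lrU H (-t) * lrU H (- -t)) := by simp [mul_assoc]
    _ = X := by rw [lrU_neg_mul, lrU_mul_neg]; simp

theorem lrDyn_lrDyn_neg (H : A) (t : ℝ) (X : A) : lrDyn H t (lrDyn H (-t) X) = X := by
  have := lrDyn_neg_lrDyn H (-t) X
  simpa using this

theorem norm_lrDyn {H : A} (hH : IsSelfAdjoint H) (t : ℝ) (X : A) : ‖lrDyn H t X‖ = ‖X‖ := by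
  unfold lrDyn
  have h1 := CStarRing.norm_mul_coe_unitary (lrU H t * X) ⟨lrU H (-t), lrU_mem_unitary hH (-t)⟩
  have h2 := CStarRing.norm_coe_unitary_mul ⟨lrU H t, lrU_mem_unitary hH t⟩ X
  simp only at h1 h2
  rw [h1, h2]

theorem lrDyn_of_commute {H X : A} (h : Commute X H) (t : ℝ) : lrDyn H t X = X := by
  unfold lrDyn
  rw [← (lrU_commute h t).eq, mul_assoc, lrU_mul_neg, mul_one]

theorem lrDyn_star {H : A} (hH : IsSelfAdjoint H) (t : ℝ) (X : A) :
    star (lrDyn H t X) = lrDyn H t (star X) := by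
  unfold lrDyn
  rw [star_mul, star_mul, lrU_star hH, lrU_star hH, neg_neg, mul_assoc]

theorem lrDyn_continuous (H X : A) : Continuous (fun u : ℝ => lrDyn H u X) := by
  unfold lrDyn
  exact ((lrU_continuous H).mul continuous_const).mul ((lrU_continuous H).comp continuous_neg)

/-- conjugation of a moving operator -/
theorem lrDyn_hasDerivAt' (H : A) {Y : ℝ → A} {Y' : A} {t : ℝ} (hY : HasDerivAt Y Y' t) :
    HasDerivAt (fun u : ℝ => lrDyn H u (Y u))
      (lrDyn H t (Complex.I • (H * Y t - Y t * H) + Y')) t := by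
  have h := ((lrU_hasDerivAt H t).mul hY).mul (lrU_neg_hasDerivAt H t)
  have hc : Commute H (lrU H (-t)) := lrU_commute (Commute.refl H) (-t)
  have e1 : lrU H (-t) * (Complex.I • H) = (Complex.I • H) * lrU H (-t) := by
    rw [mul_smul_comm, smul_mul_assoc, hc.eq]
  have h' : HasDerivAt (fun u : ℝ => lrU H u * Y u * lrU H (-u))
      ((lrU H t * Complex.I • H * Y t + lrU H t * Y') * lrU H (-t) +
      (lrU H t * Y t) * -(lrU H (-t) * Complex.I • H)) t := h
  have e2 : lrDyn H t (Complex.I • (H * Y t - Y t * H) + Y')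
      = (lrU H t * Complex.I • H * Y t + lrU H t * Y') * lrU H (-t) +
      (lrU H t * Y t) * -(lrU H (-t) * Complex.I • H) := by
    unfold lrDyn
    rw [e1]
    simp only [mul_add, add_mul, mul_sub, sub_mul, smul_sub, mul_smul_comm, smul_mul_assoc,
      mul_assoc, mul_neg]
    abel
  rw [e2]
  exact h'

theorem lrDyn_hasDerivAt (H B : A) (t : ℝ) :
    HasDerivAt (fun u : ℝ => lrDyn H u B) (lrDyn H t (Complex.I • (H * B - B * H))) t := by
  have h := lrDyn_hasDerivAt' H (hasDerivAt_const t B)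
  simpa using h

theorem lrDyn_neg_hasDerivAt (H B : A) (t : ℝ) :
    HasDerivAt (fun u : ℝ => lrDyn H (-u) B)
      (-(Complex.I • (H * lrDyn H (-t) B - lrDyn H (-t) B * H))) t := by
  have h := (lrDyn_hasDerivAt H B (-t)).scomp t (hasDerivAt_neg t)
  have e : lrDyn H (-t) (Complex.I • (H * B - B * H))
      = Complex.I • (H * lrDyn H (-t) B - lrDyn H (-t) B * H) := by
    rw [lrDyn_smul, lrDyn_sub, lrDyn_mul, lrDyn_mul, lrDyn_of_commute (Commute.refl H)]
  rw [e] at h
  have h' : HasDerivAt (fun u : ℝ => lrDyn H (-u) B)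
      ((-1 : ℝ) • (Complex.I • (H * lrDyn H (-t) B - lrDyn H (-t) B * H))) t := h
  simpa using h'

/-- **One step of the Lieb-Robinson iteration.**  If `a` commutes with `H'`, then only
`Q = H - H'` moves `a`. -/
theorem lr_onestep {H H' a B : A} (hH : IsSelfAdjoint H) (hH' : IsSelfAdjoint H')
    (hc : Commute a H') {t : ℝ} (ht : 0 ≤ t) :
    ‖lrDyn H t a * B - B * lrDyn H t a‖ ≤ ‖a * B - B * a‖ +
      2 * ‖a‖ * ∫ u in (0 : ℝ)..t, ‖lrDyn H u (H - H') * B - B * lrDyn H u (H - H')‖ := by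
  -- the moving observable
  set Bt : ℝ → A := fun u => lrDyn H' u (lrDyn H (-u) B) with hBt
  set D : ℝ → A := fun u => lrDyn H' u
      (-(Complex.I • ((H - H') * lrDyn H (-u) B - lrDyn H (-u) B * (H - H')))) with hD
  have hder : ∀ u, HasDerivAt Bt (D u) u := by
    intro u
    have h := lrDyn_hasDerivAt' H' (lrDyn_neg_hasDerivAt H B u)
    convert h using 1
    simp only [hD]
    congr 1
    simp only [sub_mul, mul_sub, smul_sub]
    abel
  have hnormD : ∀ u, ‖D u‖ = ‖lrDyn H u (H - H') * B - B * lrDyn H u (H - H')‖ := by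
    intro u
    simp only [hD]
    rw [norm_lrDyn hH', norm_neg, norm_smul, Complex.norm_I, one_mul]
    have e : (H - H') * lrDyn H (-u) B - lrDyn H (-u) B * (H - H')
        = lrDyn H (-u) (lrDyn H u (H - H') * B - B * lrDyn H u (H - H')) := by
      rw [lrDyn_sub, lrDyn_mul, lrDyn_mul, lrDyn_neg_lrDyn]
    rw [e, norm_lrDyn hH]
  have hDcont : Continuous D := by
    simp only [hD]
    unfold lrDyn
    have c1 := lrU_continuous H
    have c2 := lrU_continuous H'
    have c1' : Continuous fun u : ℝ => lrU H (-u) := c1.comp continuous_neg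
    have c1'' : Continuous fun u : ℝ => lrU H (- -u) := c1.comp (continuous_neg.comp continuous_neg)
    have c2' : Continuous fun u : ℝ => lrU H' (-u) := c2.comp continuous_neg
    fun_prop
  have hint : ∫ u in (0 : ℝ)..t, D u = Bt t - Bt 0 :=
    intervalIntegral.integral_eq_sub_of_hasDerivAt (fun u _ => hder u)
      (hDcont.intervalIntegrable _ _)
  have hB0 : Bt 0 = B := by simp [hBt, lrDyn_zero]
  have hdiff : ‖Bt t - B‖ ≤
      ∫ u in (0 : ℝ)..t, ‖lrDyn H u (H - H') * B - B * lrDyn H u (H - H')‖ := by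
    have e0 : Bt t - B = ∫ u in (0 : ℝ)..t, D u := by rw [hint, hB0]
    rw [e0]
    refine (intervalIntegral.norm_integral_le_integral_norm ht).trans (le_of_eq ?_)
    simp only [hnormD]
  -- conjugate the commutator back
  have hkey : lrDyn H' t (lrDyn H (-t) (lrDyn H t a * B - B * lrDyn H t a))
      = a * Bt t - Bt t * a := by
    rw [lrDyn_sub, lrDyn_mul, lrDyn_mul, lrDyn_neg_lrDyn, lrDyn_sub, lrDyn_mul, lrDyn_mul,
      lrDyn_of_commute hc]
  have hn : ‖lrDyn H t a * B - B * lrDyn H t a‖ = ‖a * Bt t - Bt t * a‖ := by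
    rw [← hkey, norm_lrDyn hH', norm_lrDyn hH]
  rw [hn]
  have e : a * Bt t - Bt t * a = (a * B - B * a) + (a * (Bt t - B) - (Bt t - B) * a) := by
    simp only [mul_sub, sub_mul]; abel
  rw [e]
  refine (norm_add_le _ _).trans (add_le_add le_rfl ?_)
  refine (norm_sub_le _ _).trans ?_
  have h1 := norm_mul_le a (Bt t - B)
  have h2 := norm_mul_le (Bt t - B) a
  have h3 := mul_le_mul_of_nonneg_left hdiff (norm_nonneg a)
  nlinarith [norm_nonneg a]

end Dyn

/-! ### a Gronwall lemma for finite linear systems of integral inequalities -/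

theorem lr_gronwall_zero {D : ℝ → ℝ} (hD : Continuous D) {m : ℝ} (hm : 0 ≤ m)
    (h : ∀ t, 0 ≤ t → D t ≤ m * ∫ u in (0 : ℝ)..t, D u) : ∀ t, 0 ≤ t → D t ≤ 0 := by
  set I : ℝ → ℝ := fun t => ∫ u in (0 : ℝ)..t, D u with hIdef
  have hI : ∀ t, HasDerivAt I (D t) t := fun t =>
    intervalIntegral.integral_hasDerivAt_right (hD.intervalIntegrable _ _)
      (hD.stronglyMeasurableAtFilter _ _) hD.continuousAt
  set g : ℝ → ℝ := fun t => I t * Real.exp (-m * t) with hgdef
  have hg : ∀ t, HasDerivAt g ((D t - m * I t) * Real.exp (-m * t)) t := by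
    intro t
    have h1 : HasDerivAt (fun t : ℝ => Real.exp (-m * t)) (Real.exp (-m * t) * (-m)) t := by
      have := ((hasDerivAt_id t).const_mul (-m)).exp
      simpa using this
    have h2 := (hI t).mul h1
    have e : (D t - m * I t) * Real.exp (-m * t)
        = D t * Real.exp (-m * t) + I t * (Real.exp (-m * t) * (-m)) := by ring
    rw [e]
    exact h2
  have hanti : AntitoneOn g (Set.Ici 0) := by
    apply antitoneOn_of_deriv_nonpos (convex_Ici 0)
    · exact (continuous_iff_continuousAt.2 fun t => (hg t).continuousAt).continuousOn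
    · exact fun t _ => (hg t).differentiableAt.differentiableWithinAt
    · intro t ht
      rw [interior_Ici] at ht
      rw [(hg t).deriv]
      have := h t (le_of_lt ht)
      exact mul_nonpos_of_nonpos_of_nonneg (by linarith) (Real.exp_pos _).le
  intro t ht
  have h0 : g 0 = 0 := by simp [hgdef, hIdef]
  have h1 : g t ≤ 0 := h0 ▸ hanti (Set.mem_Ici.2 le_rfl) (Set.mem_Ici.2 ht) ht
  have h2 : I t ≤ 0 := by
    by_contra hc
    rw [not_le] at hc
    have : 0 < g t := mul_pos hc (Real.exp_pos _)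
    linarith
  have := h t ht
  nlinarith

theorem lr_integral_exp (v t : ℝ) :
    v * ∫ u in (0 : ℝ)..t, Real.exp (v * u) = Real.exp (v * t) - 1 := by
  rw [← intervalIntegral.integral_const_mul]
  have : ∀ x ∈ Set.uIcc 0 t, HasDerivAt (fun u : ℝ => Real.exp (v * u)) (v * Real.exp (v * x)) x := by
    intro x _
    have := ((hasDerivAt_id x).const_mul v).exp
    simpa [mul_comm] using this
  rw [intervalIntegral.integral_eq_sub_of_hasDerivAt this]
  · simp
  · exact (by fun_prop : Continuous fun u : ℝ => v * Real.exp (v * u)).intervalIntegrable _ _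

theorem lr_gronwall_system {ι : Type*} [Fintype ι] (c : ι → ℝ → ℝ) (hc : ∀ j, Continuous (c j))
    (M : ι → ι → ℝ) (hM : ∀ j k, 0 ≤ M j k) (W : ι → ℝ) (v : ℝ)
    (hW : ∀ j, ∑ k, M j k * W k ≤ v * W j)
    (hrec : ∀ j t, 0 ≤ t → c j t ≤ W j + ∑ k, M j k * ∫ u in (0 : ℝ)..t, c k u) :
    ∀ j t, 0 ≤ t → c j t ≤ W j * Real.exp (v * t) := by
  classical
  set δ : ι → ℝ → ℝ := fun j t => c j t - W j * Real.exp (v * t) with hδ
  have hδc : ∀ j, Continuous (δ j) := fun j => by
    simp only [hδ]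
    have := hc j
    fun_prop
  have hE0 : ∀ t, 0 ≤ t → 0 ≤ ∫ u in (0 : ℝ)..t, Real.exp (v * u) := fun t ht =>
    intervalIntegral.integral_nonneg ht fun u _ => (Real.exp_pos _).le
  have hδint : ∀ k t, ∫ u in (0 : ℝ)..t, δ k u
      = (∫ u in (0 : ℝ)..t, c k u) - W k * ∫ u in (0 : ℝ)..t, Real.exp (v * u) := by
    intro k t
    simp only [hδ]
    rw [intervalIntegral.integral_sub ((hc k).intervalIntegrable _ _)
      ((by fun_prop : Continuous fun u : ℝ => W k * Real.exp (v * u)).intervalIntegrable _ _),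
      intervalIntegral.integral_const_mul]
  have hδrec : ∀ j t, 0 ≤ t → δ j t ≤ ∑ k, M j k * ∫ u in (0 : ℝ)..t, δ k u := by
    intro j t ht
    simp only [hδint, mul_sub, Finset.sum_sub_distrib]
    have h1 := hrec j t ht
    have h2 : ∑ k, M j k * (W k * ∫ u in (0 : ℝ)..t, Real.exp (v * u))
        = (∑ k, M j k * W k) * ∫ u in (0 : ℝ)..t, Real.exp (v * u) := by
      rw [Finset.sum_mul]
      exact Finset.sum_congr rfl fun k _ => by ring
    rw [h2]
    have h3 := mul_le_mul_of_nonneg_right (hW j) (hE0 t ht)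
    have h4 := lr_integral_exp v t
    simp only [hδ]
    have h5 : v * W j * ∫ u in (0 : ℝ)..t, Real.exp (v * u) = W j * (Real.exp (v * t) - 1) := by
      rw [← h4]; ring
    rw [h5] at h3
    linarith
  set D : ℝ → ℝ := fun t => ∑ j, max (δ j t) 0 with hDdef
  have hDc : Continuous D := by
    simp only [hDdef]
    exact continuous_finsetSum _ fun j _ => (hδc j).max continuous_const
  set m : ℝ := ∑ j, ∑ k, M j k with hm
  have hm0 : 0 ≤ m := Finset.sum_nonneg fun j _ => Finset.sum_nonneg fun k _ => hM j k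
  have hMm : ∀ j k, M j k ≤ m := by
    intro j k
    calc M j k ≤ ∑ k, M j k := Finset.single_le_sum (f := fun k => M j k) (fun k _ => hM j k) (Finset.mem_univ k)
      _ ≤ m := Finset.single_le_sum (f := fun j => ∑ k, M j k)
          (fun j _ => Finset.sum_nonneg fun k _ => hM j k) (Finset.mem_univ j)
  have hDint : ∀ t, ∫ u in (0 : ℝ)..t, D u = ∑ j, ∫ u in (0 : ℝ)..t, max (δ j u) 0 := by
    intro t
    simp only [hDdef]
    exact intervalIntegral.integral_finsetSum fun j _ =>
      ((hδc j).max continuous_const).intervalIntegrable _ _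
  have hpos : ∀ j t, 0 ≤ t → 0 ≤ ∫ u in (0 : ℝ)..t, max (δ j u) 0 := fun j t ht =>
    intervalIntegral.integral_nonneg ht fun u _ => le_max_right _ _
  have hstep : ∀ j t, 0 ≤ t → max (δ j t) 0 ≤ m * ∫ u in (0 : ℝ)..t, D u := by
    intro j t ht
    have hnn : 0 ≤ m * ∫ u in (0 : ℝ)..t, D u := by
      rw [hDint]
      exact mul_nonneg hm0 (Finset.sum_nonneg fun j _ => hpos j t ht)
    refine max_le ?_ hnn
    refine (hδrec j t ht).trans ?_
    rw [hDint, Finset.mul_sum]
    refine Finset.sum_le_sum fun k _ => ?_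
    have h1 : ∫ u in (0 : ℝ)..t, δ k u ≤ ∫ u in (0 : ℝ)..t, max (δ k u) 0 :=
      intervalIntegral.integral_mono_on ht ((hδc k).intervalIntegrable _ _)
        (((hδc k).max continuous_const).intervalIntegrable _ _) fun u _ => le_max_left _ _
    calc M j k * ∫ u in (0 : ℝ)..t, δ k u ≤ M j k * ∫ u in (0 : ℝ)..t, max (δ k u) 0 :=
          mul_le_mul_of_nonneg_left h1 (hM j k)
      _ ≤ m * ∫ u in (0 : ℝ)..t, max (δ k u) 0 :=
          mul_le_mul_of_nonneg_right (hMm j k) (hpos k t ht)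
  have hDrec : ∀ t, 0 ≤ t → D t ≤ ((Fintype.card ι : ℝ) * m) * ∫ u in (0 : ℝ)..t, D u := by
    intro t ht
    calc D t = ∑ j, max (δ j t) 0 := rfl
      _ ≤ ∑ _j : ι, m * ∫ u in (0 : ℝ)..t, D u := Finset.sum_le_sum fun j _ => hstep j t ht
      _ = _ := by simp [Finset.sum_const, mul_assoc]
  have hD0 := lr_gronwall_zero hDc (mul_nonneg (Nat.cast_nonneg _) hm0) hDrec
  intro j t ht
  have h1 : max (δ j t) 0 ≤ D t :=
    Finset.single_le_sum (f := fun j => max (δ j t) 0) (fun j _ => le_max_right _ _) (Finset.mem_univ j)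
  have h2 := hD0 t ht
  have h3 : δ j t ≤ 0 := (le_max_left _ _).trans (h1.trans h2)
  simp only [hδ] at h3
  linarith

/-! ### the abstract Lieb-Robinson bound -/

section LR

variable {A : Type*} [CStarAlgebra A]

theorem lr_norm_comm_le (a B : A) : ‖a * B - B * a‖ ≤ 2 * ‖a‖ * ‖B‖ := by
  have h1 := norm_mul_le a B
  have h2 := norm_mul_le B a
  have h3 := norm_sub_le (a * B) (B * a)
  nlinarith

theorem lrDyn_neg_left (H : A) (t : ℝ) (B : A) : lrDyn (-H) t B = lrDyn H (-t) B := by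
  have h : ∀ u : ℝ, lrU (-H) u = lrU H (-u) := by
    intro u
    simp [lrU]
  simp [lrDyn, h]

variable {ι s : Type*} [Fintype ι] [DecidableEq s]

/-- the combinatorial inequality behind the Lieb-Robinson velocity -/
theorem lr_chain_sum_le (X : ι → Finset s) (n : ι → ℝ) (hn : ∀ j, 0 ≤ n j)
    (b0 : ℝ) (m : ℕ) (lam : ℝ) (w : s → ℝ)
    (hb0 : ∀ x, ∑ j with x ∈ X j, n j ≤ b0) (hm : ∀ j, (X j).card ≤ m)
    (hw0 : ∀ x, 0 ≤ w x) (hlam0 : 0 ≤ lam)
    (hlam : ∀ j, ∀ x ∈ X j, ∀ x' ∈ X j, w x' ≤ lam * w x) (Z : Finset s) :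
    ∑ k with ¬ Disjoint Z (X k), n k * ∑ x ∈ X k, w x ≤ lam * m * b0 * ∑ z ∈ Z, w z := by
  classical
  have h1 : ∀ k, ¬ Disjoint Z (X k) →
      n k * ∑ x ∈ X k, w x ≤ ∑ z ∈ Z, if z ∈ X k then n k * (m * (lam * w z)) else 0 := by
    intro k hk
    rw [Finset.not_disjoint_iff] at hk
    obtain ⟨z, hzZ, hzk⟩ := hk
    have hz0 : 0 ≤ lam * w z := (hw0 z).trans (hlam k z hzk z hzk)
    have h2 : ∑ x ∈ X k, w x ≤ m * (lam * w z) := by
      calc ∑ x ∈ X k, w x ≤ ∑ _x ∈ X k, lam * w z := Finset.sum_le_sum fun x hx => hlam k z hzk x hx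
        _ = (X k).card * (lam * w z) := by simp
        _ ≤ m * (lam * w z) := mul_le_mul_of_nonneg_right (by exact_mod_cast hm k) hz0
    calc n k * ∑ x ∈ X k, w x ≤ n k * (m * (lam * w z)) := mul_le_mul_of_nonneg_left h2 (hn k)
      _ = if z ∈ X k then n k * (m * (lam * w z)) else 0 := by simp [hzk]
      _ ≤ _ := Finset.single_le_sum (f := fun z => if z ∈ X k then n k * (m * (lam * w z)) else 0)
          (fun y _ => by
            split_ifs with hy
            · exact mul_nonneg (hn k) (mul_nonneg (Nat.cast_nonneg _)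
                ((hw0 y).trans (hlam k y hy y hy)))
            · exact le_rfl) hzZ
  calc ∑ k with ¬ Disjoint Z (X k), n k * ∑ x ∈ X k, w x
      ≤ ∑ k with ¬ Disjoint Z (X k), ∑ z ∈ Z, if z ∈ X k then n k * (m * (lam * w z)) else 0 :=
        Finset.sum_le_sum fun k hk => h1 k (Finset.mem_filter.1 hk).2
    _ ≤ ∑ k, ∑ z ∈ Z, if z ∈ X k then n k * (m * (lam * w z)) else 0 := by
        apply Finset.sum_le_sum_of_subset_of_nonneg (Finset.filter_subset _ _)
        intro k _ _
        refine Finset.sum_nonneg fun y _ => ?_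
        split_ifs with hy
        · exact mul_nonneg (hn k) (mul_nonneg (Nat.cast_nonneg _)
            ((hw0 y).trans (hlam k y hy y hy)))
        · exact le_rfl
    _ = ∑ z ∈ Z, (∑ k with z ∈ X k, n k) * (m * (lam * w z)) := by
        rw [Finset.sum_comm]
        refine Finset.sum_congr rfl fun z _ => ?_
        rw [Finset.sum_mul, Finset.sum_filter]
    _ ≤ ∑ z ∈ Z, b0 * (m * (lam * w z)) := by
        refine Finset.sum_le_sum fun z _ => ?_
        exact mul_le_mul_of_nonneg_right (hb0 z) (mul_nonneg (Nat.cast_nonneg _)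
          (mul_nonneg hlam0 (hw0 z)))
    _ = lam * m * b0 * ∑ z ∈ Z, w z := by
        rw [Finset.mul_sum]
        exact Finset.sum_congr rfl fun z _ => by ring

/-- **Abstract Lieb-Robinson bound**, nonnegative times. -/
theorem lr_abstract_nonneg (X : ι → Finset s) (h : ι → A) (hsa : ∀ j, IsSelfAdjoint (h j))
    (hcomm : ∀ j k, Disjoint (X j) (X k) → Commute (h j) (h k))
    (a B : A) (Xa Y : Finset s)
    (haj : ∀ j, Disjoint Xa (X j) → Commute a (h j))
    (hBj : ∀ j, Disjoint (X j) Y → Commute (h j) B)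
    (haB : Disjoint Xa Y → Commute a B)
    (b0 : ℝ) (m : ℕ) (lam : ℝ) (w : s → ℝ)
    (hb0 : ∀ x, ∑ j with x ∈ X j, ‖h j‖ ≤ b0) (hm : ∀ j, (X j).card ≤ m)
    (hw0 : ∀ x, 0 ≤ w x) (hwY : ∀ x ∈ Y, 1 ≤ w x) (hlam0 : 0 ≤ lam)
    (hlam : ∀ j, ∀ x ∈ X j, ∀ x' ∈ X j, w x' ≤ lam * w x) {t : ℝ} (ht : 0 ≤ t) :
    ‖lrDyn (∑ j, h j) t a * B - B * lrDyn (∑ j, h j) t a‖
      ≤ 2 * ‖a‖ * ‖B‖ * Real.exp (2 * lam * m * b0 * t) * ∑ x ∈ Xa, w x := by
  classical
  set H : A := ∑ j, h j with hH
  have hHsa : IsSelfAdjoint H := by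
    rw [hH]
    exact isSelfAdjoint_sum _ fun j _ => hsa j
  set v : ℝ := 2 * lam * m * b0 with hv
  -- general one-step inequality for an operator with label set `Z`
  have hone : ∀ (a' : A) (Z : Finset s), (∀ j, Disjoint Z (X j) → Commute a' (h j)) →
      ∀ t, 0 ≤ t → ‖lrDyn H t a' * B - B * lrDyn H t a'‖ ≤ ‖a' * B - B * a'‖ +
        2 * ‖a'‖ * ∑ k with ¬ Disjoint Z (X k),
          ∫ u in (0 : ℝ)..t, ‖lrDyn H u (h k) * B - B * lrDyn H u (h k)‖ := by
    intro a' Z hZ t ht
    set H' : A := ∑ k with Disjoint Z (X k), h k with hH'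
    have hH'sa : IsSelfAdjoint H' := isSelfAdjoint_sum _ fun j _ => hsa j
    have hc : Commute a' H' := Commute.sum_right _ _ _ fun k hk => hZ k (Finset.mem_filter.1 hk).2
    have hsub : H - H' = ∑ k with ¬ Disjoint Z (X k), h k := by
      rw [hH, hH', sub_eq_iff_eq_add, add_comm]
      exact (Finset.sum_filter_add_sum_filter_not _ _ _).symm
    have h1 := lr_onestep hHsa hH'sa hc (B := B) ht
    refine h1.trans (add_le_add le_rfl (mul_le_mul_of_nonneg_left ?_ (by positivity)))
    rw [← intervalIntegral.integral_finsetSum]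
    · apply intervalIntegral.integral_mono_on ht
      · apply Continuous.intervalIntegrable
        have := lrDyn_continuous H (H - H')
        fun_prop
      · apply Continuous.intervalIntegrable
        refine continuous_finsetSum _ fun k _ => ?_
        have := lrDyn_continuous H (h k)
        fun_prop
      · intro u _
        rw [hsub, lrDyn_sum, Finset.sum_mul, Finset.mul_sum, ← Finset.sum_sub_distrib]
        exact norm_sum_le _ _
    · intro k _
      apply Continuous.intervalIntegrable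
      have := lrDyn_continuous H (h k)
      fun_prop
  -- the commutator functions of the interaction terms
  set c : ι → ℝ → ℝ := fun j u => ‖lrDyn H u (h j) * B - B * lrDyn H u (h j)‖ with hc
  have hcc : ∀ j, Continuous (c j) := by
    intro j
    have := lrDyn_continuous H (h j)
    simp only [hc]
    fun_prop
  set wt : ι → ℝ := fun j => ∑ x ∈ X j, w x with hwt
  set W : ι → ℝ := fun j => 2 * ‖B‖ * (‖h j‖ * wt j) with hW
  set M : ι → ι → ℝ := fun j k => if ¬ Disjoint (X j) (X k) then 2 * ‖h j‖ else 0 with hM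
  have hinit : ∀ (a' : A) (Z : Finset s), (Disjoint Z Y → Commute a' B) →
      ‖a' * B - B * a'‖ ≤ 2 * ‖a'‖ * ‖B‖ * ∑ x ∈ Z, w x := by
    intro a' Z hZ
    by_cases hd : Disjoint Z Y
    · rw [(hZ hd).eq, sub_self, norm_zero]
      exact mul_nonneg (by positivity) (Finset.sum_nonneg fun x _ => hw0 x)
    · rw [Finset.not_disjoint_iff] at hd
      obtain ⟨z, hzZ, hzY⟩ := hd
      have h1 : 1 ≤ ∑ x ∈ Z, w x :=
        (hwY z hzY).trans (Finset.single_le_sum (f := w) (fun x _ => hw0 x) hzZ)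
      calc ‖a' * B - B * a'‖ ≤ 2 * ‖a'‖ * ‖B‖ := lr_norm_comm_le a' B
        _ = 2 * ‖a'‖ * ‖B‖ * 1 := (mul_one _).symm
        _ ≤ _ := mul_le_mul_of_nonneg_left h1 (by positivity)
  have hchain := lr_chain_sum_le X (fun j => ‖h j‖) (fun j => norm_nonneg _) b0 m lam w hb0 hm hw0
    hlam0 hlam
  have hsys : ∀ j t, 0 ≤ t → c j t ≤ W j * Real.exp (v * t) := by
    apply lr_gronwall_system c hcc M
    · intro j k
      simp only [hM]
      split_ifs <;> positivity
    · intro j
      have h1 := hchain (X j)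
      calc ∑ k, M j k * W k
          = 2 * ‖h j‖ * (2 * ‖B‖) * ∑ k with ¬ Disjoint (X j) (X k), ‖h k‖ * wt k := by
            rw [Finset.mul_sum, Finset.sum_filter]
            refine Finset.sum_congr rfl fun k _ => ?_
            simp only [hM, hW]
            split_ifs <;> ring
        _ ≤ 2 * ‖h j‖ * (2 * ‖B‖) * (lam * m * b0 * ∑ z ∈ X j, w z) :=
            mul_le_mul_of_nonneg_left h1 (by positivity)
        _ = v * W j := by simp only [hv, hW, hwt]; ring
    · intro j t ht
      have h1 := hone (h j) (X j) (fun k hk => hcomm j k hk) t ht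
      have h2 := hinit (h j) (X j) (fun hd => hBj j hd)
      calc c j t ≤ ‖h j * B - B * h j‖ + 2 * ‖h j‖ * ∑ k with ¬ Disjoint (X j) (X k),
            ∫ u in (0 : ℝ)..t, c k u := h1
        _ ≤ W j + ∑ k, M j k * ∫ u in (0 : ℝ)..t, c k u := by
            refine add_le_add ?_ (le_of_eq ?_)
            · refine h2.trans (le_of_eq ?_)
              simp only [hW, hwt]; ring
            · rw [Finset.mul_sum, Finset.sum_filter]
              refine Finset.sum_congr rfl fun k _ => ?_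
              simp only [hM]
              split_ifs <;> simp
  -- final step
  have h1 := hone a Xa haj t ht
  have h2 := hinit a Xa haB
  have hE0 : 0 ≤ ∫ u in (0 : ℝ)..t, Real.exp (v * u) :=
    intervalIntegral.integral_nonneg ht fun u _ => (Real.exp_pos _).le
  have h3 : ∀ k, ∫ u in (0 : ℝ)..t, c k u ≤ W k * ∫ u in (0 : ℝ)..t, Real.exp (v * u) := by
    intro k
    rw [← intervalIntegral.integral_const_mul]
    apply intervalIntegral.integral_mono_on ht ((hcc k).intervalIntegrable _ _)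
    · exact (by fun_prop : Continuous fun u : ℝ => W k * Real.exp (v * u)).intervalIntegrable _ _
    · intro u hu
      exact hsys k u hu.1
  have h4 : ∑ k with ¬ Disjoint Xa (X k), ∫ u in (0 : ℝ)..t, c k u
      ≤ ‖B‖ * (v * ∫ u in (0 : ℝ)..t, Real.exp (v * u)) * ∑ x ∈ Xa, w x := by
    calc ∑ k with ¬ Disjoint Xa (X k), ∫ u in (0 : ℝ)..t, c k u
        ≤ ∑ k with ¬ Disjoint Xa (X k), W k * ∫ u in (0 : ℝ)..t, Real.exp (v * u) :=
          Finset.sum_le_sum fun k _ => h3 k
      _ = (2 * ‖B‖ * ∫ u in (0 : ℝ)..t, Real.exp (v * u)) *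
            ∑ k with ¬ Disjoint Xa (X k), ‖h k‖ * wt k := by
          rw [Finset.mul_sum]
          refine Finset.sum_congr rfl fun k _ => ?_
          simp only [hW]; ring
      _ ≤ (2 * ‖B‖ * ∫ u in (0 : ℝ)..t, Real.exp (v * u)) * (lam * m * b0 * ∑ z ∈ Xa, w z) :=
          mul_le_mul_of_nonneg_left (hchain Xa) (by positivity)
      _ = _ := by simp only [hv]; ring
  rw [lr_integral_exp] at h4
  have h5 := mul_le_mul_of_nonneg_left h4 (by positivity : 0 ≤ 2 * ‖a‖)
  calc ‖lrDyn H t a * B - B * lrDyn H t a‖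
      ≤ ‖a * B - B * a‖ + 2 * ‖a‖ * ∑ k with ¬ Disjoint Xa (X k), ∫ u in (0 : ℝ)..t, c k u := h1
    _ ≤ 2 * ‖a‖ * ‖B‖ * ∑ x ∈ Xa, w x +
          2 * ‖a‖ * (‖B‖ * (Real.exp (v * t) - 1) * ∑ x ∈ Xa, w x) := add_le_add h2 h5
    _ = _ := by ring

/-- **Abstract Lieb-Robinson bound.**  `X j` are the labels (supports) of the interaction terms,
`Xa`, `Y` those of the two observables; `w` is any weight which is at least `1` on `Y` and varies
by at most the factor `lam` inside each `X j`. -/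
theorem lr_abstract (X : ι → Finset s) (h : ι → A) (hsa : ∀ j, IsSelfAdjoint (h j))
    (hcomm : ∀ j k, Disjoint (X j) (X k) → Commute (h j) (h k))
    (a B : A) (Xa Y : Finset s)
    (haj : ∀ j, Disjoint Xa (X j) → Commute a (h j))
    (hBj : ∀ j, Disjoint (X j) Y → Commute (h j) B)
    (haB : Disjoint Xa Y → Commute a B)
    (b0 : ℝ) (m : ℕ) (lam : ℝ) (w : s → ℝ)
    (hb0 : ∀ x, ∑ j with x ∈ X j, ‖h j‖ ≤ b0) (hm : ∀ j, (X j).card ≤ m)
    (hw0 : ∀ x, 0 ≤ w x) (hwY : ∀ x ∈ Y, 1 ≤ w x) (hlam0 : 0 ≤ lam)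
    (hlam : ∀ j, ∀ x ∈ X j, ∀ x' ∈ X j, w x' ≤ lam * w x) (t : ℝ) :
    ‖lrDyn (∑ j, h j) t a * B - B * lrDyn (∑ j, h j) t a‖
      ≤ 2 * ‖a‖ * ‖B‖ * Real.exp (2 * lam * m * b0 * |t|) * ∑ x ∈ Xa, w x := by
  rcases le_total 0 t with ht | ht
  · rw [abs_of_nonneg ht]
    exact lr_abstract_nonneg X h hsa hcomm a B Xa Y haj hBj haB b0 m lam w hb0 hm hw0 hwY hlam0
      hlam ht
  · rw [abs_of_nonpos ht]
    have h1 := lr_abstract_nonneg X (fun j => -h j) (fun j => (hsa j).neg)
      (fun j k hd => (hcomm j k hd).neg_left.neg_right) a B Xa Y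
      (fun j hd => (haj j hd).neg_right) (fun j hd => (hBj j hd).neg_left) haB b0 m lam w
      (by simpa using hb0) hm hw0 hwY hlam0 hlam (t := -t) (by linarith)
    rw [Finset.sum_neg_distrib, lrDyn_neg_left, neg_neg] at h1
    exact h1

end LR

end Claimed.Agent.R296
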