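import Mathlib

/-!
# Row 296, BB_LR (3a): Fourier-integral lemmas for the filter function.
Part of: a nonnegative filter function with compactly supported Fourier transform
and stretched-exponential decay

Replaces `lem:quasilocal-filter` of the area-law paper.  Construction:
`f(t) = Z⁻¹ ∏_k sinc(a_k t)^2` with `a_k = a (k+1)^(-1/α)`.
Only the properties listed in `lr_filter_exists` are used later on.

Proof plan (all leaves are stated below).
* `lrFT g ω = ∫ g(t) e^{itω} dt`.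
* sinc step: `lrFT (g · sinc(b ·)) ω = (2b)⁻¹ ∫_{-b}^{b} lrFT g (ω + u) du` (Fubini), hence a bound
  `‖lrFT g ω‖ ≤ B` for `r ≤ |ω|` is inherited for `r + b ≤ |ω|`.
* start: Gaussian `g(t) = e^{-ε t²}`, `‖lrFT g ω‖ = √(π/ε) e^{-ω²/(4ε)}`.
* limits `n → ∞` and `ε → 0` by dominated convergence.
-/

set_option autoImplicit false

namespace Claimed.Agent.R296

open MeasureTheory Real

/-- Fourier integral with the sign convention of the paper -/
noncomputable def lrFT (g : ℝ → ℂ) (ω : ℝ) : ℂ :=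
  ∫ t : ℝ, g t * Complex.exp (Complex.I * ((t : ℂ) * (ω : ℂ)))

/-- `∫_{-b}^{b} e^{itu} du = 2 b sinc(b t)` -/
theorem lr_sinc_integral (b t : ℝ) :
    ∫ u in (-b)..b, Complex.exp (Complex.I * ((t : ℂ) * (u : ℂ))) = 2 * b * sinc (b * t) := by
  by_cases ht : t = 0
  · subst ht
    simp
    ring
  · have h1 : ∀ u : ℝ, Complex.exp (Complex.I * ((t : ℂ) * (u : ℂ)))
        = (fun s : ℝ => Complex.exp ((s : ℂ) * Complex.I)) (t * u) := by
      intro u
      simp only [Complex.ofReal_mul]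
      ring_nf
    simp_rw [h1]
    rw [intervalIntegral.integral_comp_mul_left (fun s : ℝ => Complex.exp ((s : ℂ) * Complex.I)) ht]
    have h2 : t * -b = -(t * b) := by ring
    rw [h2, integral_exp_mul_I_eq_sinc, mul_comm t b]
    rw [Complex.real_smul]
    push_cast
    have : (t : ℂ) ≠ 0 := by exact_mod_cast ht
    field_simp

theorem lr_norm_cexp_I_mul (t ω : ℝ) :
    ‖Complex.exp (Complex.I * ((t : ℂ) * (ω : ℂ)))‖ = 1 := by
  have : Complex.I * ((t : ℂ) * (ω : ℂ)) = ((t * ω : ℝ) : ℂ) * Complex.I := by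
    push_cast; ring
  rw [this, Complex.norm_exp_ofReal_mul_I]

theorem lr_integrable_mul_cexp {g : ℝ → ℂ} (hg : Integrable g) (ω : ℝ) :
    Integrable fun t : ℝ => g t * Complex.exp (Complex.I * ((t : ℂ) * (ω : ℂ))) := by
  refine hg.mul_bdd (c := 1) ?_ ?_
  · exact (Continuous.aestronglyMeasurable (by fun_prop))
  · exact Filter.Eventually.of_forall fun t => (lr_norm_cexp_I_mul t ω).le

/-- the sinc step (Fubini) -/
theorem lrFT_mul_sinc {g : ℝ → ℂ} (hg : Integrable g) {b : ℝ} (hb : 0 < b) (ω : ℝ) :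
    lrFT (fun t => g t * (sinc (b * t) : ℂ)) ω
      = ((2 * b : ℝ) : ℂ)⁻¹ * ∫ u in (-b)..b, lrFT g (ω + u) := by
  unfold lrFT
  have hint : Integrable (Function.uncurry fun (u : ℝ) (t : ℝ) =>
      g t * Complex.exp (Complex.I * ((t : ℂ) * ((ω + u : ℝ) : ℂ))))
      ((volume.restrict (Set.uIoc (-b) b)).prod volume) := by
    have h1 : Integrable (fun p : ℝ × ℝ => g p.2)
        ((volume.restrict (Set.uIoc (-b) b)).prod volume) := by
      have : IsFiniteMeasure (volume.restrict (Set.uIoc (-b) b)) :=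
        ⟨by simp [Set.uIoc]⟩
      exact hg.comp_snd _
    refine h1.mul_bdd (c := 1) ?_ ?_
    · exact (Continuous.aestronglyMeasurable (by fun_prop))
    · exact Filter.Eventually.of_forall fun p => (lr_norm_cexp_I_mul p.2 (ω + p.1)).le
  rw [intervalIntegral_integral_swap hint]
  rw [← integral_const_mul]
  congr 1
  ext t
  have h2 : ∀ u : ℝ, g t * Complex.exp (Complex.I * ((t : ℂ) * ((ω + u : ℝ) : ℂ)))
      = (g t * Complex.exp (Complex.I * ((t : ℂ) * (ω : ℂ))))
        * Complex.exp (Complex.I * ((t : ℂ) * (u : ℂ))) := by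
    intro u
    rw [mul_assoc, ← Complex.exp_add]
    congr 2
    push_cast
    ring
  simp_rw [h2]
  rw [intervalIntegral.integral_const_mul, lr_sinc_integral]
  have : (b : ℂ) ≠ 0 := by exact_mod_cast hb.ne'
  push_cast
  field_simp

/-- a bound outside `[-r, r]` is inherited outside `[-(r+b), r+b]` -/
theorem lrFT_mul_sinc_bound {g : ℝ → ℂ} (hg : Integrable g) {b r B : ℝ} (hb : 0 ≤ b)
    (hB : ∀ ω : ℝ, r ≤ |ω| → ‖lrFT g ω‖ ≤ B) :
    ∀ ω : ℝ, r + b ≤ |ω| → ‖lrFT (fun t => g t * (sinc (b * t) : ℂ)) ω‖ ≤ B := by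
  intro ω hω
  rcases hb.eq_or_lt with rfl | hb
  · simpa using hB ω (by simpa using hω)
  · rw [lrFT_mul_sinc hg hb, norm_mul]
    have h1 : ‖∫ u in (-b)..b, lrFT g (ω + u)‖ ≤ B * |b - -b| := by
      refine intervalIntegral.norm_integral_le_of_norm_le_const ?_
      intro u hu
      rw [Set.uIoc_of_le (by linarith)] at hu
      apply hB
      have h3 : |u| ≤ b := abs_le.mpr ⟨hu.1.le, hu.2⟩
      have h4 : |ω| ≤ |ω + u| + |u| := by
        have := abs_sub (ω + u) u
        simpa using this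
      linarith
    have h2 : |b - -b| = 2 * b := by
      rw [abs_of_pos (by linarith)]; ring
    rw [h2] at h1
    have h5 : ‖(((2 * b : ℝ) : ℂ))⁻¹‖ = (2 * b)⁻¹ := by
      rw [norm_inv, Complex.norm_real, Real.norm_eq_abs, abs_of_pos (by linarith)]
    rw [h5]
    calc (2 * b)⁻¹ * ‖∫ u in (-b)..b, lrFT g (ω + u)‖ ≤ (2 * b)⁻¹ * (B * (2 * b)) := by
          gcongr
      _ = B := by field_simp

/-- the Gaussian start -/
theorem lrFT_gaussian_bound {ε η : ℝ} (hε : 0 < ε) (hη : 0 ≤ η) :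
    ∀ ω : ℝ, η ≤ |ω| →
      ‖lrFT (fun t => (Real.exp (-ε * t ^ 2) : ℂ)) ω‖ ≤ √(π / ε) * Real.exp (-η ^ 2 / (4 * ε)) := by
  intro ω hω
  have h1 : lrFT (fun t => (Real.exp (-ε * t ^ 2) : ℂ)) ω
      = ((π : ℂ) / (ε : ℂ)) ^ (1 / 2 : ℂ) * Complex.exp (-(ω : ℂ) ^ 2 / (4 * (ε : ℂ))) := by
    rw [← fourierIntegral_gaussian (b := (ε : ℂ)) (by simpa using hε) (ω : ℂ)]
    unfold lrFT
    congr 1
    ext t
    rw [mul_comm]
    congr 1
    · congr 1; ring
    · push_cast; rfl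
  rw [h1, norm_mul]
  have h2 : ‖((π : ℂ) / (ε : ℂ)) ^ (1 / 2 : ℂ)‖ = √(π / ε) := by
    have : ((π : ℂ) / (ε : ℂ)) = ((π / ε : ℝ) : ℂ) := by push_cast; rfl
    rw [this, Complex.norm_cpow_eq_rpow_re_of_pos (by positivity), Real.sqrt_eq_rpow]
    norm_num
  have h3 : ‖Complex.exp (-(ω : ℂ) ^ 2 / (4 * (ε : ℂ)))‖ = Real.exp (-ω ^ 2 / (4 * ε)) := by
    have : (-(ω : ℂ) ^ 2 / (4 * (ε : ℂ))) = ((-ω ^ 2 / (4 * ε) : ℝ) : ℂ) := by push_cast; rfl
    rw [this, Complex.norm_exp, Complex.ofReal_re]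
  rw [h2, h3]
  have h4 : η ^ 2 ≤ ω ^ 2 := by
    rw [← sq_abs ω]
    gcongr
  have h5 : -ω ^ 2 / (4 * ε) ≤ -η ^ 2 / (4 * ε) := by
    apply div_le_div_of_nonneg_right _ (by positivity)
    linarith
  exact mul_le_mul_of_nonneg_left (Real.exp_le_exp.mpr h5) (Real.sqrt_nonneg _)

/-- removal of the Gaussian regularisation: if `F` is integrable and the regularised transforms
are bounded by `√(π/ε) e^{-η²/(4ε)}` for all `ε > 0` with some `η > 0`, the transform vanishes -/
theorem lrFT_eq_zero_of_gaussian_bound {F : ℝ → ℂ} (hF : Integrable F) {η ω : ℝ} (hη : 0 < η)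
    (h : ∀ ε : ℝ, 0 < ε →
      ‖lrFT (fun t => (Real.exp (-ε * t ^ 2) : ℂ) * F t) ω‖ ≤ √(π / ε) * Real.exp (-η ^ 2 / (4 * ε))) :
    lrFT F ω = 0 := by
  -- the regularised transforms converge
  have hlim : Filter.Tendsto (fun ε : ℝ => lrFT (fun t => (Real.exp (-ε * t ^ 2) : ℂ) * F t) ω)
      (nhdsWithin 0 (Set.Ioi 0)) (nhds (lrFT F ω)) := by
    unfold lrFT
    refine tendsto_integral_filter_of_dominated_convergence (fun t => ‖F t‖) ?_ ?_ hF.norm ?_
    · refine Filter.Eventually.of_forall fun ε => ?_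
      refine AEStronglyMeasurable.mul (AEStronglyMeasurable.mul ?_ hF.aestronglyMeasurable) ?_
      · exact (Continuous.aestronglyMeasurable (by fun_prop))
      · exact (Continuous.aestronglyMeasurable (by fun_prop))
    · filter_upwards [self_mem_nhdsWithin] with ε hε
      refine Filter.Eventually.of_forall fun t => ?_
      rw [norm_mul, norm_mul, lr_norm_cexp_I_mul, mul_one, Complex.norm_real, Real.norm_eq_abs,
        abs_of_pos (Real.exp_pos _)]
      have : Real.exp (-ε * t ^ 2) ≤ 1 := by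
        rw [Real.exp_le_one_iff]
        have : 0 ≤ ε * t ^ 2 := mul_nonneg (le_of_lt hε) (sq_nonneg t)
        linarith
      calc Real.exp (-ε * t ^ 2) * ‖F t‖ ≤ 1 * ‖F t‖ := by gcongr
        _ = ‖F t‖ := one_mul _
    · refine Filter.Eventually.of_forall fun t => ?_
      have hc : Continuous fun ε : ℝ => ((Real.exp (-ε * t ^ 2) : ℝ) : ℂ) * F t
          * Complex.exp (Complex.I * ((t : ℂ) * (ω : ℂ))) := by fun_prop
      have := (hc.tendsto 0).mono_left (nhdsWithin_le_nhds (s := Set.Ioi 0))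
      simpa using this
  -- the bounds tend to zero
  have hbd : ∀ ε : ℝ, 0 < ε →
      √(π / ε) * Real.exp (-η ^ 2 / (4 * ε)) ≤ (4 * √π / η ^ 2) * √ε := by
    intro ε hε
    have hy : 0 < η ^ 2 / (4 * ε) := by positivity
    have h1 : Real.exp (-η ^ 2 / (4 * ε)) ≤ (η ^ 2 / (4 * ε))⁻¹ := by
      have h2 : η ^ 2 / (4 * ε) ≤ Real.exp (η ^ 2 / (4 * ε)) := by
        have := Real.add_one_le_exp (η ^ 2 / (4 * ε))
        linarith
      have h3 : -η ^ 2 / (4 * ε) = -(η ^ 2 / (4 * ε)) := by ring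
      rw [h3, Real.exp_neg]
      exact inv_anti₀ hy h2
    have h4 : √(π / ε) = √π / √ε := Real.sqrt_div' _ hε.le
    have hs : 0 < √ε := Real.sqrt_pos.mpr hε
    have hss : √ε * √ε = ε := Real.mul_self_sqrt hε.le
    calc √(π / ε) * Real.exp (-η ^ 2 / (4 * ε)) ≤ √(π / ε) * (η ^ 2 / (4 * ε))⁻¹ := by gcongr
      _ = (4 * √π / η ^ 2) * √ε := by
        rw [h4]
        field_simp
        rw [sq, hss]
  have hlim0 : Filter.Tendsto (fun ε : ℝ => (4 * √π / η ^ 2) * √ε)
      (nhdsWithin 0 (Set.Ioi 0)) (nhds 0) := by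
    have hc : Continuous fun ε : ℝ => (4 * √π / η ^ 2) * √ε := by fun_prop
    have := (hc.tendsto 0).mono_left (nhdsWithin_le_nhds (s := Set.Ioi 0))
    simpa using this
  have hle : ‖lrFT F ω‖ ≤ 0 := by
    refine le_of_tendsto_of_tendsto hlim.norm hlim0 ?_
    filter_upwards [self_mem_nhdsWithin] with ε hε
    exact (h ε hε).trans (hbd ε hε)
  exact norm_le_zero_iff.mp hle

end Claimed.Agent.R296
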