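import Claimed.Agent.R296.LRFilterA

/-!
# Row 296, BB_LR (3b): the filter `f(t) = Z⁻¹ ∏_k sinc(a_k t)^2`, `a_k = a (k+1)^(-1/α)`

See `LRFilterA.lean` for the plan.  Final statement: `lr_filter_exists`.
-/

set_option autoImplicit false

namespace Claimed.Agent.R296

open MeasureTheory Real

/-- partial products `∏_{k<n} sinc(a_k t)^2` -/
noncomputable def lrProd (a : ℕ → ℝ) (n : ℕ) (t : ℝ) : ℝ :=
  ∏ k ∈ Finset.range n, sinc (a k * t) ^ 2

/-- the infinite product `∏_k sinc(a_k t)^2` (infimum of the antitone partial products) -/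
noncomputable def lrProdInf (a : ℕ → ℝ) (t : ℝ) : ℝ := ⨅ n, lrProd a n t

theorem lrProd_nonneg (a : ℕ → ℝ) (n : ℕ) (t : ℝ) : 0 ≤ lrProd a n t :=
  Finset.prod_nonneg fun _ _ => sq_nonneg _

theorem lrfb_sinc_sq_le_one (x : ℝ) : sinc x ^ 2 ≤ 1 := by
  have h := abs_sinc_le_one x
  have h0 := abs_nonneg (sinc x)
  rw [← sq_abs]
  nlinarith

theorem lrProd_succ (a : ℕ → ℝ) (n : ℕ) (t : ℝ) :
    lrProd a (n + 1) t = lrProd a n t * sinc (a n * t) ^ 2 := by
  simp [lrProd, Finset.prod_range_succ]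

theorem lrProd_zero (a : ℕ → ℝ) (t : ℝ) : lrProd a 0 t = 1 := by simp [lrProd]

theorem lrProd_le_one (a : ℕ → ℝ) (n : ℕ) (t : ℝ) : lrProd a n t ≤ 1 :=
  Finset.prod_le_one (fun _ _ => sq_nonneg _) fun _ _ => lrfb_sinc_sq_le_one _

theorem lrProd_continuous (a : ℕ → ℝ) (n : ℕ) : Continuous (lrProd a n) := by
  unfold lrProd
  fun_prop

theorem lrfb_gaussian_integrable {ε : ℝ} (hε : 0 < ε) :
    Integrable fun t : ℝ => (Real.exp (-ε * t ^ 2) : ℂ) :=
  (integrable_exp_neg_mul_sq hε).ofReal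

theorem lrfb_gaussian_lrProd_integrable {ε : ℝ} (hε : 0 < ε) (a : ℕ → ℝ) (n : ℕ) :
    Integrable fun t : ℝ => (Real.exp (-ε * t ^ 2) : ℂ) * (lrProd a n t : ℂ) := by
  refine (lrfb_gaussian_integrable hε).mul_bdd (c := 1) ?_ ?_
  · exact (Complex.continuous_ofReal.comp (lrProd_continuous a n)).aestronglyMeasurable
  · refine Filter.Eventually.of_forall fun t => ?_
    rw [Complex.norm_real, Real.norm_of_nonneg (lrProd_nonneg a n t)]
    exact lrProd_le_one a n t

/-- finite products of squared sinc factors (induction on `n`, two sinc steps each) -/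
theorem lrFT_gaussian_lrProd_bound {ε η : ℝ} (hε : 0 < ε) (hη : 0 ≤ η) (a : ℕ → ℝ)
    (ha : ∀ k, 0 ≤ a k) (n : ℕ) :
    ∀ ω : ℝ, η + 2 * ∑ k ∈ Finset.range n, a k ≤ |ω| →
      ‖lrFT (fun t => (Real.exp (-ε * t ^ 2) : ℂ) * (lrProd a n t : ℂ)) ω‖
        ≤ √(π / ε) * Real.exp (-η ^ 2 / (4 * ε)) := by
  induction n with
  | zero =>
    intro ω hω
    simp only [Finset.range_zero, Finset.sum_empty, mul_zero, add_zero] at hω
    simpa [lrProd_zero] using lrFT_gaussian_bound hε hη ω hω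
  | succ n ih =>
    have hg := lrfb_gaussian_lrProd_integrable hε a n
    have h1 := lrFT_mul_sinc_bound hg (ha n) ih
    have hg1 : Integrable fun t : ℝ =>
        (Real.exp (-ε * t ^ 2) : ℂ) * (lrProd a n t : ℂ) * (sinc (a n * t) : ℂ) := by
      refine hg.mul_bdd (c := 1) ?_ ?_
      · exact (Complex.continuous_ofReal.comp (by fun_prop)).aestronglyMeasurable
      · refine Filter.Eventually.of_forall fun t => ?_
        rw [Complex.norm_real, Real.norm_eq_abs]
        exact abs_sinc_le_one _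
    have h2 := lrFT_mul_sinc_bound hg1 (ha n) h1
    intro ω hω
    have hfun : (fun t : ℝ => (Real.exp (-ε * t ^ 2) : ℂ) * (lrProd a (n + 1) t : ℂ)) =
        fun t : ℝ => (Real.exp (-ε * t ^ 2) : ℂ) * (lrProd a n t : ℂ) * (sinc (a n * t) : ℂ) *
          (sinc (a n * t) : ℂ) := by
      funext t
      rw [lrProd_succ]
      push_cast
      ring
    rw [hfun]
    refine h2 ω ?_
    rw [Finset.sum_range_succ] at hω
    linarith

theorem lrProd_antitone (a : ℕ → ℝ) (t : ℝ) : Antitone fun n => lrProd a n t := by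
  refine antitone_nat_of_succ_le fun n => ?_
  rw [lrProd_succ]
  exact mul_le_of_le_one_right (lrProd_nonneg a n t) (lrfb_sinc_sq_le_one _)

theorem lrfb_bddBelow (a : ℕ → ℝ) (t : ℝ) : BddBelow (Set.range fun n => lrProd a n t) :=
  ⟨0, by rintro _ ⟨n, rfl⟩; exact lrProd_nonneg a n t⟩

theorem lrProd_tendsto (a : ℕ → ℝ) (t : ℝ) :
    Filter.Tendsto (fun n => lrProd a n t) Filter.atTop (nhds (lrProdInf a t)) :=
  tendsto_atTop_ciInf (lrProd_antitone a t) (lrfb_bddBelow a t)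

theorem lrProdInf_measurable (a : ℕ → ℝ) : Measurable (lrProdInf a) :=
  measurable_of_tendsto_metrizable (fun n => (lrProd_continuous a n).measurable)
    (tendsto_pi_nhds.2 fun t => lrProd_tendsto a t)

theorem lrProdInf_nonneg (a : ℕ → ℝ) (t : ℝ) : 0 ≤ lrProdInf a t :=
  le_ciInf fun n => lrProd_nonneg a n t

theorem lrProdInf_le (a : ℕ → ℝ) (n : ℕ) (t : ℝ) : lrProdInf a t ≤ lrProd a n t :=
  ciInf_le (lrfb_bddBelow a t) n

theorem lrProdInf_even (a : ℕ → ℝ) (t : ℝ) : lrProdInf a (-t) = lrProdInf a t := by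
  unfold lrProdInf lrProd
  simp only [mul_neg, sinc_neg]

theorem lrfb_sinc_sq_le (x : ℝ) : sinc x ^ 2 ≤ 2 * (1 + x ^ 2)⁻¹ := by
  have hpos : 0 < 1 + x ^ 2 := by positivity
  rw [← div_eq_mul_inv, le_div_iff₀ hpos]
  by_cases hx : x ^ 2 ≤ 1
  · have := lrfb_sinc_sq_le_one x
    have h0 := sq_nonneg (sinc x)
    nlinarith
  · push Not at hx
    have hx0 : x ≠ 0 := by rintro rfl; norm_num at hx
    rw [sinc_of_ne_zero hx0, div_pow]
    have hs : sin x ^ 2 ≤ 1 := sin_sq_le_one x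
    have hx2 : 0 < x ^ 2 := by positivity
    rw [div_mul_eq_mul_div, div_le_iff₀ hx2]
    nlinarith [sq_nonneg (sin x)]

/-- `sinc(x)^2 ≤ 2/(1+x^2)`, hence integrability of `sinc(a t)^2` -/
theorem lr_sinc_sq_integrable {a : ℝ} (ha : 0 < a) : Integrable fun t : ℝ => sinc (a * t) ^ 2 := by
  have h1 : Integrable fun t : ℝ => 2 * (1 + (a * t) ^ 2)⁻¹ :=
    ((integrable_inv_one_add_sq).comp_mul_left' ha.ne').const_mul 2
  refine h1.mono' (by fun_prop) (Filter.Eventually.of_forall fun t => ?_)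
  rw [Real.norm_of_nonneg (sq_nonneg _)]
  exact lrfb_sinc_sq_le _

theorem lrProdInf_integrable {a : ℕ → ℝ} (ha : 0 < a 0) : Integrable (lrProdInf a) := by
  refine (lr_sinc_sq_integrable ha).mono' (lrProdInf_measurable a).aestronglyMeasurable
    (Filter.Eventually.of_forall fun t => ?_)
  rw [Real.norm_of_nonneg (lrProdInf_nonneg a t)]
  have := lrProdInf_le a 1 t
  simpa [lrProd] using this

theorem lrfb_one_sub_sq_le_sinc_sq (x : ℝ) : 1 - x ^ 2 ≤ sinc x ^ 2 := by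
  by_cases hx : x ^ 2 ≤ 1
  · -- reduce to `0 < x ≤ 1` by evenness
    have key : ∀ y : ℝ, 0 < y → y ≤ 1 → 1 - y ^ 2 ≤ sinc y ^ 2 := by
      intro y hy0 hy1
      have h := Real.sin_gt_sub_cube hy0
      have h1 : 1 - y ^ 2 / 4 < sinc y := by
        rw [sinc_of_ne_zero hy0.ne', lt_div_iff₀ hy0]
        nlinarith
      have h2 : 0 ≤ 1 - y ^ 2 / 4 := by nlinarith
      have h3 : (1 - y ^ 2 / 4) ^ 2 ≤ sinc y ^ 2 := by
        apply pow_le_pow_left₀ h2 h1.le
      nlinarith [sq_nonneg (y ^ 2)]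
    rcases lt_trichotomy x 0 with h | h | h
    · have h1 : -x ≤ 1 := by nlinarith
      have := key (-x) (by linarith) h1
      simpa [sinc_neg] using this
    · subst h; simp
    · have h1 : x ≤ 1 := by nlinarith
      exact key x h h1
  · push Not at hx
    have := sq_nonneg (sinc x)
    linarith

theorem lrfb_lrProd_lower (a : ℕ → ℝ) (n : ℕ) (t : ℝ) :
    1 - (∑ k ∈ Finset.range n, a k ^ 2) * t ^ 2 ≤ lrProd a n t := by
  induction n with
  | zero => simp [lrProd_zero]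
  | succ n ih =>
    rw [lrProd_succ, Finset.sum_range_succ]
    have h1 := lrfb_one_sub_sq_le_sinc_sq (a n * t)
    have h2 := lrfb_sinc_sq_le_one (a n * t)
    have h3 := lrProd_nonneg a n t
    have h4 := lrProd_le_one a n t
    have h5 : lrProd a n t * (1 - sinc (a n * t) ^ 2) ≤ 1 - sinc (a n * t) ^ 2 :=
      mul_le_of_le_one_left (by linarith) h4
    nlinarith

/-- lower bound near `0`: `sinc(x)^2 ≥ 1 - x^2` (use `Real.sin_gt_sub_cube` for `|x| ≤ 1`) and
`∏(1-x_k) ≥ 1 - ∑ x_k` -/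
theorem lrProdInf_lower {a : ℕ → ℝ} {S : ℝ} (hS : ∀ n, ∑ k ∈ Finset.range n, a k ^ 2 ≤ S) (t : ℝ) :
    1 - S * t ^ 2 ≤ lrProdInf a t := by
  refine le_ciInf fun n => ?_
  have h1 := lrfb_lrProd_lower a n t
  have h2 : (∑ k ∈ Finset.range n, a k ^ 2) * t ^ 2 ≤ S * t ^ 2 :=
    mul_le_mul_of_nonneg_right (hS n) (sq_nonneg t)
  linarith

theorem lrProdInf_integral_pos {a : ℕ → ℝ} (ha : 0 < a 0) {S : ℝ}
    (hS : ∀ n, ∑ k ∈ Finset.range n, a k ^ 2 ≤ S) : 0 < ∫ t, lrProdInf a t := by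
  have hS0 : 0 < S := by
    have := hS 1
    simp only [Finset.range_one, Finset.sum_singleton] at this
    have h2 : 0 < a 0 ^ 2 := by positivity
    linarith
  rw [integral_pos_iff_support_of_nonneg (fun t => lrProdInf_nonneg a t) (lrProdInf_integrable ha)]
  set r : ℝ := (√S)⁻¹ with hr
  have hr0 : 0 < r := by positivity
  have hsub : Set.Ioo (-r) r ⊆ Function.support (lrProdInf a) := by
    intro t ht
    have h1 := lrProdInf_lower hS t
    have h2 : t ^ 2 < r ^ 2 := by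
      have := ht.1; have := ht.2
      nlinarith
    have h3 : S * r ^ 2 = 1 := by
      rw [hr, inv_pow, Real.sq_sqrt hS0.le, mul_inv_cancel₀ hS0.ne']
    have h4 : S * t ^ 2 < 1 := by
      rw [← h3]; exact mul_lt_mul_of_pos_left h2 hS0
    have : 0 < lrProdInf a t := by linarith
    exact this.ne'
  refine lt_of_lt_of_le ?_ (measure_mono hsub)
  rw [Real.volume_Ioo]
  simp only [ENNReal.ofReal_pos]
  linarith

/-- the transform of the infinite product vanishes outside `[-δ, δ]` if `2 ∑ a_k < δ` -/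
theorem lrFT_lrProdInf_eq_zero {a : ℕ → ℝ} (ha : ∀ k, 0 < a k) {S δ : ℝ}
    (hS : ∀ n, ∑ k ∈ Finset.range n, a k ≤ S) (hδ : 2 * S < δ) {ω : ℝ} (hω : δ ≤ |ω|) :
    lrFT (fun t => (lrProdInf a t : ℂ)) ω = 0 := by
  have hF : Integrable fun t => (lrProdInf a t : ℂ) := (lrProdInf_integrable (ha 0)).ofReal
  refine lrFT_eq_zero_of_gaussian_bound hF (η := δ - 2 * S) (by linarith) fun ε hε => ?_
  -- dominated convergence in `n`
  have hlim : Filter.Tendsto
      (fun n : ℕ => lrFT (fun t => (Real.exp (-ε * t ^ 2) : ℂ) * (lrProd a n t : ℂ)) ω)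
      Filter.atTop
      (nhds (lrFT (fun t => (Real.exp (-ε * t ^ 2) : ℂ) * (lrProdInf a t : ℂ)) ω)) := by
    unfold lrFT
    refine tendsto_integral_of_dominated_convergence (fun t => Real.exp (-ε * t ^ 2)) ?_
      (integrable_exp_neg_mul_sq hε) ?_ ?_
    · intro n
      refine Continuous.aestronglyMeasurable ?_
      have := lrProd_continuous a n
      fun_prop
    · intro n
      refine Filter.Eventually.of_forall fun t => ?_
      rw [norm_mul, norm_mul, Complex.norm_real, Complex.norm_real,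
        Real.norm_of_nonneg (Real.exp_pos _).le, Real.norm_of_nonneg (lrProd_nonneg a n t)]
      have h1 : ‖Complex.exp (Complex.I * ((t : ℂ) * (ω : ℂ)))‖ = 1 := by
        rw [mul_comm, ← Complex.ofReal_mul]
        exact Complex.norm_exp_ofReal_mul_I _
      rw [h1, mul_one]
      exact mul_le_of_le_one_right (Real.exp_pos _).le (lrProd_le_one a n t)
    · refine Filter.Eventually.of_forall fun t => ?_
      refine Filter.Tendsto.mul_const _ (Filter.Tendsto.const_mul _ ?_)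
      exact (Complex.continuous_ofReal.tendsto _).comp (lrProd_tendsto a t)
  refine le_of_tendsto (continuous_norm.tendsto _ |>.comp hlim) (Filter.Eventually.of_forall fun n => ?_)
  refine lrFT_gaussian_lrProd_bound hε (by linarith) a (fun k => (ha k).le) n ω ?_
  have := hS n
  linarith

theorem lrfb_sinc_sq_le_of_le {z : ℝ} (hz : Real.exp 1 ≤ |z|) : sinc z ^ 2 ≤ Real.exp (-2) := by
  have he : 0 < Real.exp 1 := Real.exp_pos 1
  have hz0 : z ≠ 0 := by
    rintro rfl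
    simp at hz
    linarith
  have h2 : Real.exp 2 ≤ z ^ 2 := by
    have h3 : Real.exp 2 = Real.exp 1 ^ 2 := by
      rw [← Real.exp_nat_mul]; norm_num
    rw [h3, ← sq_abs z]
    exact pow_le_pow_left₀ he.le hz 2
  rw [sinc_of_ne_zero hz0, div_pow, Real.exp_neg, div_le_iff₀ (by positivity)]
  have hs : sin z ^ 2 ≤ 1 := sin_sq_le_one z
  have h4 : 1 ≤ (Real.exp 2)⁻¹ * z ^ 2 := by
    rw [← div_eq_inv_mul, le_div_iff₀ (Real.exp_pos 2)]
    linarith
  linarith

/-- decay: with `a_k = a (k+1)^(-1/α)` all factors with `a_k |t| ≥ e` are at most `e^{-2}` -/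
theorem lrProdInf_decay {α a : ℝ} (hα0 : 0 < α) (ha : 0 < a) (t : ℝ) :
    lrProdInf (fun k => a * ((k : ℝ) + 1) ^ (-(1 / α))) t
      ≤ Real.exp 2 * Real.exp (-2 * (a / Real.exp 1) ^ α * |t| ^ α) := by
  set A : ℕ → ℝ := fun k => a * ((k : ℝ) + 1) ^ (-(1 / α)) with hA
  have he : 0 < Real.exp 1 := Real.exp_pos 1
  set y : ℝ := a / Real.exp 1 * |t| with hy
  have hy0 : 0 ≤ y := by positivity
  set x : ℝ := y ^ α with hx
  have hx0 : 0 ≤ x := Real.rpow_nonneg hy0 α
  have hxeq : x = (a / Real.exp 1) ^ α * |t| ^ α :=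
    Real.mul_rpow (by positivity) (abs_nonneg t)
  have hfac : ∀ k ∈ Finset.range ⌊x⌋₊, sinc (A k * t) ^ 2 ≤ Real.exp (-2) := by
    intro k hk
    have hk' : k + 1 ≤ ⌊x⌋₊ := Finset.mem_range.1 hk
    have hm : ((k : ℝ) + 1) ≤ x := by
      have h1 : ((k + 1 : ℕ) : ℝ) ≤ (⌊x⌋₊ : ℝ) := by exact_mod_cast hk'
      have h2 := Nat.floor_le hx0
      push_cast at h1
      linarith
    have hm0 : (0 : ℝ) < (k : ℝ) + 1 := by positivity
    have hroot : ((k : ℝ) + 1) ^ (1 / α) ≤ y := by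
      have h1 : ((k : ℝ) + 1) ^ (1 / α) ≤ x ^ (1 / α) :=
        Real.rpow_le_rpow hm0.le hm (by positivity)
      have h2 : x ^ (1 / α) = y := by
        rw [hx, ← Real.rpow_mul hy0, mul_one_div_cancel hα0.ne', Real.rpow_one]
      rwa [h2] at h1
    have hrpos : 0 < ((k : ℝ) + 1) ^ (1 / α) := Real.rpow_pos_of_pos hm0 _
    refine lrfb_sinc_sq_le_of_le ?_
    have habs : |A k * t| = a * |t| / ((k : ℝ) + 1) ^ (1 / α) := by
      rw [hA]
      simp only
      rw [Real.rpow_neg hm0.le, abs_mul, abs_mul, abs_of_pos ha, abs_of_pos (inv_pos.2 hrpos)]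
      field_simp
    rw [habs, le_div_iff₀ hrpos]
    have h3 : Real.exp 1 * y = a * |t| := by
      rw [hy]; field_simp
    calc Real.exp 1 * ((k : ℝ) + 1) ^ (1 / α) ≤ Real.exp 1 * y :=
          mul_le_mul_of_nonneg_left hroot he.le
      _ = a * |t| := h3
  have hprod : lrProd A ⌊x⌋₊ t ≤ Real.exp (-2) ^ ⌊x⌋₊ := by
    unfold lrProd
    calc ∏ k ∈ Finset.range ⌊x⌋₊, sinc (A k * t) ^ 2
        ≤ ∏ _k ∈ Finset.range ⌊x⌋₊, Real.exp (-2) :=
          Finset.prod_le_prod (fun _ _ => sq_nonneg _) hfac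
      _ = Real.exp (-2) ^ ⌊x⌋₊ := by simp
  have hfl : x - 1 < (⌊x⌋₊ : ℝ) := Nat.sub_one_lt_floor x
  calc lrProdInf A t ≤ lrProd A ⌊x⌋₊ t := lrProdInf_le A _ t
    _ ≤ Real.exp (-2) ^ ⌊x⌋₊ := hprod
    _ = Real.exp ((⌊x⌋₊ : ℝ) * (-2)) := by rw [Real.exp_nat_mul]
    _ ≤ Real.exp (2 + -2 * x) := Real.exp_le_exp.2 (by linarith)
    _ = Real.exp 2 * Real.exp (-2 * (a / Real.exp 1) ^ α * |t| ^ α) := by
        rw [Real.exp_add, hxeq, mul_assoc]

/-- **The filter.**  (Replaces `lem:quasilocal-filter`.) -/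
theorem lr_filter_exists (α : ℝ) (hα0 : 0 < α) (hα1 : α < 1) (δ : ℝ) (hδ : 0 < δ) :
    ∃ (f : ℝ → ℝ) (C c : ℝ), 0 < C ∧ 0 < c ∧ Measurable f ∧ (∀ t, 0 ≤ f t) ∧
      (∀ t, f (-t) = f t) ∧ (∀ t, f t ≤ C * Real.exp (-c * |t| ^ α)) ∧ Integrable f ∧
      ∫ t, f t = 1 ∧ ∀ ω : ℝ, δ ≤ |ω| → lrFT (fun t => (f t : ℂ)) ω = 0 := by
  -- the convergent series `T = ∑ (k+1)^(-1/α)`
  have hp : 1 < 1 / α := by rw [lt_div_iff₀ hα0]; linarith
  set b : ℕ → ℝ := fun k => ((k : ℝ) + 1) ^ (-(1 / α)) with hb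
  have hb0 : ∀ k, 0 < b k := fun k => Real.rpow_pos_of_pos (by positivity) _
  have hb1 : ∀ k, b k ≤ 1 := fun k =>
    Real.rpow_le_one_of_one_le_of_nonpos (by linarith [Nat.cast_nonneg (α := ℝ) k])
      (by have : 0 < 1 / α := by positivity
          linarith)
  have hsum : Summable b := by
    have h1 : Summable fun n : ℕ => ((n : ℝ)) ^ (-(1 / α)) :=
      Real.summable_nat_rpow.2 (by linarith)
    have h2 := (summable_nat_add_iff 1).2 h1
    refine h2.congr fun k => ?_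
    simp [hb]
  set T : ℝ := ∑' k, b k with hT
  have hT0 : 0 < T := hsum.tsum_pos (fun k => (hb0 k).le) 0 (hb0 0)
  set a : ℝ := δ / (4 * T) with ha
  have ha0 : 0 < a := by positivity
  set A : ℕ → ℝ := fun k => a * ((k : ℝ) + 1) ^ (-(1 / α)) with hA
  have hA0 : ∀ k, 0 < A k := fun k => mul_pos ha0 (hb0 k)
  have hS1 : ∀ n, ∑ k ∈ Finset.range n, A k ≤ a * T := by
    intro n
    have : ∑ k ∈ Finset.range n, A k = a * ∑ k ∈ Finset.range n, b k := by
      rw [Finset.mul_sum]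
    rw [this]
    exact mul_le_mul_of_nonneg_left (hsum.sum_le_tsum _ fun k _ => (hb0 k).le) ha0.le
  have hS2 : ∀ n, ∑ k ∈ Finset.range n, A k ^ 2 ≤ a * (a * T) := by
    intro n
    calc ∑ k ∈ Finset.range n, A k ^ 2 ≤ ∑ k ∈ Finset.range n, a * A k := by
          refine Finset.sum_le_sum fun k _ => ?_
          have h1 : A k ≤ a := mul_le_of_le_one_right ha0.le (hb1 k)
          rw [sq]
          exact mul_le_mul_of_nonneg_right h1 (hA0 k).le
      _ = a * ∑ k ∈ Finset.range n, A k := by rw [Finset.mul_sum]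
      _ ≤ a * (a * T) := mul_le_mul_of_nonneg_left (hS1 n) ha0.le
  have hδ' : 2 * (a * T) < δ := by
    have : a * T = δ / 4 := by rw [ha]; field_simp
    rw [this]; linarith
  set Z : ℝ := ∫ t, lrProdInf A t with hZ
  have hZ0 : 0 < Z := lrProdInf_integral_pos (hA0 0) hS2
  have hc0 : 0 < 2 * (a / Real.exp 1) ^ α :=
    mul_pos two_pos (Real.rpow_pos_of_pos (div_pos ha0 (Real.exp_pos 1)) _)
  refine ⟨fun t => Z⁻¹ * lrProdInf A t, Z⁻¹ * Real.exp 2, 2 * (a / Real.exp 1) ^ α,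
    by positivity, hc0, (lrProdInf_measurable A).const_mul _,
    fun t => mul_nonneg (inv_pos.2 hZ0).le (lrProdInf_nonneg A t), fun t => ?_, fun t => ?_,
    (lrProdInf_integrable (hA0 0)).const_mul _, ?_, fun ω hω => ?_⟩
  · simp only [lrProdInf_even]
  · have := lrProdInf_decay hα0 ha0 t
    rw [mul_assoc]
    refine mul_le_mul_of_nonneg_left ?_ (inv_pos.2 hZ0).le
    have e : -(2 * (a / Real.exp 1) ^ α) * |t| ^ α = -2 * (a / Real.exp 1) ^ α * |t| ^ α := by ring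
    rw [e]
    exact this
  · rw [integral_const_mul, ← hZ, inv_mul_cancel₀ hZ0.ne']
  · have h0 := lrFT_lrProdInf_eq_zero hA0 hS1 hδ' hω
    unfold lrFT at h0 ⊢
    have : (fun t : ℝ => ((Z⁻¹ * lrProdInf A t : ℝ) : ℂ) * Complex.exp (Complex.I * ((t : ℂ) * (ω : ℂ))))
        = fun t : ℝ => ((Z⁻¹ : ℝ) : ℂ) *
          ((lrProdInf A t : ℂ) * Complex.exp (Complex.I * ((t : ℂ) * (ω : ℂ)))) := by
      funext t
      push_cast
      ring
    rw [this, integral_const_mul, h0, mul_zero]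

end Claimed.Agent.R296
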