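import Claimed.Agent.R296.Loc
import Claimed.Agent.R296.LRAbs
import Claimed.Agent.R296.LRScalar

/-!
# Row 296, BB_LR (2): Lieb-Robinson bounds for finite-range Hamiltonians on a finite graph

`lem:quasilocal-lr` of the area-law paper (and `eq:info-lr`, `eq:info-operator-localization`
of the PEPS paper) for a general site system `(s, io)` and a graph `G` on the sites.
-/

set_option autoImplicit false

namespace Claimed.Agent.R296

open Matrix
open scoped MatrixOrder Matrix.Norms.L2Operator ComplexOrder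

variable {s : Type} [DecidableEq s] [Fintype s]

/-- graph ball `N_l(a)` -/
noncomputable def lrBall (G : SimpleGraph s) (a : s) (l : ℕ) : Finset s :=
  Finset.univ.filter fun y => G.edist a y ≤ (l : ℕ∞)

/-- connected component of `a` -/
noncomputable def lrComp (G : SimpleGraph s) (a : s) : Finset s :=
  Finset.univ.filter fun y => G.edist a y ≠ ⊤

/-- exponential weight `e^{-μ d(x,y)}` (zero at infinite distance) -/
noncomputable def lrW (G : SimpleGraph s) (μ : ℝ) (x y : s) : ℝ :=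
  if G.edist x y = ⊤ then 0 else Real.exp (-μ * ((G.edist x y).toNat : ℝ))

omit [DecidableEq s] in
theorem mem_lrBall {G : SimpleGraph s} {a y : s} {l : ℕ} :
    y ∈ lrBall G a l ↔ G.edist a y ≤ (l : ℕ∞) := by
  simp [lrBall]

omit [DecidableEq s] in
theorem mem_lrComp {G : SimpleGraph s} {a y : s} : y ∈ lrComp G a ↔ G.edist a y ≠ ⊤ := by
  simp [lrComp]

omit [DecidableEq s] [Fintype s] in
theorem lrW_nonneg (G : SimpleGraph s) (μ : ℝ) (x y : s) : 0 ≤ lrW G μ x y := by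
  unfold lrW
  split_ifs
  · exact le_rfl
  · exact (Real.exp_pos _).le

omit [DecidableEq s] [Fintype s] in
theorem lrW_self (G : SimpleGraph s) (μ : ℝ) (y : s) : lrW G μ y y = 1 := by
  simp [lrW]

omit [DecidableEq s] [Fintype s] in
theorem lrW_le_one (G : SimpleGraph s) {μ : ℝ} (hμ : 0 ≤ μ) (x y : s) : lrW G μ x y ≤ 1 := by
  unfold lrW
  split_ifs
  · exact zero_le_one
  · rw [Real.exp_le_one_iff]
    have : (0 : ℝ) ≤ ((G.edist x y).toNat : ℝ) := Nat.cast_nonneg _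
    nlinarith

omit [DecidableEq s] [Fintype s] in
theorem lrW_eq_zero {G : SimpleGraph s} {μ : ℝ} {x y : s} (h : G.edist x y = ⊤) :
    lrW G μ x y = 0 := by
  simp [lrW, h]

omit [DecidableEq s] [Fintype s] in
/-- the weight varies by at most `e^{μR}` over a set of diameter `R` -/
theorem lrW_le_mul (G : SimpleGraph s) {μ : ℝ} (hμ : 0 ≤ μ) {R : ℕ} {x x' : s}
    (hxx : G.edist x x' ≤ (R : ℕ∞)) (y : s) :
    lrW G μ x' y ≤ Real.exp (μ * R) * lrW G μ x y := by
  by_cases h' : G.edist x' y = ⊤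
  · rw [lrW_eq_zero h']
    exact mul_nonneg (Real.exp_pos _).le (lrW_nonneg _ _ _ _)
  have htri : G.edist x y ≤ G.edist x x' + G.edist x' y := SimpleGraph.edist_triangle
  have hfin : G.edist x y ≠ ⊤ := by
    intro h
    rw [h, top_le_iff, ENat.add_eq_top] at htri
    rcases htri with h1 | h1
    · rw [h1] at hxx
      exact absurd hxx (by simp)
    · exact h' h1
  have hxxfin : G.edist x x' ≠ ⊤ := by
    intro h
    rw [h] at hxx
    exact absurd hxx (by simp)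
  unfold lrW
  rw [if_neg h', if_neg hfin, ← Real.exp_add, Real.exp_le_exp]
  obtain ⟨n1, hn1⟩ := ENat.ne_top_iff_exists.1 hfin
  obtain ⟨n2, hn2⟩ := ENat.ne_top_iff_exists.1 h'
  obtain ⟨n3, hn3⟩ := ENat.ne_top_iff_exists.1 hxxfin
  rw [← hn1, ← hn2, ← hn3] at htri
  rw [← hn3] at hxx
  rw [← hn1, ← hn2]
  simp only [ENat.toNat_natCast]
  have h1 : n1 ≤ n3 + n2 := by exact_mod_cast htri
  have h2 : n3 ≤ R := by exact_mod_cast hxx
  have h3 : (n1 : ℝ) ≤ (R : ℝ) + n2 := by exact_mod_cast (h1.trans (Nat.add_le_add_right h2 _))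
  nlinarith

variable {io : s → Type} [∀ x, Fintype (io x)] [∀ x, DecidableEq (io x)]

/-- **Lieb-Robinson bound for local Hamiltonians**, general weights. -/
theorem lr_local {ι : Type} [Fintype ι] (X : ι → Finset s)
    (h : ι → Matrix (Cfg io) (Cfg io) ℂ) (hsupp : ∀ j, SuppIn (X j) (h j))
    (hsa : ∀ j, (h j).IsHermitian) {a B : Matrix (Cfg io) (Cfg io) ℂ} {Xa Y : Finset s}
    (ha : SuppIn Xa a) (hB : SuppIn Y B) (b0 : ℝ) (m : ℕ) (lam : ℝ) (w : s → ℝ)
    (hb0 : ∀ x, ∑ j with x ∈ X j, ‖h j‖ ≤ b0) (hm : ∀ j, (X j).card ≤ m)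
    (hw0 : ∀ x, 0 ≤ w x) (hwY : ∀ x ∈ Y, 1 ≤ w x) (hlam0 : 0 ≤ lam)
    (hlam : ∀ j, ∀ x ∈ X j, ∀ x' ∈ X j, w x' ≤ lam * w x) (t : ℝ) :
    ‖lrDyn (∑ j, h j) t a * B - B * lrDyn (∑ j, h j) t a‖
      ≤ 2 * ‖a‖ * ‖B‖ * Real.exp (2 * lam * m * b0 * |t|) * ∑ x ∈ Xa, w x :=
  lr_abstract X h (fun j => hsa j) (fun j k hd => (hsupp j).commute hd (hsupp k)) a B Xa Y
    (fun j hd => ha.commute hd (hsupp j)) (fun j hd => (hsupp j).commute hd hB)
    (fun hd => ha.commute hd hB) b0 m lam w hb0 hm hw0 hwY hlam0 hlam t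

/-- a finite-range Hamiltonian on a graph with quadratic ball growth -/
structure LocHam (G : SimpleGraph s) {ι : Type} [Fintype ι] (X : ι → Finset s)
    (h : ι → Matrix (Cfg io) (Cfg io) ℂ) (q R mult : ℕ) (J : ℝ) : Prop where
  card_io : ∀ x, Fintype.card (io x) ≤ q
  growth : ∀ x r, (lrBall G x r).card ≤ (2 * r + 1) ^ 2
  diam : ∀ i, ∀ x ∈ X i, ∀ y ∈ X i, G.edist x y ≤ (R : ℕ∞)
  mult : ∀ x, (Finset.univ.filter fun i => x ∈ X i).card ≤ mult
  supp : ∀ i, SuppIn (X i) (h i)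
  herm : ∀ i, (h i).IsHermitian
  norm : ∀ i, ‖h i‖ ≤ J

namespace LocHam

variable {G : SimpleGraph s} {ι : Type} [Fintype ι] {X : ι → Finset s}
  {h : ι → Matrix (Cfg io) (Cfg io) ℂ} {q R mult : ℕ} {J : ℝ}

theorem card_le (H : LocHam G X h q R mult J) (i : ι) : (X i).card ≤ (2 * R + 1) ^ 2 := by
  rcases (X i).eq_empty_or_nonempty with h0 | ⟨x, hx⟩
  · simp [h0]
  · refine le_trans (Finset.card_le_card ?_) (H.growth x R)
    intro y hy
    exact mem_lrBall.2 (H.diam i x hx y hy)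

theorem budget (H : LocHam G X h q R mult J) (hJ : 0 ≤ J) (x : s) :
    ∑ j with x ∈ X j, ‖h j‖ ≤ J * mult := by
  calc ∑ j with x ∈ X j, ‖h j‖ ≤ ∑ _j with x ∈ X _j, J := Finset.sum_le_sum fun j _ => H.norm j
    _ = (Finset.univ.filter fun i => x ∈ X i).card * J := by simp
    _ ≤ mult * J := mul_le_mul_of_nonneg_right (by exact_mod_cast H.mult x) hJ
    _ = J * mult := mul_comm _ _

/-- the Lieb-Robinson velocity for the weight `e^{-μ d}` -/
noncomputable def _root_.Claimed.Agent.R296.lrVel (R mult : ℕ) (J μ : ℝ) : ℝ :=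
  2 * Real.exp (μ * R) * (((2 * R + 1) ^ 2 : ℕ) : ℝ) * (J * mult)

/-- `eq:quasilocal-lr`, `eq:info-lr` -/
theorem lr_comm (H : LocHam G X h q R mult J) (hJ : 0 ≤ J) {μ : ℝ} (hμ : 0 ≤ μ)
    {a B : Matrix (Cfg io) (Cfg io) ℂ} {Xa : Finset s} {y : s}
    (ha : SuppIn Xa a) (hB : SuppIn {y} B) (t : ℝ) :
    ‖lrDyn (∑ j, h j) t a * B - B * lrDyn (∑ j, h j) t a‖
      ≤ 2 * ‖a‖ * ‖B‖ * Real.exp (lrVel R mult J μ * |t|) * ∑ x ∈ Xa, lrW G μ x y := by
  have := lr_local X h H.supp H.herm ha hB (J * mult) ((2 * R + 1) ^ 2) (Real.exp (μ * R))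
    (fun x => lrW G μ x y) (H.budget hJ) H.card_le (fun x => lrW_nonneg _ _ _ _)
    (fun x hx => by rw [Finset.mem_singleton.1 hx, lrW_self]) (Real.exp_pos _).le
    (fun j x hx x' hx' => lrW_le_mul G hμ (H.diam j x hx x' hx') y) t
  exact this

/-- oscillation of an evolved local operator -/
theorem lr_osc (H : LocHam G X h q R mult J) (hJ : 0 ≤ J) {μ : ℝ} (hμ : 0 ≤ μ)
    {a : Matrix (Cfg io) (Cfg io) ℂ} {Xa : Finset s} (ha : SuppIn Xa a) (y : s) (t : ℝ) :
    osc y (lrDyn (∑ j, h j) t a)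
      ≤ 2 * (q : ℝ) ^ 2 * ‖a‖ * Real.exp (lrVel R mult J μ * |t|) * ∑ x ∈ Xa, lrW G μ x y := by
  set T : ℝ := 2 * ‖a‖ * Real.exp (lrVel R mult J μ * |t|) * ∑ x ∈ Xa, lrW G μ x y with hT
  have hT0 : 0 ≤ T := by
    have : 0 ≤ ∑ x ∈ Xa, lrW G μ x y := Finset.sum_nonneg fun x _ => lrW_nonneg _ _ _ _
    positivity
  have h1 : ∀ c d : io y, ‖sUnit y c d * lrDyn (∑ j, h j) t a
      - lrDyn (∑ j, h j) t a * sUnit y c d‖ ≤ T := by
    intro c d
    have h2 := H.lr_comm hJ hμ ha (suppIn_sUnit y c d) t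
    rw [norm_sub_rev]
    refine h2.trans ?_
    have h3 := norm_sUnit_le y c d
    have h4 : 0 ≤ 2 * ‖a‖ * Real.exp (lrVel R mult J μ * |t|) * ∑ x ∈ Xa, lrW G μ x y := hT0
    calc 2 * ‖a‖ * ‖sUnit y c d‖ * Real.exp (lrVel R mult J μ * |t|) * ∑ x ∈ Xa, lrW G μ x y
        = T * ‖sUnit y c d‖ := by rw [hT]; ring
      _ ≤ T * 1 := mul_le_mul_of_nonneg_left h3 hT0
      _ = T := mul_one _
  have hq : (Fintype.card (io y) : ℝ) ≤ q := by exact_mod_cast H.card_io y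
  calc osc y (lrDyn (∑ j, h j) t a) ≤ ∑ _c : io y, ∑ _d : io y, T :=
        Finset.sum_le_sum fun c _ => Finset.sum_le_sum fun d _ => h1 c d
    _ = (Fintype.card (io y) : ℝ) ^ 2 * T := by simp [Finset.sum_const]; ring
    _ ≤ (q : ℝ) ^ 2 * T := by
        apply mul_le_mul_of_nonneg_right _ hT0
        exact pow_le_pow_left₀ (Nat.cast_nonneg _) hq 2
    _ = _ := by rw [hT]; ring

/-- localisation of an evolved local operator, explicit form -/
theorem lr_cexp_explicit [∀ x, Nonempty (io x)] (H : LocHam G X h q R mult J) (hJ : 0 ≤ J)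
    {μ : ℝ} (hμ : 0 ≤ μ) {a : Matrix (Cfg io) (Cfg io) ℂ} {Xa : Finset s} (ha : SuppIn Xa a)
    (D : Finset s) (t : ℝ) :
    ‖lrDyn (∑ j, h j) t a - cexp D (lrDyn (∑ j, h j) t a)‖
      ≤ 2 * (q : ℝ) ^ 2 * ‖a‖ * Real.exp (lrVel R mult J μ * |t|) *
        ∑ y ∈ Dᶜ, ∑ x ∈ Xa, lrW G μ x y := by
  refine (norm_sub_cexp_le D _).trans ?_
  rw [Finset.mul_sum]
  exact Finset.sum_le_sum fun y _ => H.lr_osc hJ hμ ha y t

/-- an evolved operator stays in the union of the components of its support -/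
theorem lr_comp [∀ x, Nonempty (io x)] (H : LocHam G X h q R mult J) (hJ : 0 ≤ J)
    {a : Matrix (Cfg io) (Cfg io) ℂ} {Xa D : Finset s} (ha : SuppIn Xa a)
    (hD : ∀ x ∈ Xa, ∀ y, G.edist x y ≠ ⊤ → y ∈ D) (t : ℝ) :
    SuppIn D (lrDyn (∑ j, h j) t a) := by
  have h1 := H.lr_cexp_explicit hJ (le_refl (0 : ℝ)) ha D t
  have h2 : ∑ y ∈ Dᶜ, ∑ x ∈ Xa, lrW G 0 x y = 0 := by
    refine Finset.sum_eq_zero fun y hy => Finset.sum_eq_zero fun x hx => ?_
    apply lrW_eq_zero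
    by_contra hne
    exact (Finset.mem_compl.1 hy) (hD x hx y hne)
  rw [h2, mul_zero] at h1
  have h3 : lrDyn (∑ j, h j) t a = cexp D (lrDyn (∑ j, h j) t a) :=
    sub_eq_zero.1 (norm_le_zero_iff.1 h1)
  rw [h3]
  exact suppIn_cexp _ _

end LocHam

/-- tail sums of the exponential weight outside a ball, uniformly in the graph -/
theorem lrW_tail_sum {μ : ℝ} (hμ : 0 < μ) :
    ∃ C : ℝ, 0 < C ∧ ∀ {s : Type} [DecidableEq s] [Fintype s] (G : SimpleGraph s),
      (∀ x r, (lrBall G x r).card ≤ (2 * r + 1) ^ 2) → ∀ (a : s) (l : ℕ),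
      ∑ y ∈ (lrBall G a l)ᶜ, lrW G μ a y ≤ C * Real.exp (-(μ / 2) * l) := by
  obtain ⟨C, hC, hsum⟩ := lr_site_sum (α := 1) (c := μ) one_pos hμ 2 4 (by norm_num)
  refine ⟨C, hC, ?_⟩
  intro s _ _ G hgrow a l
  classical
  set S : Finset s := (lrBall G a l)ᶜ.filter fun y => G.edist a y ≠ ⊤ with hS
  have h1 : ∑ y ∈ (lrBall G a l)ᶜ, lrW G μ a y
      = ∑ y ∈ S, Real.exp (-μ * (((G.edist a y).toNat : ℕ) : ℝ) ^ (1 : ℝ)) := by
    rw [hS, Finset.sum_filter]
    refine Finset.sum_congr rfl fun y _ => ?_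
    unfold lrW
    by_cases hy : G.edist a y = ⊤
    · simp [hy]
    · simp [hy]
  rw [h1]
  have h2 := hsum S (fun y => (G.edist a y).toNat) l ?_ ?_
  · simpa using h2
  · intro d
    have hsub : (S.filter fun y => (G.edist a y).toNat = d) ⊆ lrBall G a d := by
      intro y hy
      rw [Finset.mem_filter, hS, Finset.mem_filter] at hy
      obtain ⟨⟨_, hfin⟩, hd⟩ := hy
      rw [mem_lrBall]
      obtain ⟨n, hn⟩ := ENat.ne_top_iff_exists.1 hfin
      rw [← hn] at hd ⊢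
      simp only [ENat.toNat_natCast] at hd
      rw [hd]
    have h3 := (Finset.card_le_card hsub).trans (hgrow a d)
    have h4 : (((S.filter fun y => (G.edist a y).toNat = d).card : ℕ) : ℝ)
        ≤ (((2 * d + 1) ^ 2 : ℕ) : ℝ) := by exact_mod_cast h3
    refine h4.trans ?_
    push_cast
    nlinarith [(Nat.cast_nonneg d : (0 : ℝ) ≤ d)]
  · intro y hy
    rw [hS, Finset.mem_filter, Finset.mem_compl, mem_lrBall] at hy
    obtain ⟨hnot, hfin⟩ := hy
    obtain ⟨n, hn⟩ := ENat.ne_top_iff_exists.1 hfin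
    rw [← hn] at hnot ⊢
    simp only [ENat.toNat_natCast]
    have : ¬ (n ≤ l) := fun h => hnot (by exact_mod_cast h)
    omega

/-- **`lem:quasilocal-lr`, eq. (quasilocal-lr-ce)**, uniformly in the system. -/
theorem lr_cexp_ball (q R mult : ℕ) (J : ℝ) (hJ : 0 ≤ J) :
    ∃ C v c : ℝ, 0 < C ∧ 0 < v ∧ 0 < c ∧
      ∀ {s : Type} [DecidableEq s] [Fintype s] {io : s → Type} [∀ x, Fintype (io x)]
        [∀ x, DecidableEq (io x)] [∀ x, Nonempty (io x)] {G : SimpleGraph s} {ι : Type}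
        [Fintype ι] {X : ι → Finset s} {h : ι → Matrix (Cfg io) (Cfg io) ℂ},
        LocHam G X h q R mult J → ∀ (i : ι) (a : s), a ∈ X i →
        ∀ (A : Matrix (Cfg io) (Cfg io) ℂ), SuppIn (X i) A → ∀ (l : ℕ) (t : ℝ),
        ‖lrDyn (∑ j, h j) t A - cexp (lrBall G a l) (lrDyn (∑ j, h j) t A)‖
          ≤ ‖A‖ * min 2 (C * Real.exp (v * |t| - c * l)) := by
  obtain ⟨C0, hC0, htail⟩ := lrW_tail_sum (μ := 1) one_pos
  set vR : ℝ := (((2 * R + 1) ^ 2 : ℕ) : ℝ) with hvR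
  have hvR0 : 0 < vR := by rw [hvR]; positivity
  refine ⟨2 * (q : ℝ) ^ 2 * (vR * Real.exp R * C0) + 1, lrVel R mult J 1 + 1, 1 / 2, by positivity,
    ?_, by norm_num, ?_⟩
  · have : 0 ≤ lrVel R mult J 1 := by unfold lrVel; positivity
    linarith
  intro s _ _ io _ _ _ G ι _ X h H i a ha A hA l t
  have hHsa : IsSelfAdjoint (∑ j, h j) := isSelfAdjoint_sum _ fun j _ => H.herm j
  rw [mul_min_of_nonneg _ _ (norm_nonneg A)]
  refine le_min ?_ ?_
  · have h1 := norm_cexp_le (lrBall G a l) (lrDyn (∑ j, h j) t A)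
    have h2 := norm_sub_le (lrDyn (∑ j, h j) t A) (cexp (lrBall G a l) (lrDyn (∑ j, h j) t A))
    rw [norm_lrDyn hHsa] at h1 h2
    linarith
  · have h1 := H.lr_cexp_explicit hJ zero_le_one hA (lrBall G a l) t
    have h2 : ∑ y ∈ (lrBall G a l)ᶜ, ∑ x ∈ X i, lrW G 1 x y
        ≤ vR * Real.exp R * (C0 * Real.exp (-(1 / 2) * l)) := by
      calc ∑ y ∈ (lrBall G a l)ᶜ, ∑ x ∈ X i, lrW G 1 x y
          ≤ ∑ y ∈ (lrBall G a l)ᶜ, vR * Real.exp R * lrW G 1 a y := by
            refine Finset.sum_le_sum fun y _ => ?_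
            calc ∑ x ∈ X i, lrW G 1 x y ≤ ∑ _x ∈ X i, Real.exp R * lrW G 1 a y := by
                  refine Finset.sum_le_sum fun x hx => ?_
                  have := lrW_le_mul G zero_le_one (H.diam i a ha x hx) y
                  simpa using this
              _ = (X i).card * (Real.exp R * lrW G 1 a y) := by simp
              _ ≤ vR * (Real.exp R * lrW G 1 a y) := by
                  apply mul_le_mul_of_nonneg_right
                  · rw [hvR]; exact_mod_cast H.card_le i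
                  · exact mul_nonneg (Real.exp_pos _).le (lrW_nonneg _ _ _ _)
              _ = _ := by ring
        _ = vR * Real.exp R * ∑ y ∈ (lrBall G a l)ᶜ, lrW G 1 a y := by rw [Finset.mul_sum]
        _ ≤ _ := mul_le_mul_of_nonneg_left (htail G H.growth a l) (by positivity)
    have h3 : 0 ≤ 2 * (q : ℝ) ^ 2 * ‖A‖ * Real.exp (lrVel R mult J 1 * |t|) := by positivity
    refine h1.trans ((mul_le_mul_of_nonneg_left h2 h3).trans ?_)
    have e1 : Real.exp ((lrVel R mult J 1 + 1) * |t| - 1 / 2 * l)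
        = Real.exp ((lrVel R mult J 1 + 1) * |t|) * Real.exp (-(1 / 2) * l) := by
      rw [← Real.exp_add]; congr 1; ring
    have e2 : Real.exp (lrVel R mult J 1 * |t|) ≤ Real.exp ((lrVel R mult J 1 + 1) * |t|) := by
      apply Real.exp_le_exp.2
      nlinarith [abs_nonneg t]
    rw [e1]
    have e3 : 0 ≤ Real.exp (-(1 / 2) * (l : ℝ)) := (Real.exp_pos _).le
    have e4 : 0 ≤ ‖A‖ := norm_nonneg A
    have e5 : 0 ≤ 2 * (q : ℝ) ^ 2 * (vR * Real.exp R * C0) := by positivity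
    calc 2 * (q : ℝ) ^ 2 * ‖A‖ * Real.exp (lrVel R mult J 1 * |t|) *
          (vR * Real.exp R * (C0 * Real.exp (-(1 / 2) * l)))
        = ‖A‖ * ((2 * (q : ℝ) ^ 2 * (vR * Real.exp R * C0)) *
            (Real.exp (lrVel R mult J 1 * |t|) * Real.exp (-(1 / 2) * l))) := by ring
      _ ≤ ‖A‖ * ((2 * (q : ℝ) ^ 2 * (vR * Real.exp R * C0) + 1) *
            (Real.exp ((lrVel R mult J 1 + 1) * |t|) * Real.exp (-(1 / 2) * l))) := by
          apply mul_le_mul_of_nonneg_left _ e4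
          apply mul_le_mul (by linarith) _ (by positivity) (by positivity)
          exact mul_le_mul_of_nonneg_right e2 e3

end Claimed.Agent.R296
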