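import Claimed.Agent.R296.LRPos

/-!
# Row 296, BB_LR (8): `lem:quasilocal-roots` (square roots of the positive constraints)

`G = √(1-k)`, `K = √k`, and their local versions `G_l = √(1 - E_l k)`, `K_l = √(E_l k)`.
-/

set_option autoImplicit false
set_option linter.unusedSectionVars false

namespace Claimed.Agent.R296

open Matrix
open scoped MatrixOrder Matrix.Norms.L2Operator ComplexOrder

section Abs

variable {A : Type*} [CStarAlgebra A] [PartialOrder A] [StarOrderedRing A]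

/-- `‖√(1-k) - √(1-k')‖ + ‖√k - √k'‖ ≤ 2 √‖k - k'‖` -/
theorem lr_roots_sub_le {k k' : A} (hk0 : 0 ≤ k) (hk1 : k ≤ 1) (hk0' : 0 ≤ k') (hk1' : k' ≤ 1) :
    ‖CFC.sqrt (1 - k) - CFC.sqrt (1 - k')‖ + ‖CFC.sqrt k - CFC.sqrt k'‖
      ≤ 2 * Real.sqrt ‖k - k'‖ := by
  have h1 := lr_sqrt_holder (sub_nonneg.2 hk1) (sub_nonneg.2 hk1')
  have h2 := lr_sqrt_holder hk0 hk0'
  have e : (1 - k) - (1 - k') = -(k - k') := by abel
  rw [e, norm_neg] at h1
  linarith

theorem lr_roots_sq_add {k : A} (hk0 : 0 ≤ k) (hk1 : k ≤ 1) :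
    CFC.sqrt (1 - k) * CFC.sqrt (1 - k) + CFC.sqrt k * CFC.sqrt k = 1 := by
  rw [CFC.sqrt_mul_sqrt_self _ (sub_nonneg.2 hk1), CFC.sqrt_mul_sqrt_self _ hk0]
  abel

theorem lr_norm_sqrt_le_one {k : A} (hk0 : 0 ≤ k) (hk1 : k ≤ 1) : ‖CFC.sqrt k‖ ≤ 1 := by
  have h1 : ‖CFC.sqrt k‖ * ‖CFC.sqrt k‖ = ‖k‖ := by
    have := CStarRing.norm_star_mul_self (x := CFC.sqrt k)
    rw [(CFC.sqrt_nonneg k).isSelfAdjoint.star_eq, CFC.sqrt_mul_sqrt_self _ hk0] at this
    exact this.symm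
  have h2 : ‖k‖ ≤ 1 := by
    rcases subsingleton_or_nontrivial A with hs | hs
    · rw [Subsingleton.elim k 0, norm_zero]; exact zero_le_one
    · have := CStarAlgebra.norm_le_norm_of_nonneg_of_le hk0 hk1
      rwa [CStarRing.norm_one] at this
  nlinarith [norm_nonneg (CFC.sqrt k)]

end Abs

variable {s : Type} [DecidableEq s] [Fintype s] {io : s → Type}
  [∀ x, Fintype (io x)] [∀ x, DecidableEq (io x)] [∀ x, Nonempty (io x)]
  {G : SimpleGraph s} {ι : Type} [Fintype ι] {X : ι → Finset s} {Ω : Cfg io → ℂ}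
  {k : ι → Matrix (Cfg io) (Cfg io) ℂ} {g C c α : ℝ}

namespace PosSys

/-- the local constraints are positive contractions supported in the ball -/
theorem loc_nonneg (H : PosSys G X Ω k g C c α) (i : ι) (D : Finset s) : 0 ≤ cexp D (k i) :=
  cexp_nonneg D (H.nonneg i)

theorem loc_le_one (H : PosSys G X Ω k g C c α) (i : ι) (D : Finset s) : cexp D (k i) ≤ 1 := by
  have := cexp_mono D (H.le_one i)
  rwa [cexp_one] at this

/-- eq. (quasilocal-root-tail) -/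
theorem roots_tail (H : PosSys G X Ω k g C c α) (hC : 0 ≤ C) (i : ι) {a : s} (ha : a ∈ X i)
    (l : ℕ) :
    ‖CFC.sqrt (1 - k i) - CFC.sqrt (1 - cexp (lrBall G a l) (k i))‖ +
        ‖CFC.sqrt (k i) - CFC.sqrt (cexp (lrBall G a l) (k i))‖
      ≤ 2 * Real.sqrt C * Real.exp (-(c / 2) * (l : ℝ) ^ α) := by
  have h1 := lr_roots_sub_le (H.nonneg i) (H.le_one i) (H.loc_nonneg i (lrBall G a l))
    (H.loc_le_one i (lrBall G a l))
  have h2 := Real.sqrt_le_sqrt (H.tail i a ha l)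
  have e2 : Real.exp (-(c / 2) * (l : ℝ) ^ α) = Real.sqrt (Real.exp (-c * (l : ℝ) ^ α)) := by
    rw [← Real.exp_half]; congr 1; ring
  rw [Real.sqrt_mul hC, ← e2] at h2
  linarith

theorem sqrt_kills (H : PosSys G X Ω k g C c α) (hΩ : star Ω ⬝ᵥ Ω = 1) (i : ι) :
    CFC.sqrt (k i) *ᵥ Ω = 0 := by
  apply lrp_mulVec_eq_zero hΩ
  apply lr_sqrt_mul_eq_zero (H.nonneg i)
  rw [lrp_mul_left, H.kills i]
  ext a b
  simp [vecMulVec_apply]

theorem sqrt_one_sub_fixes (H : PosSys G X Ω k g C c α) (hΩ : star Ω ⬝ᵥ Ω = 1) (i : ι) :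
    CFC.sqrt (1 - k i) *ᵥ Ω = Ω := by
  have h0 : k i * pureOp Ω = 0 := by
    rw [lrp_mul_left, H.kills i]
    ext a b
    simp [vecMulVec_apply]
  have h1 := lr_sqrt_one_sub_mul (H.nonneg i) (H.le_one i) h0
  have h2 := congrArg (fun M => M *ᵥ Ω) h1
  simp only [← mulVec_mulVec, lrp_mulVec hΩ] at h2
  exact h2

theorem suppIn_sqrt_loc (H : PosSys G X Ω k g C c α) (i : ι) (D : Finset s) :
    SuppIn D (CFC.sqrt (cexp D (k i))) :=
  (suppIn_cexp D (k i)).sqrt (H.loc_nonneg i D)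

theorem suppIn_sqrt_one_sub_loc (H : PosSys G X Ω k g C c α) (i : ι) (D : Finset s) :
    SuppIn D (CFC.sqrt (1 - cexp D (k i))) :=
  ((SuppIn.one D).sub (suppIn_cexp D (k i))).sqrt (sub_nonneg.2 (H.loc_le_one i D))

/-- the sum of the constraints annihilates the ground vector -/
theorem sum_kills (H : PosSys G X Ω k g C c α) : (∑ i, k i) *ᵥ Ω = 0 := by
  rw [Matrix.sum_mulVec]
  exact Finset.sum_eq_zero fun i _ => H.kills i

end PosSys

end Claimed.Agent.R296
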