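import Claimed.Agent.R296.LRAbs
import Claimed.Agent.R296.LRFilter

/-!
# Row 296, BB_LR (4a): spectral filtering in an abstract unital C⋆-algebra

* `lr_filter_proj` : `∫ f(t) e^{itK} dt = P` if `K P = 0`, `K ≥ Δ (1 - P)` and the Fourier
  integral of `f` is `1` at `0` and vanishes on `[Δ, ∞)`;
* `lr_filtered_mul_proj` : Kitaev's centred filter annihilates the ground projection;
-/

set_option autoImplicit false
set_option linter.unusedSectionVars false

namespace Claimed.Agent.R296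

open MeasureTheory

section Spec

variable {A : Type*} [CStarAlgebra A]

theorem lrU_mul_of_mul_eq_zero {K P : A} (hKP : K * P = 0) (t : ℝ) : lrU K t * P = P := by
  have hd : ∀ u : ℝ, HasDerivAt (fun u : ℝ => lrU K u * P) 0 u := by
    intro u
    have h := (lrU_hasDerivAt K u).mul_const P
    have e : lrU K u * (Complex.I • K) * P = 0 := by
      rw [mul_assoc, smul_mul_assoc, hKP, smul_zero, mul_zero]
    rwa [e] at h
  have hc := is_const_of_deriv_eq_zero (f := fun u : ℝ => lrU K u * P)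
    (fun u => (hd u).differentiableAt) (fun u => (hd u).deriv) t 0
  simpa [lrU_zero] using hc

/-- shifting the generator by a scalar -/
theorem lrU_sub_smul_one (H : A) (E : ℝ) (t : ℝ) :
    lrU (H - (E : ℂ) • (1 : A)) t = Complex.exp (-(Complex.I * ((t : ℂ) * (E : ℂ)))) • lrU H t := by
  let +nondep : NormedAlgebra ℚ A := .restrictScalars ℚ ℂ A
  unfold lrU
  have e1 : ((t : ℂ) * Complex.I) • (H - (E : ℂ) • (1 : A))
      = ((t : ℂ) * Complex.I) • H + algebraMap ℂ A (-(Complex.I * ((t : ℂ) * (E : ℂ)))) := by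
    rw [Algebra.algebraMap_eq_smul_one, smul_sub, smul_smul, sub_eq_add_neg, ← neg_smul]
    congr 2
    ring
  rw [e1, NormedSpace.exp_add_of_commute ((Algebra.commutes _ _).symm),
    ← NormedSpace.algebraMap_exp_comm, ← Complex.exp_eq_exp_ℂ, ← Algebra.commutes,
    ← Algebra.smul_def]

/-- if `H P = E P` then `e^{itH} P = e^{itE} P` -/
theorem lrU_mul_of_eigen {H P : A} {E : ℝ} (hHP : H * P = (E : ℂ) • P) (t : ℝ) :
    lrU H t * P = Complex.exp (Complex.I * ((t : ℂ) * (E : ℂ))) • P := by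
  have h0 : (H - (E : ℂ) • (1 : A)) * P = 0 := by
    rw [sub_mul, smul_mul_assoc, one_mul, hHP, sub_self]
  have h1 := lrU_mul_of_mul_eq_zero h0 t
  rw [lrU_sub_smul_one, smul_mul_assoc] at h1
  calc lrU H t * P
      = Complex.exp (Complex.I * ((t : ℂ) * (E : ℂ))) •
          (Complex.exp (-(Complex.I * ((t : ℂ) * (E : ℂ)))) • (lrU H t * P)) := by
        rw [smul_smul, ← Complex.exp_add, add_neg_cancel, Complex.exp_zero, one_smul]
    _ = _ := by rw [h1]

theorem norm_lrU_le_one {K : A} (hK : IsSelfAdjoint K) (t : ℝ) : ‖lrU K t‖ ≤ 1 := by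
  rcases subsingleton_or_nontrivial A with h | h
  · rw [Subsingleton.elim (lrU K t) 0, norm_zero]; exact zero_le_one
  · exact (CStarRing.norm_of_mem_unitary (lrU_mem_unitary hK t)).le

theorem lr_integrable_smul_lrU {f : ℝ → ℝ} (hf : Integrable f) {K : A} (hK : IsSelfAdjoint K) :
    Integrable fun t : ℝ => (f t : ℂ) • lrU K t := by
  refine Integrable.mono' hf.norm ?_ ?_
  · exact (Complex.measurable_ofReal.comp_aemeasurable hf.aemeasurable).aestronglyMeasurable.smul
      (lrU_continuous K).aestronglyMeasurable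
  · refine Filter.Eventually.of_forall fun t => ?_
    rw [norm_smul, Complex.norm_real]
    exact mul_le_of_le_one_right (norm_nonneg _) (norm_lrU_le_one hK t)

theorem lr_integrable_smul_lrDyn {f : ℝ → ℝ} (hf : Integrable f) {H : A} (hH : IsSelfAdjoint H)
    (B : A) : Integrable fun t : ℝ => (f t : ℂ) • lrDyn H t B := by
  refine Integrable.mono' (hf.norm.mul_const ‖B‖) ?_ ?_
  · exact (Complex.measurable_ofReal.comp_aemeasurable hf.aemeasurable).aestronglyMeasurable.smul
      (lrDyn_continuous H B).aestronglyMeasurable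
  · refine Filter.Eventually.of_forall fun t => ?_
    rw [norm_smul, Complex.norm_real, norm_lrDyn hH]

/-- `cfc (z ↦ e^{c z}) K = exp (c K)` -/
theorem lr_cfc_cexp_mul {K : A} (hK : IsSelfAdjoint K) (c : ℂ) :
    cfc (fun z : ℂ => Complex.exp (c * z)) K = NormedSpace.exp (c • K) := by
  have hn : IsStarNormal K := hK.isStarNormal
  have h1 : cfc (fun z : ℂ => Complex.exp (c * z)) K = cfc Complex.exp (cfc (fun z : ℂ => c * z) K) := by
    rw [← cfc_comp' Complex.exp (fun z : ℂ => c * z) K]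
  rw [h1, cfc_const_mul_id c K, CFC.complex_exp_eq_normedSpace_exp]

/-- the characters `z ↦ e^{i t z}` on the spectrum of `K`, as a continuous family -/
noncomputable def lrChar (K : A) : C(ℝ, C(spectrum ℂ K, ℂ)) :=
  ContinuousMap.curry ⟨fun p : ℝ × spectrum ℂ K => Complex.exp (((p.1 : ℂ) * Complex.I) * (p.2 : ℂ)),
    by fun_prop⟩

theorem lrChar_apply (K : A) (t : ℝ) (z : spectrum ℂ K) :
    lrChar K t z = Complex.exp (((t : ℂ) * Complex.I) * (z : ℂ)) := rfl

theorem lr_cfcHom_lrChar {K : A} (hK : IsSelfAdjoint K) (t : ℝ) :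
    cfcHom (R := ℂ) (a := K) hK.isStarNormal (lrChar K t) = lrU K t := by
  have h := lr_cfc_cexp_mul hK ((t : ℂ) * Complex.I)
  rw [cfc_apply (fun z : ℂ => Complex.exp (((t : ℂ) * Complex.I) * z)) K hK.isStarNormal
    (by fun_prop)] at h
  exact h

theorem norm_lrChar_le {K : A} (hK : IsSelfAdjoint K) (t : ℝ) : ‖lrChar K t‖ ≤ 1 := by
  rw [ContinuousMap.norm_le _ zero_le_one]
  intro z
  rw [lrChar_apply, Complex.norm_exp]
  have hz : (z : ℂ) = ((z : ℂ).re : ℂ) := hK.mem_spectrum_eq_re z.2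
  rw [hz]
  simp

variable [PartialOrder A] [StarOrderedRing A]

/-- functional calculus form: `∫ f(t) e^{itK} dt = cfc (lrFT f) K`; only the consequence below is
needed -/
theorem lr_filter_eq_zero {K : A} (hK : IsSelfAdjoint K) {Δ : ℝ}
    (hgap : (Δ : ℂ) • (1 : A) ≤ K) {f : ℝ → ℝ} (hf : Integrable f)
    (hvan : ∀ ω : ℝ, Δ ≤ ω → lrFT (fun t => (f t : ℂ)) ω = 0) :
    ∫ t : ℝ, (f t : ℂ) • lrU K t = 0 := by
  have hn : IsStarNormal K := hK.isStarNormal
  -- integrability in `C(σ(K), ℂ)`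
  have hint : Integrable fun t : ℝ => (f t : ℂ) • lrChar K t := by
    refine Integrable.mono' hf.norm ?_ ?_
    · exact (Complex.measurable_ofReal.comp_aemeasurable hf.aemeasurable).aestronglyMeasurable.smul
        (lrChar K).continuous.aestronglyMeasurable
    · refine Filter.Eventually.of_forall fun t => ?_
      rw [norm_smul, Complex.norm_real]
      exact mul_le_of_le_one_right (norm_nonneg _) (norm_lrChar_le hK t)
  have h1 : ∀ t : ℝ, (f t : ℂ) • lrU K t = cfcHom (R := ℂ) (a := K) hn ((f t : ℂ) • lrChar K t) := by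
    intro t
    rw [map_smul, lr_cfcHom_lrChar hK]
  simp_rw [h1]
  rw [cfcHom_integral K _ hint hn]
  have h2 : ∫ t : ℝ, (f t : ℂ) • lrChar K t = 0 := by
    ext z
    rw [ContinuousMap.integral_apply hint]
    have hz : (z : ℂ) = ((z : ℂ).re : ℂ) := hK.mem_spectrum_eq_re z.2
    have hz2 : (z : ℂ).re ∈ spectrum ℝ K := by
      have := z.2
      rw [hz] at this
      exact (spectrum.algebraMap_mem_iff ℂ (a := K) (r := (z : ℂ).re)).1 this
    have hgap' : algebraMap ℝ A Δ ≤ K := by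
      rw [Algebra.algebraMap_eq_smul_one, ← Complex.coe_smul]
      exact hgap
    have hΔ : Δ ≤ (z : ℂ).re := (algebraMap_le_iff_le_spectrum (a := K) hK).1 hgap' _ hz2
    have h3 := hvan _ hΔ
    unfold lrFT at h3
    rw [ContinuousMap.zero_apply, ← h3]
    refine integral_congr_ae (Filter.Eventually.of_forall fun t => ?_)
    simp only [ContinuousMap.smul_apply, lrChar_apply, smul_eq_mul]
    rw [← hz]
    congr 2
    ring
  rw [h2, map_zero]

/-- **spectral filter = ground projection** -/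
theorem lr_filter_proj {K P : A} (hK : IsSelfAdjoint K) (hP : IsSelfAdjoint P) (hPP : P * P = P)
    (hKP : K * P = 0) {Δ : ℝ} (hgap : (Δ : ℂ) • (1 - P) ≤ K) {f : ℝ → ℝ}
    (hf : Integrable f) (hf1 : ∫ t, f t = 1)
    (hvan : ∀ ω : ℝ, Δ ≤ ω → lrFT (fun t => (f t : ℂ)) ω = 0) :
    ∫ t : ℝ, (f t : ℂ) • lrU K t = P := by
  let +nondep : NormedAlgebra ℚ A := .restrictScalars ℚ ℂ A
  have hPK : P * K = 0 := by
    have := congrArg star hKP
    rwa [star_mul, hP.star_eq, hK.star_eq, star_zero] at this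
  -- the shifted generator
  set K' : A := K + (Δ : ℂ) • P with hK'
  have hK's : IsSelfAdjoint K' := by
    refine hK.add ?_
    rw [IsSelfAdjoint, star_smul, hP.star_eq]
    simp
  have hgap' : (Δ : ℂ) • (1 : A) ≤ K' := by
    have := add_le_add_left hgap ((Δ : ℂ) • P)
    have e : (Δ : ℂ) • (1 - P) + (Δ : ℂ) • P = (Δ : ℂ) • (1 : A) := by
      rw [← smul_add, sub_add_cancel]
    rw [e] at this
    exact this
  have h0 := lr_filter_eq_zero hK's hgap' hf hvan
  -- `e^{itK'} (1 - P) = e^{itK} (1 - P)`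
  have hU : ∀ t : ℝ, lrU K' t * (1 - P) = lrU K t * (1 - P) := by
    intro t
    have hcomm : Commute (((t : ℂ) * Complex.I) • K) (((t : ℂ) * Complex.I) • ((Δ : ℂ) • P)) := by
      have : Commute K P := by rw [Commute, SemiconjBy, hKP, hPK]
      exact ((this.smul_right _).smul_right _).smul_left _
    have e1 : lrU K' t = lrU K t * lrU ((Δ : ℂ) • P) t := by
      unfold lrU
      rw [hK', smul_add, NormedSpace.exp_add_of_commute hcomm]
    have e2 : lrU ((Δ : ℂ) • P) t * (1 - P) = 1 - P :=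
      lrU_mul_of_mul_eq_zero (by rw [smul_mul_assoc, mul_sub, mul_one, hPP, sub_self, smul_zero]) t
    rw [e1, mul_assoc, e2]
  have hi := lr_integrable_smul_lrU hf hK
  have hi' := lr_integrable_smul_lrU hf hK's
  have hsplit : ∀ t : ℝ, (f t : ℂ) • lrU K t = (f t : ℂ) • P + ((f t : ℂ) • lrU K' t) * (1 - P) := by
    intro t
    rw [smul_mul_assoc, hU, ← smul_add, mul_sub, mul_one, lrU_mul_of_mul_eq_zero hKP]
    simp
  simp_rw [hsplit]
  have hfc : Integrable fun t : ℝ => (f t : ℂ) := hf.ofReal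
  have e := integral_add (μ := volume) (hfc.smul_const P) (hi'.mul_const (1 - P))
  refine e.trans ?_
  rw [integral_mul_const_of_integrable hi', h0, zero_mul,
    add_zero, integral_smul_const, integral_complex_ofReal, hf1]
  simp

/-- **Kitaev's filter on the ground projection** -/
theorem lr_filtered_mul_proj {H P h : A} {E : ℝ} (hH : IsSelfAdjoint H) (hP : IsSelfAdjoint P)
    (hPP : P * P = P) (hHP : H * P = (E : ℂ) • P) {Δ : ℝ}
    (hgap : (Δ : ℂ) • (1 - P) ≤ H - (E : ℂ) • (1 : A)) {f : ℝ → ℝ}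
    (hf : Integrable f) (hf1 : ∫ t, f t = 1)
    (hvan : ∀ ω : ℝ, Δ ≤ ω → lrFT (fun t => (f t : ℂ)) ω = 0) :
    (∫ t : ℝ, (f t : ℂ) • lrDyn H t h) * P = P * h * P := by
  have hKs : IsSelfAdjoint (H - (E : ℂ) • (1 : A)) := by
    refine hH.sub ?_
    rw [IsSelfAdjoint, star_smul, star_one]
    simp
  have hKP : (H - (E : ℂ) • (1 : A)) * P = 0 := by
    rw [sub_mul, smul_mul_assoc, one_mul, hHP, sub_self]
  have hmain := lr_filter_proj hKs hP hPP hKP hgap hf hf1 hvan
  have hi := lr_integrable_smul_lrU hf hKs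
  have hpt : ∀ t : ℝ, ((f t : ℂ) • lrDyn H t h) * P
      = ((f t : ℂ) • lrU (H - (E : ℂ) • (1 : A)) t) * (h * P) := by
    intro t
    unfold lrDyn
    rw [lrU_sub_smul_one, smul_mul_assoc, smul_mul_assoc, smul_mul_assoc, mul_assoc (lrU H t * h),
      lrU_mul_of_eigen hHP (-t), mul_smul_comm, mul_assoc]
    congr 2
    push_cast
    ring_nf
  rw [← integral_mul_const_of_integrable (lr_integrable_smul_lrDyn hf hH h)]
  simp_rw [hpt]
  rw [integral_mul_const_of_integrable hi, hmain, mul_assoc]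

/-- the filtered operator is self-adjoint -/
theorem lr_filtered_isSelfAdjoint {H h : A} (hH : IsSelfAdjoint H) (hh : IsSelfAdjoint h)
    (f : ℝ → ℝ) : IsSelfAdjoint (∫ t : ℝ, (f t : ℂ) • lrDyn H t h) := by
  have h1 := (starL' ℝ (A := A)).integral_comp_comm (μ := volume) (fun t : ℝ => (f t : ℂ) • lrDyn H t h)
  rw [IsSelfAdjoint]
  have h2 : star (∫ t : ℝ, (f t : ℂ) • lrDyn H t h) = (starL' ℝ (A := A)) (∫ t : ℝ, (f t : ℂ) • lrDyn H t h) := rfl
  rw [h2, ← h1]
  refine integral_congr_ae (Filter.Eventually.of_forall fun t => ?_)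
  show star ((f t : ℂ) • lrDyn H t h) = _
  rw [star_smul, lrDyn_star hH, hh.star_eq]
  simp

theorem lr_filtered_norm_le {H h : A} (hH : IsSelfAdjoint H) {f : ℝ → ℝ} (hf0 : ∀ t, 0 ≤ f t)
    (hf1 : ∫ t, f t = 1) : ‖∫ t : ℝ, (f t : ℂ) • lrDyn H t h‖ ≤ ‖h‖ := by
  refine (norm_integral_le_integral_norm _).trans (le_of_eq ?_)
  have : ∀ t : ℝ, ‖(f t : ℂ) • lrDyn H t h‖ = f t * ‖h‖ := by
    intro t
    rw [norm_smul, Complex.norm_real, norm_lrDyn hH, Real.norm_of_nonneg (hf0 t)]
  simp_rw [this]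
  rw [integral_mul_const, hf1, one_mul]

/-- the filter fixes the Hamiltonian -/
theorem lr_filtered_self {H : A} {f : ℝ → ℝ} (hf1 : ∫ t, f t = 1) :
    ∫ t : ℝ, (f t : ℂ) • lrDyn H t H = H := by
  simp_rw [lrDyn_of_commute (Commute.refl H)]
  rw [integral_smul_const, integral_complex_ofReal, hf1]
  simp

theorem lr_filtered_sum {ι : Type*} (S : Finset ι) {H : A} (hH : IsSelfAdjoint H) (h : ι → A)
    {f : ℝ → ℝ} (hf : Integrable f) :
    ∫ t : ℝ, (f t : ℂ) • lrDyn H t (∑ i ∈ S, h i) = ∑ i ∈ S, ∫ t : ℝ, (f t : ℂ) • lrDyn H t (h i) := by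
  simp_rw [lrDyn_sum, Finset.smul_sum]
  exact integral_finsetSum S fun i _ => lr_integrable_smul_lrDyn hf hH (h i)

end Spec

end Claimed.Agent.R296
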