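import Claimed.Agent.R296.LRPos

/-!
# Row 296, BB_LR (7a): `prop:truncation`, the volume-independent norm estimate
(eq. quasilocal-volume-free), general graph.

Proof of `lr_trunc_norm`: triangle inequality over the labels; a label at infinite distance from
`S0` has no error (`PosSys.comp`, `cexp_of_suppIn`); a label at finite distance `d` has error
`≤ C exp(-c max(r0, d/2)^α)` (`PosSys.tail`); choose `x ∈ S0` realising the distance, so that
`∑_i f(d_i) ≤ ∑_{x ∈ S0} ∑_{a} mult · f(d(a,x))`; for fixed `x` apply `lr_site_sum` with the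
"distance" `a ↦ max r0 (d(a,x)/2)`, whose level sets lie in the ball of radius `2D+1`, hence have
at most `(4D+3)^2 ≤ 16 (D+1)^2` elements.
-/

set_option autoImplicit false

namespace Claimed.Agent.R296

open Matrix
open scoped MatrixOrder Matrix.Norms.L2Operator ComplexOrder

variable {s : Type} [DecidableEq s] [Fintype s]

/-- graph distance from a site to a set (`⊤` for the empty set) -/
noncomputable def lrDistSet (G : SimpleGraph s) (a : s) (S0 : Finset s) : ℕ∞ :=
  S0.inf fun x => G.edist a x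

/-- truncation radius `r_i = max r0 ⌊d/2⌋` -/
noncomputable def lrTRad (G : SimpleGraph s) (r0 : ℕ) (S0 : Finset s) (a : s) : ℕ :=
  max r0 ((lrDistSet G a S0).toNat / 2)

/-- designated support after truncation: the ball of radius `max r0 ⌊d/2⌋`, or the whole
component if `d = ∞` -/
noncomputable def lrTSupp (G : SimpleGraph s) (r0 : ℕ) (S0 : Finset s) (a : s) : Finset s :=
  if lrDistSet G a S0 = ⊤ then lrComp G a else lrBall G a (lrTRad G r0 S0 a)

omit [DecidableEq s] [Fintype s] in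
theorem lrDistSet_le {G : SimpleGraph s} {a x : s} {S0 : Finset s} (hx : x ∈ S0) :
    lrDistSet G a S0 ≤ G.edist a x :=
  Finset.inf_le hx

omit [DecidableEq s] [Fintype s] in
/-- the distance is attained -/
theorem exists_lrDistSet_eq {G : SimpleGraph s} {a : s} {S0 : Finset s}
    (h : lrDistSet G a S0 ≠ ⊤) : ∃ x ∈ S0, G.edist a x = lrDistSet G a S0 := by
  have hne : S0.Nonempty := by
    rw [Finset.nonempty_iff_ne_empty]
    rintro rfl
    exact h (by simp [lrDistSet])
  obtain ⟨x, hx, hxe⟩ := Finset.exists_mem_eq_inf S0 hne (fun x => G.edist a x)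
  exact ⟨x, hx, hxe.symm⟩

/-- the sum over all sites around one point of `S0` -/
theorem lr_trunc_site {α : ℝ} (hα0 : 0 < α) (c : ℝ) (hc : 0 < c) :
    ∃ C2 : ℝ, 0 < C2 ∧
      ∀ {s : Type} [DecidableEq s] [Fintype s] {G : SimpleGraph s},
        (∀ x r, (lrBall G x r).card ≤ (2 * r + 1) ^ 2) → ∀ (x : s) (r0 : ℕ),
        ∑ a with G.edist a x ≠ ⊤, Real.exp (-c * ((max r0 ((G.edist a x).toNat / 2) : ℕ) : ℝ) ^ α)
          ≤ C2 * Real.exp (-(c / 2) * (r0 : ℝ) ^ α) := by
  obtain ⟨C2, hC2, h⟩ := lr_site_sum hα0 hc 2 16 (by norm_num)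
  refine ⟨C2, hC2, ?_⟩
  intro s _ _ G hgrow x r0
  refine h (Finset.univ.filter fun a => G.edist a x ≠ ⊤)
    (fun a => max r0 ((G.edist a x).toNat / 2)) r0 ?_ (fun y _ => le_max_left _ _)
  intro d
  have hsub : ((Finset.univ.filter fun a => G.edist a x ≠ ⊤).filter
      fun a => max r0 ((G.edist a x).toNat / 2) = d) ⊆ lrBall G x (2 * d + 1) := by
    intro a ha
    rw [Finset.mem_filter, Finset.mem_filter] at ha
    obtain ⟨⟨-, ha1⟩, ha2⟩ := ha
    rw [mem_lrBall, SimpleGraph.edist_comm]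
    have h1 : (G.edist a x).toNat / 2 ≤ d := ha2 ▸ le_max_right _ _
    have h2 : (G.edist a x).toNat ≤ 2 * d + 1 := by omega
    rw [← ENat.natCast_toNat ha1]
    exact_mod_cast h2
  have h1 := (Finset.card_le_card hsub).trans (hgrow x (2 * d + 1))
  have h2 : (((2 * (2 * d + 1) + 1) ^ 2 : ℕ) : ℝ) ≤ 16 * ((d : ℝ) + 1) ^ 2 := by
    have hd : (0 : ℝ) ≤ d := Nat.cast_nonneg d
    push_cast
    nlinarith
  exact (by exact_mod_cast h1 : (_ : ℝ) ≤ (((2 * (2 * d + 1) + 1) ^ 2 : ℕ) : ℝ)).trans h2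

/-- **eq. (quasilocal-volume-free)** -/
theorem lr_trunc_norm {α : ℝ} (hα0 : 0 < α) (C c : ℝ) (hC : 0 < C) (hc : 0 < c) (mult : ℕ) :
    ∃ C' c' : ℝ, 0 < C' ∧ 0 < c' ∧
      ∀ {s : Type} [DecidableEq s] [Fintype s] {io : s → Type} [∀ x, Fintype (io x)]
        [∀ x, DecidableEq (io x)] [∀ x, Nonempty (io x)] {G : SimpleGraph s} {ι : Type}
        [Fintype ι] {X : ι → Finset s} {Ω : Cfg io → ℂ} {k : ι → Matrix (Cfg io) (Cfg io) ℂ}
        {g : ℝ}, (∀ x r, (lrBall G x r).card ≤ (2 * r + 1) ^ 2) → PosSys G X Ω k g C c α →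
        ∀ anch : ι → s, (∀ i, anch i ∈ X i) →
        (∀ a, (Finset.univ.filter fun i => anch i = a).card ≤ mult) →
        ∀ (S0 : Finset s) (r0 : ℕ),
        ‖∑ i, cexp (lrTSupp G r0 S0 (anch i)) (k i) - ∑ i, k i‖
          ≤ C' * S0.card * Real.exp (-c' * (r0 : ℝ) ^ α) := by
  obtain ⟨C2, hC2, hsite⟩ := lr_trunc_site hα0 c hc
  refine ⟨C * (mult + 1) * C2, c / 2, by positivity, by positivity, ?_⟩
  intro s _ _ io _ _ _ G ι _ X Ω k g hgrow hP anch hanch hmult S0 r0
  classical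
  -- two-point weight
  set h : s → s → ℝ := fun x a => if G.edist a x = ⊤ then 0 else
    Real.exp (-c * ((max r0 ((G.edist a x).toNat / 2) : ℕ) : ℝ) ^ α) with hh
  have hh0 : ∀ x a, 0 ≤ h x a := by
    intro x a
    simp only [hh]
    split_ifs
    · exact le_rfl
    · positivity
  -- one-label error
  have herr : ∀ i, ‖cexp (lrTSupp G r0 S0 (anch i)) (k i) - k i‖ ≤ C * ∑ x ∈ S0, h x (anch i) := by
    intro i
    by_cases hd : lrDistSet G (anch i) S0 = ⊤
    · rw [lrTSupp, if_pos hd, cexp_of_suppIn (hP.comp i _ (hanch i)), sub_self, norm_zero]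
      exact mul_nonneg hC.le (Finset.sum_nonneg fun x _ => hh0 x _)
    · rw [lrTSupp, if_neg hd, norm_sub_rev]
      refine (hP.tail i _ (hanch i) _).trans (mul_le_mul_of_nonneg_left ?_ hC.le)
      obtain ⟨x, hx, hxe⟩ := exists_lrDistSet_eq hd
      have h1 : h x (anch i) = Real.exp (-c * ((lrTRad G r0 S0 (anch i) : ℕ) : ℝ) ^ α) := by
        simp only [hh]
        rw [if_neg (by rw [hxe]; exact hd), hxe, lrTRad]
      rw [← h1]
      exact Finset.single_le_sum (f := fun x => h x (anch i)) (fun x _ => hh0 x _) hx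
  -- sum over sites
  have hx : ∀ x, ∑ a, h x a ≤ C2 * Real.exp (-(c / 2) * (r0 : ℝ) ^ α) := by
    intro x
    have := hsite hgrow x r0
    rw [Finset.sum_filter] at this
    refine le_trans (le_of_eq ?_) this
    refine Finset.sum_congr rfl fun a _ => ?_
    simp only [hh]
    by_cases hax : G.edist a x = ⊤
    · simp [hax]
    · simp [hax]
  -- labels to sites
  have hlab : ∀ f : s → ℝ, (∀ a, 0 ≤ f a) → ∑ i, f (anch i) ≤ (mult : ℝ) * ∑ a, f a := by
    intro f hf
    rw [← Finset.sum_fiberwise (s := Finset.univ) (g := anch) (f := fun i => f (anch i)),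
      Finset.mul_sum]
    refine Finset.sum_le_sum fun a _ => ?_
    have : ∑ i with anch i = a, f (anch i) = ∑ i with anch i = a, f a :=
      Finset.sum_congr rfl fun i hi => by rw [(Finset.mem_filter.1 hi).2]
    rw [this, Finset.sum_const, nsmul_eq_mul]
    exact mul_le_mul_of_nonneg_right (by exact_mod_cast hmult a) (hf a)
  set E : ℝ := Real.exp (-(c / 2) * (r0 : ℝ) ^ α) with hE
  have hE0 : 0 < E := Real.exp_pos _
  calc ‖∑ i, cexp (lrTSupp G r0 S0 (anch i)) (k i) - ∑ i, k i‖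
      = ‖∑ i, (cexp (lrTSupp G r0 S0 (anch i)) (k i) - k i)‖ := by rw [Finset.sum_sub_distrib]
    _ ≤ ∑ i, ‖cexp (lrTSupp G r0 S0 (anch i)) (k i) - k i‖ := norm_sum_le _ _
    _ ≤ ∑ i, C * ∑ x ∈ S0, h x (anch i) := Finset.sum_le_sum fun i _ => herr i
    _ = C * ∑ i, (fun a => ∑ x ∈ S0, h x a) (anch i) := by rw [Finset.mul_sum]
    _ ≤ C * ((mult : ℝ) * ∑ a, ∑ x ∈ S0, h x a) :=
        mul_le_mul_of_nonneg_left
          (hlab _ fun a => Finset.sum_nonneg fun x _ => hh0 x a) hC.le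
    _ = C * ((mult : ℝ) * ∑ x ∈ S0, ∑ a, h x a) := by rw [Finset.sum_comm]
    _ ≤ C * ((mult : ℝ) * ∑ x ∈ S0, C2 * E) := by
        apply mul_le_mul_of_nonneg_left _ hC.le
        apply mul_le_mul_of_nonneg_left _ (Nat.cast_nonneg _)
        exact Finset.sum_le_sum fun x _ => hx x
    _ = C * (mult : ℝ) * C2 * S0.card * E := by
        rw [Finset.sum_const, nsmul_eq_mul]; ring
    _ ≤ C * ((mult : ℝ) + 1) * C2 * S0.card * E := by
        have : 0 ≤ C * C2 * S0.card * E := by positivity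
        nlinarith

end Claimed.Agent.R296
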