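import Mathlib

/-!
# Row 296, BB_LR (7b): `prop:truncation`, the scalar choice of `C₁`

`√r₀ ≥ √C₁ log n`, `exp(-c' √C₁ log n) = n^{-c' √C₁}`, `n ≥ 2`.
-/

set_option autoImplicit false

namespace Claimed.Agent.R296

theorem lr_trunc_choice (C' c' C0 g : ℝ) (hC' : 0 < C') (hc' : 0 < c') (hC0 : 0 < C0)
    (hg : 0 < g) :
    ∃ C1 : ℝ, 0 < C1 ∧ ∀ n N : ℝ, 2 ≤ n → 0 ≤ N → N ≤ C0 * n ^ 2 →
      C' * N * Real.exp (-c' * ((⌈C1 * (Real.log n) ^ 2⌉₊ : ℕ) : ℝ) ^ (1 / 2 : ℝ))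
        ≤ min (n ^ (-1000 : ℝ)) (g / 4) := by
  set δ : ℝ := min 1 (g / 4) with hδ
  have hδ0 : 0 < δ := lt_min one_pos (by positivity)
  set A : ℝ := C' * C0 / δ with hA
  have hA0 : 0 < A := by positivity
  obtain ⟨m, hm⟩ := pow_unbounded_of_one_lt A (one_lt_two)
  set K : ℝ := 1002 + m with hK
  have hK0 : 0 < K := by positivity
  refine ⟨(K / c') ^ 2, by positivity, ?_⟩
  intro n N hn hN0 hN
  have hn0 : 0 < n := by linarith
  set L : ℝ := Real.log n with hL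
  have hL0 : 0 < L := Real.log_pos (by linarith)
  set r : ℝ := ((⌈(K / c') ^ 2 * L ^ 2⌉₊ : ℕ) : ℝ) with hr
  have hr1 : (K / c' * L) ^ 2 ≤ r := by
    have := Nat.le_ceil ((K / c') ^ 2 * L ^ 2)
    rw [mul_pow]; exact this
  have hr2 : K / c' * L ≤ r ^ (1 / 2 : ℝ) := by
    rw [← Real.sqrt_eq_rpow]
    exact Real.le_sqrt_of_sq_le hr1
  have hr3 : -c' * r ^ (1 / 2 : ℝ) ≤ -(K * L) := by
    have := mul_le_mul_of_nonneg_left hr2 hc'.le
    have e : c' * (K / c' * L) = K * L := by field_simp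
    linarith
  have hE : Real.exp (-c' * r ^ (1 / 2 : ℝ)) ≤ Real.exp (-(K * L)) := Real.exp_le_exp.2 hr3
  have e1 : Real.exp (-(K * L)) = n ^ (-1000 : ℝ) * Real.exp (-(2 * L)) * Real.exp (-(m * L)) := by
    rw [Real.rpow_def_of_pos hn0, ← Real.exp_add, ← Real.exp_add, hK]
    congr 1; ring
  have e2 : n ^ 2 * Real.exp (-(2 * L)) = 1 := by
    have : Real.exp (2 * L) = n ^ 2 := by
      have := Real.exp_nat_mul L 2
      rw [Real.exp_log hn0] at this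
      exact_mod_cast this
    rw [Real.exp_neg, this]
    field_simp
  have e3 : Real.exp (-(m * L)) ≤ 1 / A := by
    have h1 : Real.exp (m * L) = n ^ m := by
      have := Real.exp_nat_mul L m
      rwa [Real.exp_log hn0] at this
    have h2 : A ≤ n ^ m := hm.le.trans (pow_le_pow_left₀ (by norm_num) hn m)
    rw [Real.exp_neg, h1, one_div]
    exact inv_anti₀ hA0 h2
  have hp0 : 0 < n ^ (-1000 : ℝ) := Real.rpow_pos_of_pos hn0 _
  have hp1 : n ^ (-1000 : ℝ) ≤ 1 := Real.rpow_le_one_of_one_le_of_nonpos (by linarith) (by norm_num)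
  have main : C' * N * Real.exp (-c' * r ^ (1 / 2 : ℝ)) ≤ δ * n ^ (-1000 : ℝ) := by
    calc C' * N * Real.exp (-c' * r ^ (1 / 2 : ℝ))
        ≤ C' * (C0 * n ^ 2) * Real.exp (-(K * L)) := by
          apply mul_le_mul (mul_le_mul_of_nonneg_left hN hC'.le) hE (Real.exp_pos _).le
          positivity
      _ = C' * C0 * (n ^ 2 * Real.exp (-(2 * L))) * Real.exp (-(m * L)) * n ^ (-1000 : ℝ) := by
          rw [e1]; ring
      _ = C' * C0 * Real.exp (-(m * L)) * n ^ (-1000 : ℝ) := by rw [e2, mul_one]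
      _ ≤ C' * C0 * (1 / A) * n ^ (-1000 : ℝ) := by
          apply mul_le_mul_of_nonneg_right _ hp0.le
          exact mul_le_mul_of_nonneg_left e3 (by positivity)
      _ = δ * n ^ (-1000 : ℝ) := by
          rw [hA]; field_simp
  refine le_min ?_ ?_
  · calc _ ≤ δ * n ^ (-1000 : ℝ) := main
      _ ≤ 1 * n ^ (-1000 : ℝ) := mul_le_mul_of_nonneg_right (min_le_left _ _) hp0.le
      _ = _ := one_mul _
  · calc _ ≤ δ * n ^ (-1000 : ℝ) := main
      _ ≤ δ * 1 := mul_le_mul_of_nonneg_left hp1 hδ0.le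
      _ ≤ g / 4 := by rw [mul_one]; exact min_le_right _ _

/-- `r₀ + 1 ≤ C (log n)^2` for `n ≥ 2` -/
theorem lr_trunc_radius_le (C1 : ℝ) (hC1 : 0 < C1) :
    ∃ C : ℝ, 0 < C ∧ ∀ n : ℝ, 2 ≤ n →
      ((⌈C1 * (Real.log n) ^ 2⌉₊ : ℕ) : ℝ) + 1 ≤ C * (Real.log n) ^ 2 := by
  have hl2 : 0 < Real.log 2 := Real.log_pos (by norm_num)
  refine ⟨C1 + 2 / (Real.log 2) ^ 2, by positivity, ?_⟩
  intro n hn
  have hL : Real.log 2 ≤ Real.log n := Real.log_le_log (by norm_num) hn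
  have h1 : ((⌈C1 * (Real.log n) ^ 2⌉₊ : ℕ) : ℝ) < C1 * (Real.log n) ^ 2 + 1 :=
    Nat.ceil_lt_add_one (by positivity)
  have h2 : (Real.log 2) ^ 2 ≤ (Real.log n) ^ 2 := pow_le_pow_left₀ hl2.le hL 2
  have h3 : 2 ≤ 2 / (Real.log 2) ^ 2 * (Real.log n) ^ 2 := by
    rw [div_mul_eq_mul_div, le_div_iff₀ (by positivity)]
    linarith
  nlinarith

end Claimed.Agent.R296
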