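import Claimed.Agent.R296.LRPos

/-!
# Row 296, BB_LR (7c): `prop:truncation`, perturbation of a gapped positive matrix

Plan.  `Ht` is Hermitian; let `Et` be its smallest eigenvalue with unit eigenvector `Ωt`
(`Matrix.IsHermitian.eigenvalues`, `Finite.exists_min`), so `Et • 1 ≤ Ht`.
* `0 ≤ Et` since `0 ≤ Ht`; `Et ≤ ⟨Ω, Ht Ω⟩ = ⟨Ω, (Ht - HF) Ω⟩ ≤ ε`.
* gap: for a unit `v ⟂ Ωt` the plane spanned by `Ωt, v` contains a unit `w = a Ωt + b v ⟂ Ω`;
  `⟨w, Ht w⟩ = |a|² Et + |b|² ⟨v, Ht v⟩ ≤ ⟨v, Ht v⟩` and `⟨w, Ht w⟩ ≥ ⟨w, HF w⟩ - ε ≥ g - ε`;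
  hence `⟨v, (Ht - Et) v⟩ ≥ g - 2ε ≥ g/2`; general vectors: split off the `Ωt` component.
* overlap: `g (1 - |⟨Ω, Ωt⟩|²) ≤ ⟨Ωt, HF Ωt⟩ ≤ Et + ε ≤ 2ε`.
* phase: replace `Ωt` by a phase multiple with `⟨Ω, Ωt⟩ = s ≥ 0`; `‖Ωt - Ω‖² = 2 - 2s ≤ 2(1 - s²)`.
-/

set_option autoImplicit false

namespace Claimed.Agent.R296

open Matrix
open scoped MatrixOrder Matrix.Norms.L2Operator ComplexOrder

section Quad
variable {n : Type} [Fintype n]

/-- real quadratic form of a matrix -/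
noncomputable def lrgQ (M : Matrix n n ℂ) (v : n → ℂ) : ℝ := (star v ⬝ᵥ (M *ᵥ v)).re

theorem lrgQ_mono {M N : Matrix n n ℂ} (h : M ≤ N) (v : n → ℂ) : lrgQ M v ≤ lrgQ N v := by
  have h1 := Matrix.le_iff.1 h
  have h2 := h1.re_dotProduct_nonneg v
  simp only [sub_mulVec, dotProduct_sub, map_sub, sub_nonneg] at h2
  exact h2

theorem lrgQ_add (M N : Matrix n n ℂ) (v : n → ℂ) : lrgQ (M + N) v = lrgQ M v + lrgQ N v := by
  simp [lrgQ, add_mulVec, dotProduct_add]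

theorem lrgQ_sub (M N : Matrix n n ℂ) (v : n → ℂ) : lrgQ (M - N) v = lrgQ M v - lrgQ N v := by
  simp [lrgQ, sub_mulVec, dotProduct_sub]

theorem lrgQ_neg (M : Matrix n n ℂ) (v : n → ℂ) : lrgQ (-M) v = - lrgQ M v := by
  simp [lrgQ, neg_mulVec, dotProduct_neg]

theorem lrgQ_smul (c : ℝ) (M : Matrix n n ℂ) (v : n → ℂ) :
    lrgQ ((c : ℂ) • M) v = c * lrgQ M v := by
  simp [lrgQ, smul_mulVec, dotProduct_smul]

theorem lrgQ_pure (Ω v : n → ℂ) : lrgQ (pureOp Ω) v = ‖star Ω ⬝ᵥ v‖ ^ 2 := by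
  unfold lrgQ pureOp
  rw [vecMulVec_mulVec]
  have h1 : star v ⬝ᵥ Ω = star (star Ω ⬝ᵥ v) := by
    rw [← star_dotProduct_star, star_star]
  have h2 : star v ⬝ᵥ (MulOpposite.op (star Ω ⬝ᵥ v) • Ω) = star (star Ω ⬝ᵥ v) * (star Ω ⬝ᵥ v) := by
    rw [← h1]
    simp [dotProduct, Finset.sum_mul, mul_assoc]
  rw [h2, Complex.star_def, Complex.conj_mul']
  norm_cast

theorem lrgQ_one [DecidableEq n] (v : n → ℂ) : lrgQ 1 v = ∑ i, ‖v i‖ ^ 2 := by
  unfold lrgQ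
  rw [one_mulVec]
  simp only [dotProduct, Pi.star_apply, Complex.star_def, Complex.conj_mul', Complex.re_sum]
  norm_cast

theorem lrgQ_one_nonneg [DecidableEq n] (v : n → ℂ) : 0 ≤ lrgQ 1 v := by
  rw [lrgQ_one]; positivity

theorem lrgQ_one_of_unit [DecidableEq n] {v : n → ℂ} (h : star v ⬝ᵥ v = 1) : lrgQ 1 v = 1 := by
  unfold lrgQ
  rw [one_mulVec, h]; rfl

theorem lrgQ_algebraMap [DecidableEq n] (r : ℝ) (v : n → ℂ) :
    lrgQ (algebraMap ℝ (Matrix n n ℂ) r) v = r * lrgQ 1 v := by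
  rw [← lrgQ_smul]
  congr 1
  rw [Algebra.algebraMap_eq_smul_one]
  ext i j
  simp

theorem lrg_nonneg_of_quad {M : Matrix n n ℂ} (hM : M.IsHermitian) (h : ∀ v, 0 ≤ lrgQ M v) :
    0 ≤ M := by
  rw [Matrix.nonneg_iff_posSemidef]
  refine PosSemidef.of_dotProduct_mulVec_nonneg hM fun v => ?_
  rw [Complex.le_def]
  exact ⟨by simpa [lrgQ] using h v, by simpa using (br_quad_im_zero hM v).symm⟩

/-- orthogonal expansion of the quadratic form along an eigenvector -/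
theorem lrgQ_expand {M : Matrix n n ℂ} (hM : M.IsHermitian) {u v : n → ℂ} {m : ℝ}
    (hu : star u ⬝ᵥ u = 1) (hMu : M *ᵥ u = (m : ℂ) • u) (huv : star u ⬝ᵥ v = 0) (a b : ℂ) :
    lrgQ M (a • u + b • v) = ‖a‖ ^ 2 * m + ‖b‖ ^ 2 * lrgQ M v := by
  have hvu : star v ⬝ᵥ u = 0 := by
    have : star v ⬝ᵥ u = star (star u ⬝ᵥ v) := by
      rw [← star_dotProduct_star, star_star]
    rw [this, huv, star_zero]
  have h1 : star u ⬝ᵥ (M *ᵥ v) = 0 := by
    rw [dotProduct_mulVec, ← hM.eq, ← star_mulVec, hMu, star_smul, smul_dotProduct, huv, smul_zero]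
  have h2 : star v ⬝ᵥ (M *ᵥ u) = 0 := by
    rw [hMu, dotProduct_smul, hvu, smul_zero]
  have h3 : star u ⬝ᵥ (M *ᵥ u) = (m : ℂ) := by
    rw [hMu, dotProduct_smul, hu, smul_eq_mul, mul_one]
  have h4 : star (a • u + b • v) ⬝ᵥ (M *ᵥ (a • u + b • v))
      = (starRingEnd ℂ a * a) * m + (starRingEnd ℂ b * b) * (star v ⬝ᵥ (M *ᵥ v)) := by
    simp only [star_add, star_smul, mulVec_add, mulVec_smul, add_dotProduct, dotProduct_add,
      smul_dotProduct, dotProduct_smul, h1, h2, h3, smul_eq_mul, Complex.star_def]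
    ring
  unfold lrgQ
  rw [h4, Complex.conj_mul', Complex.conj_mul']
  have e1 : (((‖a‖ : ℂ) ^ 2 * (m : ℂ))).re = ‖a‖ ^ 2 * m := by norm_cast
  have e2 : (((‖b‖ : ℂ) ^ 2 * (star v ⬝ᵥ (M *ᵥ v)))).re = ‖b‖ ^ 2 * (star v ⬝ᵥ (M *ᵥ v)).re := by
    have : ((‖b‖ : ℂ) ^ 2) = ((‖b‖ ^ 2 : ℝ) : ℂ) := by norm_cast
    rw [this, Complex.re_ofReal_mul]
  rw [Complex.add_re, e1, e2]

end Quad

theorem lr_gap_perturb {n : Type} [Fintype n] [DecidableEq n] {HF Ht : Matrix n n ℂ} {Ω : n → ℂ}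
    {g ε : ℝ} (hg : 0 < g) (hε : ε ≤ g / 4) (hΩ : star Ω ⬝ᵥ Ω = 1) (hHFΩ : HF *ᵥ Ω = 0)
    (hgap : (g : ℂ) • (1 - pureOp Ω) ≤ HF) (hHt : 0 ≤ Ht) (hnorm : ‖Ht - HF‖ ≤ ε) :
    ∃ (Et : ℝ) (Ωt : n → ℂ), 0 ≤ Et ∧ Et ≤ ε ∧ star Ωt ⬝ᵥ Ωt = 1 ∧ Ht *ᵥ Ωt = (Et : ℂ) • Ωt ∧
      ((g / 2 : ℝ) : ℂ) • (1 - pureOp Ωt) ≤ Ht - (Et : ℂ) • 1 ∧
      ∑ σ, ‖Ωt σ - Ω σ‖ ^ 2 ≤ 4 * ε / g ∧ 1 - ‖star Ω ⬝ᵥ Ωt‖ ^ 2 ≤ 2 * ε / g := by
  classical
  have hPSD := Matrix.nonneg_iff_posSemidef.1 hHt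
  have hH : Ht.IsHermitian := hPSD.1
  have hP : (pureOp Ω).IsHermitian := lrp_isSelfAdjoint Ω
  have hHF : HF.IsHermitian := by
    have h1 := (Matrix.le_iff.1 hgap).1
    have h2 : ((g : ℂ) • (1 - pureOp Ω)).IsHermitian := by
      have : (1 - pureOp Ω).IsHermitian := isHermitian_one.sub hP
      unfold IsHermitian at this ⊢
      rw [conjTranspose_smul, this]; simp
    have := h1.add h2
    simpa using this
  have : Nonempty n := by
    by_contra hne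
    rw [not_nonempty_iff] at hne
    simp [dotProduct] at hΩ
  obtain ⟨j0, hj0⟩ := Finite.exists_min hH.eigenvalues
  set Et : ℝ := hH.eigenvalues j0 with hEt
  set u0 : n → ℂ := (hH.eigenvectorBasis j0).ofLp with hu0
  have hHu0 : Ht *ᵥ u0 = (Et : ℂ) • u0 := by
    have := hH.mulVec_eigenvectorBasis j0
    rw [hu0, this, hEt]
    ext i
    simp
  have hu0n : star u0 ⬝ᵥ u0 = 1 := by
    have h1 := hH.eigenvectorBasis.orthonormal.1 j0
    have h2 : inner ℂ (hH.eigenvectorBasis j0) (hH.eigenvectorBasis j0) = (1 : ℂ) := by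
      rw [inner_self_eq_norm_sq_to_K, h1]; simp
    rw [EuclideanSpace.inner_eq_star_dotProduct] at h2
    rw [dotProduct_comm]
    exact h2
  -- quadratic form inequalities
  have hA : IsSelfAdjoint (Ht - HF) := hH.sub hHF
  have hA1 := hA.le_algebraMap_norm_self
  have hA2 := hA.neg_algebraMap_norm_le_self
  have F2 : ∀ v, lrgQ Ht v ≤ lrgQ HF v + ε * lrgQ 1 v := by
    intro v
    have h1 := lrgQ_mono hA1 v
    rw [lrgQ_sub, lrgQ_algebraMap] at h1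
    have h2 := mul_le_mul_of_nonneg_right hnorm (lrgQ_one_nonneg v)
    linarith
  have F1 : ∀ v, (g - ε) * lrgQ 1 v - g * ‖star Ω ⬝ᵥ v‖ ^ 2 ≤ lrgQ Ht v := by
    intro v
    have h1 := lrgQ_mono hA2 v
    rw [lrgQ_sub, lrgQ_neg, lrgQ_algebraMap] at h1
    have h2 := mul_le_mul_of_nonneg_right hnorm (lrgQ_one_nonneg v)
    have h3 := lrgQ_mono hgap v
    rw [lrgQ_smul, lrgQ_sub, lrgQ_pure] at h3
    linarith
  have F3 : ∀ v, Et * lrgQ 1 v ≤ lrgQ Ht v := by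
    intro v
    have h1 : algebraMap ℝ (Matrix n n ℂ) Et ≤ Ht := by
      rw [algebraMap_le_iff_le_spectrum (show IsSelfAdjoint Ht from hH)]
      intro x hx
      rw [hH.spectrum_real_eq_range_eigenvalues] at hx
      obtain ⟨j, rfl⟩ := hx
      exact hj0 j
    have h2 := lrgQ_mono h1 v
    rwa [lrgQ_algebraMap] at h2
  have hEt0 : 0 ≤ Et := hPSD.eigenvalues_nonneg j0
  have hEtε : Et ≤ ε := by
    have h1 := F3 Ω
    have h2 := F2 Ω
    have h3 : lrgQ HF Ω = 0 := by simp [lrgQ, hHFΩ]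
    rw [lrgQ_one_of_unit hΩ] at h1 h2
    linarith
  have hε0 : 0 ≤ ε := hEt0.trans hEtε
  have hQu : ∀ u : n → ℂ, star u ⬝ᵥ u = 1 → Ht *ᵥ u = (Et : ℂ) • u → lrgQ Ht u = Et := by
    intro u hu hHu
    simp [lrgQ, hHu, hu]
  have hov : ∀ u : n → ℂ, star u ⬝ᵥ u = 1 → Ht *ᵥ u = (Et : ℂ) • u →
      1 - ‖star Ω ⬝ᵥ u‖ ^ 2 ≤ 2 * ε / g := by
    intro u hu hHu
    have h1 := F1 u
    rw [lrgQ_one_of_unit hu, hQu u hu hHu] at h1
    rw [le_div_iff₀ hg]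
    nlinarith
  -- the phase
  set α0 : ℂ := star Ω ⬝ᵥ u0 with hα0
  have hα0sq : 1 / 2 ≤ ‖α0‖ ^ 2 := by
    have h1 := hov u0 hu0n hHu0
    have h2 : 2 * ε / g ≤ 1 / 2 := by
      rw [div_le_iff₀ hg]; linarith
    linarith
  have hα0pos : 0 < ‖α0‖ := by
    rcases (norm_nonneg α0).lt_or_eq with h | h
    · exact h
    · rw [← h] at hα0sq; norm_num at hα0sq
  set s : ℝ := ‖α0‖ with hs
  set φ : ℂ := starRingEnd ℂ α0 / (s : ℂ) with hφ
  have hsC : (s : ℂ) ≠ 0 := by exact_mod_cast hα0pos.ne'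
  have hφφ : starRingEnd ℂ φ * φ = 1 := by
    rw [hφ, map_div₀, Complex.conj_conj, Complex.conj_ofReal, div_mul_div_comm, Complex.mul_conj',
      ← hs]
    field_simp
  set u : n → ℂ := φ • u0 with hu
  have hun : star u ⬝ᵥ u = 1 := by
    rw [hu, star_smul, smul_dotProduct, dotProduct_smul, hu0n]
    simpa [mul_comm] using hφφ
  have hHu : Ht *ᵥ u = (Et : ℂ) • u := by
    rw [hu, mulVec_smul, hHu0, smul_comm]
  have hΩu : star Ω ⬝ᵥ u = (s : ℂ) := by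
    rw [hu, dotProduct_smul, ← hα0, hφ, smul_eq_mul, div_mul_eq_mul_div, Complex.conj_mul', ← hs]
    field_simp
  clear_value u
  have hovu := hov u hun hHu
  have hnormΩu : ‖star Ω ⬝ᵥ u‖ = s := by
    rw [hΩu, Complex.norm_real, Real.norm_of_nonneg hα0pos.le]
  rw [hnormΩu] at hovu
  -- the distance
  have hdist : ∑ σ, ‖u σ - Ω σ‖ ^ 2 = 2 - 2 * s := by
    have h1 : ∑ σ, ‖u σ - Ω σ‖ ^ 2 = lrgQ 1 (u - Ω) := by
      rw [lrgQ_one]; rfl
    have huΩ : star u ⬝ᵥ Ω = (s : ℂ) := by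
      have : star u ⬝ᵥ Ω = star (star Ω ⬝ᵥ u) := by
        rw [← star_dotProduct_star, star_star]
      rw [this, hΩu]; simp
    rw [h1]
    unfold lrgQ
    rw [one_mulVec, star_sub, sub_dotProduct, dotProduct_sub, dotProduct_sub, hun, hΩ, hΩu, huΩ]
    simp
    ring
  have hs1 : s ≤ 1 := by
    have : 0 ≤ ∑ σ, ‖u σ - Ω σ‖ ^ 2 := by positivity
    rw [hdist] at this
    linarith
  -- the gap on the orthogonal complement
  have hkey : ∀ v : n → ℂ, star u ⬝ᵥ v = 0 → (g - ε) * lrgQ 1 v ≤ lrgQ Ht v := by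
    intro v huv
    set β : ℂ := star Ω ⬝ᵥ v with hβ
    have h1 := F1 (β • u + (-(s : ℂ)) • v)
    have h2 : star Ω ⬝ᵥ (β • u + (-(s : ℂ)) • v) = 0 := by
      rw [dotProduct_add, dotProduct_smul, dotProduct_smul, hΩu, ← hβ]
      simp [mul_comm]
    have h3 := lrgQ_expand hH hun hHu huv β (-(s : ℂ))
    have h4 := lrgQ_expand (m := 1) isHermitian_one hun (by simp) huv β (-(s : ℂ))
    rw [h2, h3, h4] at h1
    have h5 : ‖(-(s : ℂ))‖ = s := by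
      rw [norm_neg, Complex.norm_real, Real.norm_of_nonneg hα0pos.le]
    rw [h5] at h1
    have h6 : 0 ≤ ‖β‖ ^ 2 * (g - ε - Et) := by
      apply mul_nonneg (by positivity); linarith
    have h7 : 0 ≤ s ^ 2 * (lrgQ Ht v - (g - ε) * lrgQ 1 v) := by
      simp only [norm_zero] at h1
      nlinarith
    have h8 : 0 < s ^ 2 := by positivity
    have := nonneg_of_mul_nonneg_right h7 h8
    linarith
  refine ⟨Et, u, hEt0, hEtε, hun, hHu, ?_, ?_, ?_⟩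
  · rw [← sub_nonneg]
    apply lrg_nonneg_of_quad
    · have e1 : (pureOp u).IsHermitian := lrp_isSelfAdjoint u
      have e2 : (((g / 2 : ℝ) : ℂ) • (1 - pureOp u)).IsHermitian := by
        have : (1 - pureOp u).IsHermitian := isHermitian_one.sub e1
        unfold IsHermitian at this ⊢
        rw [conjTranspose_smul, this]; simp
      have e3 : ((Et : ℂ) • (1 : Matrix n n ℂ)).IsHermitian := by
        unfold IsHermitian
        rw [conjTranspose_smul]; simp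
      exact (hH.sub e3).sub e2
    · intro v
      set c : ℂ := star u ⬝ᵥ v with hc
      set v' : n → ℂ := v - c • u with hv'
      have huv' : star u ⬝ᵥ v' = 0 := by
        rw [hv', dotProduct_sub, dotProduct_smul, hun, ← hc]; simp
      have hv : v = c • u + (1 : ℂ) • v' := by
        rw [hv']; simp
      have h3 := lrgQ_expand hH hun hHu huv' c 1
      have h4 := lrgQ_expand (m := 1) isHermitian_one hun (by simp) huv' c 1
      rw [← hv] at h3 h4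
      have h5 := hkey v' huv'
      have h6 := lrgQ_one_nonneg v'
      rw [lrgQ_sub, lrgQ_sub, lrgQ_smul, lrgQ_smul, lrgQ_sub, lrgQ_pure, ← hc, h3, h4]
      simp only [norm_one, one_pow, one_mul, mul_one]
      nlinarith
  · rw [hdist]
    have : 2 - 2 * s ≤ 2 * (1 - s ^ 2) := by nlinarith
    have h2 : 2 * (2 * ε / g) = 4 * ε / g := by ring
    linarith
  · rw [hnormΩu]; exact hovu

end Claimed.Agent.R296
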