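import Claimed.Agent.R296.LRTruncA
import Claimed.Agent.R296.Count

/-!
# Row 296, BB_LR (7d): `prop:truncation`, geometry of the labels crossing a cut inside `S₀`
(eq. quasilocal-crossing-count, quasilocal-cut-budget); induced lattice graph.

* `lr_cross_radius` : a designated support meeting `S₀` is the ball of radius exactly `r₀`
  (if `x ∈ S₀` lies in the ball of radius `r = max r₀ ⌊d/2⌋` then `d ≤ r`; `d ≤ ⌊d/2⌋` forces `d = 0`);
* `lr_cross_near` : the anchor of a crossing label is within `r₀` of the inner end point of a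
  crossing edge (`ct_walk_cross`, applied to `X'` or to its complement, `ct_exists_walk`);
* `lr_cross_count` : counting (`ct_ball_card`, anchor multiplicity).
-/

set_option autoImplicit false

namespace Claimed.Agent.R296

open Claims.C0473 Finset

variable {Λ : Finset (ℤ × ℤ)}

theorem lrBall_eq_gBall (x : Λ) (r : ℕ) : lrBall (latticeGraph Λ) x r = gBall Λ x r := rfl

theorem lr_cross_radius {r0 : ℕ} {S0 : Finset Λ} {a x : Λ} (hx : x ∈ S0)
    (hxs : x ∈ lrTSupp (latticeGraph Λ) r0 S0 a) :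
    lrTSupp (latticeGraph Λ) r0 S0 a = lrBall (latticeGraph Λ) a r0 := by
  have hle := lrDistSet_le (G := latticeGraph Λ) (a := a) hx
  by_cases hd : lrDistSet (latticeGraph Λ) a S0 = ⊤
  · rw [lrTSupp, if_pos hd, mem_lrComp] at hxs
    rw [hd, top_le_iff] at hle
    exact absurd hle hxs
  · rw [lrTSupp, if_neg hd, mem_lrBall] at hxs
    rw [lrTSupp, if_neg hd]
    congr 1
    have h1 := hle.trans hxs
    rw [← ENat.natCast_toNat hd] at h1
    have h2 : (lrDistSet (latticeGraph Λ) a S0).toNat ≤ lrTRad (latticeGraph Λ) r0 S0 a := by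
      exact_mod_cast h1
    unfold lrTRad at h2 ⊢
    omega

theorem lr_cross_near {r0 : ℕ} {X' : Finset Λ} {a : Λ}
    (h1 : ∃ x ∈ lrBall (latticeGraph Λ) a r0, x ∈ X')
    (h2 : ∃ x ∈ lrBall (latticeGraph Λ) a r0, x ∉ X') :
    ∃ p ∈ bdPairs Λ X', a ∈ gBall Λ p.1 r0 := by
  obtain ⟨x, hx, hxX⟩ := h1
  obtain ⟨y, hy, hyX⟩ := h2
  by_cases ha : a ∈ X'
  · obtain ⟨w, hw⟩ := ct_exists_walk (mem_lrBall.1 hy)
    obtain ⟨p, p', hadj, hp, hp', hdist, _⟩ := ct_walk_cross w ha hyX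
    refine ⟨(p, p'), ?_, ?_⟩
    · simp only [bdPairs, mem_filter, mem_univ, true_and]
      exact ⟨hp, hp', (zb_adj_iff p p').mp hadj⟩
    · exact ct_mem_gBall.mpr (hdist.trans (by exact_mod_cast hw))
  · obtain ⟨w, hw⟩ := ct_exists_walk (mem_lrBall.1 hx)
    obtain ⟨p, p', hadj, hp, hp', _, hdist⟩ :=
      ct_walk_cross (D := X'ᶜ) w (by simpa using ha) (by simpa using hxX)
    refine ⟨(p', p), ?_, ?_⟩
    · simp only [bdPairs, mem_filter, mem_univ, true_and]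
      exact ⟨by simpa using hp', by simpa using hp, (zb_adj_iff p' p).mp hadj.symm⟩
    · exact ct_mem_gBall.mpr (hdist.trans (by exact_mod_cast hw))

theorem lr_cross_supp {r0 : ℕ} {S0 X' : Finset Λ} (hX' : X' ⊆ S0) {a : Λ}
    (h : IsSplit X' (lrTSupp (latticeGraph Λ) r0 S0 a)) :
    lrTSupp (latticeGraph Λ) r0 S0 a = lrBall (latticeGraph Λ) a r0 := by
  obtain ⟨⟨x, hx, hxX⟩, -⟩ := h
  exact lr_cross_radius (hX' hxX) hx

open Classical in
/-- eq. (quasilocal-crossing-count), first bound -/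
theorem lr_cross_count {ι : Type} [Fintype ι] (anch : ι → Λ) (mult : ℕ)
    (hmult : ∀ a, (univ.filter fun i => anch i = a).card ≤ mult) (r0 : ℕ) (S0 X' : Finset Λ)
    (hX' : X' ⊆ S0) :
    (univ.filter fun i => IsSplit X' (lrTSupp (latticeGraph Λ) r0 S0 (anch i))).card
      ≤ edgeBoundary Λ X' * ((2 * r0 + 1) ^ 2 * mult) := by
  have hsub : (univ.filter fun i => IsSplit X' (lrTSupp (latticeGraph Λ) r0 S0 (anch i)))
      ⊆ (bdPairs Λ X').biUnion fun p => (gBall Λ p.1 r0).biUnion fun a =>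
        univ.filter fun i => anch i = a := by
    intro i hi
    rw [mem_filter] at hi
    have hs := hi.2
    rw [lr_cross_supp hX' hs] at hs
    obtain ⟨p, hp, ha⟩ := lr_cross_near hs.1 hs.2
    rw [mem_biUnion]
    refine ⟨p, hp, ?_⟩
    rw [mem_biUnion]
    exact ⟨anch i, ha, mem_filter.mpr ⟨mem_univ _, rfl⟩⟩
  refine (Finset.card_le_card hsub).trans ?_
  rw [← ct_card_bdPairs]
  refine Finset.card_biUnion_le_card_mul _ _ _ fun p _ => ?_
  refine (Finset.card_biUnion_le_card_mul _ _ mult fun a _ => hmult a).trans ?_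
  exact Nat.mul_le_mul_right _ (ct_ball_card p.1 r0)

/-- eq. (quasilocal-crossing-count), second bound -/
theorem lr_cross_card {r0 : ℕ} {S0 X' : Finset Λ} (hX' : X' ⊆ S0) {a : Λ}
    (h : IsSplit X' (lrTSupp (latticeGraph Λ) r0 S0 a)) :
    (lrTSupp (latticeGraph Λ) r0 S0 a).card ≤ (2 * r0 + 1) ^ 2 := by
  rw [lr_cross_supp hX' h]
  exact ct_ball_card a r0

open Classical in
/-- eq. (quasilocal-cut-budget) -/
theorem lr_cut_budget (q mult : ℕ) :
    ∃ C : ℝ, 0 < C ∧ ∀ {Λ : Finset (ℤ × ℤ)} {ι : Type} [Fintype ι] (anch : ι → Λ),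
      (∀ a, (univ.filter fun i => anch i = a).card ≤ mult) → ∀ (r0 : ℕ) (S0 X' : Finset Λ),
      X' ⊆ S0 →
      1 + ∑ i with IsSplit X' (lrTSupp (latticeGraph Λ) r0 S0 (anch i)),
          (1 + ((lrTSupp (latticeGraph Λ) r0 S0 (anch i)).card : ℝ) * Real.log q) ^ 2
        ≤ C * (1 + edgeBoundary Λ X') * ((r0 : ℝ) + 1) ^ 6 := by
  have hq : 0 ≤ Real.log q := Real.log_natCast_nonneg q
  set B : ℝ := (1 + 4 * Real.log q) ^ 2 with hB
  have hB0 : 0 ≤ B := by positivity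
  refine ⟨1 + 4 * mult * B, by positivity, ?_⟩
  intro Λ ι _ anch hmult r0 S0 X' hX'
  set ρ : ℝ := (r0 : ℝ) + 1 with hρ
  have hρ1 : 1 ≤ ρ := by rw [hρ]; have : (0 : ℝ) ≤ r0 := Nat.cast_nonneg _; linarith
  have hρ2 : (((2 * r0 + 1) ^ 2 : ℕ) : ℝ) ≤ 4 * ρ ^ 2 := by
    have : (0 : ℝ) ≤ r0 := Nat.cast_nonneg _
    push_cast; rw [hρ]; nlinarith
  have hρsq : 1 ≤ ρ ^ 2 := one_le_pow₀ hρ1
  have hterm : ∀ i ∈ univ.filter fun i => IsSplit X' (lrTSupp (latticeGraph Λ) r0 S0 (anch i)),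
      (1 + ((lrTSupp (latticeGraph Λ) r0 S0 (anch i)).card : ℝ) * Real.log q) ^ 2
        ≤ B * ρ ^ 4 := by
    intro i hi
    have h1 := lr_cross_card hX' (mem_filter.1 hi).2
    have h2 : ((lrTSupp (latticeGraph Λ) r0 S0 (anch i)).card : ℝ) ≤ 4 * ρ ^ 2 :=
      (by exact_mod_cast h1 : (_ : ℝ) ≤ (((2 * r0 + 1) ^ 2 : ℕ) : ℝ)).trans hρ2
    have h3 : 1 + ((lrTSupp (latticeGraph Λ) r0 S0 (anch i)).card : ℝ) * Real.log q
        ≤ (1 + 4 * Real.log q) * ρ ^ 2 := by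
      have := mul_le_mul_of_nonneg_right h2 hq
      nlinarith
    calc _ ≤ ((1 + 4 * Real.log q) * ρ ^ 2) ^ 2 := pow_le_pow_left₀ (by positivity) h3 2
      _ = B * ρ ^ 4 := by rw [hB]; ring
  have hcount := lr_cross_count anch mult hmult r0 S0 X' hX'
  have hcount' : ((univ.filter fun i =>
      IsSplit X' (lrTSupp (latticeGraph Λ) r0 S0 (anch i))).card : ℝ)
      ≤ (edgeBoundary Λ X' : ℝ) * (4 * ρ ^ 2 * mult) := by
    calc _ ≤ ((edgeBoundary Λ X' * ((2 * r0 + 1) ^ 2 * mult) : ℕ) : ℝ) := by exact_mod_cast hcount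
      _ = (edgeBoundary Λ X' : ℝ) * ((((2 * r0 + 1) ^ 2 : ℕ) : ℝ) * mult) := by push_cast; ring
      _ ≤ _ := by
        apply mul_le_mul_of_nonneg_left _ (Nat.cast_nonneg _)
        exact mul_le_mul_of_nonneg_right hρ2 (Nat.cast_nonneg _)
  have hsum := Finset.sum_le_card_nsmul _ _ _ hterm
  rw [nsmul_eq_mul] at hsum
  have hρ6 : 1 ≤ ρ ^ 6 := one_le_pow₀ hρ1
  have h4 : 0 ≤ B * ρ ^ 4 := by positivity
  have h5 := mul_le_mul_of_nonneg_right hcount' h4
  have hb : (0 : ℝ) ≤ edgeBoundary Λ X' := Nat.cast_nonneg _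
  have hm : (0 : ℝ) ≤ mult := Nat.cast_nonneg _
  calc _ ≤ ρ ^ 6 + (edgeBoundary Λ X' : ℝ) * (4 * ρ ^ 2 * mult) * (B * ρ ^ 4) :=
        add_le_add hρ6 (hsum.trans h5)
    _ = (1 + 4 * mult * B * edgeBoundary Λ X') * ρ ^ 6 := by ring
    _ ≤ (1 + 4 * mult * B) * (1 + edgeBoundary Λ X') * ρ ^ 6 := by
        apply mul_le_mul_of_nonneg_right _ (by positivity)
        have : 0 ≤ 4 * mult * B := by positivity
        nlinarith

end Claimed.Agent.R296
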