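/-
Row 296, chain BB_Means (P1 Sec 6, `transport:log-jensen`), file 9: operator Jensen inequality for the
logarithm and a finite POVM  `Q(f) = ∑ f_i P_i`  (`P_i ≥ 0`, `∑ P_i = 1`):   `Q(log f) ≤ log Q(f)`.
(helper197's replica layer uses FINITE coherent designs, so finite sums suffice.)
Prefix `lj_`.   Owner: helper80.

PROOF PLAN (no resolvent integrals):
* `lj_kadison`:  `∑ (g_i - X)ᴴ P_i (g_i - X) ≥ 0` with `X = Q(g)` expands to `Q(g²) - X²`.
* `lj_sqrt`:     `Q(√f)² ≤ Q(f)` and operator monotonicity of the square root (`rpw_le_rpw`).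
* `lj_dyadic`:   induction: `Q(f^{2^{-k}}) ≤ Q(f)^{2^{-k}}`.
* `lj_log_jensen`: `log x ≤ (x^r - 1)/r` gives `Q(log f) ≤ (Q(f^r) - 1)/r ≤ (Q(f)^r - 1)/r` for
  `r = 2^{-k}`; let `k → ∞` (`pd_tendsto_rpw_sub_one_div`, `dk_le_of_tendsto`).
-/
import Claimed.Agent.R296.MatDKMain

set_option autoImplicit false
set_option linter.unusedSectionVars false
set_option linter.unusedDecidableInType false

namespace Claimed.Agent.R296

open Matrix Filter Topology
open scoped MatrixOrder Matrix.Norms.L2Operator ComplexOrder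

variable {n : Type*} [Fintype n] [DecidableEq n] {ι : Type*}

/-- the unital positive map `f ↦ ∑ f_i P_i` of a finite POVM. -/
noncomputable def povm (s : Finset ι) (P : ι → Matrix n n ℂ) (f : ι → ℝ) : Matrix n n ℂ :=
  ∑ i ∈ s, (f i : ℂ) • P i

theorem povm_isHermitian (s : Finset ι) {P : ι → Matrix n n ℂ} (hP : ∀ i ∈ s, (P i).PosSemidef)
    (f : ι → ℝ) : (povm s P f).IsHermitian := by
  unfold povm Matrix.IsHermitian
  rw [conjTranspose_sum]
  refine Finset.sum_congr rfl fun i hi => ?_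
  rw [conjTranspose_smul, (hP i hi).1.eq, Complex.star_def, Complex.conj_ofReal]

theorem povm_sub (s : Finset ι) (P : ι → Matrix n n ℂ) (f g : ι → ℝ) :
    povm s P (fun i => f i - g i) = povm s P f - povm s P g := by
  unfold povm
  rw [← Finset.sum_sub_distrib]
  refine Finset.sum_congr rfl fun i _ => ?_
  rw [Complex.ofReal_sub, sub_smul]

theorem lj_povm_posSemidef (s : Finset ι) {P : ι → Matrix n n ℂ}
    (hP : ∀ i ∈ s, (P i).PosSemidef) {f : ι → ℝ} (h : ∀ i ∈ s, 0 ≤ f i) :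
    (povm s P f).PosSemidef := by
  unfold povm
  refine Matrix.posSemidef_sum s fun i hi => ?_
  exact (hP i hi).smul (by exact_mod_cast h i hi)

theorem povm_mono (s : Finset ι) {P : ι → Matrix n n ℂ} (hP : ∀ i ∈ s, (P i).PosSemidef)
    {f g : ι → ℝ} (h : ∀ i ∈ s, f i ≤ g i) : povm s P f ≤ povm s P g := by
  rw [Matrix.le_iff, ← povm_sub]
  exact lj_povm_posSemidef s hP fun i hi => sub_nonneg.2 (h i hi)

theorem povm_const (s : Finset ι) {P : ι → Matrix n n ℂ} (h1 : ∑ i ∈ s, P i = 1) (c : ℝ) :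
    povm s P (fun _ => c) = (c : ℂ) • 1 := by
  unfold povm
  rw [← Finset.smul_sum, h1]

theorem povm_add (s : Finset ι) (P : ι → Matrix n n ℂ) (f g : ι → ℝ) :
    povm s P (fun i => f i + g i) = povm s P f + povm s P g := by
  unfold povm
  rw [← Finset.sum_add_distrib]
  refine Finset.sum_congr rfl fun i _ => ?_
  rw [Complex.ofReal_add, add_smul]

theorem povm_smul (s : Finset ι) (P : ι → Matrix n n ℂ) (c : ℝ) (f : ι → ℝ) :
    povm s P (fun i => c * f i) = (c : ℂ) • povm s P f := by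
  unfold povm
  rw [Finset.smul_sum]
  refine Finset.sum_congr rfl fun i _ => ?_
  rw [Complex.ofReal_mul, mul_smul]

theorem povm_congr (s : Finset ι) (P : ι → Matrix n n ℂ) {f g : ι → ℝ}
    (h : ∀ i ∈ s, f i = g i) : povm s P f = povm s P g := by
  unfold povm
  exact Finset.sum_congr rfl fun i hi => by rw [h i hi]

theorem povm_posDef (s : Finset ι) {P : ι → Matrix n n ℂ} (hP : ∀ i ∈ s, (P i).PosSemidef)
    (h1 : ∑ i ∈ s, P i = 1) {f : ι → ℝ} (hf : ∀ i ∈ s, 0 < f i) : (povm s P f).PosDef := by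
  obtain ⟨c, hc, hle⟩ : ∃ c : ℝ, 0 < c ∧ ∀ i ∈ s, c ≤ f i := by
    rcases s.eq_empty_or_nonempty with hs | hs
    · exact ⟨1, one_pos, fun i hi => by simp [hs] at hi⟩
    · obtain ⟨i₀, hi₀, hmin⟩ := Finset.exists_min_image s f hs
      exact ⟨f i₀, hf i₀ hi₀, hmin⟩
  have h2 := povm_mono s hP (f := fun _ => c) (g := f) hle
  rw [povm_const s h1] at h2
  exact pd_of_le (pd_smul Matrix.PosDef.one hc) h2

/-- Kadison's inequality for a POVM. -/
theorem lj_kadison (s : Finset ι) {P : ι → Matrix n n ℂ} (hP : ∀ i ∈ s, (P i).PosSemidef)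
    (h1 : ∑ i ∈ s, P i = 1) (g : ι → ℝ) :
    povm s P g * povm s P g ≤ povm s P (fun i => g i ^ 2) := by
  set X := povm s P g with hX
  have hXh : Xᴴ = X := (povm_isHermitian s hP g).eq
  have hpos : (∑ i ∈ s, ((g i : ℂ) • (1 : Matrix n n ℂ) - X)ᴴ * P i
      * ((g i : ℂ) • (1 : Matrix n n ℂ) - X)).PosSemidef :=
    Matrix.posSemidef_sum s fun i hi => (hP i hi).conjTranspose_mul_mul_same _
  have hexp : ∀ i ∈ s, ((g i : ℂ) • (1 : Matrix n n ℂ) - X)ᴴ * P i
      * ((g i : ℂ) • (1 : Matrix n n ℂ) - X)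
      = ((g i ^ 2 : ℝ) : ℂ) • P i - ((g i : ℂ) • P i) * X - X * ((g i : ℂ) • P i)
        + X * P i * X := by
    intro i _
    rw [conjTranspose_sub, conjTranspose_smul, conjTranspose_one, hXh, Complex.star_def,
      Complex.conj_ofReal]
    simp only [sub_mul, mul_sub, smul_mul_assoc, mul_smul_comm, one_mul, mul_one, smul_sub,
      smul_smul]
    push_cast
    rw [sq]
    abel
  rw [Finset.sum_congr rfl hexp, Finset.sum_add_distrib, Finset.sum_sub_distrib,
    Finset.sum_sub_distrib, ← Finset.sum_mul, ← Finset.mul_sum, ← Finset.sum_mul,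
    ← Finset.mul_sum, h1, mul_one] at hpos
  rw [Matrix.le_iff]
  have e : povm s P (fun i => g i ^ 2) - X * X
      = ∑ i ∈ s, ((g i ^ 2 : ℝ) : ℂ) • P i - (∑ i ∈ s, (g i : ℂ) • P i) * X
        - X * ∑ i ∈ s, (g i : ℂ) • P i + X * X := by
    have : ∑ i ∈ s, (g i : ℂ) • P i = X := rfl
    rw [this]
    unfold povm
    abel
  rw [e]
  exact hpos

/-- inverse form `Q(f)⁻¹ ≤ Q(f⁻¹)` (not needed for `lj_log_jensen`; used in the paper). -/
theorem lj_inv_le (s : Finset ι) {P : ι → Matrix n n ℂ} (hP : ∀ i ∈ s, (P i).PosSemidef)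
    (h1 : ∑ i ∈ s, P i = 1) {f : ι → ℝ} (hf : ∀ i ∈ s, 0 < f i) :
    (povm s P f)⁻¹ ≤ povm s P (fun i => (f i)⁻¹) := by
  have hQ := povm_posDef s hP h1 hf
  set Q := povm s P f with hQdef
  set X := Q⁻¹ with hX
  have hXh : Xᴴ = X := hQ.inv.1.eq
  have hQX : Q * X = 1 := Matrix.mul_nonsing_inv Q ((Matrix.isUnit_iff_isUnit_det Q).1 hQ.isUnit)
  have hpos : (∑ i ∈ s, (((f i)⁻¹ : ℝ) : ℂ) • (((1 : Matrix n n ℂ) - (f i : ℂ) • X)ᴴ * P i
      * ((1 : Matrix n n ℂ) - (f i : ℂ) • X))).PosSemidef :=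
    Matrix.posSemidef_sum s fun i hi =>
      ((hP i hi).conjTranspose_mul_mul_same _).smul
        (by exact_mod_cast (inv_pos.2 (hf i hi)).le)
  have hexp : ∀ i ∈ s, (((f i)⁻¹ : ℝ) : ℂ) • (((1 : Matrix n n ℂ) - (f i : ℂ) • X)ᴴ * P i
      * ((1 : Matrix n n ℂ) - (f i : ℂ) • X))
      = (((f i)⁻¹ : ℝ) : ℂ) • P i - P i * X - X * P i + X * ((f i : ℂ) • P i) * X := by
    intro i hi
    have hne : (f i : ℂ) ≠ 0 := by exact_mod_cast (hf i hi).ne'
    rw [conjTranspose_sub, conjTranspose_smul, conjTranspose_one, hXh, Complex.star_def,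
      Complex.conj_ofReal]
    simp only [sub_mul, mul_sub, smul_mul_assoc, mul_smul_comm, one_mul, mul_one, smul_sub,
      smul_smul]
    push_cast
    rw [inv_mul_cancel₀ hne, ← mul_assoc, inv_mul_cancel₀ hne, one_mul, one_smul, one_smul]
    abel
  rw [Finset.sum_congr rfl hexp, Finset.sum_add_distrib, Finset.sum_sub_distrib,
    Finset.sum_sub_distrib, ← Finset.sum_mul, ← Finset.mul_sum, ← Finset.sum_mul,
    ← Finset.mul_sum, h1, one_mul, mul_one] at hpos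
  rw [Matrix.le_iff]
  have e : povm s P (fun i => (f i)⁻¹) - X
      = ∑ i ∈ s, (((f i)⁻¹ : ℝ) : ℂ) • P i - X - X + X * (∑ i ∈ s, (f i : ℂ) • P i) * X := by
    have : ∑ i ∈ s, (f i : ℂ) • P i = Q := rfl
    rw [this, mul_assoc, hQX, mul_one]
    unfold povm
    abel
  rw [e]
  exact hpos

theorem lj_rpw_mul_self {Y : Matrix n n ℂ} (hY : Y.PosDef) : rpw (Y * Y) (1 / 2) = Y := by
  have h2 : Y * Y = rpw Y 2 := by
    rw [show (2 : ℝ) = 1 + 1 by norm_num, rpw_add, rpw_one hY]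
  rw [h2, rpw_rpw hY]
  norm_num
  exact rpw_one hY

theorem lj_sqrt (s : Finset ι) {P : ι → Matrix n n ℂ} (hP : ∀ i ∈ s, (P i).PosSemidef)
    (h1 : ∑ i ∈ s, P i = 1) {f : ι → ℝ} (hf : ∀ i ∈ s, 0 < f i) :
    povm s P (fun i => f i ^ (1 / 2 : ℝ)) ≤ rpw (povm s P f) (1 / 2) := by
  have hY : (povm s P (fun i => f i ^ (1 / 2 : ℝ))).PosDef :=
    povm_posDef s hP h1 fun i hi => Real.rpow_pos_of_pos (hf i hi) _
  have hk := lj_kadison s hP h1 (fun i => f i ^ (1 / 2 : ℝ))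
  have he : povm s P (fun i => (f i ^ (1 / 2 : ℝ)) ^ 2) = povm s P f := by
    refine povm_congr s P fun i hi => ?_
    rw [← Real.rpow_natCast, ← Real.rpow_mul (hf i hi).le]
    norm_num
  rw [he] at hk
  have hYY : (povm s P (fun i => f i ^ (1 / 2 : ℝ)) * povm s P (fun i => f i ^ (1 / 2 : ℝ))).PosDef :=
    pd_mul_of_commute hY hY (Commute.refl _)
  have h := rpw_le_rpw hYY hk (p := 1 / 2) ⟨by norm_num, by norm_num⟩
  rwa [lj_rpw_mul_self hY] at h

theorem lj_dyadic (s : Finset ι) {P : ι → Matrix n n ℂ} (hP : ∀ i ∈ s, (P i).PosSemidef)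
    (h1 : ∑ i ∈ s, P i = 1) {f : ι → ℝ} (hf : ∀ i ∈ s, 0 < f i) (k : ℕ) :
    povm s P (fun i => f i ^ ((1 / 2 : ℝ) ^ k)) ≤ rpw (povm s P f) ((1 / 2 : ℝ) ^ k) := by
  have hQ := povm_posDef s hP h1 hf
  induction k with
  | zero =>
    simp only [pow_zero, Real.rpow_one]
    rw [rpw_one hQ]
  | succ k ih =>
    have hpos : ∀ i ∈ s, 0 < f i ^ ((1 / 2 : ℝ) ^ k) := fun i hi =>
      Real.rpow_pos_of_pos (hf i hi) _
    have h2 := lj_sqrt s hP h1 hpos
    have h3 := rpw_le_rpw (povm_posDef s hP h1 hpos) ih (p := 1 / 2) ⟨by norm_num, by norm_num⟩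
    rw [rpw_rpw hQ] at h3
    have he : povm s P (fun i => (f i ^ ((1 / 2 : ℝ) ^ k)) ^ (1 / 2 : ℝ))
        = povm s P (fun i => f i ^ ((1 / 2 : ℝ) ^ (k + 1))) := by
      refine povm_congr s P fun i hi => ?_
      rw [← Real.rpow_mul (hf i hi).le, pow_succ]
    rw [he] at h2
    rw [pow_succ]
    exact h2.trans h3

theorem lj_log_le_div {x r : ℝ} (hx : 0 < x) (hr : 0 < r) :
    Real.log x ≤ (1 / r) * (x ^ r - 1) := by
  have h := Real.log_le_sub_one_of_pos (Real.rpow_pos_of_pos hx r)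
  rw [Real.log_rpow hx] at h
  rw [one_div, ← div_eq_inv_mul, le_div_iff₀ hr]
  linarith

theorem lj_smul_le_smul {A B : Matrix n n ℂ} (h : A ≤ B) {c : ℝ} (hc : 0 ≤ c) :
    (c : ℂ) • A ≤ (c : ℂ) • B := by
  rw [Matrix.le_iff] at h ⊢
  rw [← smul_sub]
  exact h.smul (by exact_mod_cast hc)

/-- **operator Jensen for the logarithm** (`transport:log-jensen`). -/
theorem lj_log_jensen (s : Finset ι) {P : ι → Matrix n n ℂ} (hP : ∀ i ∈ s, (P i).PosSemidef)
    (h1 : ∑ i ∈ s, P i = 1) {f : ι → ℝ} (hf : ∀ i ∈ s, 0 < f i) :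
    povm s P (fun i => Real.log (f i)) ≤ mlog (povm s P f) := by
  have hQ := povm_posDef s hP h1 hf
  have hstep : ∀ k : ℕ, povm s P (fun i => Real.log (f i))
      ≤ ((1 / (1 / 2 : ℝ) ^ k : ℝ) : ℂ) • (rpw (povm s P f) ((1 / 2 : ℝ) ^ k) - 1) := by
    intro k
    have hr : (0 : ℝ) < (1 / 2 : ℝ) ^ k := by positivity
    have ha : povm s P (fun i => Real.log (f i))
        ≤ povm s P (fun i => (1 / (1 / 2 : ℝ) ^ k) * (f i ^ ((1 / 2 : ℝ) ^ k) - 1)) :=
      povm_mono s hP fun i hi => lj_log_le_div (hf i hi) hr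
    rw [povm_smul, povm_sub, povm_const s h1, Complex.ofReal_one, one_smul] at ha
    refine ha.trans (lj_smul_le_smul ?_ (by positivity))
    exact sub_le_sub_right (lj_dyadic s hP h1 hf k) 1
  have hlim : Tendsto (fun k : ℕ => (1 / 2 : ℝ) ^ k) atTop (nhdsWithin 0 {0}ᶜ) := by
    rw [tendsto_nhdsWithin_iff]
    refine ⟨tendsto_pow_atTop_nhds_zero_of_lt_one (by norm_num) (by norm_num), ?_⟩
    exact Eventually.of_forall fun k => by
      simp only [Set.mem_compl_iff, Set.mem_singleton_iff]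
      positivity
  have h2 := (pd_tendsto_rpw_sub_one_div hQ).comp hlim
  exact dk_le_of_tendsto tendsto_const_nhds h2 (Eventually.of_forall hstep)

/-- the form used in `transport:log-relative`: from `c • Q(exp φ) ≤ C` to
`Q(φ) + log c ≤ log C`. -/
theorem lj_log_lower (s : Finset ι) {P : ι → Matrix n n ℂ} (hP : ∀ i ∈ s, (P i).PosSemidef)
    (h1 : ∑ i ∈ s, P i = 1) (φ : ι → ℝ) {c : ℝ} (hc : 0 < c) {C : Matrix n n ℂ}
    (hC : (c : ℂ) • povm s P (fun i => Real.exp (φ i)) ≤ C) :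
    povm s P φ + (Real.log c : ℂ) • 1 ≤ mlog C := by
  have hpos : ∀ i ∈ s, 0 < Real.exp (φ i) := fun i _ => Real.exp_pos _
  have hQ := povm_posDef s hP h1 hpos
  have h2 := lj_log_jensen s hP h1 hpos
  simp only [Real.log_exp] at h2
  have h3 := pd_mlog_le_mlog (pd_smul hQ hc) hC
  rw [pd_mlog_smul hQ hc] at h3
  refine le_trans ?_ h3
  rw [add_comm]
  exact add_le_add_right h2 _

end Claimed.Agent.R296
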