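import Claimed.Agent.R296.PhaseOp

/-!
# Row 296, P1 Sec 4, lem:conditional-phases: the abstract estimate

`ph_abs`: for positive semidefinite `ρ, σ` on `n`, a splitting `e : n ≃ m × r`, and the two support
inclusions,
`‖(σ̂^{-iu} ρ̂^{iu} - (σ̂_m^{-iu} ρ̂_m^{iu}) ⊗ 1) √ρ‖₂ ≤ (|sinh π u|/π) ∫₀^∞ √(h(t)/t) dt`, `h = relH e ρ σ`.
No vector valued integral: the Hilbert--Schmidt norm is computed by duality.
Owner: helper19.
-/

set_option autoImplicit false
set_option linter.unusedSectionVars false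
set_option linter.unusedDecidableInType false
set_option linter.unusedFintypeInType false

namespace Claimed.Agent.R296

open Matrix MeasureTheory Set
open scoped ComplexOrder

section PhaseAbs

variable {n m r : Type} [Fintype n] [DecidableEq n] [Fintype m] [DecidableEq m]
  [Fintype r] [DecidableEq r]

/-! ### the square root -/

theorem sqrt_mul_sqrt {ρ : Matrix n n ℂ} (hρ : ρ.PosSemidef) :
    spow ρ (1 / 2) * spow ρ (1 / 2) = ρ := by
  rw [← spow_add]
  norm_num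
  exact spow_one hρ

theorem sqrt_conjTranspose (ρ : Matrix n n ℂ) : (spow ρ (1 / 2))ᴴ = spow ρ (1 / 2) := by
  rw [spow_conjTranspose]
  congr 1
  apply Complex.ext <;> simp

theorem sqrt_eq_mul {ρ : Matrix n n ℂ} (hρ : ρ.PosSemidef) :
    spow ρ (1 / 2) = ρ * spow ρ (-(1 / 2)) := by
  have h : spow ρ (1 / 2) = spow ρ (1 + -(1 / 2)) := by norm_num
  rw [h, spow_add, spow_one hρ]

theorem hpow_mul_sqrt (ρ : Matrix n n ℂ) (w : ℂ) :
    hpow ρ w * spow ρ (1 / 2) = spow ρ w * spow ρ (1 / 2) := by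
  rw [spow_eq_hpow_mul_supp ρ w, Matrix.mul_assoc, supp_mul_spow]

theorem embE_supp_mul_sqrt (e : n ≃ m × r) {ρ : Matrix n n ℂ} (hρ : ρ.PosSemidef) :
    embE e (supp (ptrE e ρ)) * spow ρ (1 / 2) = spow ρ (1 / 2) := by
  rw [sqrt_eq_mul hρ, ← Matrix.mul_assoc, embE_supp_ptrE_mul e hρ]

theorem embE_hpow_mul_sqrt (e : n ≃ m × r) {ρ : Matrix n n ℂ} (hρ : ρ.PosSemidef) (w : ℂ) :
    embE e (hpow (ptrE e ρ) w) * spow ρ (1 / 2) = embE e (spow (ptrE e ρ) w) * spow ρ (1 / 2) := by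
  rw [spow_eq_hpow_mul_supp (ptrE e ρ) w, embE_mul, Matrix.mul_assoc, embE_supp_mul_sqrt e hρ]

/-- `‖Z √ρ‖₂² = tr Z ρ Zᴴ` -/
theorem hsSq_mul_sqrt {ρ : Matrix n n ℂ} (hρ : ρ.PosSemidef) (Z : Matrix n n ℂ) :
    hsSq (Z * spow ρ (1 / 2)) = (Z * ρ * Zᴴ).trace.re := by
  have h := hsSq_eq_trace' (Z * spow ρ (1 / 2))
  rw [conjTranspose_mul, sqrt_conjTranspose] at h
  have h2 : Z * spow ρ (1 / 2) * (spow ρ (1 / 2) * Zᴴ) = Z * ρ * Zᴴ := by
    calc _ = Z * (spow ρ (1 / 2) * spow ρ (1 / 2)) * Zᴴ := by simp only [Matrix.mul_assoc]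
      _ = _ := by rw [sqrt_mul_sqrt hρ]
  rw [h2] at h
  rw [← h, Complex.ofReal_re]

theorem norm_spowS_imag (u t : ℝ) : ‖spowS (-((u : ℂ) * Complex.I)) t‖ ≤ 1 := by
  by_cases ht : 0 < t
  · rw [norm_spowS ht]
    simp
  · simp [spowS, ht]

/-- the phase difference operator -/
noncomputable def phT (e : n ≃ m × r) (ρ σ : Matrix n n ℂ) (u : ℝ) : Matrix n n ℂ :=
  hpow σ (-((u : ℂ) * Complex.I)) * hpow ρ ((u : ℂ) * Complex.I)
    - embE e (hpow (ptrE e σ) (-((u : ℂ) * Complex.I)) * hpow (ptrE e ρ) ((u : ℂ) * Complex.I))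

/-- **abstract marginal-phase comparison** -/
theorem ph_abs (e : n ≃ m × r) {ρ σ : Matrix n n ℂ} (hρ : ρ.PosSemidef) (hσ : σ.PosSemidef)
    (hk : ρ * supp σ = ρ) (hk' : ptrE e ρ * supp (ptrE e σ) = ptrE e ρ) (u : ℝ)
    (hint : IntegrableOn (fun t => Real.sqrt (relH e ρ σ t / t)) (Ioi 0)) :
    hsn (phT e ρ σ u * spow ρ (1 / 2))
      ≤ ‖phC u‖ * ∫ t in Ioi 0, Real.sqrt (relH e ρ σ t / t) := by
  set z : ℂ := -((u : ℂ) * Complex.I) with hz
  set w : ℂ := (u : ℂ) * Complex.I with hw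
  set S := spow ρ (1 / 2) with hS
  set ρs := ptrE e ρ with hρs
  set σs := ptrE e σ with hσs
  have hρs' : ρs.PosSemidef := ptrE_posSemidef e hρ
  have hσs' : σs.PosSemidef := ptrE_posSemidef e hσ
  set Φf := hpow σ z * spow ρ w - supp ρ with hΦf
  set Φs := hpow σs z * spow ρs w - supp ρs with hΦs
  set G := phT e ρ σ u * S with hG
  -- `G = (Φf - Φs ⊗ 1) √ρ`
  have hG' : G = (Φf - embE e Φs) * S := by
    rw [hG, phT, hΦf, hΦs, embE_sub, embE_mul, embE_mul]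
    simp only [Matrix.sub_mul, Matrix.mul_assoc]
    rw [hpow_mul_sqrt, embE_hpow_mul_sqrt e hρ, embE_supp_mul_sqrt e hρ, supp_mul_spow]
    abel
  set X := S * Gᴴ with hX
  have hXsupp : (X * supp ρ).trace = X.trace := by
    rw [hX, Matrix.trace_mul_comm, ← Matrix.mul_assoc, supp_mul_spow]
  have hXE : (X * embE e (supp ρs)).trace = X.trace := by
    rw [hX, Matrix.trace_mul_comm, ← Matrix.mul_assoc, embE_supp_mul_sqrt e hρ]
  obtain ⟨if1, ef⟩ := ph_trace_formula hρ hσ hk u X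
  obtain ⟨is1, es⟩ := ph_trace_formula hρs' hσs' hk' u (ptrE e X)
  -- the square of the norm
  have hN : ((hsSq G : ℝ) : ℂ) = (X * Φf).trace - (ptrE e X * Φs).trace := by
    rw [hsSq_eq_trace, ← trace_mul_embE, ← Matrix.trace_sub, ← Matrix.mul_sub, hX]
    calc (Gᴴ * G).trace = (Gᴴ * ((Φf - embE e Φs) * S)).trace := by rw [← hG']
      _ = _ := by rw [← Matrix.mul_assoc, Matrix.trace_mul_comm, ← Matrix.mul_assoc]
  -- the difference of the two integrands
  have hdiff : ∀ t : ℝ, spowS z t * (X * (relY t ρ σ - (((1 + t : ℝ) : ℂ)⁻¹) • supp ρ)).trace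
      - spowS z t * (ptrE e X * (relY t ρs σs - (((1 + t : ℝ) : ℂ)⁻¹) • supp ρs)).trace
      = - (spowS z t * (X * relZ e ρ σ t).trace) := by
    intro t
    rw [← trace_mul_embE, embE_sub, embE_smul, relZ]
    simp only [Matrix.mul_sub, Matrix.mul_smul, Matrix.trace_sub, Matrix.trace_smul, hXsupp, hXE]
    ring
  have hN2 : ((hsSq G : ℝ) : ℂ)
      = phC u * ∫ t in Ioi 0, - (spowS z t * (X * relZ e ρ σ t).trace) := by
    rw [hN, ef, es, ← mul_sub, ← integral_sub if1 is1]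
    congr 1
    exact integral_congr_ae (Filter.Eventually.of_forall fun t => hdiff t)
  have hintZ : IntegrableOn (fun t : ℝ => - (spowS z t * (X * relZ e ρ σ t).trace)) (Ioi 0) := by
    refine (if1.sub is1).congr (Filter.Eventually.of_forall fun t => ?_)
    exact hdiff t
  -- pointwise bound
  have hpt : ∀ t ∈ Ioi (0 : ℝ), ‖- (spowS z t * (X * relZ e ρ σ t).trace)‖
      ≤ hsn G * Real.sqrt (relH e ρ σ t / t) := by
    intro t ht
    have ht' : 0 < t := ht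
    rw [norm_neg, norm_mul]
    have h1 : ‖(X * relZ e ρ σ t).trace‖ ≤ hsn G * hsn (relZ e ρ σ t * S) := by
      have : (X * relZ e ρ σ t).trace = (Gᴴ * (relZ e ρ σ t * S)).trace := by
        rw [hX, Matrix.mul_assoc, Matrix.trace_mul_comm, Matrix.mul_assoc]
      rw [this]
      have := norm_trace_mul_le Gᴴ (relZ e ρ σ t * S)
      rwa [hsn_conjTranspose] at this
    have h2 : hsn (relZ e ρ σ t * S) ≤ Real.sqrt (relH e ρ σ t / t) := by
      unfold hsn
      refine Real.sqrt_le_sqrt ?_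
      rw [hsSq_mul_sqrt hρ, le_div_iff₀ ht', mul_comm]
      exact mul_trace_relZ_le_relH_sg ht' e hρ hσ
    calc ‖spowS z t‖ * ‖(X * relZ e ρ σ t).trace‖ ≤ 1 * (hsn G * hsn (relZ e ρ σ t * S)) :=
          mul_le_mul (norm_spowS_imag u t) h1 (norm_nonneg _) zero_le_one
      _ ≤ hsn G * Real.sqrt (relH e ρ σ t / t) := by
          rw [one_mul]
          exact mul_le_mul_of_nonneg_left h2 (hsn_nonneg G)
  have hI0 : 0 ≤ ∫ t in Ioi 0, Real.sqrt (relH e ρ σ t / t) :=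
    setIntegral_nonneg measurableSet_Ioi fun t _ => Real.sqrt_nonneg _
  have hfin : hsn G ^ 2 ≤ ‖phC u‖ * (hsn G * ∫ t in Ioi 0, Real.sqrt (relH e ρ σ t / t)) := by
    have h1 : hsn G ^ 2 = ‖((hsSq G : ℝ) : ℂ)‖ := by
      rw [hsn_sq, Complex.norm_real, Real.norm_eq_abs, abs_of_nonneg (hsSq_nonneg G)]
    rw [h1, hN2, norm_mul]
    refine mul_le_mul_of_nonneg_left ?_ (norm_nonneg _)
    calc ‖∫ t in Ioi 0, - (spowS z t * (X * relZ e ρ σ t).trace)‖
        ≤ ∫ t in Ioi 0, ‖- (spowS z t * (X * relZ e ρ σ t).trace)‖ :=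
          norm_integral_le_integral_norm _
      _ ≤ ∫ t in Ioi 0, hsn G * Real.sqrt (relH e ρ σ t / t) :=
          setIntegral_mono_on hintZ.norm (hint.const_mul _) measurableSet_Ioi hpt
      _ = hsn G * ∫ t in Ioi 0, Real.sqrt (relH e ρ σ t / t) := integral_const_mul _ _
  rcases (hsn_nonneg G).eq_or_lt with h0 | hpos
  · rw [← h0]
    exact mul_nonneg (norm_nonneg _) hI0
  · have : hsn G * hsn G ≤ hsn G * (‖phC u‖ * ∫ t in Ioi 0, Real.sqrt (relH e ρ σ t / t)) := by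
      calc hsn G * hsn G = hsn G ^ 2 := (sq _).symm
        _ ≤ _ := hfin
        _ = _ := by ring
    exact le_of_mul_le_mul_left this hpos

end PhaseAbs

end Claimed.Agent.R296
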