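import Mathlib

/-!
# Row 296, P1 Sec 4, lem:conditional-phases: leaf PH-R (pure real analysis)

`h ≥ 0` continuous on `(0,∞)`, `h ≤ K`, `h ≤ K/t²`, `∫ h = η`.  Then
`∫₀^∞ √(h(t)/t) dt ≤ 4 (√y + √(η log (e K / y)))`, `y = min 1 η` (and `= 0` if `η = 0`).

Architect: helper19.

PROOF SKETCH.  `η ≥ 0`.  If `η = 0` then `h = 0` a.e. on `(0,∞)` (nonnegative, integral zero), so the
integral vanishes.  Let `η > 0`, `y = min 1 η ∈ (0,1]`, `a = y/K ≤ 1 ≤ b = K/y`.
* `(0,a]`:  `√(h/t) ≤ √K t^{-1/2}`, integral `2 √(K a) = 2 √y`.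
* `[b,∞)`:  `√(h/t) ≤ √K t^{-3/2}`, integral `2 √(K/b) = 2 √y`.
* `[a,b]`:  Cauchy--Schwarz `∫ √h · t^{-1/2} ≤ (∫ h)^{1/2} (∫_a^b dt/t)^{1/2} = √(η log(K²/y²))
   = √(2 η log (K/y)) ≤ 2 √(η log (e K / y))`
  (`MeasureTheory.integral_mul_le_Lp_mul_Lq_of_nonneg` with `p = q = 2`, or expand
  `∫ (√h - c t^{-1/2})² ≥ 0` and optimise `c`).
Integrability of `√(h/t)` follows from the same three bounds (measurable since `h` is continuous on
`(0,∞)`; on `[a,b]` the function is bounded).
-/

set_option autoImplicit false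
set_option linter.unusedVariables false

namespace Claimed.Agent.R296

open MeasureTheory Set

/-- `R_η` with the constant `K` in place of `dim x` (equals `cd_R` for `K = d`) -/
noncomputable def phR (K η : ℝ) : ℝ :=
  if η ≤ 0 then 0
  else Real.sqrt (min 1 η) + Real.sqrt (η * Real.log (Real.exp 1 * K / min 1 η))

/-- `√(K t^e) = √K t^{e/2}` -/
theorem ph_sqrt_mul_rpow {K t : ℝ} (hK : 0 ≤ K) (ht : 0 < t) (e : ℝ) :
    Real.sqrt (K * t ^ e) = Real.sqrt K * t ^ (e / 2) := by
  rw [Real.sqrt_mul hK, Real.sqrt_eq_rpow (t ^ e), ← Real.rpow_mul ht.le]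
  congr 2
  ring

/-- first pointwise bound -/
theorem ph_sqrt_le_one {h K t : ℝ} (hK : 0 ≤ K) (ht : 0 < t) (h1 : h ≤ K) :
    Real.sqrt (h / t) ≤ Real.sqrt K * t ^ (-(1 / 2) : ℝ) := by
  have e : (-(1 / 2) : ℝ) = (-1 : ℝ) / 2 := by norm_num
  rw [e, ← ph_sqrt_mul_rpow hK ht, Real.rpow_neg_one, ← div_eq_mul_inv]
  exact Real.sqrt_le_sqrt (by gcongr)

/-- second pointwise bound -/
theorem ph_sqrt_le_two {h K t : ℝ} (hK : 0 ≤ K) (ht : 0 < t) (h2 : h ≤ K / t ^ 2) :
    Real.sqrt (h / t) ≤ Real.sqrt K * t ^ (-(3 / 2) : ℝ) := by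
  have e : (-(3 / 2) : ℝ) = (-3 : ℝ) / 2 := by norm_num
  rw [e, ← ph_sqrt_mul_rpow hK ht]
  apply Real.sqrt_le_sqrt
  have e3 : t ^ (-3 : ℝ) = (t ^ 3)⁻¹ := by
    rw [Real.rpow_neg ht.le]
    norm_cast
  rw [e3, div_le_iff₀ ht]
  calc h ≤ K / t ^ 2 := h2
    _ = K * (t ^ 3)⁻¹ * t := by field_simp

/-- third pointwise bound (arithmetic-geometric mean) -/
theorem ph_sqrt_le_three {h t c : ℝ} (h0 : 0 ≤ h) (ht : 0 < t) (hc : 0 < c) :
    Real.sqrt (h / t) ≤ (c * h + c⁻¹ * t⁻¹) / 2 := by
  rw [Real.sqrt_le_iff]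
  constructor
  · positivity
  · have e : h / t = (c * h) * (c⁻¹ * t⁻¹) := by field_simp
    rw [e]
    nlinarith [sq_nonneg (c * h - c⁻¹ * t⁻¹)]

theorem ph_aesm (h : ℝ → ℝ) (hcont : ContinuousOn h (Ioi 0)) :
    AEStronglyMeasurable (fun t => Real.sqrt (h t / t)) (volume.restrict (Ioi 0)) := by
  refine ContinuousOn.aestronglyMeasurable ?_ measurableSet_Ioi
  refine ContinuousOn.sqrt (hcont.div continuousOn_id fun t ht => ?_)
  exact (ne_of_gt ht)

theorem ph_integrableOn_Ioc (a : ℝ) (ha : 0 ≤ a) :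
    IntegrableOn (fun t : ℝ => t ^ (-(1 / 2) : ℝ)) (Ioc 0 a) := by
  have := intervalIntegral.intervalIntegrable_rpow' (a := 0) (b := a) (r := (-(1 / 2) : ℝ))
    (by norm_num)
  rwa [intervalIntegrable_iff_integrableOn_Ioc_of_le ha] at this

theorem ph_split_integrable (h : ℝ → ℝ) (K : ℝ) (hK : 1 ≤ K)
    (hcont : ContinuousOn h (Ioi 0)) (h0 : ∀ t, 0 < t → 0 ≤ h t) (h1 : ∀ t, 0 < t → h t ≤ K)
    (h2 : ∀ t, 0 < t → h t ≤ K / t ^ 2) :
    IntegrableOn (fun t => Real.sqrt (h t / t)) (Ioi 0) := by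
  have hK0 : 0 ≤ K := by linarith
  rw [← Ioc_union_Ioi_eq_Ioi (zero_le_one (α := ℝ))]
  refine IntegrableOn.union ?_ ?_
  · refine Integrable.mono' ((ph_integrableOn_Ioc 1 zero_le_one).const_mul (Real.sqrt K)) ?_ ?_
    · exact (ph_aesm h hcont).mono_measure (Measure.restrict_mono Ioc_subset_Ioi_self le_rfl)
    · refine (ae_restrict_iff' measurableSet_Ioc).2 (Filter.Eventually.of_forall fun t ht => ?_)
      rw [Real.norm_eq_abs, abs_of_nonneg (Real.sqrt_nonneg _)]
      exact ph_sqrt_le_one hK0 ht.1 (h1 t ht.1)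
  · refine Integrable.mono' ((integrableOn_Ioi_rpow_of_lt (a := (-(3 / 2) : ℝ)) (by norm_num)
      one_pos).const_mul (Real.sqrt K)) ?_ ?_
    · exact (ph_aesm h hcont).mono_measure
        (Measure.restrict_mono (Ioi_subset_Ioi zero_le_one) le_rfl)
    · refine (ae_restrict_iff' measurableSet_Ioi).2 (Filter.Eventually.of_forall fun t ht => ?_)
      have ht' : (0 : ℝ) < t := lt_trans one_pos ht
      rw [Real.norm_eq_abs, abs_of_nonneg (Real.sqrt_nonneg _)]
      exact ph_sqrt_le_two hK0 ht' (h2 t ht')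

/-- **PH-R** -/
theorem ph_split (h : ℝ → ℝ) (K η : ℝ) (hK : 1 ≤ K)
    (hcont : ContinuousOn h (Ioi 0)) (h0 : ∀ t, 0 < t → 0 ≤ h t) (h1 : ∀ t, 0 < t → h t ≤ K)
    (h2 : ∀ t, 0 < t → h t ≤ K / t ^ 2) (hint : IntegrableOn h (Ioi 0))
    (hη : ∫ t in Ioi 0, h t = η) :
    ∫ t in Ioi 0, Real.sqrt (h t / t) ≤ 4 * phR K η := by
  have hK0 : 0 < K := by linarith
  have hnn : 0 ≤ᵐ[volume.restrict (Ioi 0)] h :=
    (ae_restrict_iff' measurableSet_Ioi).2 (Filter.Eventually.of_forall fun t ht => h0 t ht)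
  have hη0 : 0 ≤ η := by
    rw [← hη]
    exact integral_nonneg_of_ae hnn
  have hf := ph_split_integrable h K hK hcont h0 h1 h2
  unfold phR
  split_ifs with hle
  · -- `η = 0`
    have hz : ∫ t in Ioi 0, h t = 0 := by rw [hη]; linarith
    rw [setIntegral_eq_zero_iff_of_nonneg_ae hnn hint] at hz
    have : (fun t => Real.sqrt (h t / t)) =ᵐ[volume.restrict (Ioi 0)] 0 := by
      filter_upwards [hz] with t ht
      simp only [Pi.zero_apply] at ht ⊢
      rw [ht]
      simp
    rw [integral_congr_ae this]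
    simp
  · have hηpos : 0 < η := not_le.mp hle
    set y : ℝ := min 1 η with hy
    have hy0 : 0 < y := lt_min one_pos hηpos
    have hy1 : y ≤ 1 := min_le_left _ _
    set a : ℝ := y / K with ha
    set b : ℝ := K / y with hb
    have ha0 : 0 < a := by positivity
    have hb0 : 0 < b := by positivity
    have ha1 : a ≤ 1 := by
      rw [ha, div_le_one hK0]; linarith
    have hb1 : 1 ≤ b := by
      rw [hb, one_le_div hy0]; linarith
    have hab : a ≤ b := ha1.trans hb1
    -- the three pieces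
    have hsplit : ∫ t in Ioi 0, Real.sqrt (h t / t)
        = (∫ t in Ioc 0 a, Real.sqrt (h t / t)) + ((∫ t in Ioc a b, Real.sqrt (h t / t))
          + ∫ t in Ioi b, Real.sqrt (h t / t)) := by
      have hfa : IntegrableOn (fun t => Real.sqrt (h t / t)) (Ioi a) :=
        hf.mono_set (Ioi_subset_Ioi ha0.le)
      rw [← Ioc_union_Ioi_eq_Ioi ha0.le, setIntegral_union (Ioc_disjoint_Ioi le_rfl)
        measurableSet_Ioi (hf.mono_set Ioc_subset_Ioi_self) hfa, ← Ioc_union_Ioi_eq_Ioi hab,
        setIntegral_union (Ioc_disjoint_Ioi le_rfl) measurableSet_Ioi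
        (hfa.mono_set Ioc_subset_Ioi_self) (hfa.mono_set (Ioi_subset_Ioi hab))]
    have hsy : Real.sqrt K * Real.sqrt (y / K) = Real.sqrt y := by
      rw [← Real.sqrt_mul hK0.le]
      congr 1
      field_simp
    -- first piece
    have hI1 : ∫ t in Ioc 0 a, Real.sqrt (h t / t) ≤ 2 * Real.sqrt y := by
      calc ∫ t in Ioc 0 a, Real.sqrt (h t / t)
          ≤ ∫ t in Ioc 0 a, Real.sqrt K * t ^ (-(1 / 2) : ℝ) := by
            refine setIntegral_mono_on (hf.mono_set Ioc_subset_Ioi_self)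
              ((ph_integrableOn_Ioc a ha0.le).const_mul _) measurableSet_Ioc fun t ht => ?_
            exact ph_sqrt_le_one hK0.le ht.1 (h1 t ht.1)
        _ = Real.sqrt K * (2 * Real.sqrt a) := by
            rw [integral_const_mul, ← intervalIntegral.integral_of_le ha0.le,
              integral_rpow (Or.inl (by norm_num))]
            congr 1
            have e : (-(1 / 2) : ℝ) + 1 = 1 / 2 := by norm_num
            rw [e, Real.zero_rpow (by norm_num), ← Real.sqrt_eq_rpow]
            ring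
        _ = 2 * Real.sqrt y := by
            rw [← hsy]; ring
    -- third piece
    have hI3 : ∫ t in Ioi b, Real.sqrt (h t / t) ≤ 2 * Real.sqrt y := by
      calc ∫ t in Ioi b, Real.sqrt (h t / t)
          ≤ ∫ t in Ioi b, Real.sqrt K * t ^ (-(3 / 2) : ℝ) := by
            refine setIntegral_mono_on (hf.mono_set (Ioi_subset_Ioi hb0.le))
              ((integrableOn_Ioi_rpow_of_lt (by norm_num) hb0).const_mul _) measurableSet_Ioi
              fun t ht => ?_
            have ht' : (0 : ℝ) < t := lt_trans hb0 ht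
            exact ph_sqrt_le_two hK0.le ht' (h2 t ht')
        _ = Real.sqrt K * (2 * Real.sqrt (y / K)) := by
            rw [integral_const_mul, integral_Ioi_rpow_of_lt (by norm_num) hb0]
            congr 1
            have e : (-(3 / 2) : ℝ) + 1 = -(1 / 2) := by norm_num
            rw [e, Real.rpow_neg hb0.le, ← Real.sqrt_eq_rpow, hb, ← Real.sqrt_inv, inv_div]
            ring
        _ = 2 * Real.sqrt y := by
            rw [← hsy]; ring
    -- middle piece
    set L' : ℝ := Real.log (Real.exp 1 * K / y) with hL'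
    have hKy : 1 ≤ K / y := hb1
    have hlog0 : 0 ≤ Real.log (K / y) := Real.log_nonneg hKy
    have hL'eq : L' = 1 + Real.log (K / y) := by
      rw [hL', mul_div_assoc, Real.log_mul (Real.exp_pos 1).ne' (by positivity), Real.log_exp]
    have hL'pos : 0 < L' := by rw [hL'eq]; linarith
    have hLba : Real.log (b / a) = 2 * Real.log (K / y) := by
      have : b / a = (K / y) ^ 2 := by
        rw [ha, hb]; field_simp
      rw [this, Real.log_pow]
      norm_num
    set sη : ℝ := Real.sqrt η with hsη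
    set w : ℝ := Real.sqrt L' with hw
    have hsη0 : 0 < sη := Real.sqrt_pos.mpr hηpos
    have hw0 : 0 < w := Real.sqrt_pos.mpr hL'pos
    have hsη2 : sη * sη = η := Real.mul_self_sqrt hηpos.le
    have hw2 : w * w = L' := Real.mul_self_sqrt hL'pos.le
    have hI2 : ∫ t in Ioc a b, Real.sqrt (h t / t) ≤ 2 * (sη * w) := by
      set c : ℝ := w / sη with hc
      have hc0 : 0 < c := by positivity
      have hinv : IntegrableOn (fun t : ℝ => t⁻¹) (Ioc a b) := by
        have : IntervalIntegrable (fun t : ℝ => t⁻¹) volume a b :=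
          intervalIntegral.intervalIntegrable_inv (fun t ht => by
            rw [uIcc_of_le hab] at ht
            exact (lt_of_lt_of_le ha0 ht.1).ne') continuousOn_id
        rwa [intervalIntegrable_iff_integrableOn_Ioc_of_le hab] at this
      have hsub : Ioc a b ⊆ Ioi 0 := fun t ht => lt_trans ha0 ht.1
      have hh : IntegrableOn h (Ioc a b) := hint.mono_set hsub
      have hhle : ∫ t in Ioc a b, h t ≤ η := by
        rw [← hη]
        exact setIntegral_mono_set hint hnn (Filter.Eventually.of_forall hsub)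
      calc ∫ t in Ioc a b, Real.sqrt (h t / t)
          ≤ ∫ t in Ioc a b, (c * h t + c⁻¹ * t⁻¹) / 2 := by
            refine setIntegral_mono_on (hf.mono_set hsub)
              (((hh.const_mul c).add (hinv.const_mul c⁻¹)).div_const 2) measurableSet_Ioc
              fun t ht => ?_
            exact ph_sqrt_le_three (h0 t (hsub ht)) (hsub ht) hc0
        _ = (c * (∫ t in Ioc a b, h t) + c⁻¹ * Real.log (b / a)) / 2 := by
            have hlog : ∫ t in Ioc a b, t⁻¹ = Real.log (b / a) := by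
              rw [← intervalIntegral.integral_of_le hab, integral_inv_of_pos ha0 hb0]
            rw [integral_div, integral_add (hh.const_mul c) (hinv.const_mul c⁻¹),
              integral_const_mul, integral_const_mul, hlog]
        _ ≤ (c * η + c⁻¹ * (2 * L')) / 2 := by
            have : Real.log (b / a) ≤ 2 * L' := by rw [hLba, hL'eq]; linarith
            gcongr
        _ = 3 / 2 * (sη * w) := by
            rw [hc, ← hsη2, ← hw2]
            field_simp
            ring
        _ ≤ 2 * (sη * w) := by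
            have : 0 < sη * w := by positivity
            linarith
    have hsw : Real.sqrt (η * L') = sη * w := Real.sqrt_mul hηpos.le _
    rw [hsplit, hsw]
    have : 0 < sη * w := by positivity
    linarith

end Claimed.Agent.R296
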