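import Claimed.Agent.R296.PhaseAbs
import Claimed.Agent.R296.PhaseSplit
import Claimed.Agent.R296.EntDom

/-!
# Row 296: abstract marginal-phase comparison, final homogeneous form

`ρ ≤ κ σ`, `c = tr ρ > 0`, `κ ≤ K`, `tr σ ≤ K c`:
`‖(σ^{-iu} ρ^{iu} - (σ_m^{-iu} ρ_m^{iu}) ⊗ 1) √ρ‖₂ ≤ (4/π) |sinh πu| √c R_K(η / c)`,
`η = D(ρ‖σ) - D(ρ_m‖σ_m)`.
Owner: helper19.
-/

set_option autoImplicit false
set_option linter.unusedSectionVars false
set_option linter.unusedDecidableInType false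
set_option linter.unusedFintypeInType false

namespace Claimed.Agent.R296

open Matrix MeasureTheory Set
open scoped ComplexOrder

variable {n m r : Type} [Fintype n] [DecidableEq n] [Fintype m] [DecidableEq m]
  [Fintype r] [DecidableEq r]

theorem ph_main (e : n ≃ m × r) {ρ σ : Matrix n n ℂ} (hρ : ρ.PosSemidef) (hσ : σ.PosSemidef)
    {κ K c : ℝ} (hκ : 0 < κ) (hK : 1 ≤ K) (hc : 0 < c) (hdom : ((κ : ℂ) • σ - ρ).PosSemidef)
    (htr : ρ.trace.re = c) (h1 : κ ≤ K) (h2 : σ.trace.re ≤ K * c) (u : ℝ) :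
    hsn (phT e ρ σ u * spow ρ (1 / 2))
      ≤ 4 / Real.pi * |Real.sinh (Real.pi * u)| * (Real.sqrt c *
          phR K ((relEnt ρ σ - relEnt (ptrE e ρ) (ptrE e σ)) / c)) := by
  have hk : ρ * supp σ = ρ := mul_supp_of_le_smul hρ hσ hdom
  have hk' : ptrE e ρ * supp (ptrE e σ) = ptrE e ρ :=
    mul_supp_of_le_smul (ptrE_posSemidef e hρ) (ptrE_posSemidef e hσ) (ptrE_le_smul e hdom)
  set h : ℝ → ℝ := fun t => relH e ρ σ t / c with hh
  have hcont : ContinuousOn h (Ioi 0) := (relH_continuousOn_sg e hρ hσ).div_const c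
  have h0 : ∀ t, 0 < t → 0 ≤ h t := fun t ht => div_nonneg (relH_nonneg_sg ht e hρ hσ) hc.le
  have hb1 : ∀ t, 0 < t → h t ≤ K := fun t ht => by
    have := relH_le_of_le_smul_sg ht hκ e hρ hσ hdom
    rw [htr] at this
    rw [hh]
    simp only
    rw [div_le_iff₀ hc]
    nlinarith
  have hb2 : ∀ t, 0 < t → h t ≤ K / t ^ 2 := fun t ht => by
    have := relH_le_div_sq_sg ht e hρ hσ
    rw [hh]
    simp only
    rw [div_le_iff₀ hc]
    refine this.trans ?_
    rw [div_mul_eq_mul_div]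
    exact div_le_div_of_nonneg_right h2 (by positivity)
  have hint : IntegrableOn h (Ioi 0) := (relH_integrableOn_sg e hρ hσ hk hk').div_const c
  have hη : ∫ t in Ioi 0, h t = (relEnt ρ σ - relEnt (ptrE e ρ) (ptrE e σ)) / c := by
    rw [hh, integral_div, integral_relH_sg e hρ hσ hk hk']
  have hs := ph_split h K _ hK hcont h0 hb1 hb2 hint hη
  have hsi := ph_split_integrable h K hK hcont h0 hb1 hb2
  have heq : ∀ t, Real.sqrt (relH e ρ σ t / t) = Real.sqrt c * Real.sqrt (h t / t) := fun t => by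
    rw [← Real.sqrt_mul hc.le]
    congr 1
    rw [hh]
    field_simp
  have hint' : IntegrableOn (fun t => Real.sqrt (relH e ρ σ t / t)) (Ioi 0) := by
    simp only [heq]
    exact hsi.const_mul _
  have hmain := ph_abs e hρ hσ hk hk' u hint'
  rw [norm_phC] at hmain
  refine hmain.trans ?_
  simp only [heq]
  rw [integral_const_mul]
  have hpi := Real.pi_pos
  have h3 : 0 ≤ |Real.sinh (Real.pi * u)| / Real.pi := by positivity
  calc |Real.sinh (Real.pi * u)| / Real.pi * (Real.sqrt c * ∫ t in Ioi 0, Real.sqrt (h t / t))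
      ≤ |Real.sinh (Real.pi * u)| / Real.pi * (Real.sqrt c *
          (4 * phR K ((relEnt ρ σ - relEnt (ptrE e ρ) (ptrE e σ)) / c))) := by
        gcongr
    _ = _ := by ring

end Claimed.Agent.R296
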