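import Claimed.Agent.R296.MatPow

/-!
# Row 296, P1 Sec 4, lem:conditional-phases: the two analytic leaves

* `ph_scalar` (leaf PH-S): the subtracted resolvent representation of an imaginary power
  `x^{-iu} - 1 = (i sinh(π u)/π) ∫₀^∞ t^{-iu} (1/(x+t) - 1/(1+t)) dt`   (`x > 0`, `u` real).
* `ph_split` (leaf PH-R) is in `PhaseSplit.lean`.

Architect: helper19.

PROOF SKETCH for `ph_scalar` (checked numerically; any other proof is fine).
`u = 0` is trivial.  Let `u ≠ 0`, `a = 1 - iu`.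
1. for `t > 0`:  `1/(x+t) - 1/(1+t) = ∫_{λ>0} (e^{-λx} - e^{-λ}) e^{-λt} dλ`.
2. Fubini (`|e^{-λx}-e^{-λ}| ≤ |x-1| λ e^{-λ min(x,1)}`, so the double integral of the norm is
   `≤ |x-1| ∫ e^{-λ min(x,1)} dλ`):
   `∫_t t^{-iu} (..) dt = ∫_λ (e^{-λx}-e^{-λ}) (∫_t t^{a-1} e^{-λt} dt) dλ
      = Γ(1-iu) ∫_λ (e^{-λx}-e^{-λ}) λ^{iu-1} dλ`  (`Complex.integral_cpow_mul_exp_neg_mul_Ioi`).
3. integration by parts (`MeasureTheory.integral_Ioi_mul_deriv_eq_deriv_mul`, primitive `λ^{iu}/(iu)`,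
   boundary terms vanish):  `∫_λ (e^{-λx}-e^{-λ}) λ^{iu-1} dλ = Γ(1+iu) (x^{-iu} - 1)/(iu)`.
4. `Γ(1-iu) Γ(1+iu) = iu Γ(iu) Γ(1-iu) = iu π / sin(π i u) = π u / sinh(π u)`
   (`Complex.Gamma_mul_Gamma_one_sub`, `Complex.Gamma_add_one`).
The integrability claim: the norm of the integrand is `|x-1| / ((x+t)(1+t))`.
-/

set_option autoImplicit false

namespace Claimed.Agent.R296

open MeasureTheory Set Complex Filter Topology

/-- `e^{-xλ} - e^{-λ}` -/
noncomputable def phPhi (x l : ℝ) : ℝ := Real.exp (-(x * l)) - Real.exp (-l)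

theorem ph_abs_phi_le (x : ℝ) {l : ℝ} (hl : 0 ≤ l) :
    |phPhi x l| ≤ |x - 1| * l * (Real.exp (-(x * l)) + Real.exp (-l)) := by
  unfold phPhi
  have hp := Real.exp_pos (-(x * l))
  have hq := Real.exp_pos (-l)
  rcases le_total x 1 with h | h
  · have hy : 0 ≤ (1 - x) * l := mul_nonneg (by linarith) hl
    have e1 : Real.exp (-l) = Real.exp (-(x * l)) * Real.exp (-((1 - x) * l)) := by
      rw [← Real.exp_add]; congr 1; ring
    have h1 : 1 - (1 - x) * l ≤ Real.exp (-((1 - x) * l)) := by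
      have := Real.add_one_le_exp (-((1 - x) * l)); linarith
    have h2 : Real.exp (-((1 - x) * l)) ≤ 1 := by rw [Real.exp_le_one_iff]; linarith
    have h3 : 0 ≤ Real.exp (-(x * l)) - Real.exp (-l) := by rw [e1]; nlinarith
    have h4 : Real.exp (-(x * l)) - Real.exp (-l) ≤ (1 - x) * l * Real.exp (-(x * l)) := by
      rw [e1]; nlinarith
    rw [abs_of_nonneg h3, abs_of_nonpos (by linarith)]
    have h5 : 0 ≤ (1 - x) * l * Real.exp (-l) := mul_nonneg hy hq.le
    nlinarith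
  · have hy : 0 ≤ (x - 1) * l := mul_nonneg (by linarith) hl
    have e1 : Real.exp (-(x * l)) = Real.exp (-l) * Real.exp (-((x - 1) * l)) := by
      rw [← Real.exp_add]; congr 1; ring
    have h1 : 1 - (x - 1) * l ≤ Real.exp (-((x - 1) * l)) := by
      have := Real.add_one_le_exp (-((x - 1) * l)); linarith
    have h2 : Real.exp (-((x - 1) * l)) ≤ 1 := by rw [Real.exp_le_one_iff]; linarith
    have h3 : Real.exp (-(x * l)) - Real.exp (-l) ≤ 0 := by rw [e1]; nlinarith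
    have h4 : Real.exp (-l) - Real.exp (-(x * l)) ≤ (x - 1) * l * Real.exp (-l) := by
      rw [e1]; nlinarith
    rw [abs_of_nonpos h3, abs_of_nonneg (by linarith)]
    have h5 : 0 ≤ (x - 1) * l * Real.exp (-(x * l)) := mul_nonneg hy hp.le
    nlinarith

theorem ph_measurable_phi (x : ℝ) : Measurable (phPhi x) := by
  unfold phPhi
  fun_prop

theorem ph_continuous_phi (x : ℝ) : Continuous (phPhi x) := by
  unfold phPhi
  fun_prop

/-- `|φ(λ)|/λ` is integrable on `(0,∞)` -/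
theorem ph_integrableOn_phi_div {x : ℝ} (hx : 0 < x) :
    IntegrableOn (fun l : ℝ => |phPhi x l| / l) (Ioi 0) := by
  have hb : IntegrableOn (fun l : ℝ => |x - 1| * (Real.exp (-x * l) + Real.exp (-1 * l))) (Ioi 0) :=
    ((exp_neg_integrableOn_Ioi 0 hx).add (exp_neg_integrableOn_Ioi 0 one_pos)).const_mul _
  refine Integrable.mono' hb ?_ ?_
  · exact ((ph_measurable_phi x).abs.div measurable_id).aestronglyMeasurable
  · refine (ae_restrict_iff' measurableSet_Ioi).2 (Eventually.of_forall fun l hl => ?_)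
    have hl' : (0 : ℝ) < l := hl
    rw [Real.norm_eq_abs, abs_of_nonneg (div_nonneg (abs_nonneg _) hl'.le), div_le_iff₀ hl']
    have := ph_abs_phi_le x hl'.le
    have e1 : -x * l = -(x * l) := by ring
    have e2 : -1 * l = -l := by ring
    rw [e1, e2]
    linarith

/-- step 1 -/
theorem ph_integral_phi_exp {x t : ℝ} (hx : 0 < x) (ht : 0 < t) :
    ∫ l in Ioi (0 : ℝ), phPhi x l * Real.exp (-(l * t)) = 1 / (x + t) - 1 / (1 + t) := by
  have e : ∀ l : ℝ, phPhi x l * Real.exp (-(l * t))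
      = Real.exp (-(x + t) * l) - Real.exp (-(1 + t) * l) := by
    intro l
    unfold phPhi
    rw [sub_mul, ← Real.exp_add, ← Real.exp_add]
    congr 2 <;> ring
  simp_rw [e]
  rw [integral_sub (exp_neg_integrableOn_Ioi 0 (by linarith)) (exp_neg_integrableOn_Ioi 0 (by linarith)),
    integral_exp_mul_Ioi (by linarith), integral_exp_mul_Ioi (by linarith)]
  simp only [mul_zero, Real.exp_zero]
  have h1 : x + t ≠ 0 := by positivity
  have h2 : 1 + t ≠ 0 := by positivity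
  field_simp


theorem ph_norm_cpow_I {t : ℝ} (ht : 0 < t) (u : ℝ) : ‖(t : ℂ) ^ (-((u : ℂ) * I))‖ = 1 := by
  rw [Complex.norm_cpow_eq_rpow_re_of_pos ht]
  simp

/-- the kernel of the double integral -/
noncomputable def phG (u x : ℝ) (p : ℝ × ℝ) : ℂ :=
  (p.1 : ℂ) ^ (-((u : ℂ) * I)) * ((phPhi x p.2 : ℝ) : ℂ) * cexp (-((p.2 : ℂ) * (p.1 : ℂ)))

theorem ph_measurable_G (u x : ℝ) : Measurable (phG u x) := by
  unfold phG
  have := ph_measurable_phi x
  fun_prop

theorem ph_norm_G (u x : ℝ) {t : ℝ} (ht : 0 < t) (l : ℝ) :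
    ‖phG u x (t, l)‖ = |phPhi x l| * Real.exp (-l * t) := by
  unfold phG
  rw [norm_mul, norm_mul, ph_norm_cpow_I ht, one_mul, Complex.norm_real, Real.norm_eq_abs,
    Complex.norm_exp]
  congr 2
  simp

theorem ph_integrable_G (u : ℝ) {x : ℝ} (hx : 0 < x) :
    Integrable (phG u x) ((volume.restrict (Ioi 0)).prod (volume.restrict (Ioi 0))) := by
  rw [integrable_prod_iff' (ph_measurable_G u x).aestronglyMeasurable]
  constructor
  · refine (ae_restrict_iff' measurableSet_Ioi).2 (Eventually.of_forall fun l hl => ?_)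
    have hl' : (0 : ℝ) < l := hl
    refine Integrable.mono' ((exp_neg_integrableOn_Ioi 0 hl').const_mul |phPhi x l|) ?_ ?_
    · exact ((ph_measurable_G u x).comp (measurable_id.prodMk measurable_const)).aestronglyMeasurable
    · refine (ae_restrict_iff' measurableSet_Ioi).2 (Eventually.of_forall fun t ht => ?_)
      exact (ph_norm_G u x ht l).le
  · refine (ph_integrableOn_phi_div hx).congr ?_
    refine (ae_restrict_iff' measurableSet_Ioi).2 (Eventually.of_forall fun l hl => ?_)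
    have hl' : (0 : ℝ) < l := hl
    have e : ∫ t in Ioi (0 : ℝ), ‖phG u x (t, l)‖ = ∫ t in Ioi (0 : ℝ), |phPhi x l| * Real.exp (-l * t) :=
      setIntegral_congr_fun measurableSet_Ioi fun t ht => ph_norm_G u x ht l
    simp only
    rw [e, integral_const_mul, integral_exp_mul_Ioi (by linarith)]
    simp only [mul_zero, Real.exp_zero]
    field_simp

/-- step 2a: the inner integral over `λ` -/
theorem ph_inner_l (u : ℝ) {x t : ℝ} (hx : 0 < x) (ht : 0 < t) :
    ∫ l in Ioi (0 : ℝ), phG u x (t, l)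
      = (t : ℂ) ^ (-((u : ℂ) * I)) * ((1 / (x + t) - 1 / (1 + t) : ℝ) : ℂ) := by
  rw [← ph_integral_phi_exp hx ht, ← integral_complex_ofReal, ← integral_const_mul]
  congr 1
  ext l
  unfold phG
  push_cast
  ring

theorem ph_inv_cpow {l : ℝ} (hl : 0 < l) (a : ℂ) : (1 / (l : ℂ)) ^ a = (l : ℂ) ^ (-a) := by
  rw [one_div, Complex.inv_cpow _ _ (by rw [Complex.arg_ofReal_of_nonneg hl.le]; exact Real.pi_pos.ne),
    Complex.cpow_neg]

/-- step 2b: the inner integral over `t` -/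
theorem ph_inner_t (u x : ℝ) {l : ℝ} (hl : 0 < l) :
    ∫ t in Ioi (0 : ℝ), phG u x (t, l)
      = Gamma (1 - (u : ℂ) * I) * (((phPhi x l : ℝ) : ℂ) * (l : ℂ) ^ ((u : ℂ) * I - 1)) := by
  have h := Complex.integral_cpow_mul_exp_neg_mul_Ioi (a := 1 - (u : ℂ) * I) (r := l)
    (by simp) hl
  have e1 : (1 - (u : ℂ) * I) - 1 = -((u : ℂ) * I) := by ring
  rw [e1, ph_inv_cpow hl] at h
  have e2 : -(1 - (u : ℂ) * I) = (u : ℂ) * I - 1 := by ring
  rw [e2] at h
  calc ∫ t in Ioi (0 : ℝ), phG u x (t, l)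
      = ∫ t in Ioi (0 : ℝ), ((phPhi x l : ℝ) : ℂ) *
          ((t : ℂ) ^ (-((u : ℂ) * I)) * cexp (-((l : ℂ) * (t : ℂ)))) := by
        congr 1
        ext t
        unfold phG
        ring
    _ = _ := by
        rw [integral_const_mul, h]
        ring

/-- steps 1 and 2 (Fubini) -/
theorem ph_fubini (u : ℝ) {x : ℝ} (hx : 0 < x) :
    ∫ t in Ioi (0 : ℝ), (t : ℂ) ^ (-((u : ℂ) * I)) * ((1 / (x + t) - 1 / (1 + t) : ℝ) : ℂ)
      = Gamma (1 - (u : ℂ) * I) *
        ∫ l in Ioi (0 : ℝ), ((phPhi x l : ℝ) : ℂ) * (l : ℂ) ^ ((u : ℂ) * I - 1) := by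
  have h := integral_integral_swap (f := fun t l => phG u x (t, l)) (ph_integrable_G u hx)
  rw [← integral_const_mul]
  calc ∫ t in Ioi (0 : ℝ), (t : ℂ) ^ (-((u : ℂ) * I)) * ((1 / (x + t) - 1 / (1 + t) : ℝ) : ℂ)
      = ∫ t in Ioi (0 : ℝ), ∫ l in Ioi (0 : ℝ), phG u x (t, l) :=
        setIntegral_congr_fun measurableSet_Ioi fun t ht => (ph_inner_l u hx ht).symm
    _ = ∫ l in Ioi (0 : ℝ), ∫ t in Ioi (0 : ℝ), phG u x (t, l) := h
    _ = _ := setIntegral_congr_fun measurableSet_Ioi fun l hl => ph_inner_t u x hl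


theorem ph_norm_cpow_I' {t : ℝ} (ht : 0 < t) (u : ℝ) : ‖(t : ℂ) ^ ((u : ℂ) * I)‖ = 1 := by
  rw [Complex.norm_cpow_eq_rpow_re_of_pos ht]
  simp

theorem ph_hasDerivAt_phi (x l : ℝ) :
    HasDerivAt (phPhi x) (-x * Real.exp (-(x * l)) + Real.exp (-l)) l := by
  unfold phPhi
  have h1 : HasDerivAt (fun l : ℝ => Real.exp (-(x * l))) (Real.exp (-(x * l)) * (-(x * 1))) l :=
    (((hasDerivAt_id l).const_mul x).neg).exp
  have h2 : HasDerivAt (fun l : ℝ => Real.exp (-l)) (Real.exp (-l) * (-1)) l :=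
    ((hasDerivAt_id l).neg).exp
  have h3 := h1.sub h2
  have e : Real.exp (-(x * l)) * (-(x * 1)) - Real.exp (-l) * (-1)
      = -x * Real.exp (-(x * l)) + Real.exp (-l) := by ring
  rw [e] at h3
  exact h3

theorem ph_integrableOn_cpow_exp (u : ℝ) {x : ℝ} (hx : 0 < x) :
    IntegrableOn (fun l : ℝ => (l : ℂ) ^ ((u : ℂ) * I) * cexp (-((x : ℂ) * (l : ℂ)))) (Ioi 0) := by
  refine Integrable.mono' (exp_neg_integrableOn_Ioi 0 hx) ?_ ?_
  · exact Measurable.aestronglyMeasurable (by fun_prop)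
  · refine (ae_restrict_iff' measurableSet_Ioi).2 (Eventually.of_forall fun l hl => ?_)
    rw [norm_mul, ph_norm_cpow_I' hl, one_mul, Complex.norm_exp]
    simp

theorem ph_tendsto_phi_atTop {x : ℝ} (hx : 0 < x) : Tendsto (phPhi x) atTop (𝓝 0) := by
  unfold phPhi
  have h1 : Tendsto (fun l : ℝ => Real.exp (-(x * l))) atTop (𝓝 0) :=
    Real.tendsto_exp_neg_atTop_nhds_zero.comp (tendsto_id.const_mul_atTop hx)
  have h2 : Tendsto (fun l : ℝ => Real.exp (-l)) atTop (𝓝 0) := Real.tendsto_exp_neg_atTop_nhds_zero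
  simpa using h1.sub h2

/-- step 3 (integration by parts) -/
theorem ph_ibp {u : ℝ} (hu : u ≠ 0) {x : ℝ} (hx : 0 < x) :
    ∫ l in Ioi (0 : ℝ), ((phPhi x l : ℝ) : ℂ) * (l : ℂ) ^ ((u : ℂ) * I - 1)
      = Gamma (1 + (u : ℂ) * I) * ((x : ℂ) ^ (-((u : ℂ) * I)) - 1) / ((u : ℂ) * I) := by
  have hr : (u : ℂ) * I ≠ 0 := mul_ne_zero (by exact_mod_cast hu) I_ne_zero
  have hnr : ‖(u : ℂ) * I‖ = |u| := by simp
  have hu' : 0 < |u| := abs_pos.mpr hu
  set r : ℂ := (u : ℂ) * I with hrdef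
  have hU : ∀ l ∈ Ioi (0 : ℝ), HasDerivAt (fun l : ℝ => ((phPhi x l : ℝ) : ℂ))
      (((-x * Real.exp (-(x * l)) + Real.exp (-l) : ℝ)) : ℂ) l :=
    fun l _ => (ph_hasDerivAt_phi x l).ofReal_comp
  have hV : ∀ l ∈ Ioi (0 : ℝ), HasDerivAt (fun l : ℝ => (l : ℂ) ^ r / r) ((l : ℂ) ^ (r - 1)) l := by
    intro l hl
    have hl' : (0 : ℝ) < l := hl
    have := (hasDerivAt_ofReal_cpow_const hl'.ne' hr).div_const r
    rwa [mul_div_cancel_left₀ _ hr] at this
  have hbound : ∀ l : ℝ, 0 < l → ‖((phPhi x l : ℝ) : ℂ) * ((l : ℂ) ^ r / r)‖ = |phPhi x l| / |u| := by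
    intro l hl
    rw [norm_mul, norm_div, ph_norm_cpow_I' hl, hnr, Complex.norm_real, Real.norm_eq_abs]
    ring
  have hUV' : IntegrableOn ((fun l : ℝ => ((phPhi x l : ℝ) : ℂ)) * fun l : ℝ => (l : ℂ) ^ (r - 1))
      (Ioi 0) := by
    refine Integrable.mono' (ph_integrableOn_phi_div hx) ?_ ?_
    · have := ph_measurable_phi x
      exact Measurable.aestronglyMeasurable (by fun_prop)
    · refine (ae_restrict_iff' measurableSet_Ioi).2 (Eventually.of_forall fun l hl => ?_)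
      have hl' : (0 : ℝ) < l := hl
      rw [Pi.mul_apply, norm_mul, Complex.norm_real, Real.norm_eq_abs,
        Complex.norm_cpow_eq_rpow_re_of_pos hl']
      have : (r - 1).re = -1 := by simp [hrdef]
      rw [this, Real.rpow_neg_one, div_eq_mul_inv]
  have hU'V : IntegrableOn ((fun l : ℝ => (((-x * Real.exp (-(x * l)) + Real.exp (-l) : ℝ)) : ℂ))
      * fun l : ℝ => (l : ℂ) ^ r / r) (Ioi 0) := by
    have h1 := (ph_integrableOn_cpow_exp u hx).const_mul (-(x : ℂ) / r)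
    have h2 := (ph_integrableOn_cpow_exp u one_pos).const_mul (1 / r)
    refine (h1.add h2).congr (Eventually.of_forall fun l => ?_)
    simp only [Pi.add_apply, Pi.mul_apply]
    push_cast
    rw [← hrdef]
    field_simp
  have h_zero : Tendsto ((fun l : ℝ => ((phPhi x l : ℝ) : ℂ)) * fun l : ℝ => (l : ℂ) ^ r / r)
      (𝓝[>] 0) (𝓝 0) := by
    rw [tendsto_zero_iff_norm_tendsto_zero]
    have h1 : Tendsto (fun l : ℝ => |phPhi x l| / |u|) (𝓝[>] 0) (𝓝 0) := by
      have hc : Continuous fun l : ℝ => |phPhi x l| / |u| := by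
        have := ph_continuous_phi x
        fun_prop
      have := (hc.tendsto 0).mono_left (nhdsWithin_le_nhds (s := Ioi 0))
      simpa [phPhi] using this
    refine h1.congr' ?_
    filter_upwards [self_mem_nhdsWithin] with l hl
    exact (hbound l hl).symm
  have h_infty : Tendsto ((fun l : ℝ => ((phPhi x l : ℝ) : ℂ)) * fun l : ℝ => (l : ℂ) ^ r / r)
      atTop (𝓝 0) := by
    rw [tendsto_zero_iff_norm_tendsto_zero]
    have h1 : Tendsto (fun l : ℝ => |phPhi x l| / |u|) atTop (𝓝 0) := by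
      have := ((ph_tendsto_phi_atTop hx).abs).div_const |u|
      simpa using this
    refine h1.congr' ?_
    filter_upwards [eventually_gt_atTop 0] with l hl
    exact (hbound l hl).symm
  rw [integral_Ioi_mul_deriv_eq_deriv_mul hU hV hUV' hU'V h_zero h_infty]
  -- evaluate the remaining integral
  have g1 := Complex.integral_cpow_mul_exp_neg_mul_Ioi (a := 1 + r) (r := x) (by simp [hrdef]) hx
  have g2 := Complex.integral_cpow_mul_exp_neg_mul_Ioi (a := 1 + r) (r := 1) (by simp [hrdef]) one_pos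
  have e1 : (1 + r) - 1 = r := by ring
  rw [e1] at g1 g2
  have h1 := (ph_integrableOn_cpow_exp u hx).const_mul (-(x : ℂ) / r)
  have h2 := (ph_integrableOn_cpow_exp u one_pos).const_mul (1 / r)
  have e2 : ∫ l in Ioi (0 : ℝ), (((-x * Real.exp (-(x * l)) + Real.exp (-l) : ℝ)) : ℂ) * ((l : ℂ) ^ r / r)
      = ∫ l in Ioi (0 : ℝ), ((-(x : ℂ) / r) * ((l : ℂ) ^ r * cexp (-((x : ℂ) * (l : ℂ))))
          + (1 / r) * ((l : ℂ) ^ r * cexp (-(((1 : ℝ) : ℂ) * (l : ℂ))))) := by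
    congr 1
    ext l
    push_cast
    field_simp
  rw [e2, integral_add h1 h2, integral_const_mul, integral_const_mul, g1, g2]
  have hxc : (x : ℂ) ≠ 0 := by exact_mod_cast hx.ne'
  rw [ph_inv_cpow hx, neg_add, Complex.cpow_add _ _ hxc, Complex.cpow_neg_one]
  simp only [Complex.ofReal_one, div_one, Complex.one_cpow, one_mul]
  field_simp
  ring

/-- integrand of the subtracted resolvent representation -/
noncomputable def phKer (u x t : ℝ) : ℂ :=
  spowS (-((u : ℂ) * I)) t * ((1 / (x + t) - 1 / (1 + t) : ℝ) : ℂ)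

theorem phKer_eq (u x : ℝ) {t : ℝ} (ht : 0 < t) :
    phKer u x t = (t : ℂ) ^ (-((u : ℂ) * I)) * ((1 / (x + t) - 1 / (1 + t) : ℝ) : ℂ) := by
  unfold phKer
  rw [spowS_eq_cpow ht]

theorem ph_scalar_integrable (u x : ℝ) (hx : 0 < x) : IntegrableOn (phKer u x) (Ioi 0) := by
  refine (ph_integrable_G u hx).integral_prod_left.congr ?_
  refine (ae_restrict_iff' measurableSet_Ioi).2 (Eventually.of_forall fun t ht => ?_)
  rw [phKer_eq u x ht]
  exact ph_inner_l u hx ht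

/-- **PH-S** -/
theorem ph_scalar (u x : ℝ) (hx : 0 < x) :
    spowS (-((u : ℂ) * I)) x - 1
      = (I * (Real.sinh (Real.pi * u) : ℂ) / (Real.pi : ℂ)) * ∫ t in Ioi 0, phKer u x t := by
  rw [spowS_eq_cpow hx]
  by_cases hu : u = 0
  · subst hu
    simp
  have hr : (u : ℂ) * I ≠ 0 := mul_ne_zero (by exact_mod_cast hu) I_ne_zero
  have e1 : ∫ t in Ioi (0 : ℝ), phKer u x t
      = ∫ t in Ioi (0 : ℝ), (t : ℂ) ^ (-((u : ℂ) * I)) * ((1 / (x + t) - 1 / (1 + t) : ℝ) : ℂ) :=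
    setIntegral_congr_fun measurableSet_Ioi fun t ht => phKer_eq u x ht
  rw [e1, ph_fubini u hx, ph_ibp hu hx, add_comm (1 : ℂ), Complex.Gamma_add_one _ hr]
  have h1 := Complex.Gamma_mul_Gamma_one_sub ((u : ℂ) * I)
  have h2 : Complex.sin ((Real.pi : ℂ) * ((u : ℂ) * I))
      = (Real.sinh (Real.pi * u) : ℂ) * I := by
    rw [← mul_assoc, Complex.sin_mul_I]
    push_cast
    rfl
  rw [h2] at h1
  have hs : (Real.sinh (Real.pi * u) : ℂ) ≠ 0 := by
    have : Real.sinh (Real.pi * u) ≠ 0 := by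
      rw [Ne, Real.sinh_eq_zero]
      exact mul_ne_zero Real.pi_ne_zero hu
    exact_mod_cast this
  have hpi : (Real.pi : ℂ) ≠ 0 := by exact_mod_cast Real.pi_ne_zero
  calc (x : ℂ) ^ (-((u : ℂ) * I)) - 1
      = (I * (Real.sinh (Real.pi * u) : ℂ) / (Real.pi : ℂ))
          * ((Real.pi : ℂ) / ((Real.sinh (Real.pi * u) : ℂ) * I))
          * ((x : ℂ) ^ (-((u : ℂ) * I)) - 1) := by
        field_simp
    _ = _ := by
        rw [← h1]
        have huc : (u : ℂ) ≠ 0 := by exact_mod_cast hu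
        field_simp

end Claimed.Agent.R296
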