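import Claimed.Agent.R296.EntRelSing
import Claimed.Agent.R296.PhaseScalar
import Claimed.Agent.R296.HS

/-!
# Row 296, P1 Sec 4, lem:conditional-phases: the operator identity

For positive semidefinite `ρ, σ` with `ρ * supp σ = ρ` and every test matrix `X`
`tr X (σ̂^{-iu} ρ^{[iu]} - supp ρ) = c_u ∫₀^∞ t^{-iu} tr X (relY t ρ σ - supp ρ/(1+t)) dt`,
`c_u = i sinh(π u)/π`  (`ph_trace_formula`): termwise `ph_scalar` in the pair of eigenbases.
Owner: helper19.
-/

set_option autoImplicit false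
set_option linter.unusedSectionVars false
set_option linter.unusedDecidableInType false
set_option linter.unusedFintypeInType false

namespace Claimed.Agent.R296

open Matrix MeasureTheory Set
open scoped ComplexOrder

section PhaseOp

variable {n : Type} [Fintype n] [DecidableEq n]

/-- the constant `c_u = i sinh(π u)/π` -/
noncomputable def phC (u : ℝ) : ℂ :=
  Complex.I * (Real.sinh (Real.pi * u) : ℂ) / (Real.pi : ℂ)

theorem norm_phC (u : ℝ) : ‖phC u‖ = |Real.sinh (Real.pi * u)| / Real.pi := by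
  unfold phC
  rw [norm_div, norm_mul, Complex.norm_I, one_mul, Complex.norm_real, Complex.norm_real,
    Real.norm_eq_abs, Real.norm_eq_abs, abs_of_pos Real.pi_pos]

theorem trace_mul_sandwich (X U V M : Matrix n n ℂ) :
    (X * (V * M * Uᴴ)).trace = ∑ i, ∑ j, (Uᴴ * X * V) i j * M j i := by
  have h : (X * (V * M * Uᴴ)).trace = ((Uᴴ * X * V) * M).trace := by
    calc (X * (V * M * Uᴴ)).trace = ((X * V * M) * Uᴴ).trace := by simp only [Matrix.mul_assoc]
      _ = (Uᴴ * (X * V * M)).trace := Matrix.trace_mul_comm _ _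
      _ = _ := by simp only [Matrix.mul_assoc]
  rw [h]
  simp only [Matrix.trace, Matrix.diag_apply, Matrix.mul_apply (M := Uᴴ * X * V)]

/-- `V diag(a) Vᴴ U diag(b) Uᴴ` in the mixed basis -/
theorem decomp_mul_decomp (U V : Matrix n n ℂ) (a b : n → ℂ) :
    V * diagonal a * Vᴴ * (U * diagonal b * Uᴴ)
      = V * (Matrix.of fun j i => a j * star ((Uᴴ * V) i j) * b i) * Uᴴ := by
  have h : (Matrix.of fun j i => a j * star ((Uᴴ * V) i j) * b i : Matrix n n ℂ)
      = diagonal a * (Uᴴ * V)ᴴ * diagonal b := by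
    ext j i
    rw [mul_diagonal, diagonal_mul, conjTranspose_apply, Matrix.of_apply]
  rw [h, conjTranspose_mul, conjTranspose_conjTranspose]
  simp only [Matrix.mul_assoc]

/-- `U diag(b) Uᴴ` in the mixed basis -/
theorem decomp_mixed (U V : Matrix n n ℂ) (hV' : V * Vᴴ = 1) (b : n → ℂ) :
    U * diagonal b * Uᴴ = V * (Matrix.of fun j i => star ((Uᴴ * V) i j) * b i) * Uᴴ := by
  have h := decomp_mul_decomp U V (fun _ => 1) b
  have h1 : (diagonal (fun _ : n => (1 : ℂ)) : Matrix n n ℂ) = 1 := diagonal_one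
  rw [h1, Matrix.mul_one, hV', Matrix.one_mul] at h
  rw [h]
  simp

/-- entries of `σ̂^{-iu} ρ^{[iu]} - supp ρ` in the mixed basis -/
noncomputable def phPhiC (p q : n → ℝ) (W : Matrix n n ℂ) (u : ℝ) : Matrix n n ℂ :=
  Matrix.of fun j i => star (W i j) *
    (hpowS (-((u : ℂ) * Complex.I)) (q j) * spowS ((u : ℂ) * Complex.I) (p i) - suppS (p i))

/-- entries of `relY t ρ σ - supp ρ/(1+t)` in the mixed basis -/
noncomputable def phDC (p q : n → ℝ) (W : Matrix n n ℂ) (t : ℝ) : Matrix n n ℂ :=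
  Matrix.of fun j i => star (W i j) *
    ((p i : ℂ) / ((q j + t * p i : ℝ) : ℂ) - suppS (p i) / ((1 + t : ℝ) : ℂ))

theorem phPhi_eq {ρ σ : Matrix n n ℂ} (hρ : ρ.IsHermitian) (hσ : σ.IsHermitian) (u : ℝ) :
    hpow σ (-((u : ℂ) * Complex.I)) * spow ρ ((u : ℂ) * Complex.I) - supp ρ
      = (hσ.eigenvectorUnitary : Matrix n n ℂ) * phPhiC hρ.eigenvalues hσ.eigenvalues (ovl hρ hσ) u
        * (hρ.eigenvectorUnitary : Matrix n n ℂ)ᴴ := by
  unfold hpow spow supp
  rw [mfun_eq hσ, mfun_eq hρ, mfun_eq hρ, decomp_mul_decomp,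
    decomp_mixed _ (hσ.eigenvectorUnitary : Matrix n n ℂ) (eigU_mul_conjTranspose hσ),
    ← Matrix.sub_mul, ← Matrix.mul_sub]
  congr 2
  ext j i
  simp only [phPhiC, ovl, Matrix.sub_apply, Matrix.of_apply]
  ring

theorem phD_eq {ρ σ : Matrix n n ℂ} (hρ : ρ.IsHermitian) (hσ : σ.IsHermitian) (t : ℝ) :
    relY t ρ σ - (((1 + t : ℝ) : ℂ)⁻¹) • supp ρ
      = (hσ.eigenvectorUnitary : Matrix n n ℂ) * phDC hρ.eigenvalues hσ.eigenvalues (ovl hρ hσ) t
        * (hρ.eigenvectorUnitary : Matrix n n ℂ)ᴴ := by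
  unfold supp
  rw [relY_eq t hρ hσ, mfun_eq hρ,
    decomp_mixed _ (hσ.eigenvectorUnitary : Matrix n n ℂ) (eigU_mul_conjTranspose hσ),
    ← Matrix.smul_mul, ← Matrix.mul_smul, ← Matrix.sub_mul, ← Matrix.mul_sub]
  congr 2
  ext j i
  simp only [phDC, relYc, ovl, Matrix.sub_apply, Matrix.of_apply, Matrix.smul_apply, smul_eq_mul]
  ring

/-- the scalar identity, entry by entry -/
theorem ph_entry (u : ℝ) {p q : ℝ} (hp : 0 ≤ p) (hq : 0 ≤ q) (w : ℂ)
    (hw : q = 0 → 0 < p → w = 0) :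
    IntegrableOn (fun t : ℝ => spowS (-((u : ℂ) * Complex.I)) t *
        (w * ((p : ℂ) / ((q + t * p : ℝ) : ℂ) - suppS p / ((1 + t : ℝ) : ℂ)))) (Ioi 0) ∧
      w * (hpowS (-((u : ℂ) * Complex.I)) q * spowS ((u : ℂ) * Complex.I) p - suppS p)
        = phC u * ∫ t in Ioi 0, spowS (-((u : ℂ) * Complex.I)) t *
          (w * ((p : ℂ) / ((q + t * p : ℝ) : ℂ) - suppS p / ((1 + t : ℝ) : ℂ))) := by
  rcases hp.eq_or_lt with rfl | hp'
  · simp [suppS, spowS]
  rcases hq.eq_or_lt with rfl | hq'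
  · have := hw rfl hp'
    subst this
    simp
  have hx : 0 < q / p := div_pos hq' hp'
  have hcongr : ∀ t ∈ Ioi (0 : ℝ), spowS (-((u : ℂ) * Complex.I)) t *
        (w * ((p : ℂ) / ((q + t * p : ℝ) : ℂ) - suppS p / ((1 + t : ℝ) : ℂ)))
      = w * phKer u (q / p) t := by
    intro t ht
    have ht' : 0 < t := ht
    have h1 : (p : ℂ) / ((q + t * p : ℝ) : ℂ) - suppS p / ((1 + t : ℝ) : ℂ)
        = ((1 / (q / p + t) - 1 / (1 + t) : ℝ) : ℂ) := by
      have h2 : p / (q + t * p) = 1 / (q / p + t) := by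
        have : q + t * p ≠ 0 := by positivity
        have : q / p + t ≠ 0 := by positivity
        field_simp
      rw [suppS, if_pos hp', ← h2]
      push_cast
      ring
    rw [h1, phKer]
    ring
  constructor
  · refine IntegrableOn.congr_fun ((ph_scalar_integrable u (q / p) hx).const_mul w) ?_
      measurableSet_Ioi
    intro t ht
    exact (hcongr t ht).symm
  · rw [setIntegral_congr_fun measurableSet_Ioi hcongr, integral_const_mul]
    have h3 : hpowS (-((u : ℂ) * Complex.I)) q * spowS ((u : ℂ) * Complex.I) p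
        = spowS (-((u : ℂ) * Complex.I)) (q / p) := by
      rw [hpowS_pos hq', spowS_pos hp', spowS_pos hx, ← Complex.exp_add, Real.log_div hq'.ne' hp'.ne']
      congr 1
      push_cast
      ring
    rw [h3, suppS, if_pos hp', ph_scalar u (q / p) hx, phC]
    ring

theorem ovl_eq_zero_of_mul_supp {ρ σ : Matrix n n ℂ} (hρ : ρ.PosSemidef) (hσ : σ.IsHermitian)
    (h : ρ * supp σ = ρ) (i j : n) (hj : hσ.eigenvalues j = 0)
    (hi : 0 < hρ.isHermitian.eigenvalues i) : ovl hρ.isHermitian hσ i j = 0 := by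
  have h1 := ovw_mul_eq_zero_of_mul_supp hρ hσ h i j hj.le
  have h2 : ovw hρ.isHermitian hσ i j = 0 := by
    rcases mul_eq_zero.1 h1 with h | h
    · exact h
    · exact absurd h hi.ne'
  unfold ovw at h2
  simpa using h2

/-- **the operator identity, tested against an arbitrary matrix** -/
theorem ph_trace_formula {ρ σ : Matrix n n ℂ} (hρ : ρ.PosSemidef) (hσ : σ.PosSemidef)
    (hk : ρ * supp σ = ρ) (u : ℝ) (X : Matrix n n ℂ) :
    IntegrableOn (fun t : ℝ => spowS (-((u : ℂ) * Complex.I)) t *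
        (X * (relY t ρ σ - (((1 + t : ℝ) : ℂ)⁻¹) • supp ρ)).trace) (Ioi 0) ∧
      (X * (hpow σ (-((u : ℂ) * Complex.I)) * spow ρ ((u : ℂ) * Complex.I) - supp ρ)).trace
        = phC u * ∫ t in Ioi 0, spowS (-((u : ℂ) * Complex.I)) t *
          (X * (relY t ρ σ - (((1 + t : ℝ) : ℂ)⁻¹) • supp ρ)).trace := by
  set U := (hρ.isHermitian.eigenvectorUnitary : Matrix n n ℂ) with hU
  set V := (hσ.isHermitian.eigenvectorUnitary : Matrix n n ℂ) with hV
  set p := hρ.isHermitian.eigenvalues with hp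
  set q := hσ.isHermitian.eigenvalues with hq
  set W := ovl hρ.isHermitian hσ.isHermitian with hW
  set C := Uᴴ * X * V with hC
  have hent : ∀ i j, IntegrableOn (fun t : ℝ => spowS (-((u : ℂ) * Complex.I)) t *
        (star (W i j) * ((p i : ℂ) / ((q j + t * p i : ℝ) : ℂ)
          - suppS (p i) / ((1 + t : ℝ) : ℂ)))) (Ioi 0) ∧
      star (W i j) * (hpowS (-((u : ℂ) * Complex.I)) (q j) * spowS ((u : ℂ) * Complex.I) (p i)
          - suppS (p i))
        = phC u * ∫ t in Ioi 0, spowS (-((u : ℂ) * Complex.I)) t *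
          (star (W i j) * ((p i : ℂ) / ((q j + t * p i : ℝ) : ℂ)
            - suppS (p i) / ((1 + t : ℝ) : ℂ))) := by
    intro i j
    refine ph_entry u (hρ.eigenvalues_nonneg i) (hσ.eigenvalues_nonneg j) _ ?_
    intro h0 hpos
    rw [hW, ovl_eq_zero_of_mul_supp hρ hσ.isHermitian hk i j h0 hpos, star_zero]
  have hfun : (fun t : ℝ => spowS (-((u : ℂ) * Complex.I)) t *
        (X * (relY t ρ σ - (((1 + t : ℝ) : ℂ)⁻¹) • supp ρ)).trace)
      = fun t : ℝ => ∑ i, ∑ j, C i j * (spowS (-((u : ℂ) * Complex.I)) t *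
        (star (W i j) * ((p i : ℂ) / ((q j + t * p i : ℝ) : ℂ)
          - suppS (p i) / ((1 + t : ℝ) : ℂ)))) := by
    funext t
    rw [phD_eq hρ.isHermitian hσ.isHermitian, trace_mul_sandwich, Finset.mul_sum]
    refine Finset.sum_congr rfl fun i _ => ?_
    rw [Finset.mul_sum]
    refine Finset.sum_congr rfl fun j _ => ?_
    simp only [phDC, Matrix.of_apply]
    ring
  have hint : ∀ i j, Integrable (fun t : ℝ => C i j * (spowS (-((u : ℂ) * Complex.I)) t *
        (star (W i j) * ((p i : ℂ) / ((q j + t * p i : ℝ) : ℂ)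
          - suppS (p i) / ((1 + t : ℝ) : ℂ))))) (volume.restrict (Ioi 0)) :=
    fun i j => ((hent i j).1).const_mul _
  rw [hfun]
  constructor
  · exact integrable_finsetSum _ fun i _ => integrable_finsetSum _ fun j _ => hint i j
  · rw [phPhi_eq hρ.isHermitian hσ.isHermitian, trace_mul_sandwich,
      integral_finsetSum _ fun i _ => integrable_finsetSum _ fun j _ => hint i j, Finset.mul_sum]
    refine Finset.sum_congr rfl fun i _ => ?_
    rw [integral_finsetSum _ fun j _ => hint i j, Finset.mul_sum]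
    refine Finset.sum_congr rfl fun j _ => ?_
    rw [integral_const_mul]
    simp only [phPhiC, Matrix.of_apply]
    rw [(hent i j).2]
    ring

end PhaseOp

end Claimed.Agent.R296
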