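import Claimed.Agent.R296.MatPD
import Claimed.Agent.R296.HS
import Claimed.Agent.R296.Defs

/-!
# Row 296: finite projection valued measures (tool for the label calculus of P1 Secs 5 and 7)

Owner: helper116.  Sorry-free.

A `Pvm n I` is a finite family `P i` (`i : I`) of Hermitian, pairwise orthogonal idempotents of
`Matrix n n ℂ` with sum `1`.

* `E.op f = ∑ i, f i • E.P i`        : functional calculus (a `*`-homomorphism `(I → ℂ) → Matrix`);
  order, positivity, norm and congruence only see the SUPPORT `{i | E.P i ≠ 0}`;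
  `E.mfun_op : mfun F (E.op f) = E.op (F ∘ f)`;
* `E.pr v i = ⟨v, P i v⟩ ≥ 0`, `∑ i, E.pr v i = ‖v‖²`, `⟨v, E.op f v⟩ = ∑ i, f i * E.pr v i`:
  every Markov / Jensen / Hölder argument for commuting label operators is a statement on finite sums;
* `E.prT ρ i = Re Tr (ρ P i)`        : the same for density matrices;
* `E.prod F h : Pvm n (I × J)`       : joint measurement of two commuting Pvm's;
* `E.conj V`                         : compression by an isometry whose range projection commutes with `E`;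
* `pvm_holder`, `pvm_holder_card`, `pvm_markov` : Hölder (finitely many factors) and Markov for finite
  weighted sums.
-/

set_option autoImplicit false
set_option linter.unusedSectionVars false
set_option linter.unusedDecidableInType false

namespace Claimed.Agent.R296

open Matrix
open scoped MatrixOrder Matrix.Norms.L2Operator ComplexOrder

/-- a finite projection valued measure -/
structure Pvm (n : Type) [Fintype n] [DecidableEq n] (I : Type) [Fintype I] [DecidableEq I] where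
  /-- the projections -/
  P : I → Matrix n n ℂ
  herm : ∀ i, (P i).IsHermitian
  orth : ∀ i j, P i * P j = if i = j then P i else 0
  total : ∑ i, P i = 1

namespace Pvm

variable {n : Type} [Fintype n] [DecidableEq n] {I : Type} [Fintype I] [DecidableEq I]
  {J : Type} [Fintype J] [DecidableEq J] (E : Pvm n I) (F : Pvm n J)

theorem P_sq (i : I) : E.P i * E.P i = E.P i := by rw [E.orth, if_pos rfl]

theorem P_mul_of_ne {i j : I} (h : i ≠ j) : E.P i * E.P j = 0 := by rw [E.orth, if_neg h]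

theorem P_posSemidef (i : I) : (E.P i).PosSemidef := by
  have h : E.P i = (E.P i)ᴴ * E.P i := by rw [(E.herm i).eq, E.P_sq]
  rw [h]
  exact posSemidef_conjTranspose_mul_self _

/-- functional calculus -/
noncomputable def op (f : I → ℂ) : Matrix n n ℂ := ∑ i, f i • E.P i

theorem op_mul_P (f : I → ℂ) (i : I) : E.op f * E.P i = f i • E.P i := by
  rw [op, Finset.sum_mul, Finset.sum_eq_single i]
  · rw [Matrix.smul_mul, E.P_sq]
  · intro j _ hj
    rw [Matrix.smul_mul, E.P_mul_of_ne hj, smul_zero]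
  · intro h
    exact absurd (Finset.mem_univ _) h

theorem P_mul_op (f : I → ℂ) (i : I) : E.P i * E.op f = f i • E.P i := by
  rw [op, Finset.mul_sum, Finset.sum_eq_single i]
  · rw [Matrix.mul_smul, E.P_sq]
  · intro j _ hj
    rw [Matrix.mul_smul, E.P_mul_of_ne (Ne.symm hj), smul_zero]
  · intro h
    exact absurd (Finset.mem_univ _) h

theorem op_mul (f g : I → ℂ) : E.op f * E.op g = E.op fun i => f i * g i := by
  have h : E.op f * E.op g = ∑ i, E.op f * (g i • E.P i) := by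
    rw [← Finset.mul_sum]
    rfl
  rw [h]
  refine Finset.sum_congr rfl fun i _ => ?_
  rw [Matrix.mul_smul, E.op_mul_P, smul_smul, mul_comm]

theorem op_add (f g : I → ℂ) : E.op f + E.op g = E.op fun i => f i + g i := by
  simp only [op, ← Finset.sum_add_distrib, add_smul]

theorem op_sub (f g : I → ℂ) : E.op f - E.op g = E.op fun i => f i - g i := by
  simp only [op, ← Finset.sum_sub_distrib, sub_smul]

theorem op_smul (a : ℂ) (f : I → ℂ) : a • E.op f = E.op fun i => a * f i := by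
  simp only [op, Finset.smul_sum, smul_smul]

theorem op_neg (f : I → ℂ) : - E.op f = E.op fun i => - f i := by
  simp only [op, ← Finset.sum_neg_distrib, neg_smul]

theorem op_zero : E.op (fun _ => 0) = 0 := by simp [op]

theorem op_one : E.op (fun _ => 1) = 1 := by simp [op, E.total]

theorem op_const (c : ℂ) : E.op (fun _ => c) = c • 1 := by
  rw [← E.op_one, op_smul]
  simp

theorem op_single (i : I) : E.op (fun j => if j = i then 1 else 0) = E.P i := by
  rw [op, Finset.sum_eq_single i]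
  · simp
  · intro j _ hj
    simp [hj]
  · intro h
    exact absurd (Finset.mem_univ _) h

theorem op_sum {ι : Type*} (s : Finset ι) (f : ι → I → ℂ) :
    ∑ a ∈ s, E.op (f a) = E.op fun i => ∑ a ∈ s, f a i := by
  simp only [op, Finset.sum_smul]
  exact Finset.sum_comm

theorem op_pow (f : I → ℂ) (k : ℕ) : E.op f ^ k = E.op fun i => f i ^ k := by
  induction k with
  | zero => simp [E.op_one]
  | succ k ih => rw [pow_succ, ih, op_mul]; simp only [pow_succ]

theorem op_conjTranspose (f : I → ℂ) : (E.op f)ᴴ = E.op fun i => star (f i) := by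
  simp only [op, conjTranspose_sum, conjTranspose_smul, (E.herm _).eq]

theorem op_isHermitian (f : I → ℝ) : (E.op fun i => (f i : ℂ)).IsHermitian := by
  rw [IsHermitian, op_conjTranspose]
  simp

theorem op_congr {f g : I → ℂ} (h : ∀ i, E.P i ≠ 0 → f i = g i) : E.op f = E.op g := by
  refine Finset.sum_congr rfl fun i _ => ?_
  by_cases h0 : E.P i = 0
  · rw [h0, smul_zero, smul_zero]
  · rw [h i h0]

theorem op_posSemidef {f : I → ℝ} (h : ∀ i, E.P i ≠ 0 → 0 ≤ f i) :
    (E.op fun i => (f i : ℂ)).PosSemidef := by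
  refine Matrix.posSemidef_sum _ fun i _ => ?_
  by_cases h0 : E.P i = 0
  · rw [h0, smul_zero]
    exact PosSemidef.zero
  · exact (E.P_posSemidef i).smul (Complex.zero_le_real.mpr (h i h0))

theorem op_le_op {f g : I → ℝ} (h : ∀ i, E.P i ≠ 0 → f i ≤ g i) :
    (E.op fun i => (f i : ℂ)) ≤ E.op fun i => (g i : ℂ) := by
  rw [Matrix.le_iff, op_sub]
  have := E.op_posSemidef (f := fun i => g i - f i) fun i hi => sub_nonneg.mpr (h i hi)
  simpa using this

theorem op_commute_op_self (f g : I → ℂ) : Commute (E.op f) (E.op g) := by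
  show E.op f * E.op g = E.op g * E.op f
  rw [op_mul, op_mul]
  simp only [mul_comm]

/-- spectral calculus -/
theorem mfun_op (G : ℝ → ℂ) (f : I → ℝ) :
    mfun G (E.op fun i => (f i : ℂ)) = E.op fun i => G (f i) :=
  pd_mfun_resolution G Finset.univ E.P f (fun k _ l _ => E.orth k l) E.total (E.op_isHermitian f)

theorem op_mul_inv {f : I → ℂ} (h : ∀ i, E.P i ≠ 0 → f i ≠ 0) :
    E.op f * E.op (fun i => (f i)⁻¹) = 1 := by
  rw [op_mul, ← E.op_one]
  exact E.op_congr fun i hi => mul_inv_cancel₀ (h i hi)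

theorem op_posDef {f : I → ℝ} (h : ∀ i, E.P i ≠ 0 → 0 < f i) :
    (E.op fun i => (f i : ℂ)).PosDef := by
  have h1 := E.op_posSemidef fun i hi => (h i hi).le
  have h2 : IsUnit (E.op fun i => (f i : ℂ)) := by
    refine IsUnit.of_mul_eq_one _ (E.op_mul_inv fun i hi => ?_)
    exact_mod_cast (h i hi).ne'
  exact (Matrix.PosSemidef.posDef_iff_isUnit h1).mpr h2

/-- real powers (`rpw` = hat power): on the support the function must be positive -/
theorem rpw_op {f : I → ℝ} (h : ∀ i, E.P i ≠ 0 → 0 < f i) (r : ℝ) :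
    rpw (E.op fun i => (f i : ℂ)) r = E.op fun i => ((f i ^ r : ℝ) : ℂ) := by
  rw [rpw, hpow, mfun_op]
  exact E.op_congr fun i hi => hpowS_ofReal (h i hi) r

theorem mlog_op (f : I → ℝ) :
    mlog (E.op fun i => (f i : ℂ)) = E.op fun i => ((Real.log (f i) : ℝ) : ℂ) := by
  rw [mlog, mfun_op]

/-! ### probabilities -/

/-- the probability of the outcome `i` in the (not necessarily normalised) vector `v` -/
noncomputable def pr (v : n → ℂ) (i : I) : ℝ := (star v ⬝ᵥ (E.P i *ᵥ v)).re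

theorem quad_P (v : n → ℂ) (i : I) : star v ⬝ᵥ (E.P i *ᵥ v) = (E.pr v i : ℂ) := by
  have h := (E.P_posSemidef i).dotProduct_mulVec_nonneg v
  have h2 := Complex.le_def.mp h
  apply Complex.ext
  · simp [pr]
  · simpa using h2.2.symm

theorem pr_nonneg (v : n → ℂ) (i : I) : 0 ≤ E.pr v i :=
  (Complex.le_def.mp ((E.P_posSemidef i).dotProduct_mulVec_nonneg v)).1

theorem pr_eq_nsq (v : n → ℂ) (i : I) : E.pr v i = l2n (E.P i *ᵥ v) ^ 2 := by
  rw [l2n_sq_eq_re, pr, star_mulVec, ← dotProduct_mulVec, (E.herm i).eq, mulVec_mulVec, E.P_sq]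

theorem pr_eq_zero {v : n → ℂ} {i : I} (h : E.P i = 0) : E.pr v i = 0 := by
  simp [pr, h]

theorem P_ne_zero_of_pr_ne_zero {v : n → ℂ} {i : I} (h : E.pr v i ≠ 0) : E.P i ≠ 0 :=
  fun h0 => h (E.pr_eq_zero h0)

theorem quad_op (f : I → ℂ) (v : n → ℂ) :
    star v ⬝ᵥ (E.op f *ᵥ v) = ∑ i, f i * (E.pr v i : ℂ) := by
  rw [op, sum_mulVec, dotProduct_sum]
  refine Finset.sum_congr rfl fun i _ => ?_
  rw [smul_mulVec, dotProduct_smul, quad_P, smul_eq_mul]

theorem quad_op_re (f : I → ℝ) (v : n → ℂ) :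
    (star v ⬝ᵥ (E.op (fun i => (f i : ℂ)) *ᵥ v)).re = ∑ i, f i * E.pr v i := by
  rw [quad_op, Complex.re_sum]
  refine Finset.sum_congr rfl fun i _ => ?_
  rw [← Complex.ofReal_mul, Complex.ofReal_re]

theorem sum_pr (v : n → ℂ) : ∑ i, E.pr v i = l2n v ^ 2 := by
  have h := E.quad_op_re (fun _ => 1) v
  simp only [Complex.ofReal_one, E.op_one, one_mulVec, one_mul] at h
  rw [l2n_sq_eq_re, h]

theorem nsq_op_mulVec (f : I → ℂ) (v : n → ℂ) :
    l2n (E.op f *ᵥ v) ^ 2 = ∑ i, ‖f i‖ ^ 2 * E.pr v i := by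
  rw [l2n_sq_eq_re, star_mulVec, ← dotProduct_mulVec, mulVec_mulVec, op_conjTranspose, op_mul]
  have h : (fun i => star (f i) * f i) = fun i => (((‖f i‖ ^ 2 : ℝ)) : ℂ) := by
    funext i
    rw [Complex.star_def, Complex.conj_mul']
    push_cast
    rfl
  rw [h, quad_op_re]

theorem norm_op_le {f : I → ℂ} {M : ℝ} (hM : 0 ≤ M) (h : ∀ i, E.P i ≠ 0 → ‖f i‖ ≤ M) :
    ‖E.op f‖ ≤ M := by
  refine opNorm_le_of_l2n hM fun v => ?_
  have h1 : l2n (E.op f *ᵥ v) ^ 2 ≤ (M * l2n v) ^ 2 := by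
    rw [nsq_op_mulVec, mul_pow, ← E.sum_pr, Finset.mul_sum]
    refine Finset.sum_le_sum fun i _ => ?_
    by_cases h0 : E.P i = 0
    · rw [E.pr_eq_zero h0, mul_zero, mul_zero]
    · exact mul_le_mul_of_nonneg_right (pow_le_pow_left₀ (norm_nonneg _) (h i h0) 2)
        (E.pr_nonneg v i)
  exact abs_le_of_sq_le_sq' h1 (mul_nonneg hM (l2n_nonneg v)) |>.2

/-- a vector in the range of `P i` -/
theorem pr_of_mem {v : n → ℂ} {i : I} (h : E.P i *ᵥ v = v) (j : I) :
    E.pr v j = if j = i then l2n v ^ 2 else 0 := by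
  by_cases hj : j = i
  · subst hj
    rw [if_pos rfl, pr, h, l2n_sq_eq_re]
  · rw [if_neg hj, pr, ← h, mulVec_mulVec, E.P_mul_of_ne hj, zero_mulVec, dotProduct_zero,
      Complex.zero_re]

/-- the probability of the outcome `i` in the density matrix `ρ` -/
noncomputable def prT (ρ : Matrix n n ℂ) (i : I) : ℝ := (trace (ρ * E.P i)).re

theorem trace_mul_P {ρ : Matrix n n ℂ} (hρ : ρ.PosSemidef) (i : I) :
    trace (ρ * E.P i) = (E.prT ρ i : ℂ) := by
  have h := trace_mul_posSemidef_nonneg hρ (E.P_posSemidef i)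
  have h2 := Complex.le_def.mp h
  apply Complex.ext
  · simp [prT]
  · simpa using h2.2.symm

theorem prT_nonneg {ρ : Matrix n n ℂ} (hρ : ρ.PosSemidef) (i : I) : 0 ≤ E.prT ρ i :=
  (Complex.le_def.mp (trace_mul_posSemidef_nonneg hρ (E.P_posSemidef i))).1

theorem prT_eq_zero {ρ : Matrix n n ℂ} {i : I} (h : E.P i = 0) : E.prT ρ i = 0 := by
  simp [prT, h]

theorem trace_mul_op {ρ : Matrix n n ℂ} (hρ : ρ.PosSemidef) (f : I → ℂ) :
    trace (ρ * E.op f) = ∑ i, f i * (E.prT ρ i : ℂ) := by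
  rw [op, Finset.mul_sum, trace_sum]
  refine Finset.sum_congr rfl fun i _ => ?_
  rw [Matrix.mul_smul, trace_smul, E.trace_mul_P hρ, smul_eq_mul]

theorem trace_mul_op_re {ρ : Matrix n n ℂ} (hρ : ρ.PosSemidef) (f : I → ℝ) :
    (trace (ρ * E.op fun i => (f i : ℂ))).re = ∑ i, f i * E.prT ρ i := by
  rw [E.trace_mul_op hρ, Complex.re_sum]
  refine Finset.sum_congr rfl fun i _ => ?_
  rw [← Complex.ofReal_mul, Complex.ofReal_re]

theorem sum_prT (ρ : Matrix n n ℂ) : ∑ i, E.prT ρ i = (trace ρ).re := by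
  simp only [prT, ← Complex.re_sum, ← trace_sum, ← Finset.mul_sum, E.total, Matrix.mul_one]

theorem prT_pureOp (v : n → ℂ) (i : I) : E.prT (pureOp v) i = E.pr v i := by
  rw [prT, pr, pureOp, vecMulVec_mul, trace_vecMulVec, dotProduct_comm, dotProduct_mulVec]

theorem prT_mono {ρ σ : Matrix n n ℂ} (h : ρ ≤ σ) (i : I) : E.prT ρ i ≤ E.prT σ i := by
  rw [Matrix.le_iff] at h
  have := E.prT_nonneg h i
  rw [prT, Matrix.sub_mul, trace_sub, Complex.sub_re] at this
  exact sub_nonneg.mp this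

/-! ### joint measurements -/

/-- the joint measurement of two commuting Pvm's -/
def prod (h : ∀ i j, Commute (E.P i) (F.P j)) : Pvm n (I × J) where
  P p := E.P p.1 * F.P p.2
  herm p := by
    rw [IsHermitian, conjTranspose_mul, (E.herm _).eq, (F.herm _).eq, (h _ _).eq]
  orth p q := by
    have e : E.P p.1 * F.P p.2 * (E.P q.1 * F.P q.2)
        = (E.P p.1 * E.P q.1) * (F.P p.2 * F.P q.2) := by
      rw [Matrix.mul_assoc, ← Matrix.mul_assoc (F.P p.2), ← (h q.1 p.2).eq]
      simp only [Matrix.mul_assoc]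
    rw [e, E.orth, F.orth]
    by_cases h1 : p.1 = q.1
    · by_cases h2 : p.2 = q.2
      · rw [if_pos h1, if_pos h2, if_pos (Prod.ext h1 h2)]
      · rw [if_neg h2, if_neg (fun hh => h2 (congrArg Prod.snd hh)), Matrix.mul_zero]
    · rw [if_neg h1, if_neg (fun hh => h1 (congrArg Prod.fst hh)), Matrix.zero_mul]
  total := by
    rw [Fintype.sum_prod_type]
    simp only [← Finset.mul_sum, F.total, Matrix.mul_one, E.total]

variable {E F}

theorem prod_P (h : ∀ i j, Commute (E.P i) (F.P j)) (p : I × J) :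
    (E.prod F h).P p = E.P p.1 * F.P p.2 := rfl

theorem op_prod_mul (h : ∀ i j, Commute (E.P i) (F.P j)) (f : I → ℂ) (g : J → ℂ) :
    (E.prod F h).op (fun p => f p.1 * g p.2) = E.op f * F.op g := by
  rw [op, op, op, Finset.sum_mul_sum, Fintype.sum_prod_type]
  refine Finset.sum_congr rfl fun i _ => Finset.sum_congr rfl fun j _ => ?_
  rw [Matrix.smul_mul, Matrix.mul_smul, smul_smul, prod_P]

theorem op_prod_fst (h : ∀ i j, Commute (E.P i) (F.P j)) (f : I → ℂ) :
    (E.prod F h).op (fun p => f p.1) = E.op f := by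
  have := op_prod_mul h f (fun _ => 1)
  simpa [F.op_one] using this

theorem op_prod_snd (h : ∀ i j, Commute (E.P i) (F.P j)) (g : J → ℂ) :
    (E.prod F h).op (fun p => g p.2) = F.op g := by
  have := op_prod_mul h (fun _ => 1) g
  simpa [E.op_one] using this

theorem op_commute_op (h : ∀ i j, Commute (E.P i) (F.P j)) (f : I → ℂ) (g : J → ℂ) :
    Commute (E.op f) (F.op g) :=
  Commute.sum_left _ _ _ fun i _ => Commute.sum_right _ _ _ fun j _ =>
    ((h i j).smul_left _).smul_right _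

theorem op_commute {X : Matrix n n ℂ} (h : ∀ i, Commute (E.P i) X) (f : I → ℂ) :
    Commute (E.op f) X :=
  Commute.sum_left _ _ _ fun i _ => (h i).smul_left _

theorem prod_commute {K : Type} [Fintype K] [DecidableEq K] {G : Pvm n K}
    (h : ∀ i j, Commute (E.P i) (F.P j)) (h1 : ∀ i l, Commute (E.P i) (G.P l))
    (h2 : ∀ j l, Commute (F.P j) (G.P l)) (p : I × J) (l : K) :
    Commute ((E.prod F h).P p) (G.P l) :=
  (h1 p.1 l).mul_left (h2 p.2 l)

theorem prod_P_ne_zero_left (h : ∀ i j, Commute (E.P i) (F.P j)) {p : I × J}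
    (hp : (E.prod F h).P p ≠ 0) : E.P p.1 ≠ 0 := by
  intro h0
  exact hp (by rw [prod_P, h0, Matrix.zero_mul])

theorem prod_P_ne_zero_right (h : ∀ i j, Commute (E.P i) (F.P j)) {p : I × J}
    (hp : (E.prod F h).P p ≠ 0) : F.P p.2 ≠ 0 := by
  intro h0
  exact hp (by rw [prod_P, h0, Matrix.mul_zero])

theorem sum_pr_prod_snd (h : ∀ i j, Commute (E.P i) (F.P j)) (v : n → ℂ) (i : I) :
    ∑ j, (E.prod F h).pr v (i, j) = E.pr v i := by
  simp only [pr, prod_P, ← Complex.re_sum, ← dotProduct_sum, ← sum_mulVec, ← Finset.mul_sum,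
    F.total, Matrix.mul_one]

theorem sum_pr_prod_fst (h : ∀ i j, Commute (E.P i) (F.P j)) (v : n → ℂ) (j : J) :
    ∑ i, (E.prod F h).pr v (i, j) = F.pr v j := by
  simp only [pr, prod_P, ← Complex.re_sum, ← dotProduct_sum, ← sum_mulVec, ← Finset.sum_mul,
    E.total, Matrix.one_mul]

/-! ### compression by an isometry -/

variable (E)

/-- compression of a Pvm by an isometry `V` whose range projection commutes with it -/
def conj {m : Type} [Fintype m] [DecidableEq m] (V : Matrix n m ℂ) (hV : Vᴴ * V = 1)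
    (hc : ∀ i, Commute (E.P i) (V * Vᴴ)) : Pvm m I where
  P i := Vᴴ * E.P i * V
  herm i := by
    rw [IsHermitian, conjTranspose_mul, conjTranspose_mul, conjTranspose_conjTranspose,
      (E.herm i).eq, Matrix.mul_assoc]
  orth i j := by
    have e : Vᴴ * E.P i * V * (Vᴴ * E.P j * V) = Vᴴ * (E.P i * (V * Vᴴ)) * E.P j * V := by
      simp only [Matrix.mul_assoc]
    rw [e, (hc i).eq]
    have e2 : Vᴴ * (V * Vᴴ * E.P i) * E.P j * V = (Vᴴ * V) * Vᴴ * (E.P i * E.P j) * V := by
      simp only [Matrix.mul_assoc]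
    rw [e2, hV, Matrix.one_mul, E.orth]
    split_ifs
    · rfl
    · rw [Matrix.mul_zero, Matrix.zero_mul]
  total := by
    rw [← Matrix.sum_mul, ← Matrix.mul_sum, E.total, Matrix.mul_one, hV]

theorem conj_op {m : Type} [Fintype m] [DecidableEq m] (V : Matrix n m ℂ) (hV : Vᴴ * V = 1)
    (hc : ∀ i, Commute (E.P i) (V * Vᴴ)) (f : I → ℂ) :
    (E.conj V hV hc).op f = Vᴴ * E.op f * V := by
  simp only [op, conj, Matrix.mul_sum, Matrix.sum_mul, Matrix.mul_smul, Matrix.smul_mul]

theorem conj_pr {m : Type} [Fintype m] [DecidableEq m] (V : Matrix n m ℂ) (hV : Vᴴ * V = 1)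
    (hc : ∀ i, Commute (E.P i) (V * Vᴴ)) (x : m → ℂ) (i : I) :
    (E.conj V hV hc).pr x i = E.pr (V *ᵥ x) i := by
  simp only [pr, conj]
  rw [star_mulVec, ← dotProduct_mulVec, mulVec_mulVec, mulVec_mulVec, Matrix.mul_assoc]

end Pvm

/-! ### scalar inequalities for finite weighted sums -/

/-- Hölder's inequality for finitely many factors (finite weighted sums):
`∑ w ∏_a g_a^{p_a} ≤ ∏_a (∑ w g_a)^{p_a}` if `∑ p_a = 1` -/
theorem pvm_holder {X ι : Type*} (S : Finset X) (s : Finset ι) (w : X → ℝ) (g : ι → X → ℝ)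
    (p : ι → ℝ) (hw : ∀ x ∈ S, 0 ≤ w x) (hg : ∀ a ∈ s, ∀ x ∈ S, 0 ≤ g a x)
    (hp : ∀ a ∈ s, 0 ≤ p a) (hp1 : ∑ a ∈ s, p a = 1) :
    ∑ x ∈ S, w x * ∏ a ∈ s, g a x ^ p a ≤ ∏ a ∈ s, (∑ x ∈ S, w x * g a x) ^ p a := by
  set A : ι → ℝ := fun a => ∑ x ∈ S, w x * g a x with hA
  have hA0 : ∀ a ∈ s, 0 ≤ A a := fun a ha =>
    Finset.sum_nonneg fun x hx => mul_nonneg (hw x hx) (hg a ha x hx)
  by_cases hz : ∃ a ∈ s, A a = 0 ∧ p a ≠ 0
  · obtain ⟨a, ha, hAa, hpa⟩ := hz
    have h1 : ∀ x ∈ S, w x * g a x = 0 :=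
      (Finset.sum_eq_zero_iff_of_nonneg fun x hx => mul_nonneg (hw x hx) (hg a ha x hx)).mp hAa
    have h2 : ∑ x ∈ S, w x * ∏ a ∈ s, g a x ^ p a = 0 := by
      refine Finset.sum_eq_zero fun x hx => ?_
      rcases mul_eq_zero.mp (h1 x hx) with h | h
      · rw [h, zero_mul]
      · rw [Finset.prod_eq_zero ha (by rw [h, Real.zero_rpow hpa]), mul_zero]
    rw [h2]
    exact Finset.prod_nonneg fun a ha => Real.rpow_nonneg (hA0 a ha) _
  · have hz' : ∀ a ∈ s, A a ≠ 0 ∨ p a = 0 := by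
      intro a ha
      by_contra hcon
      rw [not_or, not_not, ← ne_eq] at hcon
      exact hz ⟨a, ha, hcon.1, hcon.2⟩
    have hfac : ∀ x ∈ S, ∏ a ∈ s, g a x ^ p a
        = (∏ a ∈ s, A a ^ p a) * ∏ a ∈ s, (g a x / A a) ^ p a := by
      intro x hx
      rw [← Finset.prod_mul_distrib]
      refine Finset.prod_congr rfl fun a ha => ?_
      rcases hz' a ha with h | h
      · rw [← Real.mul_rpow (hA0 a ha) (div_nonneg (hg a ha x hx) (hA0 a ha)),
          mul_div_cancel₀ _ h]
      · rw [h, Real.rpow_zero, Real.rpow_zero, Real.rpow_zero, one_mul]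
    have hP0 : 0 ≤ ∏ a ∈ s, A a ^ p a :=
      Finset.prod_nonneg fun a ha => Real.rpow_nonneg (hA0 a ha) _
    calc ∑ x ∈ S, w x * ∏ a ∈ s, g a x ^ p a
        = (∏ a ∈ s, A a ^ p a) * ∑ x ∈ S, w x * ∏ a ∈ s, (g a x / A a) ^ p a := by
          rw [Finset.mul_sum]
          refine Finset.sum_congr rfl fun x hx => ?_
          rw [hfac x hx]
          ring
      _ ≤ (∏ a ∈ s, A a ^ p a) * ∑ x ∈ S, w x * ∑ a ∈ s, p a * (g a x / A a) := by
          refine mul_le_mul_of_nonneg_left (Finset.sum_le_sum fun x hx => ?_) hP0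
          refine mul_le_mul_of_nonneg_left ?_ (hw x hx)
          exact Real.geom_mean_le_arith_mean_weighted s p _ hp hp1
            fun a ha => div_nonneg (hg a ha x hx) (hA0 a ha)
      _ = (∏ a ∈ s, A a ^ p a) * ∑ a ∈ s, p a * (A a / A a) := by
          congr 1
          simp only [Finset.mul_sum]
          rw [Finset.sum_comm]
          refine Finset.sum_congr rfl fun a _ => ?_
          rw [hA]
          simp only [Finset.sum_div, Finset.mul_sum]
          refine Finset.sum_congr rfl fun x _ => ?_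
          ring
      _ ≤ (∏ a ∈ s, A a ^ p a) * ∑ a ∈ s, p a := by
          refine mul_le_mul_of_nonneg_left (Finset.sum_le_sum fun a ha => ?_) hP0
          have : A a / A a ≤ 1 := div_self_le_one _
          nlinarith [hp a ha]
      _ = ∏ a ∈ s, A a ^ p a := by rw [hp1, mul_one]

/-- Hölder with equal exponents: `∑ w ∏_{a ∈ s} f_a ≤ ∏_a (∑ w f_a^m)^{1/m}`, `m = card s` -/
theorem pvm_holder_card {X ι : Type*} (S : Finset X) (s : Finset ι) (hs : s.Nonempty) (w : X → ℝ)
    (f : ι → X → ℝ) (hw : ∀ x ∈ S, 0 ≤ w x) (hf : ∀ a ∈ s, ∀ x ∈ S, 0 ≤ f a x) :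
    ∑ x ∈ S, w x * ∏ a ∈ s, f a x
      ≤ ∏ a ∈ s, (∑ x ∈ S, w x * f a x ^ s.card) ^ ((s.card : ℝ)⁻¹) := by
  have hc : (s.card : ℝ) ≠ 0 := by exact_mod_cast hs.card_pos.ne'
  have h := pvm_holder S s w (fun a x => f a x ^ s.card) (fun _ => (s.card : ℝ)⁻¹) hw
    (fun a ha x hx => pow_nonneg (hf a ha x hx) _) (fun _ _ => by positivity)
    (by rw [Finset.sum_const, nsmul_eq_mul, mul_inv_cancel₀ hc])
  refine le_trans (le_of_eq ?_) h
  refine Finset.sum_congr rfl fun x hx => ?_
  congr 1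
  refine Finset.prod_congr rfl fun a ha => ?_
  rw [← Real.rpow_natCast, ← Real.rpow_mul (hf a ha x hx), mul_inv_cancel₀ hc, Real.rpow_one]

/-- Markov's inequality for finite weighted sums -/
theorem pvm_markov {X : Type*} [DecidableEq X] (S : Finset X) (w g : X → ℝ) (c : ℝ) (hc : 0 < c)
    (hw : ∀ x ∈ S, 0 ≤ w x) (hg : ∀ x ∈ S, 0 ≤ g x) [DecidablePred fun x => c ≤ g x] :
    ∑ x ∈ S.filter (fun x => c ≤ g x), w x ≤ (∑ x ∈ S, w x * g x) / c := by
  rw [le_div_iff₀ hc, Finset.sum_mul]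
  calc ∑ x ∈ S.filter (fun x => c ≤ g x), w x * c
      ≤ ∑ x ∈ S.filter (fun x => c ≤ g x), w x * g x := by
        refine Finset.sum_le_sum fun x hx => ?_
        rw [Finset.mem_filter] at hx
        exact mul_le_mul_of_nonneg_left hx.2 (hw x hx.1)
    _ ≤ ∑ x ∈ S, w x * g x :=
        Finset.sum_le_sum_of_subset_of_nonneg (Finset.filter_subset _ _)
          fun x hx _ => mul_nonneg (hw x hx) (hg x hx)

end Claimed.Agent.R296
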