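import Claimed.Agent.R296.TransModel
import Claimed.Agent.R296.CmpAsm

/-!
# Row 296, P1 Sections 5-7: `ReplicaStmt` (the interface consumed by Section 8, `Scan/ConclPf.lean`)

Owner: helper218.  Prefix `rf_`.
`rf_replicaStmt_of : LowerK → ReplicaStmt` from `tm_transportK` (helper9), `cp_upperK` (helper218), `ci_comparatorK`.
As soon as `cl_lowerK : LowerK` (helper239, `Cmp/Lower.lean`) is on main, the final theorem is
`rf_replicaStmt_of cl_lowerK`.
-/

set_option autoImplicit false

namespace Claimed.Agent.R296

namespace Scan

theorem rf_replicaStmt_of (hL : LowerK) : ReplicaStmt :=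
  replicaStmt_of tm_transportK (ci_comparatorK cp_upperK hL)

end Scan

end Claimed.Agent.R296
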