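import Claimed.Agent.R296.Tree
import Claimed.Agent.R296.Replica.MetricDefs
import Claimed.Agent.R296.Scan.Typ

/-!
# Row 296, P1 Sections 6+7: the concrete `k`-copy model behind `Scan.ReplicaStmt`

Owner: helper218.  Prefix `rm` (definitions of the extended one-copy system) and `Scan.RepData.m*`
(objects attached to a `RepData`).  DEFINITIONS + the two section-level statements

* `TransportK`  (= `prop:transport` for the model; owner of the proof: Section 6, helper9),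
* `ComparatorK` (= `prop:comparators` for the model; owner of the proof: Section 7, helper218),

and the glue `replicaStmt_of : TransportK → ComparatorK → Scan.ReplicaStmt`.

## The model
* sites of the extended one-copy system: `Λ ⊕ Bool`; `inl y` physical, `rmC = inr false` the
  auxiliary system `C`, `rmR = inr true` the auxiliary system `R`, both of dimension `d`
  (`d = 𝔇.dst = d_*` = number of typical eigenvalues of `ρ_X`);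
* `rmVec d Ω = Ω ⊗ Bell_{CR}`, `rmLift d h = h ⊗ 1_{CR}`, `rmPh Q` = the physical region `Q`;
* copies are indexed by a finite type `κ` (`Fin k` in the statements);
* `𝔇.mBand κ s`   : band metric `A(P,Y,F)`, `P = C ∪ s.1`, `F = R ∪ s.2`, `Y` = the rest, `t = a/2`;
* `𝔇.mLeaf κ l`   : `∏_g` band metrics of the status of the label `l`;
* `𝔇.mRoot κ T`   : the root `𝓜(T)` of the mean tree;
* `𝔇.mPre κ lam`  : `pre = π_R^{lam} (Ω ⊗ Bell)^{⊗κ}` in the occupation-number basis;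
* `𝔇.mN2`, `𝔇.mF`, `𝔇.mV`, `𝔇.mEd` : `N²`, `F = -(log N²)/k`, `v`, `E_def`.
-/

set_option autoImplicit false
set_option linter.unusedSectionVars false

namespace Claimed.Agent.R296

open Matrix Finset
open scoped ComplexOrder

/-! ### the extended one-copy system -/

section Ext

variable {Λ : Type}

/-- local index types of the extended system -/
abbrev rmIo (io : Λ → Type) (d : ℕ) : Λ ⊕ Bool → Type := Sum.elim io fun _ => Fin d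

instance rmIoFintype (io : Λ → Type) [∀ x, Fintype (io x)] (d : ℕ) : ∀ x, Fintype (rmIo io d x)
  | Sum.inl x => inferInstanceAs (Fintype (io x))
  | Sum.inr _ => inferInstanceAs (Fintype (Fin d))

instance rmIoDecEq (io : Λ → Type) [∀ x, DecidableEq (io x)] (d : ℕ) :
    ∀ x, DecidableEq (rmIo io d x)
  | Sum.inl x => inferInstanceAs (DecidableEq (io x))
  | Sum.inr _ => inferInstanceAs (DecidableEq (Fin d))

/-- the auxiliary site `C` -/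
abbrev rmC : Λ ⊕ Bool := Sum.inr false

/-- the auxiliary site `R` -/
abbrev rmR : Λ ⊕ Bool := Sum.inr true

/-- a physical region inside the extended system -/
def rmPh (Q : Finset Λ) : Finset (Λ ⊕ Bool) := Q.map Function.Embedding.inl

variable {io : Λ → Type} {d : ℕ}

/-- the physical part of a configuration -/
def rmPhys (σ : Cfg (rmIo io d)) : Cfg io := fun y => σ (Sum.inl y)

/-- the `C`-component of a configuration -/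
def rmAtC (σ : Cfg (rmIo io d)) : Fin d := σ (Sum.inr false)

/-- the `R`-component of a configuration -/
def rmAtR (σ : Cfg (rmIo io d)) : Fin d := σ (Sum.inr true)

/-- `Ω ⊗ Bell_{CR}` -/
noncomputable def rmVec (d : ℕ) (Ω : Cfg io → ℂ) : Cfg (rmIo io d) → ℂ := fun σ =>
  Ω (rmPhys σ) * (if rmAtC σ = rmAtR σ then ((Real.sqrt d : ℝ) : ℂ)⁻¹ else 0)

/-- `h ⊗ 1_{CR}` -/
def rmLift (d : ℕ) (h : Matrix (Cfg io) (Cfg io) ℂ) :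
    Matrix (Cfg (rmIo io d)) (Cfg (rmIo io d)) ℂ :=
  Matrix.of fun σ τ => if rmAtC σ = rmAtC τ ∧ rmAtR σ = rmAtR τ then h (rmPhys σ) (rmPhys τ) else 0

end Ext

/-! ### the objects attached to a `RepData` -/

namespace Scan

namespace RepData

variable {Λ ι α : Type} [Fintype Λ] [DecidableEq Λ] [Fintype ι]
  {io : Λ → Type} [∀ x, Fintype (io x)] [∀ x, DecidableEq (io x)]
  (𝔇 : RepData Λ ι α io) (κ : Type) [Fintype κ] [DecidableEq κ]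

/-- `d_*` -/
noncomputable def dst : ℕ := Multiset.card (typM (ptr 𝔇.X 𝔇.S.rho) 𝔇.w)

/-- index type of `Sym^κ 𝒱` -/
abbrev MIx : Type := SymIx (rmIo io 𝔇.dst) κ

/-- the part `P = C X U` of a band status -/
def mP (s : Finset Λ × Finset Λ) : Finset (Λ ⊕ Bool) := rmPh s.1 ∪ {rmC}

/-- the part `F = R V` of a band status -/
def mFar (s : Finset Λ × Finset Λ) : Finset (Λ ⊕ Bool) := rmPh s.2 ∪ {rmR}

/-- the part `Y` of a band status -/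
def mY (s : Finset Λ × Finset Λ) : Finset (Λ ⊕ Bool) := rmPh (s.1 ∪ s.2)ᶜ

/-- the band metric of a band status -/
noncomputable def mBand (s : Finset Λ × Finset Λ) : Matrix (𝔇.MIx κ) (𝔇.MIx κ) ℂ :=
  bandM κ (𝔇.a / 2) (mP s) (mY s) (mFar s)

/-- the metric of band `g` at the label `l` -/
noncomputable def mLeafB (g : Fin 𝔇.K) (l : α) : Matrix (𝔇.MIx κ) (𝔇.MIx κ) ℂ :=
  𝔇.mBand κ (𝔇.st l g)

/-- the leaf metric `A_l = ∏_g A_{l,g}` -/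
noncomputable def mLeaf (l : α) : Matrix (𝔇.MIx κ) (𝔇.MIx κ) ℂ :=
  (List.ofFn fun g => 𝔇.mLeafB κ g l).prod

/-- the root `𝓜(T)` -/
noncomputable def mRoot (T : MTree α) : Matrix (𝔇.MIx κ) (𝔇.MIx κ) ℂ := T.ev (𝔇.mLeaf κ)

/-- the root `𝓜_g(T)` of band `g` -/
noncomputable def mRootB (g : Fin 𝔇.K) (T : MTree α) : Matrix (𝔇.MIx κ) (𝔇.MIx κ) ℂ :=
  T.ev (𝔇.mLeafB κ g)

/-- the one-copy vector `Ψ = Ω ⊗ Bell_{CR}` -/
noncomputable def mPsi : Cfg (rmIo io 𝔇.dst) → ℂ := rmVec 𝔇.dst 𝔇.S.Om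

variable {κ}

/-- `pre` on the full tensor space -/
noncomputable def mPreFull (lam : Rep.Irr (Equiv.Perm κ)) : RCfg (rmIo io 𝔇.dst) κ → ℂ :=
  labP {rmR} lam *ᵥ tpow κ 𝔇.mPsi

/-- `pre = π_R^{lam} Ψ^{⊗κ}` -/
noncomputable def mPre (lam : Rep.Irr (Equiv.Perm κ)) : 𝔇.MIx κ → ℂ := cmpVec (𝔇.mPreFull lam)

/-- `N² = ⟨pre, 𝓜^{-1/2} pre⟩` -/
noncomputable def mN2 (lam : Rep.Irr (Equiv.Perm κ)) (T : MTree α) : ℝ :=
  (star (𝔇.mPre lam) ⬝ᵥ (rpw (𝔇.mRoot κ T) (-(1 / 2)) *ᵥ 𝔇.mPre lam)).re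

/-- `F = -(log N²)/k` -/
noncomputable def mF (lam : Rep.Irr (Equiv.Perm κ)) (T : MTree α) : ℝ :=
  -Real.log (𝔇.mN2 lam T) / Fintype.card κ

/-- `v = 𝓜^{-1/4} pre / N` -/
noncomputable def mV (lam : Rep.Irr (Equiv.Perm κ)) (T : MTree α) : 𝔇.MIx κ → ℂ :=
  (((Real.sqrt (𝔇.mN2 lam T))⁻¹ : ℝ) : ℂ) • (rpw (𝔇.mRoot κ T) (-(1 / 4)) *ᵥ 𝔇.mPre lam)

variable (κ)

/-- the physical mean energy `\bar H` on `Sym^κ 𝒱` -/
noncomputable def mH : Matrix (𝔇.MIx κ) (𝔇.MIx κ) ℂ := barOp κ (rmLift 𝔇.dst (∑ i, 𝔇.S.h i))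

variable {κ}

/-- `E_def = (⟨v, \bar H v⟩ - E0) / gap` -/
noncomputable def mEd (lam : Rep.Irr (Equiv.Perm κ)) (T : MTree α) : ℝ :=
  ((star (𝔇.mV lam T) ⬝ᵥ (𝔇.mH κ *ᵥ 𝔇.mV lam T)).re - 𝔇.S.E0) / 𝔇.S.gap

/-! ### the two halves of `RepData.Out` -/

/-- the half of `Out` delivered by Section 6 -/
structure OutT (C ζ : ℝ) (F Ed : MTree α → ℝ) : Prop where
  end0 : ∀ r, F (𝔇.tree r 0) = F (𝔇.Hs r)
  end1 : ∀ r, F (𝔇.tree r 1) = F ((𝔇.Hs r).bind (𝔇.Ch r))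
  cont : ∀ r, ContinuousOn (fun p => F (𝔇.tree r p)) (Set.Icc 0 1)
  floor : ∀ r, -ζ ≤ F (𝔇.Hs r)
  transport : ∀ r, ∀ p ∈ Set.Ioo (0 : ℝ) 1, ∃ (An : MTree (α × Ann Λ 𝔇.K)) (F' : ℝ),
    An.map Prod.fst = 𝔇.Hs r ∧ An.All (fun y => AnnOK io y.2) ∧
    HasDerivAt (fun p => F (𝔇.tree r p)) F' p ∧
    𝔇.a / 2 * An.E (𝔇.gainAt r) - C * 𝔇.a * 𝔇.K * 𝔇.a ^ ((1 : ℝ) / 4) * 𝔇.ell ^ C - ζ ≤ F' ∧
    𝔇.S.gap * Ed (𝔇.tree r p) ≤ 𝔇.S.E0 + C * 𝔇.a ^ 2 * 𝔇.ell ^ C *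
      ∑ i, (𝔇.tree r p).E (fun l => ind (𝔇.SplitAt i l)) *
        ((1 - p) * An.E (𝔇.costAt i) +
          p * ((𝔇.Hs r).bind (𝔇.Ch r)).E (fun l => ind (𝔇.SplitAt i l)) *
            (2 * 𝔇.ell) ^ ((1 : ℝ) / 8)) + ζ

/-- the half of `Out` delivered by Section 7 -/
structure OutC (C0 c0 C a0 ζ : ℝ) (F Ed : MTree α → ℝ) : Prop where
  ed_nonneg : ∀ r, ∀ p ∈ Set.Icc (0 : ℝ) 1, 0 ≤ Ed (𝔇.tree r p)
  rough_upper : 𝔇.PrefixData → ∀ r, ∀ p ∈ Set.Icc (0 : ℝ) 1,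
    F (𝔇.tree r p) ≤ 2 * 𝔇.ld - Real.log 𝔇.z +
      𝔇.W / 2 * (2 * 𝔇.Bsh / 𝔇.z + 2 * 𝔇.Bexc) + ζ
  rough_lower : ∀ r, ∀ p ∈ Set.Icc (0 : ℝ) 1,
    𝔇.W / 2 * (2 * 𝔇.S' - C * (𝔇.τ * 𝔇.ld + Real.binEntropy 𝔇.τ / 𝔇.a) -
      C * (Ed (𝔇.tree r p) / 𝔇.τ) * 𝔇.S') - ζ ≤ F (𝔇.tree r p)
  sharp_upper : 𝔇.MgfData C0 c0 → 𝔇.a * Real.sqrt 𝔇.BB ≤ a0 → ∀ r, ∀ p ∈ Set.Icc (0 : ℝ) 1,
    F (𝔇.tree r p) ≤ 2 * 𝔇.ld - Real.log 𝔇.z +
      𝔇.W / 2 * (𝔇.av 𝔇.gpost (𝔇.tree r p) + C * (𝔇.a * 𝔇.BB + |Real.log 𝔇.z| / 𝔇.a)) + ζ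
  sharp_lower : 𝔇.MgfData C0 c0 → 𝔇.a * Real.sqrt 𝔇.BB ≤ a0 → ∀ gmax : ℝ,
    (∀ l, 𝔇.Al l → ∀ g, 𝔇.gpre (𝔇.st l g) ≤ gmax) → ∀ r, ∀ p ∈ Set.Icc (0 : ℝ) 1,
    𝔇.W / 2 * (2 * 𝔇.S' + (1 - 𝔇.τ) * 𝔇.av 𝔇.gpre (𝔇.tree r p) -
      C * (𝔇.τ * 𝔇.ld + Real.binEntropy 𝔇.τ / 𝔇.a + 𝔇.a * 𝔇.BB) -
      C * (Ed (𝔇.tree r p) / 𝔇.τ) * (𝔇.S' + gmax)) - ζ ≤ F (𝔇.tree r p)

variable {𝔇}

theorem Out.of_halves {C0 c0 C a0 ζ : ℝ} {F Ed : MTree α → ℝ} (hT : 𝔇.OutT C ζ F Ed)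
    (hC : 𝔇.OutC C0 c0 C a0 ζ F Ed) : 𝔇.Out C0 c0 C a0 ζ F Ed :=
  { end0 := hT.end0, end1 := hT.end1, cont := hT.cont, floor := hT.floor
    transport := hT.transport, rough_upper := hC.rough_upper, rough_lower := hC.rough_lower
    sharp_upper := hC.sharp_upper, sharp_lower := hC.sharp_lower }

/-- the smallness constant may be increased in the hypotheses -/
theorem WF.mono {a0 a1 : ℝ} (h : a0 ≤ a1) (hW : 𝔇.WF a0) : 𝔇.WF a1 :=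
  { hW with a_le := hW.a_le.trans h, a_ell := hW.a_ell.trans h }

theorem rm_ind_nonneg (P : Prop) : 0 ≤ ind P := by
  unfold ind
  split_ifs <;> norm_num

theorem rm_unit_nsq {n : Type} [Fintype n] {Ω : n → ℂ} (h : star Ω ⬝ᵥ Ω = 1) :
    ∑ i, ‖Ω i‖ ^ 2 = 1 := by
  have h1 : star Ω ⬝ᵥ Ω = ((∑ i, ‖Ω i‖ ^ 2 : ℝ) : ℂ) := by
    simp only [dotProduct, Pi.star_apply, Complex.ofReal_sum]
    refine Finset.sum_congr rfl fun i _ => ?_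
    rw [Complex.star_def, Complex.conj_mul', Complex.ofReal_pow]
  rw [h1] at h
  exact_mod_cast h

/-- `g^pre ≥ 0`: purity and subadditivity -/
theorem rm_gpre_nonneg {a0 : ℝ} (hW : 𝔇.WF a0) (s : Finset Λ × Finset Λ) : 0 ≤ 𝔇.gpre s := by
  have hρ : IsDensity 𝔇.S.rho := pureOp_isDensity (rm_unit_nsq hW.sys.unit)
  have h1 : ent 𝔇.S.rho (s.1 ∪ s.2)ᶜ = ent 𝔇.S.rho (s.1 ∪ s.2) := ent_compl_pureOp _ _
  have h2 := ent_union_le hρ s.1 s.2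
  unfold gpre
  linarith

theorem rm_exists_leaf {P : α → Prop} : ∀ {t : MTree α}, t.All P → ∃ a, P a
  | MTree.leaf a, h => ⟨a, h⟩
  | MTree.node _ _ _, h => rm_exists_leaf h.1

/-- LEAF (`rm-mono`): the constant of the transport half may be increased.
All terms multiplied by `C` are nonnegative: `ell ≥ 1`, `a > 0`, valid trees, `AnnOK`. -/
theorem OutT.mono {a0 C C' ζ : ℝ} {F Ed : MTree α → ℝ} (hW : 𝔇.WF a0) (h1 : 1 ≤ C) (h : C ≤ C')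
    (hT : 𝔇.OutT C ζ F Ed) : 𝔇.OutT C' ζ F Ed := by
  have ha := hW.a_pos
  have hell := hW.ell_ge
  have hell0 : 0 ≤ 𝔇.ell := by linarith
  have hC0 : 0 ≤ C := by linarith
  have hpow : 𝔇.ell ^ C ≤ 𝔇.ell ^ C' := Real.rpow_le_rpow_of_exponent_le hell h
  have hpow0 : 0 ≤ 𝔇.ell ^ C := Real.rpow_nonneg hell0 _
  have hCp : C * 𝔇.ell ^ C ≤ C' * 𝔇.ell ^ C' := mul_le_mul h hpow hpow0 (by linarith)
  refine { end0 := hT.end0, end1 := hT.end1, cont := hT.cont, floor := hT.floor, transport := ?_ }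
  intro r p hp
  obtain ⟨An, F', hmap, hall, hder, hgain, hen⟩ := hT.transport r p hp
  refine ⟨An, F', hmap, hall, hder, ?_, ?_⟩
  · have hk : 0 ≤ 𝔇.a * 𝔇.K * 𝔇.a ^ ((1 : ℝ) / 4) := by positivity
    have : C * 𝔇.a * 𝔇.K * 𝔇.a ^ ((1 : ℝ) / 4) * 𝔇.ell ^ C ≤
        C' * 𝔇.a * 𝔇.K * 𝔇.a ^ ((1 : ℝ) / 4) * 𝔇.ell ^ C' := by
      calc C * 𝔇.a * 𝔇.K * 𝔇.a ^ ((1 : ℝ) / 4) * 𝔇.ell ^ C
          = (C * 𝔇.ell ^ C) * (𝔇.a * 𝔇.K * 𝔇.a ^ ((1 : ℝ) / 4)) := by ring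
        _ ≤ (C' * 𝔇.ell ^ C') * (𝔇.a * 𝔇.K * 𝔇.a ^ ((1 : ℝ) / 4)) :=
            mul_le_mul_of_nonneg_right hCp hk
        _ = _ := by ring
    linarith
  · have hHs : (𝔇.Hs r).SValid := hW.hs_valid r
    have hAnV : An.Valid := MTree.valid_of_map (g := Prod.fst) (by rw [hmap]; exact hHs.valid)
    have hTr : (𝔇.tree r p).Valid :=
      (MTree.svalid_bind hHs (MTree.All.imp (fun l hl => ⟨hp.1, hp.2, trivial, hl.1⟩)
        (hW.ch_ok r))).valid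
    have hBd : ((𝔇.Hs r).bind (𝔇.Ch r)).Valid :=
      (MTree.svalid_bind hHs (MTree.All.imp (fun l hl => hl.1) (hW.ch_ok r))).valid
    have hcost : ∀ i, 0 ≤ An.E (𝔇.costAt i) := by
      intro i
      refine MTree.E_nonneg_of_all hAnV (MTree.All.imp (fun y hy => ?_) hall)
      unfold costAt
      refine Finset.sum_nonneg fun g _ => add_nonneg ?_ ?_
      · exact mul_nonneg (rm_ind_nonneg _) (hy g true _).2.2.1
      · exact mul_nonneg (rm_ind_nonneg _) (hy g false _).2.2.1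
    have hS : 0 ≤ ∑ i, (𝔇.tree r p).E (fun l => ind (𝔇.SplitAt i l)) *
        ((1 - p) * An.E (𝔇.costAt i) +
          p * ((𝔇.Hs r).bind (𝔇.Ch r)).E (fun l => ind (𝔇.SplitAt i l)) *
            (2 * 𝔇.ell) ^ ((1 : ℝ) / 8)) := by
      refine Finset.sum_nonneg fun i _ => mul_nonneg ?_ (add_nonneg ?_ ?_)
      · exact MTree.E_nonneg hTr fun l => rm_ind_nonneg _
      · exact mul_nonneg (by linarith [hp.2]) (hcost i)
      · refine mul_nonneg (mul_nonneg hp.1.le ?_) (Real.rpow_nonneg (by linarith) _)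
        exact MTree.E_nonneg hBd fun l => rm_ind_nonneg _
    have hk : C * 𝔇.a ^ 2 * 𝔇.ell ^ C ≤ C' * 𝔇.a ^ 2 * 𝔇.ell ^ C' := by
      calc C * 𝔇.a ^ 2 * 𝔇.ell ^ C = (C * 𝔇.ell ^ C) * 𝔇.a ^ 2 := by ring
        _ ≤ (C' * 𝔇.ell ^ C') * 𝔇.a ^ 2 := mul_le_mul_of_nonneg_right hCp (by positivity)
        _ = _ := by ring
    have := mul_le_mul_of_nonneg_right hk hS
    linarith

/-- LEAF (`rm-mono`): the constants of the comparator half may be weakened.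
All terms multiplied by `C` are nonnegative: `W ≥ 0`, `Ed ≥ 0` (field `ed_nonneg`), `S' ≥ 0`, `ld ≥ 0`,
`binEntropy τ ≥ 0`, `BB ≥ 1`; for `sharp_lower` also `gmax ≥ 0`, which follows from `gpre ≥ 0`
(purity `S(Y) = S(XU ∪ V)` + subadditivity) at one leaf of `Hs r` (allowed by `hs_al`) and one band
(`K_pos`). -/
theorem OutC.mono {a0 a1 a2 C0 c0 C C' ζ : ℝ} {F Ed : MTree α → ℝ} (hW : 𝔇.WF a0) (h1 : 1 ≤ C)
    (h : C ≤ C') (ha : a2 ≤ a1) (hC : 𝔇.OutC C0 c0 C a1 ζ F Ed) : 𝔇.OutC C0 c0 C' a2 ζ F Ed := by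
  have hapos := hW.a_pos
  have hτ := hW.tau_pos
  have hWn : 0 ≤ 𝔇.W / 2 := by
    unfold W
    positivity
  have hld : 0 ≤ 𝔇.ld := typLd_nonneg _ _
  have hS' : 0 ≤ 𝔇.S' := typS_nonneg _ _
  have hbe : 0 ≤ Real.binEntropy 𝔇.τ :=
    Real.binEntropy_nonneg hτ.le (by linarith [hW.tau_lt])
  have hA : 0 ≤ 𝔇.τ * 𝔇.ld + Real.binEntropy 𝔇.τ / 𝔇.a := by positivity
  have hd : 0 ≤ C' - C := by linarith
  refine { ed_nonneg := hC.ed_nonneg, rough_upper := hC.rough_upper, rough_lower := ?_,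
           sharp_upper := ?_, sharp_lower := ?_ }
  · intro r p hp
    have hE := hC.ed_nonneg r p hp
    have hB : 0 ≤ Ed (𝔇.tree r p) / 𝔇.τ * 𝔇.S' := by positivity
    refine le_trans ?_ (hC.rough_lower r p hp)
    have : 𝔇.W / 2 * (2 * 𝔇.S' - C' * (𝔇.τ * 𝔇.ld + Real.binEntropy 𝔇.τ / 𝔇.a) -
        C' * (Ed (𝔇.tree r p) / 𝔇.τ) * 𝔇.S') ≤
        𝔇.W / 2 * (2 * 𝔇.S' - C * (𝔇.τ * 𝔇.ld + Real.binEntropy 𝔇.τ / 𝔇.a) -
        C * (Ed (𝔇.tree r p) / 𝔇.τ) * 𝔇.S') := by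
      refine mul_le_mul_of_nonneg_left ?_ hWn
      nlinarith [mul_nonneg hd hA, mul_nonneg hd hB]
    linarith
  · intro hM hsm r p hp
    have hBB : 0 ≤ 𝔇.a * 𝔇.BB + |Real.log 𝔇.z| / 𝔇.a := by
      have := hM.BB_ge
      have h0 : 0 ≤ 𝔇.BB := by linarith
      positivity
    refine le_trans (hC.sharp_upper hM (hsm.trans ha) r p hp) ?_
    have : 𝔇.W / 2 * (𝔇.av 𝔇.gpost (𝔇.tree r p) + C * (𝔇.a * 𝔇.BB + |Real.log 𝔇.z| / 𝔇.a)) ≤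
        𝔇.W / 2 * (𝔇.av 𝔇.gpost (𝔇.tree r p) + C' * (𝔇.a * 𝔇.BB + |Real.log 𝔇.z| / 𝔇.a)) := by
      refine mul_le_mul_of_nonneg_left ?_ hWn
      nlinarith [mul_nonneg hd hBB]
    linarith
  · intro hM hsm gmax hg r p hp
    have hE := hC.ed_nonneg r p hp
    have hgm : 0 ≤ gmax := by
      obtain ⟨l, hl⟩ := rm_exists_leaf (hW.hs_al r)
      exact (rm_gpre_nonneg hW _).trans (hg l hl ⟨0, hW.K_pos⟩)
    have hBB : 0 ≤ 𝔇.τ * 𝔇.ld + Real.binEntropy 𝔇.τ / 𝔇.a + 𝔇.a * 𝔇.BB := by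
      have := hM.BB_ge
      have h0 : 0 ≤ 𝔇.BB := by linarith
      positivity
    have hB : 0 ≤ Ed (𝔇.tree r p) / 𝔇.τ * (𝔇.S' + gmax) := by positivity
    refine le_trans ?_ (hC.sharp_lower hM (hsm.trans ha) gmax hg r p hp)
    have : 𝔇.W / 2 * (2 * 𝔇.S' + (1 - 𝔇.τ) * 𝔇.av 𝔇.gpre (𝔇.tree r p) -
        C' * (𝔇.τ * 𝔇.ld + Real.binEntropy 𝔇.τ / 𝔇.a + 𝔇.a * 𝔇.BB) -
        C' * (Ed (𝔇.tree r p) / 𝔇.τ) * (𝔇.S' + gmax)) ≤
        𝔇.W / 2 * (2 * 𝔇.S' + (1 - 𝔇.τ) * 𝔇.av 𝔇.gpre (𝔇.tree r p) -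
        C * (𝔇.τ * 𝔇.ld + Real.binEntropy 𝔇.τ / 𝔇.a + 𝔇.a * 𝔇.BB) -
        C * (Ed (𝔇.tree r p) / 𝔇.τ) * (𝔇.S' + gmax)) := by
      refine mul_le_mul_of_nonneg_left ?_ hWn
      nlinarith [mul_nonneg hd hBB, mul_nonneg hd hB]
    linarith

end RepData

/-- **Section 6 for the model** (`prop:transport`): for every label with `pre ≠ 0`. -/
def TransportK : Prop :=
  ∃ C a0 : ℝ, 1 ≤ C ∧ 0 < a0 ∧
    ∀ (Λ ι α : Type) [Fintype Λ] [DecidableEq Λ] [Fintype ι] (io : Λ → Type)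
      [∀ x, Fintype (io x)] [∀ x, DecidableEq (io x)] [∀ x, Nonempty (io x)]
      (𝔇 : RepData Λ ι α io), 𝔇.WF a0 → ∀ ζ : ℝ, 0 < ζ → ∃ k0 : ℕ, ∀ k : ℕ, k0 ≤ k →
        ∀ lam : Rep.Irr (Equiv.Perm (Fin k)), 𝔇.mPre lam ≠ 0 →
          𝔇.OutT C ζ (𝔇.mF lam) (𝔇.mEd lam)

/-- **Section 7 for the model** (`prop:comparators`): for a suitable label. -/
def ComparatorK : Prop :=
  ∀ C0 c0 : ℝ, 0 < C0 → 0 < c0 → ∃ C a0 : ℝ, 1 ≤ C ∧ 0 < a0 ∧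
    ∀ (Λ ι α : Type) [Fintype Λ] [DecidableEq Λ] [Fintype ι] (io : Λ → Type)
      [∀ x, Fintype (io x)] [∀ x, DecidableEq (io x)] [∀ x, Nonempty (io x)]
      (𝔇 : RepData Λ ι α io), 𝔇.WF a0 → ∀ ζ : ℝ, 0 < ζ → ∃ k0 : ℕ, ∀ k : ℕ, k0 ≤ k →
        ∃ lam : Rep.Irr (Equiv.Perm (Fin k)), 𝔇.mPre lam ≠ 0 ∧
          𝔇.OutC C0 c0 C a0 ζ (𝔇.mF lam) (𝔇.mEd lam)

/-- the glue -/
theorem replicaStmt_of (hT : TransportK) (hC : ComparatorK) : ReplicaStmt := by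
  intro C0 c0 hC0 hc0
  obtain ⟨C1, a1, hC1, ha1, hT⟩ := hT
  obtain ⟨C2, a2, hC2, ha2, hC⟩ := hC C0 c0 hC0 hc0
  refine ⟨max C1 C2, min a1 a2, le_max_of_le_left hC1, lt_min ha1 ha2, ?_⟩
  intro Λ ι α _ _ _ io _ _ _ 𝔇 hW ζ hζ
  obtain ⟨k1, hk1⟩ := hT Λ ι α io 𝔇 (hW.mono (min_le_left _ _)) ζ hζ
  obtain ⟨k2, hk2⟩ := hC Λ ι α io 𝔇 (hW.mono (min_le_right _ _)) ζ hζ
  obtain ⟨lam, hne, hOC⟩ := hk2 (max k1 k2) (le_max_right _ _)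
  have hOT := hk1 (max k1 k2) (le_max_left _ _) lam hne
  exact ⟨𝔇.mF lam, 𝔇.mEd lam,
    RepData.Out.of_halves (hOT.mono hW hC1 (le_max_left _ _))
      (hOC.mono hW hC2 (le_max_right _ _) (min_le_right _ _))⟩

end Scan

end Claimed.Agent.R296
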