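import Claimed.Agent.R296.Sec3
import Claimed.Agent.R296.LRRoots
import Claimed.Agent.R296.LRTruncA
import Claimed.Agent.R296.LRTruncB
import Claimed.Agent.R296.LRTruncC
import Claimed.Agent.R296.LRTruncD

/-!
# Row 296, paper 1, Section 3: `prop:truncation` on the frozen objects of `Def_0473`
-/

set_option autoImplicit false

namespace Claimed.Agent.R296

open Matrix Claims.C0473
open scoped MatrixOrder Matrix.Norms.L2Operator ComplexOrder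

theorem admIx_anchor_mult {Λ : Finset (ℤ × ℤ)} {R : ℕ} (anch : AdmIx Λ R → Λ)
    (hanch : ∀ X, anch X ∈ X.1) (a : Λ) :
    (Finset.univ.filter fun X : AdmIx Λ R => anch X = a).card ≤ muR R := by
  refine le_trans (Finset.card_le_card ?_) (admIx_mult a)
  intro X hX
  rw [Finset.mem_filter] at hX ⊢
  exact ⟨hX.1, hX.2 ▸ hanch X⟩

open Classical in
/-- **`prop:truncation`.**  `kk` is any family with the conclusions of `prop:positive` at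
`α = 1/2`; `anch` any choice of anchors.  `r₀ = ⌈C₁ log² n⌉`, designated supports
`lrTSupp (latticeGraph Λ) r₀ S₀ (anch X)`, truncated terms `cexp (supp X) (kk X)`. -/
theorem sec3_truncation (q R : ℕ) [NeZero q] (g C c C₀ : ℝ) (hg : 0 < g) (hC : 0 < C)
    (hc : 0 < c) (hC₀ : 0 < C₀) :
    ∃ C₁ C₂ : ℝ, 0 < C₁ ∧ 0 < C₂ ∧
      ∀ (Λ : Finset (ℤ × ℤ)) (Ω : (Λ → Fin q) → ℂ)
        (kk : AdmIx Λ R → Matrix (Λ → Fin q) (Λ → Fin q) ℂ) (anch : AdmIx Λ R → Λ),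
        star Ω ⬝ᵥ Ω = 1 →
        PosSys (io := fun _ : Λ => Fin q) (latticeGraph Λ) (fun X : AdmIx Λ R => X.1) Ω kk
          g C c (1 / 2) →
        (∀ X, anch X ∈ X.1) →
      ∀ (n : ℝ) (S₀ : Finset Λ), 2 ≤ n → (S₀.card : ℝ) ≤ C₀ * n ^ 2 →
        ∀ (r₀ : ℕ) (ε : ℝ) (supp : AdmIx Λ R → Finset Λ)
          (ht : AdmIx Λ R → Matrix (Λ → Fin q) (Λ → Fin q) ℂ),
        r₀ = ⌈C₁ * (Real.log n) ^ 2⌉₊ → ε = min (n ^ (-1000 : ℝ)) (g / 4) →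
        supp = (fun X => lrTSupp (latticeGraph Λ) r₀ S₀ (anch X)) →
        ht = (fun X => cexp (io := fun _ : Λ => Fin q) (supp X) (kk X)) →
        ((r₀ : ℝ) + 1 ≤ C₂ * (Real.log n) ^ 2) ∧
        (∀ X, 0 ≤ ht X ∧ ht X ≤ 1 ∧ SuppIn (io := fun _ : Λ => Fin q) (supp X) (ht X)) ∧
        ‖∑ X, ht X - ∑ X, kk X‖ ≤ ε ∧
        (∃ (Et : ℝ) (Ωt : (Λ → Fin q) → ℂ), 0 ≤ Et ∧ Et ≤ ε ∧ star Ωt ⬝ᵥ Ωt = 1 ∧
          (∑ X, ht X) *ᵥ Ωt = (Et : ℂ) • Ωt ∧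
          ((g / 2 : ℝ) : ℂ) • (1 - pureOp Ωt) ≤ ∑ X, ht X - (Et : ℂ) • 1 ∧
          ∑ σ, ‖Ωt σ - Ω σ‖ ^ 2 ≤ 4 * ε / g ∧ 1 - ‖star Ω ⬝ᵥ Ωt‖ ^ 2 ≤ 2 * ε / g) ∧
        (∀ X' : Finset Λ, X' ⊆ S₀ →
          (∀ X, IsSplit X' (supp X) → supp X = gBall Λ (anch X) r₀) ∧
          (((Finset.univ.filter fun X => IsSplit X' (supp X)).card : ℝ)
            ≤ C₂ * edgeBoundary Λ X' * ((r₀ : ℝ) + 1) ^ 2) ∧
          (∀ X, IsSplit X' (supp X) → ((supp X).card : ℝ) ≤ C₂ * ((r₀ : ℝ) + 1) ^ 2) ∧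
          1 + ∑ X with IsSplit X' (supp X), (1 + ((supp X).card : ℝ) * Real.log q) ^ 2
            ≤ C₂ * (1 + edgeBoundary Λ X') * ((r₀ : ℝ) + 1) ^ 6) := by
  obtain ⟨C', c', hC', hc', hnorm⟩ := lr_trunc_norm (α := 1 / 2) (by norm_num) C c hC hc (muR R)
  obtain ⟨C₁, hC₁, hchoice⟩ := lr_trunc_choice C' c' C₀ g hC' hc' hC₀ hg
  obtain ⟨C3, hC3, hrad⟩ := lr_trunc_radius_le C₁ hC₁
  obtain ⟨C4, hC4, hbudget⟩ := lr_cut_budget q (muR R)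
  refine ⟨C₁, C3 + C4 + 4 * (muR R : ℝ) + 4, hC₁, by positivity, ?_⟩
  intro Λ Ω kk anch hΩ HP hanch n S₀ hn hS₀ r₀ ε supp ht hr₀ hε hsupp hht
  subst hsupp hht
  have hmult := admIx_anchor_mult anch hanch
  have hr1 : (0 : ℝ) ≤ (r₀ : ℝ) + 1 := by positivity
  have hmu : (0 : ℝ) ≤ (muR R : ℝ) := Nat.cast_nonneg _
  have hlog : 0 ≤ (Real.log n) ^ 2 := sq_nonneg _
  have hE : ‖∑ X, cexp (io := fun _ : Λ => Fin q) (lrTSupp (latticeGraph Λ) r₀ S₀ (anch X)) (kk X)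
      - ∑ X, kk X‖ ≤ ε := by
    have h1 := hnorm (io := fun _ : Λ => Fin q) (fun x r => ct_ball_card x r) HP anch hanch hmult
      S₀ r₀
    have h2 := hchoice n S₀.card hn (Nat.cast_nonneg _) hS₀
    rw [hε, hr₀] at *
    exact h1.trans h2
  refine ⟨?_, ?_, hE, ?_, ?_⟩
  · rw [hr₀]
    refine (hrad n hn).trans (mul_le_mul_of_nonneg_right ?_ hlog)
    linarith
  · intro X
    exact ⟨HP.loc_nonneg X _, HP.loc_le_one X _, suppIn_cexp _ _⟩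
  · apply lr_gap_perturb hg (by rw [hε]; exact min_le_right _ _) hΩ HP.sum_kills HP.gap _ hE
    exact Finset.sum_nonneg fun X _ => HP.loc_nonneg X _
  · intro X' hX'
    have hb : (0 : ℝ) ≤ (edgeBoundary Λ X' : ℝ) := Nat.cast_nonneg _
    have h21 : ((2 * r₀ + 1 : ℕ) : ℝ) ^ 2 ≤ 4 * ((r₀ : ℝ) + 1) ^ 2 := by
      push_cast
      nlinarith [(Nat.cast_nonneg r₀ : (0 : ℝ) ≤ r₀)]
    refine ⟨?_, ?_, ?_, ?_⟩
    · intro X hX
      obtain ⟨x, hxs, hxX⟩ := hX.1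
      exact lr_cross_radius (hX' hxX) hxs
    · have h1 := lr_cross_count anch (muR R) hmult r₀ S₀ X' hX'
      have h2 : (((Finset.univ.filter fun X =>
          IsSplit X' (lrTSupp (latticeGraph Λ) r₀ S₀ (anch X))).card : ℕ) : ℝ)
          ≤ ((edgeBoundary Λ X' * ((2 * r₀ + 1) ^ 2 * muR R) : ℕ) : ℝ) := by exact_mod_cast h1
      refine h2.trans ?_
      push_cast at h21 ⊢
      have h3 : (edgeBoundary Λ X' : ℝ) * ((2 * (r₀ : ℝ) + 1) ^ 2 * (muR R : ℝ))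
          ≤ (edgeBoundary Λ X' : ℝ) * (4 * ((r₀ : ℝ) + 1) ^ 2 * (muR R : ℝ)) :=
        mul_le_mul_of_nonneg_left (mul_le_mul_of_nonneg_right h21 hmu) hb
      refine h3.trans ?_
      have h4 : 0 ≤ (edgeBoundary Λ X' : ℝ) * ((r₀ : ℝ) + 1) ^ 2 := by positivity
      nlinarith
    · intro X hX
      have h1 := lr_cross_card hX' hX
      have h2 : (((lrTSupp (latticeGraph Λ) r₀ S₀ (anch X)).card : ℕ) : ℝ)
          ≤ (((2 * r₀ + 1) ^ 2 : ℕ) : ℝ) := by exact_mod_cast h1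
      refine h2.trans ?_
      push_cast at h21 ⊢
      refine h21.trans ?_
      have h4 : 0 ≤ ((r₀ : ℝ) + 1) ^ 2 := by positivity
      nlinarith
    · refine (hbudget anch hmult r₀ S₀ X' hX').trans ?_
      have h4 : 0 ≤ (1 + (edgeBoundary Λ X' : ℝ)) * ((r₀ : ℝ) + 1) ^ 6 := by positivity
      nlinarith

end Claimed.Agent.R296
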