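import Claimed.Agent.R296.TransState

/-!
# Row 296, P1 Section 6 (proof of prop:transport): the auxiliary positive metric of an energy term

Owner: helper9.  Prefix `tk_`.  ONE leaf package (pure linear algebra, about 900-1300 lines, no trees).

Paper: "An auxiliary positive metric for each energy term".  DEVIATION (uniform in split/unsplit leaves, no
pseudo-inverse): with `T : Matrix m n ℂ`, `T Tᴴ` positive definite, `Tᴴ T = h`, and a positive definite `A` put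
`S = T A^{-1/2}`, `R = T A^{1/2}` and let `B = auxB A T = (S Sᴴ)⁻¹ #_{1/2} (R Rᴴ)` be the positive definite solution of
the Riccati equation `B (S Sᴴ) B = R Rᴴ`.  With `Y = B^{1/2} S`, `Z = B^{-1/2} R`, `O = A^{-1/2} h A^{1/2} = Sᴴ R`:
`Yᴴ Z = O`, `(Yᴴ Y)² = Sᴴ B S Sᴴ B S = Sᴴ R Rᴴ S = O Oᴴ`, `(Zᴴ Z)² = Rᴴ B⁻¹ R Rᴴ B⁻¹ R = Rᴴ S Sᴴ R = Oᴴ O`,
hence `Yᴴ Y = |Oᴴ|`, `Zᴴ Z = |O|` (uniqueness of the PSD square root) and `(Y - Z)ᴴ (Y - Z) = skewD O`.
If `A` commutes with `h` then `O = h ≥ 0`, `skewD O = 0`, hence `Y = Z`.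
-/

set_option autoImplicit false
set_option linter.unusedSectionVars false

namespace Claimed.Agent.R296

open Matrix
open scoped MatrixOrder Matrix.Norms.L2Operator ComplexOrder

variable {n m : Type} [Fintype n] [DecidableEq n] [Fintype m] [DecidableEq m]

/-- rank factorisation of a PSD matrix (rows = nonzero eigenvalues) -/
theorem tk_rank_factor {h : Matrix n n ℂ} (hh : h.PosSemidef) :
    ∃ (m : Type) (_ : Fintype m) (_ : DecidableEq m) (T : Matrix m n ℂ),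
      Tᴴ * T = h ∧ (T * Tᴴ).PosDef := by
  classical
  set U : Matrix n n ℂ := (hh.1.eigenvectorUnitary : Matrix n n ℂ) with hU
  set ev : n → ℝ := hh.1.eigenvalues with hev
  have hev0 : ∀ i, 0 ≤ ev i := hh.eigenvalues_nonneg
  set D : Matrix n n ℂ := diagonal (fun i => ((Real.sqrt (ev i) : ℝ) : ℂ)) with hD
  have hDD : D * D = diagonal (fun i => ((ev i : ℝ) : ℂ)) := by
    rw [hD, diagonal_mul_diagonal]
    congr 1
    funext i
    rw [← Complex.ofReal_mul, Real.mul_self_sqrt (hev0 i)]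
  have hDH : Dᴴ = D := by
    rw [hD, diagonal_conjTranspose]
    congr 1
    funext i
    simp
  have hUU : Uᴴ * U = 1 := eigU_conjTranspose_mul hh.1
  set S : Matrix n n ℂ := D * Uᴴ with hS
  have hSS : Sᴴ * S = h := by
    rw [hS, conjTranspose_mul, conjTranspose_conjTranspose, hDH]
    calc U * D * (D * Uᴴ) = U * (D * D) * Uᴴ := by simp only [Matrix.mul_assoc]
      _ = h := by rw [hDD]; exact (spectral_plain hh.1).symm
  have hSS' : S * Sᴴ = diagonal (fun i => ((ev i : ℝ) : ℂ)) := by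
    rw [hS, conjTranspose_mul, conjTranspose_conjTranspose, hDH]
    calc D * Uᴴ * (U * D) = D * (Uᴴ * U) * D := by simp only [Matrix.mul_assoc]
      _ = _ := by rw [hUU, Matrix.mul_one, hDD]
  refine ⟨{i : n // ev i ≠ 0}, inferInstance, inferInstance,
    S.submatrix (Subtype.val : {i : n // ev i ≠ 0} → n) id, ?_, ?_⟩
  · rw [conjTranspose_submatrix, ← hSS]
    ext j k
    rw [Matrix.mul_apply, Matrix.mul_apply]
    simp only [submatrix_apply, id]
    rw [← Fintype.sum_subtype_add_sum_subtype (fun i => ev i ≠ 0) (fun i => Sᴴ j i * S i k)]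
    have hz : ∑ i : {i : n // ¬ ev i ≠ 0}, Sᴴ j i * S i k = 0 := by
      refine Finset.sum_eq_zero fun i _ => ?_
      have hi : ev i = 0 := not_not.1 i.2
      have : S i k = 0 := by
        rw [hS, hD, Matrix.diagonal_mul, hi]
        simp
      rw [this, mul_zero]
    rw [hz, add_zero]
  · have e : S.submatrix (Subtype.val : {i : n // ev i ≠ 0} → n) id
        * (S.submatrix (Subtype.val : {i : n // ev i ≠ 0} → n) id)ᴴ
        = diagonal (fun i : {i : n // ev i ≠ 0} => ((ev i : ℝ) : ℂ)) := by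
      rw [conjTranspose_submatrix]
      have := Matrix.submatrix_mul_equiv S Sᴴ (Subtype.val : {i : n // ev i ≠ 0} → n)
        (Equiv.refl n) (Subtype.val : {i : n // ev i ≠ 0} → n)
      rw [Equiv.coe_refl] at this
      rw [this, hSS', submatrix_diagonal _ _ Subtype.val_injective]
      rfl
    rw [e, posDef_diagonal_iff]
    intro i
    have : 0 < ev i := lt_of_le_of_ne (hev0 i) (Ne.symm i.2)
    exact_mod_cast this

/-- uniqueness of the PSD square root, in the form used here -/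
theorem tk_eq_spow_half {X Y : Matrix n n ℂ} (hX : X.PosSemidef) (h : X * X = Y) :
    X = spow Y (1 / 2) := by
  have h2 : Y = spow X ((2 : ℝ) : ℂ) := by
    rw [← h, show ((2 : ℝ) : ℂ) = 1 + 1 by norm_num, spow_add, spow_one hX]
  rw [h2, spow_spow hX.1]
  norm_num
  exact (spow_one hX).symm

theorem tk_mabs_of_posSemidef {X : Matrix n n ℂ} (hX : X.PosSemidef) : mabs X = X := by
  unfold mabs
  rw [hX.1.eq]
  exact (tk_eq_spow_half hX rfl).symm

theorem tk_skewD_of_posSemidef {X : Matrix n n ℂ} (hX : X.PosSemidef) : skewD X = 0 := by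
  unfold skewD
  rw [hX.1.eq, tk_mabs_of_posSemidef hX]
  abel

/-- Riccati equation: `G = X⁻¹ #_{1/2} Y` solves `G X G = Y`. -/
theorem tk_riccati {X Y : Matrix m m ℂ} (hX : X.PosDef) (hY : Y.PosDef) :
    gmean (1 / 2) X⁻¹ Y * X * gmean (1 / 2) X⁻¹ Y = Y := by
  have hC : (relm X⁻¹ Y).PosDef := relm_posDef hX.inv hY
  have hCe : relm X⁻¹ Y = rpw X (1 / 2) * Y * rpw X (1 / 2) := by
    unfold relm
    rw [rpw_inv hX, neg_neg]
  unfold gmean
  rw [rpw_inv hX]
  set a := rpw X (-(1 / 2)) with ha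
  set c := rpw (relm X⁻¹ Y) (1 / 2) with hc
  have h1 : a * X * a = 1 := rpw_neg_half_mul_mul hX
  have h2 : c * c = relm X⁻¹ Y := rpw_half_mul_half hC
  have h3 : a * rpw X (1 / 2) = 1 := rpw_neg_mul hX.1 (1 / 2)
  have h4 : rpw X (1 / 2) * a = 1 := rpw_mul_neg hX.1 (1 / 2)
  calc a * c * a * X * (a * c * a) = a * c * (a * X * a) * c * a := by
        simp only [Matrix.mul_assoc]
    _ = a * (c * c) * a := by rw [h1, Matrix.mul_one]; simp only [Matrix.mul_assoc]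
    _ = (a * rpw X (1 / 2)) * Y * (rpw X (1 / 2) * a) := by
        rw [h2, hCe]; simp only [Matrix.mul_assoc]
    _ = Y := by rw [h3, h4, Matrix.one_mul, Matrix.mul_one]

/-- the second diagonal block -/
noncomputable def auxB (A : Matrix n n ℂ) (T : Matrix m n ℂ) : Matrix m m ℂ :=
  gmean (1 / 2) (T * rpw A (-1) * Tᴴ)⁻¹ (T * A * Tᴴ)

/-- the similarity transform `O = A^{-1/2} h A^{1/2}` -/
noncomputable def simT (A h : Matrix n n ℂ) : Matrix n n ℂ := rpw A (-(1 / 2)) * h * rpw A (1 / 2)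

/-- compression of a positive definite matrix by a surjective `T` -/
theorem tk_conj_posDef {A : Matrix n n ℂ} (hA : A.PosDef) {T : Matrix m n ℂ}
    (hT : (T * Tᴴ).PosDef) : (T * A * Tᴴ).PosDef := by
  obtain ⟨c, hc, hle⟩ := pd_exists_smul_one_le hA
  have h := pd_conj_le_conj hle Tᴴ
  rw [conjTranspose_conjTranspose, Matrix.mul_smul, Matrix.smul_mul, Matrix.mul_one] at h
  exact pd_of_le (pd_smul hT hc) h

theorem tk_auxB_posDef {A : Matrix n n ℂ} (hA : A.PosDef) {T : Matrix m n ℂ}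
    (hT : (T * Tᴴ).PosDef) : (auxB A T).PosDef := by
  unfold auxB
  exact gm_posDef _ (tk_conj_posDef (rpw_posDef hA.1 (-1)) hT).inv (tk_conj_posDef hA hT)


/-! ### the three products -/

theorem tk_conjT3 {a : Matrix n n ℂ} {b : Matrix m m ℂ} (ha : aᴴ = a) (hb : bᴴ = b)
    (T : Matrix m n ℂ) : (b * T * a)ᴴ = a * Tᴴ * b := by
  rw [conjTranspose_mul, conjTranspose_mul, ha, hb, Matrix.mul_assoc]

theorem tk_auxB_riccati {A : Matrix n n ℂ} (hA : A.PosDef) {T : Matrix m n ℂ}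
    (hT : (T * Tᴴ).PosDef) :
    auxB A T * (T * rpw A (-1) * Tᴴ) * auxB A T = T * A * Tᴴ :=
  tk_riccati (tk_conj_posDef (rpw_posDef hA.1 (-1)) hT) (tk_conj_posDef hA hT)

theorem tk_rpw_neg_one_eq (A : Matrix n n ℂ) :
    rpw A (-1) = rpw A (-(1 / 2)) * rpw A (-(1 / 2)) := by
  rw [← rpw_add]
  norm_num

/-- `Yᴴ Z = O` -/
theorem tk_Y_Z {A : Matrix n n ℂ} (hA : A.PosDef) {T : Matrix m n ℂ} (hT : (T * Tᴴ).PosDef) :
    (rpw (auxB A T) (1 / 2) * T * rpw A (-(1 / 2)))ᴴ * (rpw (auxB A T) (-(1 / 2)) * T * rpw A (1 / 2)) =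
      simT A (Tᴴ * T) := by
  have hB := tk_auxB_posDef hA hT
  rw [tk_conjT3 (rpw_isHermitian A _).eq (rpw_isHermitian _ _).eq]
  unfold simT
  calc rpw A (-(1 / 2)) * Tᴴ * rpw (auxB A T) (1 / 2)
        * (rpw (auxB A T) (-(1 / 2)) * T * rpw A (1 / 2))
      = rpw A (-(1 / 2)) * Tᴴ * (rpw (auxB A T) (1 / 2) * rpw (auxB A T) (-(1 / 2))) * T
          * rpw A (1 / 2) := by simp only [Matrix.mul_assoc]
    _ = rpw A (-(1 / 2)) * (Tᴴ * T) * rpw A (1 / 2) := by
        rw [rpw_mul_neg hB.1, Matrix.mul_one]; simp only [Matrix.mul_assoc]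

theorem tk_simT_conjTranspose (A : Matrix n n ℂ) {h : Matrix n n ℂ} (hh : hᴴ = h) :
    (simT A h)ᴴ = rpw A (1 / 2) * h * rpw A (-(1 / 2)) := by
  unfold simT
  rw [conjTranspose_mul, conjTranspose_mul, (rpw_isHermitian A _).eq, (rpw_isHermitian A _).eq, hh,
    Matrix.mul_assoc]

theorem tk_TT_herm (T : Matrix m n ℂ) : (Tᴴ * T)ᴴ = Tᴴ * T := by
  rw [conjTranspose_mul, conjTranspose_conjTranspose]

/-- `Yᴴ Y = |Oᴴ|` -/
theorem tk_Y_Y {A : Matrix n n ℂ} (hA : A.PosDef) {T : Matrix m n ℂ} (hT : (T * Tᴴ).PosDef) :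
    (rpw (auxB A T) (1 / 2) * T * rpw A (-(1 / 2)))ᴴ * (rpw (auxB A T) (1 / 2) * T * rpw A (-(1 / 2))) =
      mabs (simT A (Tᴴ * T))ᴴ := by
  have hB := tk_auxB_posDef hA hT
  have hR := tk_auxB_riccati hA hT
  unfold mabs
  apply tk_eq_spow_half (posSemidef_conjTranspose_mul_self _)
  rw [conjTranspose_conjTranspose, tk_simT_conjTranspose A (tk_TT_herm T),
    tk_conjT3 (rpw_isHermitian A _).eq (rpw_isHermitian _ _).eq]
  unfold simT
  set am := rpw A (-(1 / 2)) with ham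
  set ap := rpw A (1 / 2) with hap
  set b := rpw (auxB A T) (1 / 2) with hb
  have hbb : b * b = auxB A T := rpw_half_mul_half hB
  have haa : ap * ap = A := rpw_half_mul_half hA
  rw [tk_rpw_neg_one_eq, ← ham] at hR
  calc am * Tᴴ * b * (b * T * am) * (am * Tᴴ * b * (b * T * am))
      = am * Tᴴ * ((b * b) * (T * (am * am) * Tᴴ) * (b * b)) * T * am := by
        simp only [Matrix.mul_assoc]
    _ = am * Tᴴ * (T * (ap * ap) * Tᴴ) * T * am := by rw [hbb, hR, haa]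
    _ = am * (Tᴴ * T) * ap * (ap * (Tᴴ * T) * am) := by simp only [Matrix.mul_assoc]

/-- `Zᴴ Z = |O|` -/
theorem tk_Z_Z {A : Matrix n n ℂ} (hA : A.PosDef) {T : Matrix m n ℂ} (hT : (T * Tᴴ).PosDef) :
    (rpw (auxB A T) (-(1 / 2)) * T * rpw A (1 / 2))ᴴ * (rpw (auxB A T) (-(1 / 2)) * T * rpw A (1 / 2)) =
      mabs (simT A (Tᴴ * T)) := by
  have hB := tk_auxB_posDef hA hT
  have hR := tk_auxB_riccati hA hT
  unfold mabs
  apply tk_eq_spow_half (posSemidef_conjTranspose_mul_self _)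
  rw [tk_simT_conjTranspose A (tk_TT_herm T),
    tk_conjT3 (rpw_isHermitian A _).eq (rpw_isHermitian _ _).eq]
  unfold simT
  set am := rpw A (-(1 / 2)) with ham
  set ap := rpw A (1 / 2) with hap
  set b := rpw (auxB A T) (1 / 2) with hb
  set c := rpw (auxB A T) (-(1 / 2)) with hc
  have hbb : b * b = auxB A T := rpw_half_mul_half hB
  have haa : ap * ap = A := rpw_half_mul_half hA
  have hcb : c * b = 1 := rpw_neg_mul hB.1 (1 / 2)
  have hbc : b * c = 1 := rpw_mul_neg hB.1 (1 / 2)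
  rw [tk_rpw_neg_one_eq, ← ham, ← hbb] at hR
  calc ap * Tᴴ * c * (c * T * ap) * (ap * Tᴴ * c * (c * T * ap))
      = ap * Tᴴ * (c * c * (T * (ap * ap) * Tᴴ) * (c * c)) * T * ap := by
        simp only [Matrix.mul_assoc]
    _ = ap * Tᴴ * (c * (c * b) * b * (T * (am * am) * Tᴴ) * (b * (b * c) * c)) * T * ap := by
        rw [haa, ← hR]; simp only [Matrix.mul_assoc]
    _ = ap * Tᴴ * (T * (am * am) * Tᴴ) * T * ap := by
        rw [hcb, hbc, Matrix.mul_one, Matrix.mul_one, hcb, hbc, Matrix.one_mul, Matrix.mul_one]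
    _ = ap * (Tᴴ * T) * am * (am * (Tᴴ * T) * ap) := by simp only [Matrix.mul_assoc]

/-- the block form of `K_L` -/
theorem tk_skw_blocks {A : Matrix n n ℂ} {B : Matrix m m ℂ} (hA : A.PosDef) (hB : B.PosDef)
    (T : Matrix m n ℂ) :
    skw (fromBlocks 0 Tᴴ T 0) (fromBlocks A 0 0 B) =
      fromBlocks 0 (rpw A (1 / 2) * Tᴴ * rpw B (-(1 / 2)) - rpw A (-(1 / 2)) * Tᴴ * rpw B (1 / 2))
        (rpw B (1 / 2) * T * rpw A (-(1 / 2)) - rpw B (-(1 / 2)) * T * rpw A (1 / 2)) 0 := by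
  unfold skw
  rw [rpw_fromBlocks hA.1 hB.1, rpw_fromBlocks hA.1 hB.1]
  simp only [fromBlocks_multiply, Matrix.mul_zero, Matrix.zero_mul, add_zero, zero_add]
  rw [sub_eq_add_neg, fromBlocks_neg, fromBlocks_add]
  simp only [neg_zero, add_zero, ← sub_eq_add_neg]

/-- `(Y - Z)ᴴ (Y - Z) = skewD O` -/
theorem tk_skewD_eq {A : Matrix n n ℂ} (hA : A.PosDef) {T : Matrix m n ℂ}
    (hT : (T * Tᴴ).PosDef) :
    (rpw (auxB A T) (1 / 2) * T * rpw A (-(1 / 2)) - rpw (auxB A T) (-(1 / 2)) * T * rpw A (1 / 2))ᴴ *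
      (rpw (auxB A T) (1 / 2) * T * rpw A (-(1 / 2)) - rpw (auxB A T) (-(1 / 2)) * T * rpw A (1 / 2))
      = skewD (simT A (Tᴴ * T)) := by
  have h1 := tk_Y_Z hA hT
  have h2 := tk_Y_Y hA hT
  have h3 := tk_Z_Z hA hT
  have h4 := congrArg conjTranspose h1
  rw [conjTranspose_mul, conjTranspose_conjTranspose] at h4
  rw [conjTranspose_sub, Matrix.sub_mul, Matrix.mul_sub, Matrix.mul_sub, h1, h2, h3, h4]
  unfold skewD
  abel

/-- **eq. transport:skew-square**: the upper left block of `K* K` is `skewD O`. -/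
theorem tk_skew_square {A : Matrix n n ℂ} (hA : A.PosDef) {T : Matrix m n ℂ}
    (hT : (T * Tᴴ).PosDef) :
    ((skw (fromBlocks 0 Tᴴ T 0) (fromBlocks A 0 0 (auxB A T)))ᴴ *
        skw (fromBlocks 0 Tᴴ T 0) (fromBlocks A 0 0 (auxB A T))).toBlocks₁₁ =
      skewD (simT A (Tᴴ * T)) := by
  rw [tk_skw_blocks hA (tk_auxB_posDef hA hT), fromBlocks_conjTranspose, fromBlocks_multiply,
    toBlocks_fromBlocks₁₁, conjTranspose_zero, Matrix.zero_mul, zero_add]
  exact tk_skewD_eq hA hT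

theorem tk_skewD_posSemidef {A : Matrix n n ℂ} (hA : A.PosDef) {h : Matrix n n ℂ}
    (hh : h.PosSemidef) : (skewD (simT A h)).PosSemidef := by
  obtain ⟨m', _, _, T, hT, hTT⟩ := tk_rank_factor hh
  rw [← hT, ← tk_skewD_eq hA hTT]
  exact posSemidef_conjTranspose_mul_self _

theorem tk_simT_of_commute {A : Matrix n n ℂ} (hA : A.PosDef) {h : Matrix n n ℂ}
    (hc : Commute A h) : simT A h = h := by
  unfold simT
  have h1 : Commute h (rpw A (1 / 2)) := rpw_commute hc.symm (1 / 2)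
  rw [Matrix.mul_assoc, h1.eq, ← Matrix.mul_assoc, rpw_neg_mul hA.1, Matrix.one_mul]

theorem tk_skewD_eq_zero {A : Matrix n n ℂ} (hA : A.PosDef) {h : Matrix n n ℂ} (hh : h.PosSemidef)
    (hc : Commute A h) : skewD (simT A h) = 0 := by
  rw [tk_simT_of_commute hA hc]
  exact tk_skewD_of_posSemidef hh

/-- eq. transport:unsplit-block: at a leaf whose metric commutes with `h` the block commutator vanishes. -/
theorem tk_skw_eq_zero {A : Matrix n n ℂ} (hA : A.PosDef) {T : Matrix m n ℂ}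
    (hT : (T * Tᴴ).PosDef) (hc : Commute A (Tᴴ * T)) :
    skw (fromBlocks 0 Tᴴ T 0) (fromBlocks A 0 0 (auxB A T)) = 0 := by
  have h1 := tk_skewD_eq hA hT
  rw [tk_skewD_eq_zero hA (posSemidef_conjTranspose_mul_self T) hc] at h1
  have h2 := conjTranspose_mul_self_eq_zero.1 h1
  have h3 := congrArg conjTranspose h2
  rw [conjTranspose_sub, tk_conjT3 (rpw_isHermitian A _).eq (rpw_isHermitian _ _).eq,
    tk_conjT3 (rpw_isHermitian A _).eq (rpw_isHermitian _ _).eq, conjTranspose_zero] at h3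
  rw [tk_skw_blocks hA (tk_auxB_posDef hA hT), h2, ← neg_sub, h3, neg_zero, fromBlocks_zero]

/-- the elementary inequality below eq. transport:energy-similarity -/
theorem tk_pairing_lower (a e₁ e₂ : m → ℂ) :
    1 / 2 * (star a ⬝ᵥ a).re - 3 / 2 * ((star e₁ ⬝ᵥ e₁).re + (star e₂ ⬝ᵥ e₂).re) ≤
      (star (a + e₁) ⬝ᵥ (a + e₂)).re := by
  simp only [dotProduct, Complex.re_sum]
  rw [← Finset.sum_add_distrib, Finset.mul_sum, Finset.mul_sum, ← Finset.sum_sub_distrib]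
  refine Finset.sum_le_sum fun i _ => ?_
  simp only [Pi.star_apply, Pi.add_apply, Complex.star_def, Complex.mul_re, Complex.conj_re,
    Complex.conj_im, Complex.add_re, Complex.add_im, map_add]
  nlinarith [sq_nonneg ((a i).re + (e₁ i).re + (e₂ i).re), sq_nonneg ((a i).im + (e₁ i).im + (e₂ i).im),
    sq_nonneg (e₁ i).re, sq_nonneg (e₂ i).re, sq_nonneg (e₁ i).im, sq_nonneg (e₂ i).im]

theorem tk_star_mulVec_dot {k : Type} [Fintype k] (P Q : Matrix k n ℂ) (v w : n → ℂ) :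
    star (P *ᵥ v) ⬝ᵥ (Q *ᵥ w) = star v ⬝ᵥ ((Pᴴ * Q) *ᵥ w) := by
  rw [star_mulVec, ← dotProduct_mulVec, mulVec_mulVec]

/-- the equality in eq. transport:energy-similarity: the two opposite powers of `ℬ` cancel. -/
theorem tk_pairing_eq {M : Matrix n n ℂ} {B : Matrix m m ℂ} (hM : M.PosDef) (hB : B.PosDef)
    (T : Matrix m n ℂ) (w : n → ℂ) :
    star ((rpw B (1 / 4) * T * rpw M (-(1 / 4))) *ᵥ fvec M w) ⬝ᵥ
        ((rpw B (-(1 / 4)) * T * rpw M (1 / 4)) *ᵥ fvec M w) =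
      star (rpw M (-(1 / 2)) *ᵥ w) ⬝ᵥ ((Tᴴ * T) *ᵥ w) := by
  unfold fvec
  rw [mulVec_mulVec, mulVec_mulVec, tk_star_mulVec_dot, tk_star_mulVec_dot]
  congr 2
  rw [conjTranspose_mul, tk_conjT3 (rpw_isHermitian M _).eq (rpw_isHermitian B _).eq,
    (rpw_isHermitian M _).eq, (rpw_isHermitian M _).eq]
  have h1 : rpw B (1 / 4) * rpw B (-(1 / 4)) = 1 := rpw_mul_neg hB.1 (1 / 4)
  have h2 : rpw M (1 / 4) * rpw M (-(1 / 4)) = 1 := rpw_mul_neg hM.1 (1 / 4)
  have h3 : rpw M (-(1 / 4)) * rpw M (-(1 / 4)) = rpw M (-(1 / 2)) := by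
    rw [← rpw_add]; norm_num
  calc rpw M (-(1 / 4)) * (rpw M (-(1 / 4)) * Tᴴ * rpw B (1 / 4))
        * (rpw B (-(1 / 4)) * T * rpw M (1 / 4) * rpw M (-(1 / 4)))
      = (rpw M (-(1 / 4)) * rpw M (-(1 / 4))) * Tᴴ * (rpw B (1 / 4) * rpw B (-(1 / 4))) * T
          * (rpw M (1 / 4) * rpw M (-(1 / 4))) := by simp only [Matrix.mul_assoc]
    _ = rpw M (-(1 / 2)) * (Tᴴ * T) := by
        rw [h1, h2, h3, Matrix.mul_one, Matrix.mul_one, Matrix.mul_assoc]

end Claimed.Agent.R296
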