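import Claimed.Agent.R296.TransBlock

/-!
# Row 296, P1 Section 6 (proof of prop:transport): the energy estimate, abstract form

Owner: helper9.  Prefix `te_`.  PROVED from Tree, TransState, TransBlock.

For ANY strictly weighted tree `t` with positive definite inputs `A a`, root `M = ev A t`, PSD terms `h i`,
`(∑ h i) w = E0 w`, and any sets `J i` of labels containing the labels whose metric does not commute with `h i`:
`⟨v, H v⟩ ≤ 2 E0 + (3/4) ∑_i W_i Re Tr (rootSt · ∑_j π_j Φ_j (skewD O_{i,j}))`,  `W_i = ∑_{j ∈ J i} π_j`.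
-/

set_option autoImplicit false
set_option linter.unusedSectionVars false

namespace Claimed.Agent.R296

open Matrix MTree
open scoped MatrixOrder Matrix.Norms.L2Operator ComplexOrder

variable {α : Type} {n m : Type} [Fintype n] [DecidableEq n] [Fintype m] [DecidableEq m]

theorem te_toBlocks₁₁_mono {X Y : Matrix (n ⊕ m) (n ⊕ m) ℂ} (h : X ≤ Y) :
    X.toBlocks₁₁ ≤ Y.toBlocks₁₁ := by
  rw [Matrix.le_iff] at h ⊢
  have := h.submatrix (Sum.inl : n → n ⊕ m)
  convert this using 1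
  ext i j
  rfl

theorem te_root_square_le {A : α → Matrix n n ℂ} (hA : ∀ a, (A a).PosDef) {t : MTree α}
    (ht : SValid t) {T : Matrix m n ℂ} (hT : (T * Tᴴ).PosDef) (J : α → Prop)
    (hJ : t.All fun a => ¬ J a → Commute (A a) (Tᴴ * T)) :
    ((skw (fromBlocks 0 Tᴴ T 0) (fromBlocks (ev A t) 0 0 (ev (fun a => auxB (A a) T) t)))ᴴ *
        skw (fromBlocks 0 Tᴴ T 0)
          (fromBlocks (ev A t) 0 0 (ev (fun a => auxB (A a) T) t))).toBlocks₁₁ ≤
      ((E t fun a => Scan.ind (J a) : ℝ) : ℂ) • push A t (fun a => skewD (simT (A a) (Tᴴ * T))) := by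
  have hB : ∀ a, (auxB (A a) T).PosDef := fun a => tk_auxB_posDef (hA a) hT
  have hAA : ∀ a, (fromBlocks (A a) 0 0 (auxB (A a) T)).PosDef := fun a => pd_fromBlocks (hA a) (hB a)
  rw [← ev_fromBlocks hA hB t, push_skw hAA ht]
  have h1 := push_schwarz hAA ht
    (fun a => skw (fromBlocks 0 Tᴴ T 0) (fromBlocks (A a) 0 0 (auxB (A a) T))) J
    (hJ.imp fun a (ha : ¬ J a → Commute (A a) (Tᴴ * T)) (hna : ¬ J a) =>
      tk_skw_eq_zero (hA a) hT (ha hna))
  have h2 := te_toBlocks₁₁_mono h1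
  refine h2.trans (le_of_eq ?_)
  have h3 : ∀ (c : ℂ) (X : Matrix (n ⊕ m) (n ⊕ m) ℂ), (c • X).toBlocks₁₁ = c • X.toBlocks₁₁ := by
    intro c X; rfl
  rw [h3, push_toBlocks₁₁ hA hB]
  simp only [tk_skew_square (hA _) hT]

theorem te_quad_factor (T : Matrix m n ℂ) (y : n → ℂ) :
    star (T *ᵥ y) ⬝ᵥ (T *ᵥ y) = star y ⬝ᵥ ((Tᴴ * T) *ᵥ y) := by
  rw [star_mulVec, ← mulVec_mulVec, ← dotProduct_mulVec]

theorem te_term_factored {A : α → Matrix n n ℂ} (hA : ∀ a, (A a).PosDef) {t : MTree α}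
    (ht : SValid t) {T : Matrix m n ℂ} (hT : (T * Tᴴ).PosDef) (J : α → Prop)
    (hJ : t.All fun a => ¬ J a → Commute (A a) (Tᴴ * T)) {w : n → ℂ} (hw : w ≠ 0) :
    1 / 2 * (star (fvec (ev A t) w) ⬝ᵥ ((Tᴴ * T) *ᵥ fvec (ev A t) w)).re ≤
      (star (rpw (ev A t) (-(1 / 2)) *ᵥ w) ⬝ᵥ ((Tᴴ * T) *ᵥ w)).re +
        3 / 8 * nrm2 (ev A t) w * ((E t fun a => Scan.ind (J a)) *
          (trace (rootSt (ev A t) w * push A t (fun a => skewD (simT (A a) (Tᴴ * T))))).re) := by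
  have hB : ∀ a, (auxB (A a) T).PosDef := fun a => tk_auxB_posDef (hA a) hT
  have hM := ev_posDef hA t
  have hBB := ev_posDef hB t
  set M := ev A t with hMdef
  set B := ev (fun a => auxB (A a) T) t with hBdef
  set y := fvec M w with hy
  have hN : 0 < nrm2 M w := ts_nrm2_pos hM hw
  have hsq := te_root_square_le hA ht hT J hJ
  rw [← hMdef, ← hBdef] at hsq
  have htr := ts_trace_mul_mono (ts_rootSt_posSemidef hM w) hsq
  have hsm : (trace (rootSt M w * (((E t fun a => Scan.ind (J a) : ℝ) : ℂ) •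
      push A t (fun a => skewD (simT (A a) (Tᴴ * T)))))).re =
      (E t fun a => Scan.ind (J a)) *
        (trace (rootSt M w * push A t (fun a => skewD (simT (A a) (Tᴴ * T))))).re := by
    rw [Matrix.mul_smul, trace_smul, smul_eq_mul, Complex.re_ofReal_mul]
  rw [hsm] at htr
  have h1 := ts_block_bound_plus hM hBB T hw
  have h2 := ts_block_bound_minus hM hBB T hw
  have h3 := tk_pairing_lower (T *ᵥ y) ((rpw B (1 / 4) * T * rpw M (-(1 / 4)) - T) *ᵥ y)
    ((rpw B (-(1 / 4)) * T * rpw M (1 / 4) - T) *ᵥ y)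
  have e1 : T *ᵥ y + (rpw B (1 / 4) * T * rpw M (-(1 / 4)) - T) *ᵥ y =
      (rpw B (1 / 4) * T * rpw M (-(1 / 4))) *ᵥ y := by
    rw [sub_mulVec]; abel
  have e2 : T *ᵥ y + (rpw B (-(1 / 4)) * T * rpw M (1 / 4) - T) *ᵥ y =
      (rpw B (-(1 / 4)) * T * rpw M (1 / 4)) *ᵥ y := by
    rw [sub_mulVec]; abel
  rw [e1, e2, tk_pairing_eq hM hBB T w, te_quad_factor] at h3
  have h4 : 1 / 8 * nrm2 M w * (trace (rootSt M w *
        ((skw (fromBlocks 0 Tᴴ T 0) (fromBlocks M 0 0 B))ᴴ *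
          skw (fromBlocks 0 Tᴴ T 0) (fromBlocks M 0 0 B)).toBlocks₁₁)).re ≤
      1 / 8 * nrm2 M w * ((E t fun a => Scan.ind (J a)) *
        (trace (rootSt M w * push A t (fun a => skewD (simT (A a) (Tᴴ * T))))).re) :=
    mul_le_mul_of_nonneg_left htr (by positivity)
  linarith

theorem te_term {A : α → Matrix n n ℂ} (hA : ∀ a, (A a).PosDef) {t : MTree α}
    (ht : SValid t) {h : Matrix n n ℂ} (hh : h.PosSemidef) (J : α → Prop)
    (hJ : t.All fun a => ¬ J a → Commute (A a) h) {w : n → ℂ} (hw : w ≠ 0) :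
    1 / 2 * (star (fvec (ev A t) w) ⬝ᵥ (h *ᵥ fvec (ev A t) w)).re ≤
      (star (rpw (ev A t) (-(1 / 2)) *ᵥ w) ⬝ᵥ (h *ᵥ w)).re +
        3 / 8 * nrm2 (ev A t) w * ((E t fun a => Scan.ind (J a)) *
          (trace (rootSt (ev A t) w * push A t (fun a => skewD (simT (A a) h)))).re) := by
  obtain ⟨m, _, _, T, hT1, hT2⟩ := tk_rank_factor hh
  subst hT1
  exact te_term_factored hA ht hT2 J hJ hw

theorem te_energy {ι : Type} [Fintype ι] {A : α → Matrix n n ℂ} (hA : ∀ a, (A a).PosDef)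
    {t : MTree α} (ht : SValid t) {h : ι → Matrix n n ℂ} (hh : ∀ i, (h i).PosSemidef)
    (J : ι → α → Prop) (hJ : ∀ i, t.All fun a => ¬ J i a → Commute (A a) (h i)) {w : n → ℂ}
    (hw : w ≠ 0) {E0 : ℝ} (heig : (∑ i, h i) *ᵥ w = (E0 : ℂ) • w) :
    fenergy (ev A t) w (∑ i, h i) ≤ 2 * E0 + 3 / 4 * ∑ i, (E t fun a => Scan.ind (J i a)) *
      E (pull A t (rootSt (ev A t) w)) (fun y => (trace (y.2 * skewD (simT (A y.1) (h i)))).re) := by
  have hM := ev_posDef hA t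
  have hN : 0 < nrm2 (ev A t) w := ts_nrm2_pos hM hw
  have hpull : ∀ i, E (pull A t (rootSt (ev A t) w))
      (fun y => (trace (y.2 * skewD (simT (A y.1) (h i)))).re) =
      (trace (rootSt (ev A t) w * push A t (fun a => skewD (simT (A a) (h i))))).re :=
    fun i => (trace_mul_push A t (rootSt (ev A t) w) (fun a => skewD (simT (A a) (h i)))).symm
  simp only [hpull]
  generalize hR : (fun i => (E t fun a => Scan.ind (J i a)) *
    (trace (rootSt (ev A t) w * push A t (fun a => skewD (simT (A a) (h i))))).re) = R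
  have hRi : ∀ i, (E t fun a => Scan.ind (J i a)) *
    (trace (rootSt (ev A t) w * push A t (fun a => skewD (simT (A a) (h i))))).re = R i :=
    fun i => congrFun hR i
  have hterm : ∀ i, 1 / 2 * (star (fvec (ev A t) w) ⬝ᵥ (h i *ᵥ fvec (ev A t) w)).re ≤
      (star (rpw (ev A t) (-(1 / 2)) *ᵥ w) ⬝ᵥ (h i *ᵥ w)).re + 3 / 8 * nrm2 (ev A t) w * R i :=
    fun i => by rw [← hRi i]; exact te_term hA ht (hh i) (J i) (hJ i) hw
  have hsum := Finset.sum_le_sum fun i (_ : i ∈ Finset.univ) => hterm i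
  have s1 : ∀ (u v : n → ℂ), ∑ i, (star u ⬝ᵥ (h i *ᵥ v)).re = (star u ⬝ᵥ ((∑ i, h i) *ᵥ v)).re := by
    intro u v
    have : (∑ i, h i) *ᵥ v = ∑ i, h i *ᵥ v := by
      exact map_sum (Matrix.mulVec.addMonoidHomLeft v) h Finset.univ
    rw [← Complex.re_sum, ← dotProduct_sum, this]
  rw [Finset.sum_add_distrib, ← Finset.mul_sum, ← Finset.mul_sum, s1, s1, heig] at hsum
  have hE : (star (rpw (ev A t) (-(1 / 2)) *ᵥ w) ⬝ᵥ ((E0 : ℂ) • w)).re = E0 * nrm2 (ev A t) w := by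
    rw [dotProduct_smul, smul_eq_mul, Complex.re_ofReal_mul, star_mulVec,
      (rpw_isHermitian (ev A t) (-(1 / 2))).eq, ← dotProduct_mulVec]
    rfl
  rw [hE] at hsum
  unfold fenergy
  rw [div_le_iff₀ hN]
  linarith

end Claimed.Agent.R296
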