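import Claimed.Agent.R296.TransState

/-!
# Row 296, P1 Section 6 (proof of prop:transport): exact derivative and entropy gain, abstract form

Owner: helper9.  Prefix `tg_`.  ONE leaf package (about 1000-1400 lines).

Abstract setting: labels `α`, positive definite inputs `A a` on `Matrix n n ℂ`, old tree `Hs`, choice trees
`Ch h`; `B h = ev A (Ch h)`, `M_h(p) = A h #_p B h`, root `ev A (interp p Hs Ch)`.
Bands: `A a = bandProd (fun g => Ab g a)`, cross-band commutation.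
Coherent design: PSD matrices `Pr θ` (`θ` in a finite type), weights `wt θ ≥ 0`, `∑ wt θ • Pr θ = 1`
(`wt θ = D_k p_θ`, `∑ wt = D_k`);  `cohW wt Pr s θ = wt θ Re Tr (s Pr θ)` are the coherent weights of a state.
-/

set_option autoImplicit false

namespace Claimed.Agent.R296

open Matrix MTree
open scoped MatrixOrder Matrix.Norms.L2Operator ComplexOrder

variable {α : Type} {n : Type} [Fintype n] [DecidableEq n]

/-- product over the bands -/
noncomputable def bandProd {K : ℕ} (Ab : Fin K → Matrix n n ℂ) : Matrix n n ℂ := (List.ofFn Ab).prod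

/-- coherent weights of a state -/
noncomputable def cohW {Θ : Type} (wt : Θ → ℝ) (Pr : Θ → Matrix n n ℂ) (s : Matrix n n ℂ) (θ : Θ) : ℝ :=
  wt θ * (trace (s * Pr θ)).re

/-! ### the exact derivative -/

/-- eq. transport:root-p-derivative -/
theorem tg_root_hasDerivAt {A : α → Matrix n n ℂ} (hA : ∀ a, (A a).PosDef) {Hs : MTree α}
    (hHs : SValid Hs) (Ch : α → MTree α) {p : ℝ} (hp : p ≠ 1) :
    HasDerivAt (fun q => ev A (interp q Hs Ch))
      (rpw (ev A (interp p Hs Ch)) (1 / 2) *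
        push (fun h => gmean p (A h) (ev A (Ch h))) Hs
          (fun h => edgeL p (A h) (ev A (Ch h)) (mlog (relm (A h) (ev A (Ch h))))) *
        rpw (ev A (interp p Hs Ch)) (1 / 2)) p := by
  simp only [ev_interp]
  exact ev_hasDerivAt (A := fun s a => gmean s (A a) (ev A (Ch a)))
    (fun s a => gm_posDef s (hA a) (ev_posDef hA (Ch a)))
    (fun a => ed_hasDerivAt_weight hp (hA a) (ev_posDef hA (Ch a))) hHs

/-- the root of a tree is continuous along continuous curves of positive definite inputs -/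
theorem tg_ev_continuous {A : ℝ → α → Matrix n n ℂ} (hA : ∀ s a, (A s a).PosDef)
    (hc : ∀ a, Continuous fun s => A s a) (t : MTree α) : Continuous fun s => ev (A s) t := by
  induction t with
  | leaf a => exact hc a
  | node p l r ihl ihr =>
    rw [continuous_iff_continuousAt]
    intro s
    exact gm_continuousAt p ihl.continuousAt ihr.continuousAt
      (Filter.Eventually.of_forall fun s => ev_posDef (hA s) l)
      (Filter.Eventually.of_forall fun s => ev_posDef (hA s) r)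

/-- the root is continuous in `p` on the whole line (uses `gm_hasDerivAt_weight` at every real `p`) -/
theorem tg_root_continuous {A : α → Matrix n n ℂ} (hA : ∀ a, (A a).PosDef) {Hs : MTree α}
    (_hHs : SValid Hs) (Ch : α → MTree α) : Continuous (fun q => ev A (interp q Hs Ch)) := by
  simp only [ev_interp]
  refine tg_ev_continuous (A := fun s a => gmean s (A a) (ev A (Ch a)))
    (fun s a => gm_posDef s (hA a) (ev_posDef hA (Ch a))) (fun a => ?_) Hs
  rw [continuous_iff_continuousAt]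
  intro s
  exact (gm_hasDerivAt_weight (hA a) (ev_posDef hA (Ch a)) s).continuousAt

theorem tg_root_zero {A : α → Matrix n n ℂ} (hA : ∀ a, (A a).PosDef) (Hs : MTree α)
    (Ch : α → MTree α) : ev A (interp 0 Hs Ch) = ev A Hs := by
  rw [ev_interp]
  congr 1
  funext h
  exact gm_zero (hA h) (ev_posDef hA (Ch h))

theorem tg_root_one {A : α → Matrix n n ℂ} (hA : ∀ a, (A a).PosDef) (Hs : MTree α)
    (Ch : α → MTree α) : ev A (interp 1 Hs Ch) = ev A (Hs.bind Ch) := by
  rw [ev_interp, ev_bind]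
  congr 1
  funext h
  exact gm_one (hA h) (ev_posDef hA (Ch h))

/-- continuity of `- log N²` (fields `cont`, `end0`, `end1` of `Scan/Api`) -/
theorem tg_F_continuous {A : α → Matrix n n ℂ} (hA : ∀ a, (A a).PosDef) {Hs : MTree α}
    (hHs : SValid Hs) (Ch : α → MTree α) {w : n → ℂ} (hw : w ≠ 0) :
    Continuous (fun q => - Real.log (nrm2 (ev A (interp q Hs Ch)) w)) := by
  rw [continuous_iff_continuousAt]
  intro q
  have h1 : ContinuousAt (fun q => nrm2 (ev A (interp q Hs Ch)) w) q :=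
    ts_nrm2_continuousAt (M := fun q => ev A (interp q Hs Ch))
      (tg_root_continuous hA hHs Ch).continuousAt (fun s => ev_posDef hA _) w
  exact (h1.log (ts_nrm2_pos (ev_posDef hA _) hw).ne').neg

/-- **eq. transport:exact-derivative**:
`- ∂_p log N² = (1/2) ∑_h w_h Re Tr (σ_h log C_h)`, `σ_h` the (u-averaged) states at the old leaves. -/
theorem tg_exact_derivative {A : α → Matrix n n ℂ} (hA : ∀ a, (A a).PosDef) {Hs : MTree α}
    (hHs : SValid Hs) (Ch : α → MTree α) {p : ℝ} (hp : p ≠ 1) {w : n → ℂ} (hw : w ≠ 0) :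
    HasDerivAt (fun q => - Real.log (nrm2 (ev A (interp q Hs Ch)) w))
      (1 / 2 * E (oldAnn A p Hs Ch (rootSt (ev A (interp p Hs Ch)) w))
        (fun y => (trace (y.2 * mlog (relm (A y.1) (ev A (Ch y.1))))).re)) p := by
  have h := ts_log_hasDerivAt (M := fun q => ev A (interp q Hs Ch))
    (tg_root_hasDerivAt hA hHs Ch hp) (fun s => ev_posDef hA _) hw
  rw [trace_mul_push] at h
  unfold oldAnn
  rw [E_map]
  simp only [trace_tadj_mul]
  exact h

/-! ### band factorisation -/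

theorem tg_bandProd_zero (Ab : Fin 0 → Matrix n n ℂ) : bandProd Ab = 1 := by
  simp [bandProd]

theorem tg_bandProd_succ {K : ℕ} (Ab : Fin (K + 1) → Matrix n n ℂ) :
    bandProd Ab = Ab 0 * bandProd fun g : Fin K => Ab g.succ := by
  simp [bandProd, List.ofFn_succ]

theorem tg_commute_bandProd {K : ℕ} {Ab : Fin K → Matrix n n ℂ} {X : Matrix n n ℂ}
    (h : ∀ g, Commute X (Ab g)) : Commute X (bandProd Ab) := by
  induction K with
  | zero => rw [tg_bandProd_zero]; exact Commute.one_right X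
  | succ K ih =>
    rw [tg_bandProd_succ]
    exact (h 0).mul_right (ih fun g => h g.succ)

theorem tg_bandProd_posDef {K : ℕ} {Ab : Fin K → Matrix n n ℂ} (h : ∀ g, (Ab g).PosDef)
    (hc : ∀ g g', g ≠ g' → Commute (Ab g) (Ab g')) : (bandProd Ab).PosDef := by
  induction K with
  | zero => rw [tg_bandProd_zero]; exact PosDef.one
  | succ K ih =>
    rw [tg_bandProd_succ]
    refine pd_mul_of_commute (h 0) (ih (fun g => h g.succ) fun g g' hg => hc _ _ ?_)
      (tg_commute_bandProd fun g => hc _ _ (Fin.succ_ne_zero g).symm)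
    exact fun e => hg (Fin.succ_injective _ e)

theorem tg_ev_bandProd {K : ℕ} {Ab : Fin K → α → Matrix n n ℂ} (h : ∀ g a, (Ab g a).PosDef)
    (hc : ∀ g g', g ≠ g' → ∀ a b, Commute (Ab g a) (Ab g' b)) (t : MTree α) :
    ev (fun a => bandProd fun g => Ab g a) t = bandProd fun g => ev (Ab g) t := by
  induction K with
  | zero =>
    simp only [tg_bandProd_zero]
    exact ev_const PosDef.one t
  | succ K ih =>
    simp only [tg_bandProd_succ]
    have hne : ∀ g g' : Fin K, g ≠ g' → g.succ ≠ g'.succ := fun g g' hg e =>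
      hg (Fin.succ_injective _ e)
    rw [ev_mul (h 0)
      (fun a => tg_bandProd_posDef (fun g => h g.succ a) fun g g' hg => hc _ _ (hne g g' hg) a a)
      (fun a b => tg_commute_bandProd fun g => hc _ _ (Fin.succ_ne_zero g).symm a b) t,
      ih (fun g a => h g.succ a) fun g g' hg => hc _ _ (hne g g' hg)]

/-- eq. transport:relative-factorization -/
theorem tg_mlog_relm_bandProd {K : ℕ} {Ab : Fin K → α → Matrix n n ℂ} (h : ∀ g a, (Ab g a).PosDef)
    (hc : ∀ g g', g ≠ g' → ∀ a b, Commute (Ab g a) (Ab g' b)) (a₀ : α) (t : MTree α) :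
    mlog (relm (bandProd fun g => Ab g a₀) (ev (fun a => bandProd fun g => Ab g a) t)) =
      ∑ g, mlog (relm (Ab g a₀) (ev (Ab g) t)) := by
  rw [tg_ev_bandProd h hc]
  induction K with
  | zero =>
    simp only [tg_bandProd_zero, relm_one, pd_mlog_one]
    simp
  | succ K ih =>
    simp only [tg_bandProd_succ]
    have hne : ∀ g g' : Fin K, g ≠ g' → g.succ ≠ g'.succ := fun g g' hg e =>
      hg (Fin.succ_injective _ e)
    have hev : ∀ g g', g ≠ g' → ∀ s s' : MTree α, Commute (ev (Ab g) s) (ev (Ab g') s') :=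
      fun g g' hg s s' =>
        ev_commute (fun b => (ev_commute (fun a => (hc g g' hg a b).symm) s).symm) s'
    have hev1 : ∀ g g', g ≠ g' → ∀ a (s' : MTree α), Commute (Ab g a) (ev (Ab g') s') :=
      fun g g' hg a s' => ev_commute (fun b => hc g g' hg a b) s'
    rw [mlog_relm_mul (h 0 a₀)
      (tg_bandProd_posDef (fun g => h g.succ a₀) fun g g' hg => hc _ _ (hne g g' hg) a₀ a₀)
      (ev_posDef (h 0) t)
      (tg_bandProd_posDef (fun g => ev_posDef (h g.succ) t) fun g g' hg => hev _ _ (hne g g' hg) t t)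
      (tg_commute_bandProd fun g => hc _ _ (Fin.succ_ne_zero g).symm a₀ a₀)
      (tg_commute_bandProd fun g => hev1 _ _ (Fin.succ_ne_zero g).symm a₀ t)
      (tg_commute_bandProd fun g => (hev1 _ _ (Fin.succ_ne_zero g) a₀ t).symm)
      (tg_commute_bandProd fun g => hev _ _ (Fin.succ_ne_zero g).symm t t),
      ih (fun g a => h g.succ a) fun g g' hg => hc _ _ (hne g g' hg), Fin.sum_univ_succ]


/-! ### transfer of the relative pin and the logarithm -/

/-- congruence covariance: `C_{h,g}` is the choice tree of the single-move relative metrics -/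
theorem tg_relm_ev {A : α → Matrix n n ℂ} (hA : ∀ a, (A a).PosDef) {A₀ : Matrix n n ℂ}
    (hA₀ : A₀.PosDef) (t : MTree α) : relm A₀ (ev A t) = ev (fun c => relm A₀ (A c)) t := by
  have h := ev_conj hA (rpw_isUnit hA₀.isHermitian (-(1 / 2))) t
  rw [(rpw_isHermitian A₀ (-(1 / 2))).eq] at h
  exact h.symm

/-- eq. transport:conditional-pin -/
theorem tg_conditional_pin {A : α → Matrix n n ℂ} (hA : ∀ a, (A a).PosDef) {A₀ : Matrix n n ℂ}
    (hA₀ : A₀.PosDef) {t : MTree α} (ht : Valid t) {P : Matrix n n ℂ} (hP : P.PosSemidef)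
    {b κ err : ℝ} (hb : 0 < b) (η : α → ℝ)
    (hpin : t.All fun c => ((b * Real.exp (κ * (η c - err)) : ℝ) : ℂ) • P ≤ relm A₀ (A c)) :
    ((b * Real.exp (κ * (E t η - err)) : ℝ) : ℂ) • P ≤ relm A₀ (ev A t) := by
  rw [tg_relm_ev hA hA₀]
  have h := ev_ge_of_pin (A := fun c => relm A₀ (A c)) (fun a => relm_posDef hA₀ (hA a)) hP
    (c := fun c => b * Real.exp (κ * (η c - err))) (fun a => mul_pos hb (Real.exp_pos _)) ht hpin
  have e : (E t fun a => Real.log (b * Real.exp (κ * (η a - err)))) =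
      Real.log b + κ * (E t η - err) := by
    have : (fun a => Real.log (b * Real.exp (κ * (η a - err)))) =
        fun a => Real.log b + κ * (η a - err) := by
      funext a
      rw [Real.log_mul hb.ne' (Real.exp_pos _).ne', Real.log_exp]
    rw [this, E_add, E_const, E_mul_left, E_sub, E_const]
  rw [e, Real.exp_add, Real.exp_log hb] at h
  exact h

/-- the total weight of a resolution of the identity is positive -/
theorem tg_sum_wt_pos [Nonempty n] {Θ : Type} [Fintype Θ] {Pr : Θ → Matrix n n ℂ} {wt : Θ → ℝ}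
    (hwt : ∀ θ, 0 ≤ wt θ) (hres : ∑ θ, (wt θ : ℂ) • Pr θ = 1) : 0 < ∑ θ, wt θ := by
  rcases (Finset.sum_nonneg fun θ _ => hwt θ).lt_or_eq with h | h
  · exact h
  · exfalso
    have h0 : ∀ θ, wt θ = 0 := fun θ =>
      (Finset.sum_eq_zero_iff_of_nonneg fun θ _ => hwt θ).1 h.symm θ (Finset.mem_univ θ)
    simp only [h0, Complex.ofReal_zero, zero_smul, Finset.sum_const_zero] at hres
    exact zero_ne_one hres

/-- eq. transport:log-relative -/
theorem tg_log_relative {Θ : Type} [Fintype Θ] {A : α → Matrix n n ℂ} (hA : ∀ a, (A a).PosDef)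
    {A₀ : Matrix n n ℂ} (hA₀ : A₀.PosDef) {t : MTree α} (ht : Valid t) {Pr : Θ → Matrix n n ℂ}
    (hPr : ∀ θ, (Pr θ).PosSemidef) {wt : Θ → ℝ} (hwt : ∀ θ, 0 ≤ wt θ)
    (hres : ∑ θ, (wt θ : ℂ) • Pr θ = 1) {b κ err : ℝ} (hb : 0 < b) (η : α → Θ → ℝ)
    (hpin : t.All fun c => ∀ θ,
      ((b * Real.exp (κ * (η c θ - err)) : ℝ) : ℂ) • Pr θ ≤ relm A₀ (A c)) :
    povm Finset.univ (fun θ => (wt θ : ℂ) • Pr θ) (fun θ => κ * (E t (fun c => η c θ) - err)) +
        ((Real.log (b / ∑ θ, wt θ) : ℝ) : ℂ) • 1 ≤ mlog (relm A₀ (ev A t)) := by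
  rcases isEmpty_or_nonempty n with hn | hn
  · exact le_of_eq (Subsingleton.elim _ _)
  have hW := tg_sum_wt_pos hwt hres
  obtain ⟨W, hWdef⟩ : ∃ W, W = ∑ θ, wt θ := ⟨_, rfl⟩
  rw [← hWdef] at hW ⊢
  have hP' : ∀ θ ∈ (Finset.univ : Finset Θ), ((wt θ : ℂ) • Pr θ).PosSemidef := fun θ _ =>
    (hPr θ).smul (by exact_mod_cast hwt θ)
  refine lj_log_lower Finset.univ hP' hres _ (div_pos hb hW) ?_
  -- the pins, one for each `θ`
  have hpinθ : ∀ θ, ((b * Real.exp (κ * (E t (fun c => η c θ) - err)) : ℝ) : ℂ) • Pr θ ≤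
      relm A₀ (ev A t) := fun θ =>
    tg_conditional_pin hA hA₀ ht (hPr θ) hb (fun c => η c θ) (hpin.imp fun c hc => hc θ)
  have hsum : ∑ θ, ((wt θ / W : ℝ) : ℂ) •
      (((b * Real.exp (κ * (E t (fun c => η c θ) - err)) : ℝ) : ℂ) • Pr θ) ≤
      ∑ θ, ((wt θ / W : ℝ) : ℂ) • relm A₀ (ev A t) :=
    Finset.sum_le_sum fun θ _ => lj_smul_le_smul (hpinθ θ) (div_nonneg (hwt θ) hW.le)
  have e1 : ∑ θ, ((wt θ / W : ℝ) : ℂ) • relm A₀ (ev A t) = relm A₀ (ev A t) := by
    rw [← Finset.sum_smul, ← Complex.ofReal_sum, ← Finset.sum_div, ← hWdef, div_self hW.ne']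
    simp
  rw [e1] at hsum
  refine le_trans (le_of_eq ?_) hsum
  unfold povm
  rw [Finset.smul_sum]
  refine Finset.sum_congr rfl fun θ _ => ?_
  simp only [smul_smul]
  congr 1
  push_cast
  field_simp

/-- coherent weights of a state form a probability vector -/
theorem tg_cohW_nonneg {Θ : Type} {Pr : Θ → Matrix n n ℂ} (hPr : ∀ θ, (Pr θ).PosSemidef) {wt : Θ → ℝ}
    (hwt : ∀ θ, 0 ≤ wt θ) {s : Matrix n n ℂ} (hs : s.PosSemidef) (θ : Θ) : 0 ≤ cohW wt Pr s θ := by
  have h := ts_trace_mul_mono hs (Z := 0) (Z' := Pr θ) (Matrix.nonneg_iff_posSemidef.2 (hPr θ))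
  simp only [Matrix.mul_zero, trace_zero, Complex.zero_re] at h
  exact mul_nonneg (hwt θ) h

omit [DecidableEq n] in
theorem tg_trace_povm {Θ : Type} [Fintype Θ] (Pr : Θ → Matrix n n ℂ) (wt : Θ → ℝ)
    (s : Matrix n n ℂ) (f : Θ → ℝ) :
    (trace (s * povm Finset.univ (fun θ => (wt θ : ℂ) • Pr θ) f)).re = ∑ θ, cohW wt Pr s θ * f θ := by
  unfold povm cohW
  rw [Matrix.mul_sum, trace_sum, Complex.re_sum]
  refine Finset.sum_congr rfl fun θ _ => ?_
  rw [Matrix.mul_smul, Matrix.mul_smul, trace_smul, trace_smul, smul_eq_mul, smul_eq_mul,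
    Complex.re_ofReal_mul, Complex.re_ofReal_mul]
  ring

theorem tg_cohW_sum {Θ : Type} [Fintype Θ] {Pr : Θ → Matrix n n ℂ} {wt : Θ → ℝ}
    (hres : ∑ θ, (wt θ : ℂ) • Pr θ = 1) {s : Matrix n n ℂ} (hs1 : s.trace = 1) :
    ∑ θ, cohW wt Pr s θ = 1 := by
  have h := tg_trace_povm Pr wt s (fun _ => 1)
  rw [povm_const _ hres] at h
  simp only [Complex.ofReal_one, one_smul, hs1, Complex.one_re, mul_one] at h
  exact h.symm

/-- scalar Jensen for the coherent weights (`e8 ≤ e1^(1/8)` of `Scan/Api`) -/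
theorem tg_cohW_rpow_le {Θ : Type} [Fintype Θ] {Pr : Θ → Matrix n n ℂ} (hPr : ∀ θ, (Pr θ).PosSemidef)
    {wt : Θ → ℝ} (hwt : ∀ θ, 0 ≤ wt θ) (hres : ∑ θ, (wt θ : ℂ) • Pr θ = 1) {s : Matrix n n ℂ}
    (hs : s.PosSemidef) (hs1 : s.trace = 1) {f : Θ → ℝ} (hf : ∀ θ, 0 ≤ f θ) {r : ℝ} (hr0 : 0 ≤ r)
    (hr1 : r ≤ 1) :
    ∑ θ, cohW wt Pr s θ * f θ ^ r ≤ (∑ θ, cohW wt Pr s θ * f θ) ^ r := by
  have h := (Real.concaveOn_rpow hr0 hr1).le_map_sum (t := Finset.univ)
    (w := fun θ => cohW wt Pr s θ) (p := f) (fun θ _ => tg_cohW_nonneg hPr hwt hs θ)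
    (tg_cohW_sum hres hs1) (fun θ _ => hf θ)
  simpa only [smul_eq_mul] using h


/-! ### the entropy gain -/

theorem tg_valid_of_map {β : Type} {g : α → β} : ∀ {t : MTree α}, Valid (map g t) → Valid t
  | leaf _, _ => trivial
  | node _ _ _, h => ⟨h.1, h.2.1, tg_valid_of_map h.2.2.1, tg_valid_of_map h.2.2.2⟩

theorem tg_all_of_map {β : Type} {Q : β → Prop} {g : α → β} :
    ∀ {t : MTree α}, All Q (map g t) → All (fun a => Q (g a)) t
  | leaf _, h => h
  | node _ _ _, h => ⟨tg_all_of_map h.1, tg_all_of_map h.2⟩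

theorem tg_all_and {P Q : α → Prop} : ∀ {t : MTree α}, All P t → All Q t → All (fun a => P a ∧ Q a) t
  | leaf _, h, h' => ⟨h, h'⟩
  | node _ _ _, h, h' => ⟨tg_all_and h.1 h'.1, tg_all_and h.2 h'.2⟩

/-- the entropy gain at one old leaf, one band -/
theorem tg_gain_band {Θ : Type} [Fintype Θ] {A : α → Matrix n n ℂ} (hA : ∀ a, (A a).PosDef)
    {A₀ : Matrix n n ℂ} (hA₀ : A₀.PosDef) {t : MTree α} (ht : Valid t) {Pr : Θ → Matrix n n ℂ}
    (hPr : ∀ θ, (Pr θ).PosSemidef) {wt : Θ → ℝ} (hwt : ∀ θ, 0 ≤ wt θ)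
    (hres : ∑ θ, (wt θ : ℂ) • Pr θ = 1) {b κ err : ℝ} (hb : 0 < b) (η : α → Θ → ℝ)
    (hpin : t.All fun c => ∀ θ,
      ((b * Real.exp (κ * (η c θ - err)) : ℝ) : ℂ) • Pr θ ≤ relm A₀ (A c))
    {s : Matrix n n ℂ} (hs : s.PosSemidef) (hs1 : s.trace = 1) :
    κ * E t (fun c => ∑ θ, cohW wt Pr s θ * η c θ) - κ * err + Real.log (b / ∑ θ, wt θ) ≤
      (trace (s * mlog (relm A₀ (ev A t)))).re := by
  have h := ts_trace_mul_mono hs (tg_log_relative hA hA₀ ht hPr hwt hres hb η hpin)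
  rw [Matrix.mul_add, trace_add, Complex.add_re, tg_trace_povm, Matrix.mul_smul, trace_smul,
    Matrix.mul_one, hs1, smul_eq_mul, mul_one, Complex.ofReal_re] at h
  refine le_trans (le_of_eq ?_) h
  congr 1
  rw [E_finset_sum]
  simp only [E_mul_left]
  have e : ∀ θ, cohW wt Pr s θ * (κ * (E t (fun c => η c θ) - err)) =
      κ * (cohW wt Pr s θ * E t (fun c => η c θ)) - κ * err * cohW wt Pr s θ := fun θ => by ring
  simp only [e]
  rw [Finset.sum_sub_distrib, ← Finset.mul_sum, ← Finset.mul_sum, tg_cohW_sum hres hs1, mul_one]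

/-- the entropy gain at one old leaf -/
theorem tg_gain_leaf {K : ℕ} {Θ : Type} [Fintype Θ] {Ab : Fin K → α → Matrix n n ℂ}
    (hAb : ∀ g a, (Ab g a).PosDef)
    (hc : ∀ g g', g ≠ g' → ∀ a b, Commute (Ab g a) (Ab g' b)) (h : α) {t : MTree α} (ht : Valid t)
    {Pr : Θ → Matrix n n ℂ} (hPr : ∀ θ, (Pr θ).PosSemidef) {wt : Θ → ℝ} (hwt : ∀ θ, 0 ≤ wt θ)
    (hres : ∑ θ, (wt θ : ℂ) • Pr θ = 1) {b κ err : ℝ} (hb : 0 < b) (η : Fin K → α → Θ → ℝ)
    (hpin : t.All fun c => ∀ g θ,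
      ((b * Real.exp (κ * (η g c θ - err)) : ℝ) : ℂ) • Pr θ ≤ relm (Ab g h) (Ab g c))
    {s : Matrix n n ℂ} (hs : s.PosSemidef) (hs1 : s.trace = 1) :
    κ * (∑ g, E t fun c => ∑ θ, cohW wt Pr s θ * η g c θ) - K * κ * err +
        K * Real.log (b / ∑ θ, wt θ) ≤
      (trace (s * mlog (relm (bandProd fun g => Ab g h)
        (ev (fun a => bandProd fun g => Ab g a) t)))).re := by
  rw [tg_mlog_relm_bandProd hAb hc, Matrix.mul_sum, trace_sum, Complex.re_sum]
  have hg : ∀ g ∈ (Finset.univ : Finset (Fin K)),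
      κ * E t (fun c => ∑ θ, cohW wt Pr s θ * η g c θ) - κ * err + Real.log (b / ∑ θ, wt θ) ≤
        (trace (s * mlog (relm (Ab g h) (ev (Ab g) t)))).re := fun g _ =>
    tg_gain_band (hAb g) (hAb g h) ht hPr hwt hres hb (η g) (hpin.imp fun c hc' => hc' g) hs hs1
  refine le_trans (le_of_eq ?_) (Finset.sum_le_sum hg)
  rw [Finset.sum_add_distrib, Finset.sum_sub_distrib, ← Finset.mul_sum, Finset.sum_const,
    Finset.sum_const, Finset.card_univ, Fintype.card_fin, nsmul_eq_mul, nsmul_eq_mul]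
  ring

/-- **eq. transport:entropy-gain, abstract form.**  `κ = k a`, `err = C a^{1/4} ℓ^C`, `b = b_k`,
`∑ wt = D_k`. -/
theorem tg_gain {K : ℕ} {Θ : Type} [Fintype Θ] {Ab : Fin K → α → Matrix n n ℂ}
    (hAb : ∀ g a, (Ab g a).PosDef)
    (hc : ∀ g g', g ≠ g' → ∀ a b, Commute (Ab g a) (Ab g' b)) {Hs : MTree α} (hHs : SValid Hs)
    {Ch : α → MTree α} (hCh : Hs.All fun h => SValid (Ch h)) {Pr : Θ → Matrix n n ℂ}
    (hPr : ∀ θ, (Pr θ).PosSemidef) {wt : Θ → ℝ} (hwt : ∀ θ, 0 ≤ wt θ)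
    (hres : ∑ θ, (wt θ : ℂ) • Pr θ = 1) {b κ err : ℝ} (hb : 0 < b) (η : Fin K → α → α → Θ → ℝ)
    (hpin : Hs.All fun h => (Ch h).All fun c => ∀ g θ,
      ((b * Real.exp (κ * (η g h c θ - err)) : ℝ) : ℂ) • Pr θ ≤ relm (Ab g h) (Ab g c))
    {p : ℝ} (hp : p ∈ Set.Ioo (0 : ℝ) 1) {w : n → ℂ} (hw : w ≠ 0) :
    κ / 2 * E (oldAnn (fun a => bandProd fun g => Ab g a) p Hs Ch
          (rootSt (ev (fun a => bandProd fun g => Ab g a) (interp p Hs Ch)) w))
        (fun y => ∑ g, E (Ch y.1) fun c => ∑ θ, cohW wt Pr y.2 θ * η g y.1 c θ) -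
      K * κ * err / 2 - K / 2 * Real.log ((∑ θ, wt θ) / b) ≤
    1 / 2 * E (oldAnn (fun a => bandProd fun g => Ab g a) p Hs Ch
          (rootSt (ev (fun a => bandProd fun g => Ab g a) (interp p Hs Ch)) w))
        (fun y => (trace (y.2 * mlog (relm (bandProd fun g => Ab g y.1)
          (ev (fun a => bandProd fun g => Ab g a) (Ch y.1))))).re) := by
  have hA : ∀ a, (bandProd fun g => Ab g a).PosDef := fun a =>
    tg_bandProd_posDef (fun g => hAb g a) fun g g' hg => hc g g' hg a a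
  obtain ⟨An, hAn⟩ : ∃ An, An = oldAnn (fun a => bandProd fun g => Ab g a) p Hs Ch
      (rootSt (ev (fun a => bandProd fun g => Ab g a) (interp p Hs Ch)) w) := ⟨_, rfl⟩
  have hfst : An.map Prod.fst = Hs := by rw [hAn]; exact oldAnn_map_fst _ _ _ _ _
  have hval : Valid An := tg_valid_of_map (g := Prod.fst) (by rw [hfst]; exact tr_valid_of_svalid hHs)
  have hst : An.All fun y => y.2.PosSemidef ∧ y.2.trace = 1 := by
    rw [hAn]
    exact oldAnn_all_state hA hp hHs Ch (ts_rootSt_posSemidef (ev_posDef hA _) w)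
      (ts_rootSt_trace (ev_posDef hA _) hw)
  have h1 : An.All fun y => SValid (Ch y.1) := tg_all_of_map (g := Prod.fst) (by rw [hfst]; exact hCh)
  have h2 : An.All fun y => (Ch y.1).All fun c => ∀ g θ,
      ((b * Real.exp (κ * (η g y.1 c θ - err)) : ℝ) : ℂ) • Pr θ ≤ relm (Ab g y.1) (Ab g c) :=
    tg_all_of_map (g := Prod.fst)
      (Q := fun h => (Ch h).All fun c => ∀ g θ,
        ((b * Real.exp (κ * (η g h c θ - err)) : ℝ) : ℂ) • Pr θ ≤ relm (Ab g h) (Ab g c))
      (by rw [hfst]; exact hpin)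
  rw [← hAn]
  have key : E An (fun y => κ * (∑ g, E (Ch y.1) fun c => ∑ θ, cohW wt Pr y.2 θ * η g y.1 c θ) -
        K * κ * err + K * Real.log (b / ∑ θ, wt θ)) ≤
      E An (fun y => (trace (y.2 * mlog (relm (bandProd fun g => Ab g y.1)
          (ev (fun a => bandProd fun g => Ab g a) (Ch y.1))))).re) := by
    refine E_le_E_of_all hval ?_
    refine (tg_all_and hst (tg_all_and h1 h2)).imp ?_
    rintro y ⟨⟨hs, hs1⟩, hv, hpy⟩
    exact tg_gain_leaf hAb hc y.1 (tr_valid_of_svalid hv) hPr hwt hres hb (fun g => η g y.1) hpy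
      hs hs1
  rw [E_add, E_sub, E_const, E_const, E_mul_left] at key
  have hlog : Real.log (b / ∑ θ, wt θ) = - Real.log ((∑ θ, wt θ) / b) := by
    rw [← Real.log_inv, inv_div]
  rw [hlog] at key
  linarith

end Claimed.Agent.R296
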