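import Claimed.Agent.R296.TransModelC

/-!
# Row 296, glue `TransportK <- tp_transport + Section 5`: assembly

Architect + prover: helper9.  Prefix `tm_`.  FINAL: `tm_transportK : Scan.TransportK` (`RepModel.lean`).
-/

set_option autoImplicit false
set_option linter.unusedSectionVars false

namespace Claimed.Agent.R296

open Matrix Finset MTree Filter Topology
open scoped ComplexOrder MatrixOrder

/-! ### numerics and small tools -/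

/-- `log (poly k) / k → 0` -/
theorem tm_log_poly_div (A B : ℝ) (m : ℕ) (ζ : ℝ) (hB : 0 < B) (hζ : 0 < ζ) :
    ∃ k0 : ℕ, ∀ k : ℕ, k0 ≤ k → A / k * Real.log (B * ((k : ℝ) + 1) ^ m) ≤ ζ := by
  have h1 : Tendsto (fun k : ℕ => A * Real.log B * (1 / (k : ℝ))) atTop (𝓝 (A * Real.log B * 0)) :=
    tendsto_one_div_atTop_nhds_zero_nat.const_mul _
  have h0 : Tendsto (fun k : ℕ => (k : ℝ) + 1) atTop atTop :=
    tendsto_atTop_add_const_right _ _ tendsto_natCast_atTop_atTop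
  have h2' := (Real.tendsto_pow_log_div_mul_add_atTop 1 (-1) 1 one_ne_zero).comp h0
  have h2 : Tendsto (fun k : ℕ => A * m * (Real.log ((k : ℝ) + 1) / k)) atTop (𝓝 (A * m * 0)) := by
    refine Tendsto.const_mul _ ?_
    refine h2'.congr fun k => ?_
    simp
  have h3 := h1.add h2
  simp only [mul_zero, add_zero] at h3
  have h4 := (h3.eventually (gt_mem_nhds hζ))
  obtain ⟨k0, hk0⟩ := eventually_atTop.1 h4
  refine ⟨k0, fun k hk => ?_⟩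
  have h5 := hk0 k hk
  have hk1 : (0 : ℝ) < (k : ℝ) + 1 := by positivity
  rw [Real.log_mul hB.ne' (by positivity), Real.log_pow]
  refine le_of_eq_of_le ?_ h5.le
  ring

theorem tm_trace_mul_pureOp {n : Type} [Fintype n] (σ : Matrix n n ℂ) (z : n → ℂ) :
    trace (σ * pureOp z) = star z ⬝ᵥ (σ *ᵥ z) := by
  unfold pureOp
  rw [Matrix.mul_vecMulVec, Matrix.trace_vecMulVec, dotProduct_comm]

theorem tm_map_map {α β γ : Type} (f : α → β) (g : β → γ) (t : MTree α) :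
    (t.map f).map g = t.map (fun a => g (f a)) := by
  induction t with
  | leaf a => rfl
  | node p l r ihl ihr => simp only [MTree.map, ihl, ihr]

theorem tm_ind_le_one (P : Prop) : Scan.ind P ≤ 1 := by
  unfold Scan.ind
  split_ifs <;> norm_num

theorem tm_energy_numerics' {ι : Type} [Fintype ι] {a ell E0 : ℝ} (ha : 0 < a) (hell : 1 ≤ ell) {C C2 ζ p X : ℝ} (hC2 : 0 < C2) (hC : C2 ≤ C)
    (hC4 : 4 ≤ C) (hζ : 0 < ζ) (hp : p ∈ Set.Ioo (0 : ℝ) 1) (Wt Co Eb : ι → ℝ)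
    (hWt : ∀ i, 0 ≤ Wt i ∧ Wt i ≤ 1) (hCo : ∀ i, 0 ≤ Co i) (hEb : ∀ i, 0 ≤ Eb i ∧ Eb i ≤ 1)
    (h : X ≤ E0 + 3 / 4 * ∑ i, Wt i *
          ((1 - p) * (C2 * a ^ 2 * ell ^ 4 * Co i + ζ / (Fintype.card ι + 1)) +
            p * (Eb i * (C2 * a ^ 2 * ell ^ 4 * (2 * ell) ^ ((1 : ℝ) / 8) +
              ζ / (Fintype.card ι + 1))))) :
    X ≤ E0 + C * a ^ 2 * ell ^ C *
      ∑ i, Wt i * ((1 - p) * Co i + p * Eb i * (2 * ell) ^ ((1 : ℝ) / 8)) + ζ := by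
  set q := (2 * ell) ^ ((1 : ℝ) / 8) with hq
  have hq0 : 0 ≤ q := by positivity
  set e := ζ / ((Fintype.card ι : ℝ) + 1) with he
  have he0 : 0 < e := by positivity
  have h1p : 0 < 1 - p := by linarith [hp.2]
  have hp0 := hp.1
  have hsplit : ∑ i, Wt i * ((1 - p) * (C2 * a ^ 2 * ell ^ 4 * Co i + e) +
      p * (Eb i * (C2 * a ^ 2 * ell ^ 4 * q + e))) =
      C2 * a ^ 2 * ell ^ 4 * ∑ i, Wt i * ((1 - p) * Co i + p * Eb i * q) +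
        e * ∑ i, Wt i * ((1 - p) + p * Eb i) := by
    rw [Finset.mul_sum, Finset.mul_sum, ← Finset.sum_add_distrib]
    refine Finset.sum_congr rfl fun i _ => ?_
    ring
  rw [hsplit] at h
  have hS : 0 ≤ ∑ i, Wt i * ((1 - p) * Co i + p * Eb i * q) := by
    refine Finset.sum_nonneg fun i _ => mul_nonneg (hWt i).1 ?_
    have := hCo i; have := (hEb i).1
    positivity
  have hT : ∑ i, Wt i * ((1 - p) + p * Eb i) ≤ Fintype.card ι := by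
    calc ∑ i, Wt i * ((1 - p) + p * Eb i) ≤ ∑ _i : ι, (1 : ℝ) := by
          refine Finset.sum_le_sum fun i _ => ?_
          have h1 := (hWt i).1; have h2 := (hWt i).2; have h3 := (hEb i).1; have h4 := (hEb i).2
          have h5 : (1 - p) + p * Eb i ≤ 1 := by nlinarith
          have h6 : 0 ≤ (1 - p) + p * Eb i := by positivity
          nlinarith
      _ = Fintype.card ι := by simp
  have hell4 : ell ^ 4 ≤ ell ^ C := by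
    have : ell ^ (4 : ℕ) = ell ^ ((4 : ℕ) : ℝ) := (Real.rpow_natCast ell 4).symm
    rw [this]
    exact Real.rpow_le_rpow_of_exponent_le hell (by exact_mod_cast hC4)
  have hcc : C2 * a ^ 2 * ell ^ 4 ≤ C * a ^ 2 * ell ^ C := by gcongr
  have hc0 : 0 ≤ C2 * a ^ 2 * ell ^ 4 := by positivity
  have h7 : 3 / 4 * (C2 * a ^ 2 * ell ^ 4 * ∑ i, Wt i * ((1 - p) * Co i + p * Eb i * q)) ≤
      C * a ^ 2 * ell ^ C * ∑ i, Wt i * ((1 - p) * Co i + p * Eb i * q) := by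
    have := mul_le_mul_of_nonneg_right hcc hS
    have := mul_nonneg hc0 hS
    linarith
  have h8 : e * ∑ i, Wt i * ((1 - p) + p * Eb i) ≤ ζ := by
    calc e * ∑ i, Wt i * ((1 - p) + p * Eb i) ≤ e * Fintype.card ι := by gcongr
      _ ≤ ζ := by
        rw [he, div_mul_eq_mul_div, div_le_iff₀ (by positivity)]
        nlinarith
  have h9 : 0 ≤ e * ∑ i, Wt i * ((1 - p) + p * Eb i) := by
    refine mul_nonneg he0.le (Finset.sum_nonneg fun i _ => mul_nonneg (hWt i).1 ?_)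
    have := (hEb i).1
    positivity
  linarith

theorem tm_fin_eventually {X : Type} [Finite X] {Q : X → ℕ → Prop}
    (h : ∀ x, ∃ k0 : ℕ, ∀ k, k0 ≤ k → Q x k) : ∃ k0 : ℕ, ∀ k, k0 ≤ k → ∀ x, Q x k := by
  have h' : ∀ x, ∀ᶠ k in Filter.atTop, Q x k := fun x => Filter.eventually_atTop.2 (h x)
  exact Filter.eventually_atTop.1 (Filter.eventually_all.2 h')

namespace Scan

namespace RepData

variable {Λ ι α : Type} [Fintype Λ] [DecidableEq Λ] [Fintype ι]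
  {io : Λ → Type} [∀ x, Fintype (io x)] [∀ x, DecidableEq (io x)] [∀ x, Nonempty (io x)]
  {𝔇 : RepData Λ ι α io}

/-- coherent weights: the abstract ones are those of the design -/
theorem tm_cohW_eq {k N : ℕ} (𝒟 : CohDesign (rmIo io 𝔇.dst) N)
    (σ : Matrix (𝔇.MIx (Fin k)) (𝔇.MIx (Fin k)) ℂ) (i : Fin 𝒟.N) :
    cohW (fun i => (dSym (rmIo io 𝔇.dst) (Fin k) : ℝ) * 𝒟.p i) (fun i => cohP (Fin k) (𝒟.θ i)) σ i =
      𝒟.w k σ i := by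
  unfold cohW CohDesign.w cohP
  rw [tm_trace_mul_pureOp]

/-- `F` along a round, in abstract form -/
theorem tm_F_eq {a0 : ℝ} (hW : 𝔇.WF a0) {k : ℕ} (lam : Rep.Irr (Equiv.Perm (Fin k))) {T : MTree α}
    (hT : T.All 𝔇.Al) :
    𝔇.mF lam T = - Real.log (nrm2 (T.ev (𝔇.tmA (Fin k))) (𝔇.mPre lam)) / k := by
  unfold mF mN2 nrm2
  rw [tm_root_eq (Fin k) hT]
  congr 1
  exact_mod_cast Fintype.card_fin k

theorem tm_end0 {a0 : ℝ} (hW : 𝔇.WF a0) {k : ℕ} (lam : Rep.Irr (Equiv.Perm (Fin k))) (r : Fin 𝔇.R) :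
    𝔇.mF lam (𝔇.tree r 0) = 𝔇.mF lam (𝔇.Hs r) := by
  rw [tm_F_eq hW lam (tm_tree_all hW r 0), tm_F_eq hW lam (hW.hs_al r)]
  unfold tree
  rw [tg_root_zero (tm_A_posDef (Fin k) hW)]

theorem tm_end1 {a0 : ℝ} (hW : 𝔇.WF a0) {k : ℕ} (lam : Rep.Irr (Equiv.Perm (Fin k))) (r : Fin 𝔇.R) :
    𝔇.mF lam (𝔇.tree r 1) = 𝔇.mF lam ((𝔇.Hs r).bind (𝔇.Ch r)) := by
  rw [tm_F_eq hW lam (tm_tree_all hW r 1), tm_F_eq hW lam (tm_bind_all hW r)]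
  unfold tree
  rw [tg_root_one (tm_A_posDef (Fin k) hW)]

theorem tm_F_fun_eq {a0 : ℝ} (hW : 𝔇.WF a0) {k : ℕ} (lam : Rep.Irr (Equiv.Perm (Fin k)))
    (r : Fin 𝔇.R) :
    (fun p => 𝔇.mF lam (𝔇.tree r p)) = fun p =>
      - Real.log (nrm2 ((interp p (𝔇.Hs r) (𝔇.Ch r)).ev (𝔇.tmA (Fin k))) (𝔇.mPre lam)) / k :=
  funext fun p => tm_F_eq hW lam (tm_tree_all hW r p)

theorem tm_cont {a0 : ℝ} (hW : 𝔇.WF a0) {k : ℕ} (lam : Rep.Irr (Equiv.Perm (Fin k)))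
    (hne : 𝔇.mPre lam ≠ 0) (r : Fin 𝔇.R) :
    ContinuousOn (fun p => 𝔇.mF lam (𝔇.tree r p)) (Set.Icc 0 1) := by
  rw [tm_F_fun_eq hW lam r]
  exact ((tg_F_continuous (tm_A_posDef (Fin k) hW) (hW.hs_valid r) (𝔇.Ch r) hne).div_const
    _).continuousOn

theorem tm_tree_valid {a0 : ℝ} (hW : 𝔇.WF a0) (r : Fin 𝔇.R) {p : ℝ} (hp : p ∈ Set.Ioo (0 : ℝ) 1) :
    (𝔇.tree r p).Valid :=
  (svalid_interp hp (hW.hs_valid r) ((hW.ch_ok r).imp fun _ h => h.1)).valid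

/-- the cost hypothesis at one label -/
def CostP (𝔇 : RepData Λ ι α io) (C2 ε : ℝ) (k : ℕ) (i : ι) (l : α) : Prop :=
  ∀ (𝒟 : CohDesign (rmIo io 𝔇.dst) (2 * k)) (σ : Matrix (𝔇.MIx (Fin k)) (𝔇.MIx (Fin k)) ℂ),
    σ.PosSemidef → σ.trace = 1 →
    (trace (σ * skewD (simT (𝔇.tmA (Fin k) l) (𝔇.mTerm (Fin k) i)))).re ≤
      ind (𝔇.SplitAt i l) * (C2 * 𝔇.a ^ 2 * 𝔇.ell ^ 4 * 𝔇.costAt i (l, 𝔇.mAnn 𝒟 l σ) + ε)

/-- the pin hypothesis at one pair of labels -/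
def PinP (𝔇 : RepData Λ ι α io) (Cp : ℝ) (m : ℕ) (C1 : ℝ) (k : ℕ) (h l' : α) : Prop :=
  ∀ (g : Fin 𝔇.K) (θ : Cfg (rmIo io 𝔇.dst) → ℂ), star θ ⬝ᵥ θ = 1 →
    (((Cp * ((k : ℝ) + 1) ^ m)⁻¹ * Real.exp ((k : ℝ) * 𝔇.a *
        ((mEta θ (𝔇.st h g) true ((𝔇.st l' g).1 \ (𝔇.st h g).1) +
          mEta θ (𝔇.st h g) false ((𝔇.st l' g).2 \ (𝔇.st h g).2)) -
          C1 * 𝔇.a ^ ((1 : ℝ) / 4) * 𝔇.ell ^ 2)) : ℝ) : ℂ) • cohP (Fin k) θ ≤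
      relm (𝔇.tmB (Fin k) g h) (𝔇.tmB (Fin k) g l')

/-- **the field `transport` before the final numerics** -/
theorem tm_transport_field {a0 : ℝ} (hW : 𝔇.WF a0) {k : ℕ} (hk : 1 ≤ k)
    (lam : Rep.Irr (Equiv.Perm (Fin k))) (hne : 𝔇.mPre lam ≠ 0) {Cp : ℝ} {m : ℕ} (hCp : 1 ≤ Cp)
    {C1 C2 ε : ℝ} (hC2 : 0 < C2) (hε : 0 < ε) (r : Fin 𝔇.R)
    (Hpin : (𝔇.Hs r).All fun h => (𝔇.Ch r h).All fun l' => 𝔇.PinP Cp m C1 k h l')
    (Hold : ∀ i, (𝔇.Hs r).All (𝔇.CostP C2 ε k i))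
    (Hnew : ∀ i, ((𝔇.Hs r).bind (𝔇.Ch r)).All (𝔇.CostP C2 ε k i))
    {p : ℝ} (hp : p ∈ Set.Ioo (0 : ℝ) 1) :
    ∃ (An : MTree (α × Ann Λ 𝔇.K)) (F' : ℝ),
      An.map Prod.fst = 𝔇.Hs r ∧ An.All (fun y => AnnOK io y.2) ∧
      HasDerivAt (fun p => 𝔇.mF lam (𝔇.tree r p)) F' p ∧
      𝔇.a / 2 * An.E (𝔇.gainAt r) - 𝔇.K * 𝔇.a * (C1 * 𝔇.a ^ ((1 : ℝ) / 4) * 𝔇.ell ^ 2) / 2 -
        𝔇.K / 2 / k * Real.log ((dSym (rmIo io 𝔇.dst) (Fin k) : ℝ) * (Cp * ((k : ℝ) + 1) ^ m)) ≤ F' ∧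
      𝔇.S.gap * 𝔇.mEd lam (𝔇.tree r p) ≤ 𝔇.S.E0 + 3 / 4 *
        ∑ i, (𝔇.tree r p).E (fun l => ind (𝔇.SplitAt i l)) *
          ((1 - p) * (C2 * 𝔇.a ^ 2 * 𝔇.ell ^ 4 * An.E (𝔇.costAt i) + ε) +
            p * (((𝔇.Hs r).bind (𝔇.Ch r)).E (fun l => ind (𝔇.SplitAt i l)) *
              (C2 * 𝔇.a ^ 2 * 𝔇.ell ^ 4 * (2 * 𝔇.ell) ^ ((1 : ℝ) / 8) + ε))) := by
  classical
  haveI : NeZero 𝔇.dst := ⟨(tm_dst_pos 𝔇 hW).ne'⟩
  haveI : Nonempty (Fin k) := ⟨⟨0, hk⟩⟩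
  obtain ⟨𝒟⟩ := exists_cohDesign (rmIo io 𝔇.dst) (2 * k)
  have hk2 : k ≤ 2 * k := by omega
  have hkpos : (0 : ℝ) < k := by exact_mod_cast hk
  have hres : ∑ i, (((dSym (rmIo io 𝔇.dst) (Fin k) : ℝ) * 𝒟.p i : ℝ) : ℂ) • cohP (Fin k) (𝒟.θ i) = 1 :=
    𝒟.sum_P hk2
  have hwt0 : ∀ i, 0 ≤ (dSym (rmIo io 𝔇.dst) (Fin k) : ℝ) * 𝒟.p i :=
    fun i => mul_nonneg (Nat.cast_nonneg _) (𝒟.pos i).le
  have hsum : ∑ i, (dSym (rmIo io 𝔇.dst) (Fin k) : ℝ) * 𝒟.p i = dSym (rmIo io 𝔇.dst) (Fin k) := by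
    rw [← Finset.mul_sum, 𝒟.sum_p, mul_one]
  have hb : 0 < (Cp * ((k : ℝ) + 1) ^ m)⁻¹ := by positivity
  have hCh : (𝔇.Hs r).All fun h => SValid (𝔇.Ch r h) := (hW.ch_ok r).imp fun _ h => h.1
  have hc0 : 0 ≤ C2 * 𝔇.a ^ 2 * 𝔇.ell ^ 4 := by
    have := hW.a_pos; have := hW.ell_ge; positivity
  have heig : (∑ i, 𝔇.mTerm (Fin k) i) *ᵥ 𝔇.mPre lam = (𝔇.S.E0 : ℂ) • 𝔇.mPre lam := by
    rw [tm_sum_term]; exact tm_eig hW lam
  have hdbar : ∀ i, ((𝔇.Hs r).bind (𝔇.Ch r)).All fun a => ∀ s : Matrix (𝔇.MIx (Fin k)) (𝔇.MIx (Fin k)) ℂ,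
      s.PosSemidef → s.trace = 1 →
      (trace (s * skewD (simT (bandProd fun g => 𝔇.tmB (Fin k) g a) (𝔇.mTerm (Fin k) i)))).re ≤
        ind (𝔇.SplitAt i a) * (C2 * 𝔇.a ^ 2 * 𝔇.ell ^ 4 * (2 * 𝔇.ell) ^ ((1 : ℝ) / 8) + ε) := by
    intro i
    refine (tp_all_and (Hnew i) (tm_bind_all hW r)).imp fun a ha s hs hs1 => ?_
    refine (ha.1 𝒟 s hs hs1).trans ?_
    have hcb := (tm_costAt_bounds hW i ha.2 hk2 𝒟 hs hs1).2
    gcongr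
    exact tp_ind_nonneg _
  obtain ⟨An, F', h1, h2, h3, h4, h5⟩ := tp_transport (Ab := 𝔇.tmB (Fin k)) (tm_B_posDef (Fin k) hW)
    (fun g g' hg a b => tm_B_commute (Fin k) hW hg a b) (hW.hs_valid r) hCh
    (Pr := fun i => cohP (Fin k) (𝒟.θ i)) (fun i => tm_cohP_posSemidef (Fin k) _) hwt0 hres hb
    (fun g h l' i => mEta (𝒟.θ i) (𝔇.st h g) true ((𝔇.st l' g).1 \ (𝔇.st h g).1) +
          mEta (𝒟.θ i) (𝔇.st h g) false ((𝔇.st l' g).2 \ (𝔇.st h g).2))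
    (Hpin.imp fun h hh => hh.imp fun l' hl' g i => hl' g (𝒟.θ i) (𝒟.unit i))
    (h := 𝔇.mTerm (Fin k)) (tm_term_posSemidef (Fin k) hW) (fun i l => 𝔇.SplitAt i l)
    (fun i => (hW.hs_al r).imp fun l hl hs => tm_unsplit (Fin k) hW i hl hs)
    (fun i => (tm_bind_all hW r).imp fun l hl hs => tm_unsplit (Fin k) hW i hl hs)
    (fun i a => ind (𝔇.SplitAt i a) * (C2 * 𝔇.a ^ 2 * 𝔇.ell ^ 4 * (2 * 𝔇.ell) ^ ((1 : ℝ) / 8) + ε))
    hdbar hne heig hp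
  have hAl : An.All fun y => 𝔇.Al y.1 := tp_all_of_map (g := Prod.fst) (by rw [h1]; exact hW.hs_al r)
  have hChk : An.All fun y => (𝔇.Ch r y.1).SValid ∧ (𝔇.Ch r y.1).All 𝔇.Al ∧
      (𝔇.Ch r y.1).All fun l' => ∀ g, LegalMove io 𝔇.ell (𝔇.st y.1 g) (𝔇.st l' g) :=
    tp_all_of_map (g := Prod.fst) (by rw [h1]; exact hW.ch_ok r)
  have hAnV : An.Valid := valid_of_map (g := Prod.fst) (by rw [h1]; exact (hW.hs_valid r).valid)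
  refine ⟨An.map fun y => (y.1, 𝔇.mAnn 𝒟 y.1 y.2), F' / k, ?_, ?_, ?_, ?_, ?_⟩
  · rw [tm_map_map]; exact h1
  · exact all_map ((tp_all_and hAl h2).imp fun y hy => tm_annOK 𝔇 hW hk2 𝒟 hy.1 hy.2.1 hy.2.2)
  · rw [tm_F_fun_eq hW lam r]
    exact h3.div_const _
  · -- the gain
    have hg : (An.map fun y => (y.1, 𝔇.mAnn 𝒟 y.1 y.2)).E (𝔇.gainAt r) =
        E An (fun y => ∑ g, E (𝔇.Ch r y.1) fun c => ∑ θ,
          cohW (fun i => (dSym (rmIo io 𝔇.dst) (Fin k) : ℝ) * 𝒟.p i) (fun i => cohP (Fin k) (𝒟.θ i))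
            y.2 θ * (mEta (𝒟.θ θ) (𝔇.st y.1 g) true ((𝔇.st c g).1 \ (𝔇.st y.1 g).1) +
              mEta (𝒟.θ θ) (𝔇.st y.1 g) false ((𝔇.st c g).2 \ (𝔇.st y.1 g).2))) := by
      rw [E_map]
      refine E_congr_of_all ((tp_all_and hAl hChk).imp fun y hy => ?_)
      rw [tm_gainAt 𝔇 hW r 𝒟 hy.1 hy.2.2 y.2]
      simp only [tm_cohW_eq]
    rw [hg, le_div_iff₀ hkpos]
    rw [hsum, div_inv_eq_mul] at h4
    refine le_trans (le_of_eq ?_) h4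
    field_simp
  · -- the energy
    rw [tm_Ed_eq hW lam hne (tm_tree_all hW r p)]
    have h5' : fenergy ((𝔇.tree r p).ev (𝔇.tmA (Fin k))) (𝔇.mPre lam) (∑ i, 𝔇.mTerm (Fin k) i) ≤ _ := h5
    refine (sub_le_sub_right h5' _).trans ?_
    have key : ∀ i, (1 - p) * E An (fun y => (trace (y.2 * skewD (simT
          (bandProd fun g => 𝔇.tmB (Fin k) g y.1) (𝔇.mTerm (Fin k) i)))).re) +
        p * E ((𝔇.Hs r).bind (𝔇.Ch r)) (fun a => ind (𝔇.SplitAt i a) *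
          (C2 * 𝔇.a ^ 2 * 𝔇.ell ^ 4 * (2 * 𝔇.ell) ^ ((1 : ℝ) / 8) + ε)) ≤
        (1 - p) * (C2 * 𝔇.a ^ 2 * 𝔇.ell ^ 4 *
          (An.map fun y => (y.1, 𝔇.mAnn 𝒟 y.1 y.2)).E (𝔇.costAt i) + ε) +
        p * (((𝔇.Hs r).bind (𝔇.Ch r)).E (fun l => ind (𝔇.SplitAt i l)) *
              (C2 * 𝔇.a ^ 2 * 𝔇.ell ^ 4 * (2 * 𝔇.ell) ^ ((1 : ℝ) / 8) + ε)) := by
      intro i
      rw [E_mul_right]
      have hOld : An.All fun y => 𝔇.CostP C2 ε k i y.1 :=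
        tp_all_of_map (g := Prod.fst) (by rw [h1]; exact Hold i)
      have hle : E An (fun y => (trace (y.2 * skewD (simT
          (bandProd fun g => 𝔇.tmB (Fin k) g y.1) (𝔇.mTerm (Fin k) i)))).re) ≤
          E An (fun y => C2 * 𝔇.a ^ 2 * 𝔇.ell ^ 4 * 𝔇.costAt i (y.1, 𝔇.mAnn 𝒟 y.1 y.2) + ε) := by
        refine E_le_E_of_all hAnV ((tp_all_and hOld (tp_all_and hAl h2)).imp fun y hy => ?_)
        refine (hy.1 𝒟 y.2 hy.2.2.1 hy.2.2.2).trans ?_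
        have hcb := (tm_costAt_bounds hW i hy.2.1 hk2 𝒟 hy.2.2.1 hy.2.2.2).1
        have hnn : 0 ≤ C2 * 𝔇.a ^ 2 * 𝔇.ell ^ 4 * 𝔇.costAt i (y.1, 𝔇.mAnn 𝒟 y.1 y.2) + ε := by
          positivity
        calc ind (𝔇.SplitAt i y.1) * _ ≤ 1 * _ := mul_le_mul_of_nonneg_right (tm_ind_le_one _) hnn
          _ = _ := one_mul _
      rw [E_add, E_mul_left, E_const] at hle
      rw [E_map]
      have h1p : 0 ≤ 1 - p := by linarith [hp.2]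
      gcongr
    have hsumle := Finset.sum_le_sum fun i (_ : i ∈ Finset.univ) =>
      mul_le_mul_of_nonneg_left (key i)
        (E_nonneg (tm_tree_valid hW r hp) fun a => tp_ind_nonneg (𝔇.SplitAt i a))
    unfold tree at hsumle ⊢
    linarith

theorem tm_costAt_nonneg (i : ι) {y : α × Ann Λ 𝔇.K} (hy : AnnOK io y.2) : 0 ≤ 𝔇.costAt i y := by
  unfold costAt
  refine Finset.sum_nonneg fun g _ => add_nonneg ?_ ?_
  · exact mul_nonneg (tp_ind_nonneg _) (hy g true _).2.2.1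
  · exact mul_nonneg (tp_ind_nonneg _) (hy g false _).2.2.1

/-- final numerics of the gain -/
theorem tm_gain_numerics {a0 : ℝ} (hW : 𝔇.WF a0) {C C1 G L ζ F' : ℝ} (hC1 : 0 < C1) (hC : C1 ≤ C)
    (hC2 : 2 ≤ C) (hL : L ≤ ζ)
    (h : 𝔇.a / 2 * G - 𝔇.K * 𝔇.a * (C1 * 𝔇.a ^ ((1 : ℝ) / 4) * 𝔇.ell ^ 2) / 2 - L ≤ F') :
    𝔇.a / 2 * G - C * 𝔇.a * 𝔇.K * 𝔇.a ^ ((1 : ℝ) / 4) * 𝔇.ell ^ C - ζ ≤ F' := by
  have ha := hW.a_pos
  have hell := hW.ell_ge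
  have h1 : 𝔇.ell ^ 2 ≤ 𝔇.ell ^ C := by
    rw [← Real.rpow_two]
    exact Real.rpow_le_rpow_of_exponent_le hell hC2
  have h2 : 0 ≤ 𝔇.a ^ ((1 : ℝ) / 4) := by positivity
  have h3 : (0 : ℝ) ≤ 𝔇.K := Nat.cast_nonneg _
  have h4 : 𝔇.K * 𝔇.a * (C1 * 𝔇.a ^ ((1 : ℝ) / 4) * 𝔇.ell ^ 2) / 2 ≤
      C * 𝔇.a * 𝔇.K * 𝔇.a ^ ((1 : ℝ) / 4) * 𝔇.ell ^ C := by
    have h5 : C1 * 𝔇.ell ^ 2 ≤ C * 𝔇.ell ^ C := by gcongr
    have h6 : 0 ≤ C1 * 𝔇.ell ^ 2 := by positivity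
    have h7 : 0 ≤ 𝔇.K * 𝔇.a * 𝔇.a ^ ((1 : ℝ) / 4) := by positivity
    calc 𝔇.K * 𝔇.a * (C1 * 𝔇.a ^ ((1 : ℝ) / 4) * 𝔇.ell ^ 2) / 2
        = (𝔇.K * 𝔇.a * 𝔇.a ^ ((1 : ℝ) / 4)) * (C1 * 𝔇.ell ^ 2) / 2 := by ring
      _ ≤ (𝔇.K * 𝔇.a * 𝔇.a ^ ((1 : ℝ) / 4)) * (C1 * 𝔇.ell ^ 2) := by
          have := mul_nonneg h7 h6; linarith
      _ ≤ (𝔇.K * 𝔇.a * 𝔇.a ^ ((1 : ℝ) / 4)) * (C * 𝔇.ell ^ C) := by gcongr
      _ = _ := by ring
  linarith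

/-- final numerics of the energy -/
theorem tm_energy_numerics {a0 : ℝ} (hW : 𝔇.WF a0) {C C2 ζ p X : ℝ} (hC2 : 0 < C2) (hC : C2 ≤ C)
    (hC4 : 4 ≤ C) (hζ : 0 < ζ) (hp : p ∈ Set.Ioo (0 : ℝ) 1) (Wt Co Eb : ι → ℝ)
    (hWt : ∀ i, 0 ≤ Wt i ∧ Wt i ≤ 1) (hCo : ∀ i, 0 ≤ Co i) (hEb : ∀ i, 0 ≤ Eb i ∧ Eb i ≤ 1)
    (h : X ≤ 𝔇.S.E0 + 3 / 4 * ∑ i, Wt i *
          ((1 - p) * (C2 * 𝔇.a ^ 2 * 𝔇.ell ^ 4 * Co i + ζ / (Fintype.card ι + 1)) +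
            p * (Eb i * (C2 * 𝔇.a ^ 2 * 𝔇.ell ^ 4 * (2 * 𝔇.ell) ^ ((1 : ℝ) / 8) +
              ζ / (Fintype.card ι + 1))))) :
    X ≤ 𝔇.S.E0 + C * 𝔇.a ^ 2 * 𝔇.ell ^ C *
      ∑ i, Wt i * ((1 - p) * Co i + p * Eb i * (2 * 𝔇.ell) ^ ((1 : ℝ) / 8)) + ζ :=
  tm_energy_numerics' hW.a_pos hW.ell_ge hC2 hC hC4 hζ hp Wt Co Eb hWt hCo hEb h

end RepData

/-- **Section 6 for the model.** -/
theorem tm_transportK : TransportK := by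
  obtain ⟨c1, C1, hc1, hC1, Hpin⟩ := tm_pins
  obtain ⟨c2, C2, hc2, hC2, Hcost⟩ := tm_cost
  refine ⟨max 4 (max C1 C2), min (min c1 c2) (1 / 4), ?_, ?_, ?_⟩
  · exact le_trans (by norm_num) (le_max_left _ _)
  · exact lt_min (lt_min hc1 hc2) (by norm_num)
  intro Λ ι α _ _ _ io _ _ _ 𝔇 hW ζ hζ
  have hW1 : 𝔇.WF c1 := hW.mono ((min_le_left _ _).trans (min_le_left _ _))
  have hW2 : 𝔇.WF c2 := hW.mono ((min_le_left _ _).trans (min_le_right _ _))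
  haveI : NeZero 𝔇.dst := ⟨(RepData.tm_dst_pos 𝔇 hW).ne'⟩
  obtain ⟨Cp, m, hCp, Hpin⟩ := Hpin Λ ι α io 𝔇 hW1
  obtain ⟨Cf, mf, hCf, Hfloor⟩ := RepData.tm_floor (𝔇 := 𝔇)
    (a0 := min (min c1 c2) (1 / 4)) ((min_le_right _ _).trans (by norm_num)) hW
  obtain ⟨kf, hkf⟩ := tm_log_poly_div (𝔇.K / 2) Cf mf ζ (by linarith) hζ
  obtain ⟨kg, hkg⟩ := tm_log_poly_div (𝔇.K / 2) Cp (m + dV (rmIo io 𝔇.dst)) ζ (by linarith) hζ
  have hε : 0 < ζ / ((Fintype.card ι : ℝ) + 1) := by positivity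
  obtain ⟨kc, hkc⟩ := tm_fin_eventually (X := Fin 𝔇.R × ι)
    (Q := fun x k => (𝔇.Hs x.1).All (𝔇.CostP C2 (ζ / ((Fintype.card ι : ℝ) + 1)) k x.2) ∧
      ((𝔇.Hs x.1).bind (𝔇.Ch x.1)).All (𝔇.CostP C2 (ζ / ((Fintype.card ι : ℝ) + 1)) k x.2))
    (fun x => by
      obtain ⟨k1, h1⟩ := RepData.tm_all_eventually
        (P := fun k l => 𝔇.CostP C2 (ζ / ((Fintype.card ι : ℝ) + 1)) k x.2 l) (𝔇.Hs x.1)
        (hW.hs_al x.1) (fun l hl => Hcost Λ ι α io 𝔇 hW2 x.2 l hl _ hε)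
      obtain ⟨k2, h2⟩ := RepData.tm_all_eventually
        (P := fun k l => 𝔇.CostP C2 (ζ / ((Fintype.card ι : ℝ) + 1)) k x.2 l)
        ((𝔇.Hs x.1).bind (𝔇.Ch x.1)) (RepData.tm_bind_all hW x.1)
        (fun l hl => Hcost Λ ι α io 𝔇 hW2 x.2 l hl _ hε)
      exact ⟨max k1 k2, fun k hk => ⟨h1 k ((le_max_left _ _).trans hk),
        h2 k ((le_max_right _ _).trans hk)⟩⟩)
  refine ⟨max (max kf kg) (max kc 1), fun k hk lam hne => ?_⟩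
  have hk1 : 1 ≤ k := (le_max_right _ _).trans ((le_max_right _ _).trans hk)
  have hkc' : kc ≤ k := (le_max_left _ _).trans ((le_max_right _ _).trans hk)
  have hkf' : kf ≤ k := (le_max_left _ _).trans ((le_max_left _ _).trans hk)
  have hkg' : kg ≤ k := (le_max_right _ _).trans ((le_max_left _ _).trans hk)
  have hkpos : (0 : ℝ) < k := by exact_mod_cast hk1
  refine ⟨RepData.tm_end0 hW lam, RepData.tm_end1 hW lam, RepData.tm_cont hW lam hne, ?_, ?_⟩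
  · -- floor
    intro r
    have h1 := Hfloor k lam (𝔇.Hs r) (hW.hs_valid r).valid (hW.hs_al r) hne
    have h2 := hkf k hkf'
    unfold RepData.mF
    have hcard : ((Fintype.card (Fin k) : ℕ) : ℝ) = k := by exact_mod_cast Fintype.card_fin k
    rw [hcard, le_div_iff₀ hkpos]
    have h3 : 𝔇.K / 2 / k * Real.log (Cf * ((k : ℝ) + 1) ^ mf) * k =
        𝔇.K / 2 * Real.log (Cf * ((k : ℝ) + 1) ^ mf) := by field_simp
    nlinarith [mul_le_mul_of_nonneg_right h2 hkpos.le]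
  · -- transport
    intro r p hp
    obtain ⟨An, F', h1, h2, h3, h4, h5⟩ := RepData.tm_transport_field hW hk1 lam hne hCp hC2 hε r
      (Hpin k r) (fun i => (hkc k hkc' (r, i)).1) (fun i => (hkc k hkc' (r, i)).2) hp
    have hAnV : An.Valid := MTree.valid_of_map (g := Prod.fst) (by
      rw [h1]; exact (hW.hs_valid r).valid)
    refine ⟨An, F', h1, h2, h3, ?_, ?_⟩
    · refine RepData.tm_gain_numerics hW hC1 ((le_max_left _ _).trans (le_max_right _ _))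
        (le_trans (by norm_num) (le_max_left _ _)) ?_ h4
      refine le_trans ?_ (hkg k hkg')
      have hD1 : (0 : ℝ) < dSym (rmIo io 𝔇.dst) (Fin k) := by
        exact_mod_cast dSym_pos (rmIo io 𝔇.dst) k
      have hD2 : (dSym (rmIo io 𝔇.dst) (Fin k) : ℝ) ≤ ((k : ℝ) + 1) ^ dV (rmIo io 𝔇.dst) := by
        exact_mod_cast dSym_le (rmIo io 𝔇.dst) k
      have hKk : (0 : ℝ) ≤ 𝔇.K / 2 / k := by positivity
      refine mul_le_mul_of_nonneg_left (Real.log_le_log (by positivity) ?_) hKk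
      calc (dSym (rmIo io 𝔇.dst) (Fin k) : ℝ) * (Cp * ((k : ℝ) + 1) ^ m)
          ≤ ((k : ℝ) + 1) ^ dV (rmIo io 𝔇.dst) * (Cp * ((k : ℝ) + 1) ^ m) := by gcongr
        _ = Cp * ((k : ℝ) + 1) ^ (m + dV (rmIo io 𝔇.dst)) := by rw [pow_add]; ring
    · have hbV : ((𝔇.Hs r).bind (𝔇.Ch r)).Valid :=
        (MTree.svalid_bind (hW.hs_valid r) ((hW.ch_ok r).imp fun _ h => h.1)).valid
      exact RepData.tm_energy_numerics hW hC2 ((le_max_right _ _).trans (le_max_right _ _))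
        (le_max_left _ _) hζ hp
        (fun i => (𝔇.tree r p).E (fun l => ind (𝔇.SplitAt i l))) (fun i => An.E (𝔇.costAt i))
        (fun i => ((𝔇.Hs r).bind (𝔇.Ch r)).E (fun l => ind (𝔇.SplitAt i l)))
        (fun i => ⟨MTree.E_nonneg (RepData.tm_tree_valid hW r hp) fun a => tp_ind_nonneg _,
          by
            have := MTree.E_mono (RepData.tm_tree_valid hW r hp)
              (f := fun l => ind (𝔇.SplitAt i l)) (g := fun _ => 1) fun a => tm_ind_le_one _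
            rwa [MTree.E_const] at this⟩)
        (fun i => MTree.E_nonneg_of_all hAnV (h2.imp fun y hy => RepData.tm_costAt_nonneg i hy))
        (fun i => ⟨MTree.E_nonneg hbV fun a => tp_ind_nonneg _,
          by
            have := MTree.E_mono hbV
              (f := fun l => ind (𝔇.SplitAt i l)) (g := fun _ => 1) fun a => tm_ind_le_one _
            rwa [MTree.E_const] at this⟩)
        h5

end Scan

end Claimed.Agent.R296
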