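import Claimed.Agent.R296.TransGain
import Claimed.Agent.R296.TransEnergy

/-!
# Row 296, P1 Section 6: prop:transport, abstract form (no Schur-Weyl object visible)

Owner: helper9.  Prefix `tp_`.  Consumer: helper218 (`RepGlue`: `ReplicaStmt <- TransportK + ComparatorK`).

INPUT from Section 5 (helper197), all at the level of single leaves:
* positive definite band metrics `Ab g a`, cross-band commutation                       (5.A, 5.C)
* coherent design `Pr θ`, `wt θ`                                                        (R4)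
* relative pins `hpin` for the legal moves                                              (5.D)
* unsplit commutation `hJ`                                                              (5.B)
* the symbol cost is NOT an input: the output contains `Re Tr (s · skewD O)` for the transported states `s`
  at the old leaves, and a bound `dbar` uniform in the state at the new leaves          (5.E is applied by the consumer).

OUTPUT: ONE annotated copy `An` of the old tree (label, density matrix) which occurs in the derivative, in the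
entropy gain and in the energy estimate.
-/

set_option autoImplicit false
set_option linter.unusedSectionVars false

namespace Claimed.Agent.R296

open Matrix MTree
open scoped MatrixOrder Matrix.Norms.L2Operator ComplexOrder

variable {α β : Type} {n : Type} [Fintype n] [DecidableEq n]

theorem tp_all_interp {P : α → Prop} {p : ℝ} {Hs : MTree α} {Ch : α → MTree α} (h1 : Hs.All P)
    (h2 : (Hs.bind Ch).All P) : (interp p Hs Ch).All P := by
  unfold interp
  induction Hs with
  | leaf a => exact ⟨h1, h2⟩
  | node q l r ihl ihr => exact ⟨ihl h1.1 h2.1, ihr h1.2 h2.2⟩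

theorem tp_all_of_map {Q : β → Prop} {g : α → β} {t : MTree α} (h : (t.map g).All Q) :
    t.All fun a => Q (g a) := by
  induction t with
  | leaf a => exact h
  | node q l r ihl ihr => exact ⟨ihl h.1, ihr h.2⟩

theorem tp_all_and {P Q : α → Prop} {t : MTree α} (h1 : t.All P) (h2 : t.All Q) :
    t.All fun a => P a ∧ Q a := by
  induction t with
  | leaf a => exact ⟨h1, h2⟩
  | node q l r ihl ihr => exact ⟨ihl h1.1 h2.1, ihr h1.2 h2.2⟩

theorem tp_valid_of_map {g : α → β} {t : MTree α} (h : (t.map g).Valid) : t.Valid := by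
  induction t with
  | leaf a => trivial
  | node q l r ihl ihr => exact ⟨h.1, h.2.1, ihl h.2.2.1, ihr h.2.2.2⟩

theorem tp_svalid_bind {t : MTree α} {k : α → MTree β} (ht : SValid t)
    (hk : t.All fun a => SValid (k a)) : SValid (t.bind k) := by
  induction t with
  | leaf a => exact hk
  | node q l r ihl ihr => exact ⟨ht.1, ht.2.1, ihl ht.2.2.1 hk.1, ihr ht.2.2.2 hk.2⟩

theorem tp_ind_nonneg (P : Prop) : 0 ≤ Scan.ind P := by
  unfold Scan.ind
  split_ifs <;> norm_num

/-- **prop:transport, abstract form.** -/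
theorem tp_transport {K : ℕ} {Θ ι : Type} [Fintype Θ] [Fintype ι] {Ab : Fin K → α → Matrix n n ℂ}
    (hAb : ∀ g a, (Ab g a).PosDef)
    (hc : ∀ g g', g ≠ g' → ∀ a b, Commute (Ab g a) (Ab g' b)) {Hs : MTree α} (hHs : SValid Hs)
    {Ch : α → MTree α} (hCh : Hs.All fun h => SValid (Ch h)) {Pr : Θ → Matrix n n ℂ}
    (hPr : ∀ θ, (Pr θ).PosSemidef) {wt : Θ → ℝ} (hwt : ∀ θ, 0 ≤ wt θ)
    (hres : ∑ θ, (wt θ : ℂ) • Pr θ = 1) {b κ err : ℝ} (hb : 0 < b) (η : Fin K → α → α → Θ → ℝ)
    (hpin : Hs.All fun h => (Ch h).All fun c => ∀ g θ,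
      ((b * Real.exp (κ * (η g h c θ - err)) : ℝ) : ℂ) • Pr θ ≤ relm (Ab g h) (Ab g c))
    {h : ι → Matrix n n ℂ} (hh : ∀ i, (h i).PosSemidef) (J : ι → α → Prop)
    (hJold : ∀ i, Hs.All fun a => ¬ J i a → Commute (bandProd fun g => Ab g a) (h i))
    (hJnew : ∀ i, (Hs.bind Ch).All fun a => ¬ J i a → Commute (bandProd fun g => Ab g a) (h i))
    (dbar : ι → α → ℝ)
    (hdbar : ∀ i, (Hs.bind Ch).All fun a => ∀ s : Matrix n n ℂ, s.PosSemidef → s.trace = 1 →
      (trace (s * skewD (simT (bandProd fun g => Ab g a) (h i)))).re ≤ dbar i a)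
    {w : n → ℂ} (hw : w ≠ 0) {E0 : ℝ} (heig : (∑ i, h i) *ᵥ w = (E0 : ℂ) • w)
    {p : ℝ} (hp : p ∈ Set.Ioo (0 : ℝ) 1) :
    ∃ (An : MTree (α × Matrix n n ℂ)) (F' : ℝ),
      An.map Prod.fst = Hs ∧ An.All (fun y => y.2.PosSemidef ∧ y.2.trace = 1) ∧
      HasDerivAt (fun q => - Real.log (nrm2 (ev (fun a => bandProd fun g => Ab g a) (interp q Hs Ch)) w))
        F' p ∧
      κ / 2 * E An (fun y => ∑ g, E (Ch y.1) fun c => ∑ θ, cohW wt Pr y.2 θ * η g y.1 c θ) -
        K * κ * err / 2 - K / 2 * Real.log ((∑ θ, wt θ) / b) ≤ F' ∧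
      fenergy (ev (fun a => bandProd fun g => Ab g a) (interp p Hs Ch)) w (∑ i, h i) ≤
        2 * E0 + 3 / 4 * ∑ i, (E (interp p Hs Ch) fun a => Scan.ind (J i a)) *
          ((1 - p) * E An (fun y =>
              (trace (y.2 * skewD (simT (bandProd fun g => Ab g y.1) (h i)))).re) +
            p * E (Hs.bind Ch) (dbar i)) := by
  have hA : ∀ a, (bandProd fun g => Ab g a).PosDef := fun a =>
    tg_bandProd_posDef (fun g => hAb g a) (fun g g' hne => hc g g' hne a a)
  have hT : SValid (interp p Hs Ch) := svalid_interp hp hHs hCh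
  have hM := ev_posDef hA (interp p Hs Ch)
  have hσ := ts_rootSt_posSemidef hM w
  have hσ1 := ts_rootSt_trace hM hw
  refine ⟨oldAnn (fun a => bandProd fun g => Ab g a) p Hs Ch
      (rootSt (ev (fun a => bandProd fun g => Ab g a) (interp p Hs Ch)) w), _,
    oldAnn_map_fst _ _ _ _ _, oldAnn_all_state hA hp hHs Ch hσ hσ1,
    tg_exact_derivative hA hHs Ch (ne_of_lt hp.2) hw,
    tg_gain hAb hc hHs hCh hPr hwt hres hb η hpin hp hw, ?_⟩
  have hen := te_energy hA hT hh J (fun i => tp_all_interp (hJold i) (hJnew i)) hw heig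
  refine hen.trans ?_
  gcongr with i _
  · exact E_nonneg (tr_valid_of_svalid hT) fun a => tp_ind_nonneg _
  rw [E_pull_interp]
  gcongr
  · exact hp.1.le
  -- the new leaves
  set NA := newAnn (fun a => bandProd fun g => Ab g a) p Hs Ch
      (rootSt (ev (fun a => bandProd fun g => Ab g a) (interp p Hs Ch)) w) with hNA
  have hfst : NA.map Prod.fst = Hs.bind Ch := newAnn_map_fst _ _ _ _ _
  have hval : NA.Valid := tp_valid_of_map (g := Prod.fst) (by
    rw [hfst]; exact tr_valid_of_svalid (tp_svalid_bind hHs hCh))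
  have hst := newAnn_all_state hA hp hHs hCh hσ hσ1
  have hd : NA.All fun y => ∀ s : Matrix n n ℂ, s.PosSemidef → s.trace = 1 →
      (trace (s * skewD (simT (bandProd fun g => Ab g y.1) (h i)))).re ≤ dbar i y.1 :=
    tp_all_of_map (g := Prod.fst) (by rw [hfst]; exact hdbar i)
  calc E NA (fun y => (trace (y.2 * skewD (simT (bandProd fun g => Ab g y.1) (h i)))).re)
      ≤ E NA (fun y => dbar i y.1) :=
        E_le_E_of_all hval ((tp_all_and hst hd).imp fun y hy => hy.2 y.2 hy.1.1 hy.1.2)
    _ = E (Hs.bind Ch) (dbar i) := by rw [← hfst, E_map]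

end Claimed.Agent.R296
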