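import Claimed.Agent.R296.RepModel
import Claimed.Agent.R296.Replica.Symbol
import Claimed.Agent.R296.Replica.Pin
import Claimed.Agent.R296.Transport

/-!
# Row 296, glue `TransportK <- tp_transport + Section 5`, file A: statuses, moves, entropies, annotation

Architect: helper9.  Prefix `tm_`.  ONE leaf package (finite sets, dimension bookkeeping, scalar Jensen; 500-800 lines;
no paper needed).

Model (`RepModel.lean`): extended sites `Λ ⊕ Bool`; a band status `s = (near, far)` gives the partition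
`P = mP s = near ∪ {C}`, `F = mFar s = far ∪ {R}`, `Y = mY s = (near ∪ far)ᶜ`.
* `mEta θ s b x`  : the entropy `η_θ` of the move of the physical set `x ⊆ Y` to the near (`b = true`) / far side;
* `mAnn 𝒟 l σ`   : the annotation (`e1`, `e8`) of a leaf with label `l` and transported state `σ`
  (finite sums over a coherent design; `0` if `x` is not inside the middle part).
-/

set_option autoImplicit false
set_option linter.unusedSectionVars false

namespace Claimed.Agent.R296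

open Matrix Finset
open scoped ComplexOrder MatrixOrder

instance rmIoNonempty {Λ : Type} (io : Λ → Type) [∀ x, Nonempty (io x)] (d : ℕ) [NeZero d] :
    ∀ x, Nonempty (rmIo io d x)
  | Sum.inl x => inferInstanceAs (Nonempty (io x))
  | Sum.inr _ => inferInstanceAs (Nonempty (Fin d))

namespace Scan

namespace RepData

variable {Λ ι α : Type} [Fintype Λ] [DecidableEq Λ] [Fintype ι]
  {io : Λ → Type} [∀ x, Fintype (io x)] [∀ x, DecidableEq (io x)]

/-! ### the partition of a status -/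

/-- the middle part of a status -/
def mid (s : Finset Λ × Finset Λ) : Finset Λ := (s.1 ∪ s.2)ᶜ

theorem tm_inl_mem_rmPh {Q : Finset Λ} {y : Λ} : (Sum.inl y : Λ ⊕ Bool) ∈ rmPh Q ↔ y ∈ Q := by
  simp [rmPh]

theorem tm_inr_notMem_rmPh {Q : Finset Λ} {b : Bool} : (Sum.inr b : Λ ⊕ Bool) ∉ rmPh Q := by
  simp [rmPh]

theorem tm_rmPh_subset {Q Q' : Finset Λ} : rmPh Q ⊆ rmPh Q' ↔ Q ⊆ Q' := by
  simp [rmPh]

theorem tm_mY_eq (s : Finset Λ × Finset Λ) : mY s = rmPh (mid s) := rfl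

theorem tm_part3 {s : Finset Λ × Finset Λ} (h : Disjoint s.1 s.2) :
    IsPart3 (mP s) (mY s) (mFar s) := by
  have hd : ∀ y, y ∈ s.1 → y ∉ s.2 := fun y hy => Finset.disjoint_left.1 h hy
  refine ⟨?_, ?_, ?_, ?_⟩
  · rw [Finset.disjoint_left]
    rintro (y | b) h1 h2
    · simp only [mP, mY, mem_union, tm_inl_mem_rmPh, mem_singleton, mem_compl, reduceCtorEq,
        or_false] at h1 h2
      tauto
    · exact tm_inr_notMem_rmPh h2
  · rw [Finset.disjoint_left]
    rintro (y | b) h1 h2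
    · simp only [mP, mFar, mem_union, tm_inl_mem_rmPh, mem_singleton, reduceCtorEq,
        or_false] at h1 h2
      exact hd y h1 h2
    · simp only [mP, mFar, mem_union, tm_inr_notMem_rmPh, mem_singleton, false_or,
        Sum.inr.injEq] at h1 h2
      rw [h1] at h2
      exact absurd h2 (by decide)
  · rw [Finset.disjoint_left]
    rintro (y | b) h1 h2
    · simp only [mFar, mY, mem_union, tm_inl_mem_rmPh, mem_singleton, mem_compl, reduceCtorEq,
        or_false] at h1 h2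
      tauto
    · exact tm_inr_notMem_rmPh h1
  · ext (y | b)
    · simp only [mP, mY, mFar, mem_union, tm_inl_mem_rmPh, mem_singleton, mem_compl, reduceCtorEq,
        or_false, mem_univ, iff_true]
      tauto
    · cases b <;> simp [mP, mFar]

theorem tm_four {s : Finset Λ × Finset Λ} (h : Disjoint s.1 s.2) {x : Finset Λ} (hx : x ⊆ mid s) :
    cd_Four (mP s) (rmPh x) (mY s \ rmPh x) (mFar s) := by
  have h3 := tm_part3 h
  have hxY : rmPh x ⊆ mY s := tm_rmPh_subset.2 hx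
  refine ⟨?_, ?_, h3.dPF, ?_, ?_, ?_, ?_⟩
  · exact Finset.disjoint_of_subset_right hxY h3.dPY
  · exact Finset.disjoint_of_subset_right sdiff_subset h3.dPY
  · exact Finset.disjoint_sdiff
  · exact Finset.disjoint_of_subset_left hxY h3.dYF
  · exact Finset.disjoint_of_subset_left sdiff_subset h3.dYF
  · rw [Finset.union_assoc (mP s), Finset.union_sdiff_of_subset hxY]
    exact h3.cover

theorem tm_mY_split {s : Finset Λ × Finset Λ} {x : Finset Λ} (hx : x ⊆ mid s) :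
    rmPh x ∪ (mY s \ rmPh x) = mY s := by
  exact Finset.union_sdiff_of_subset (tm_rmPh_subset.2 hx)

theorem tm_mP_move (s : Finset Λ × Finset Λ) (x : Finset Λ) :
    mP (s.1 ∪ x, s.2) = rmPh x ∪ mP s := by
  ext (y | b)
  · simp only [mP, mem_union, tm_inl_mem_rmPh, mem_singleton, reduceCtorEq, or_false]
    tauto
  · simp [mP, tm_inr_notMem_rmPh]

theorem tm_mFar_move (s : Finset Λ × Finset Λ) (x : Finset Λ) :
    mFar (s.1, s.2 ∪ x) = rmPh x ∪ mFar s := by
  ext (y | b)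
  · simp only [mFar, mem_union, tm_inl_mem_rmPh, mem_singleton, reduceCtorEq, or_false]
    tauto
  · simp [mFar, tm_inr_notMem_rmPh]

theorem tm_mY_move_near (s : Finset Λ × Finset Λ) (x : Finset Λ) :
    mY (s.1 ∪ x, s.2) = mY s \ rmPh x := by
  ext (y | b)
  · simp only [mY, mem_sdiff, tm_inl_mem_rmPh, mem_compl, mem_union]
    tauto
  · simp [mY, tm_inr_notMem_rmPh]

theorem tm_mY_move_far (s : Finset Λ × Finset Λ) (x : Finset Λ) :
    mY (s.1, s.2 ∪ x) = mY s \ rmPh x := by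
  ext (y | b)
  · simp only [mY, mem_sdiff, tm_inl_mem_rmPh, mem_compl, mem_union]
    tauto
  · simp [mY, tm_inr_notMem_rmPh]

/-- nesting of two bands: `P ∪ Y ⊆ P'` -/
theorem tm_nested {s s' : Finset Λ × Finset Λ} (hd : Disjoint s.1 s.2) (h : s.2ᶜ ⊆ s'.1) :
    mP s ∪ mY s ⊆ mP s' := by
  rintro (y | b) hy
  · simp only [mP, mY, mem_union, tm_inl_mem_rmPh, mem_singleton, mem_compl, reduceCtorEq,
      or_false] at hy ⊢
    apply h
    rw [mem_compl]
    rcases hy with hy | hy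
    · exact Finset.disjoint_left.1 hd hy
    · tauto
  · simp only [mP, mY, mem_union, tm_inr_notMem_rmPh, mem_singleton, false_or, or_false] at hy ⊢
    exact hy

/-- the three cases of a legal move, in normal form (`s'` has disjoint parts) -/
theorem tm_legal_cases {ell : ℝ} {s s' : Finset Λ × Finset Λ} (hd : Disjoint s'.1 s'.2)
    (h : LegalMove io ell s s') :
    (s' = s) ∨
    (s' = (s.1 ∪ (s'.1 \ s.1), s.2) ∧ s'.1 \ s.1 ⊆ mid s ∧ s'.2 \ s.2 = ∅ ∧
      1 + ldim io (s'.1 \ s.1) ≤ ell) ∨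
    (s' = (s.1, s.2 ∪ (s'.2 \ s.2)) ∧ s'.2 \ s.2 ⊆ mid s ∧ s'.1 \ s.1 = ∅ ∧
      1 + ldim io (s'.2 \ s.2) ≤ ell) := by
  obtain ⟨s1, s2⟩ := s
  obtain ⟨t1, t2⟩ := s'
  simp only at hd
  rcases h with h | ⟨h1, h2, h3⟩ | ⟨h1, h2, h3⟩
  · exact Or.inl h
  · simp only at h1 h2 h3
    subst h1
    refine Or.inr (Or.inl ⟨?_, ?_, ?_, h3⟩)
    · simp only [Prod.mk.injEq, and_true]
      exact (Finset.union_sdiff_of_subset h2).symm
    · intro y hy
      rw [mem_sdiff] at hy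
      simp only [mid, mem_compl, mem_union]
      have := Finset.disjoint_left.1 hd hy.1
      tauto
    · simp
  · simp only at h1 h2 h3
    subst h1
    refine Or.inr (Or.inr ⟨?_, ?_, ?_, h3⟩)
    · simp only [Prod.mk.injEq, true_and]
      exact (Finset.union_sdiff_of_subset h2).symm
    · intro y hy
      rw [mem_sdiff] at hy
      simp only [mid, mem_compl, mem_union]
      have := Finset.disjoint_right.1 hd hy.1
      tauto
    · simp

/-! ### supports: the three alternatives of `Ins`, the two kinds of split -/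

theorem tm_ins {D : Finset Λ} {s : Finset Λ × Finset Λ} (h : Ins D s) :
    rmPh D ⊆ mP s ∨ rmPh D ⊆ mY s ∨ rmPh D ⊆ mFar s := by
  rcases h with h | h | ⟨h1, h2⟩
  · exact Or.inl ((tm_rmPh_subset.2 h).trans subset_union_left)
  · exact Or.inr (Or.inr ((tm_rmPh_subset.2 h).trans subset_union_left))
  · refine Or.inr (Or.inl (tm_rmPh_subset.2 ?_))
    intro y hy
    simp only [mem_compl, mem_union]
    have a1 := Finset.disjoint_left.1 h1 hy
    have a2 := Finset.disjoint_left.1 h2 hy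
    tauto

theorem tm_not_split_of_ins {D : Finset Λ} {s : Finset Λ × Finset Λ} (h : Ins D s) :
    ¬ SpN D s ∧ ¬ SpF D s := by
  constructor
  · rintro ⟨⟨y, hy⟩, hn, hd⟩
    rw [mem_inter] at hy
    rcases h with h | h | ⟨h1, h2⟩
    · exact hn h
    · exact Finset.disjoint_left.1 hd hy.1 (h hy.1)
    · exact Finset.disjoint_left.1 h1 hy.1 hy.2
  · rintro ⟨⟨y, hy⟩, hn, hd⟩
    rw [mem_inter] at hy
    rcases h with h | h | ⟨h1, h2⟩
    · exact Finset.disjoint_left.1 hd hy.1 (h hy.1)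
    · exact hn h
    · exact Finset.disjoint_left.1 h2 hy.1 hy.2

/-- near split: `D = P₀ ∪ x`, `P₀ = D ∩ near ⊆ P`, `x = D \ near ⊆ Y` -/
theorem tm_spN {D : Finset Λ} {s : Finset Λ × Finset Λ} (h : SpN D s) :
    rmPh D = rmPh (D ∩ s.1) ∪ rmPh (D \ s.1) ∧ rmPh (D ∩ s.1) ⊆ mP s ∧ D \ s.1 ⊆ mid s := by
  obtain ⟨-, -, hd⟩ := h
  refine ⟨?_, ?_, ?_⟩
  · ext (y | b)
    · simp only [mem_union, tm_inl_mem_rmPh, mem_inter, mem_sdiff]
      tauto
    · simp [tm_inr_notMem_rmPh]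
  · exact (tm_rmPh_subset.2 inter_subset_right).trans subset_union_left
  · intro y hy
    rw [mem_sdiff] at hy
    simp only [mid, mem_compl, mem_union]
    have := Finset.disjoint_left.1 hd hy.1
    tauto

theorem tm_spF {D : Finset Λ} {s : Finset Λ × Finset Λ} (h : SpF D s) :
    rmPh D = rmPh (D ∩ s.2) ∪ rmPh (D \ s.2) ∧ rmPh (D ∩ s.2) ⊆ mFar s ∧ D \ s.2 ⊆ mid s := by
  obtain ⟨-, -, hd⟩ := h
  refine ⟨?_, ?_, ?_⟩
  · ext (y | b)
    · simp only [mem_union, tm_inl_mem_rmPh, mem_inter, mem_sdiff]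
      tauto
    · simp [tm_inr_notMem_rmPh]
  · exact (tm_rmPh_subset.2 inter_subset_right).trans subset_union_left
  · intro y hy
    rw [mem_sdiff] at hy
    simp only [mid, mem_compl, mem_union]
    have := Finset.disjoint_left.1 hd hy.1
    tauto

/-! ### dimensions -/

variable [∀ x, Nonempty (io x)]

theorem tm_log_cd_dim (d : ℕ) (x : Finset Λ) :
    Real.log (cd_dim (rmIo io d) (rmPh x)) = ldim io x := by
  unfold cd_dim ldim rmPh
  rw [Finset.prod_map, Nat.cast_prod, Real.log_prod]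
  · rfl
  · intro y _
    have : Fintype.card (io y) ≠ 0 := Fintype.card_ne_zero
    exact_mod_cast this

theorem tm_cd_ell (d : ℕ) (x : Finset Λ) : cd_ell (rmIo io d) (rmPh x) = 1 + ldim io x := by
  unfold cd_ell
  have h0 : ((cd_dim (rmIo io d) (rmPh x) : ℕ) : ℝ) ≠ 0 := by
    unfold cd_dim rmPh
    rw [Finset.prod_map, Nat.cast_prod]
    apply Finset.prod_ne_zero_iff.2
    intro y _
    have : Fintype.card (io y) ≠ 0 := Fintype.card_ne_zero
    exact_mod_cast this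
  rw [Real.log_mul (Real.exp_pos 1).ne' h0, Real.log_exp, tm_log_cd_dim]

theorem tm_ldim_nonneg (x : Finset Λ) : 0 ≤ ldim io x := by
  unfold ldim
  apply Finset.sum_nonneg
  intro y _
  apply Real.log_nonneg
  have : 1 ≤ Fintype.card (io y) := Fintype.card_pos
  exact_mod_cast this

theorem tm_ldim_mono {x y : Finset Λ} (h : x ⊆ y) : ldim io x ≤ ldim io y := by
  unfold ldim
  apply Finset.sum_le_sum_of_subset_of_nonneg h
  intro z _ _
  apply Real.log_nonneg
  have : 1 ≤ Fintype.card (io z) := Fintype.card_pos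
  exact_mod_cast this

/-! ### the entropy of a move -/

/-- `η_θ` of the move of `x` to the near (`true`) or far (`false`) side at the status `s` -/
noncomputable def mEta {d : ℕ} (θ : Cfg (rmIo io d) → ℂ) (s : Finset Λ × Finset Λ) (b : Bool)
    (x : Finset Λ) : ℝ :=
  etaMove θ (rmPh x) (if b then mP s else mFar s) (mY s \ rmPh x)

theorem tm_eta_nonneg {d : ℕ} [NeZero d] {θ : Cfg (rmIo io d) → ℂ} (hθ : star θ ⬝ᵥ θ = 1)
    {s : Finset Λ × Finset Λ} (h : Disjoint s.1 s.2) (b : Bool) {x : Finset Λ} (hx : x ⊆ mid s) :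
    0 ≤ mEta θ s b x := by
  unfold mEta
  cases b
  · exact etaMove_nonneg (tm_four h hx).swap hθ
  · exact etaMove_nonneg (tm_four h hx) hθ

theorem tm_eta_le {d : ℕ} [NeZero d] {θ : Cfg (rmIo io d) → ℂ} (hθ : star θ ⬝ᵥ θ = 1)
    {s : Finset Λ × Finset Λ} (h : Disjoint s.1 s.2) (b : Bool) {x : Finset Λ} (hx : x ⊆ mid s) :
    mEta θ s b x ≤ 2 * ldim io x := by
  unfold mEta
  rw [← tm_log_cd_dim d x]
  cases b
  · exact etaMove_le (tm_four h hx).swap hθ
  · exact etaMove_le (tm_four h hx) hθ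

theorem tm_eta_empty {d : ℕ} (θ : Cfg (rmIo io d) → ℂ) (s : Finset Λ × Finset Λ) (b : Bool) :
    mEta θ s b ∅ = 0 := by
  unfold mEta etaMove centr
  have : rmPh (∅ : Finset Λ) = ∅ := rfl
  rw [this]
  simp

/-! ### the annotation of a leaf -/

variable (𝔇 : RepData Λ ι α io)

open Classical in
/-- the annotation of a leaf with label `l` and state `σ` -/
noncomputable def mAnn {k N : ℕ} (𝒟 : CohDesign (rmIo io 𝔇.dst) N) (l : α)
    (σ : Matrix (𝔇.MIx (Fin k)) (𝔇.MIx (Fin k)) ℂ) : Ann Λ 𝔇.K :=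
  (fun g b x => if x ⊆ mid (𝔇.st l g) then ∑ i, 𝒟.w k σ i * mEta (𝒟.θ i) (𝔇.st l g) b x else 0,
   fun g b x => if x ⊆ mid (𝔇.st l g) then
      ∑ i, 𝒟.w k σ i * (mEta (𝒟.θ i) (𝔇.st l g) b x) ^ ((1 : ℝ) / 8) else 0)

/-- `d_* ≥ 1` -/
theorem tm_dst_pos {a0 : ℝ} (hW : 𝔇.WF a0) : 0 < 𝔇.dst := by
  have h := hW.typ_pos
  unfold dst
  rw [Multiset.card_pos]
  intro h0
  unfold typZ at h
  rw [h0] at h
  simp at h

/-- the annotation satisfies `AnnOK` (bounds of `η`, probability weights, power-mean inequality) -/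
theorem tm_annOK {a0 : ℝ} (hW : 𝔇.WF a0) {k N : ℕ} (hN : k ≤ N)
    (𝒟 : CohDesign (rmIo io 𝔇.dst) N) {l : α} (hl : 𝔇.Al l)
    {σ : Matrix (𝔇.MIx (Fin k)) (𝔇.MIx (Fin k)) ℂ} (hσ : σ.PosSemidef) (hσ1 : σ.trace = 1) :
    AnnOK io (𝔇.mAnn 𝒟 l σ) := by
  have hd0 := tm_dst_pos 𝔇 hW
  have : NeZero 𝔇.dst := ⟨hd0.ne'⟩
  have hw0 : ∀ i, 0 ≤ 𝒟.w k σ i := fun i => 𝒟.w_nonneg k hσ i
  have hw1 : ∑ i, 𝒟.w k σ i = 1 := by
    rw [𝒟.sum_w hN σ, hσ1]
    simp
  intro g b x
  have hdis := hW.st_disj l hl g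
  by_cases hx : x ⊆ mid (𝔇.st l g)
  · simp only [mAnn, if_pos hx]
    have hη0 : ∀ i, 0 ≤ mEta (𝒟.θ i) (𝔇.st l g) b x := fun i =>
      tm_eta_nonneg (𝒟.unit i) hdis b hx
    have hη1 : ∀ i, mEta (𝒟.θ i) (𝔇.st l g) b x ≤ 2 * ldim io x := fun i =>
      tm_eta_le (𝒟.unit i) hdis b hx
    refine ⟨Finset.sum_nonneg fun i _ => mul_nonneg (hw0 i) (hη0 i), ?_,
      Finset.sum_nonneg fun i _ => mul_nonneg (hw0 i) (Real.rpow_nonneg (hη0 i) _), ?_⟩
    · calc ∑ i, 𝒟.w k σ i * mEta (𝒟.θ i) (𝔇.st l g) b x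
          ≤ ∑ i, 𝒟.w k σ i * (2 * ldim io x) :=
            Finset.sum_le_sum fun i _ => mul_le_mul_of_nonneg_left (hη1 i) (hw0 i)
        _ = 2 * ldim io x := by rw [← Finset.sum_mul, hw1, one_mul]
    · have := (Real.concaveOn_rpow (p := (1 : ℝ) / 8) (by norm_num) (by norm_num)).le_map_sum
        (t := Finset.univ) (w := 𝒟.w k σ) (p := fun i => mEta (𝒟.θ i) (𝔇.st l g) b x)
        (fun i _ => hw0 i) hw1 (fun i _ => hη0 i)
      simpa only [smul_eq_mul] using this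
  · simp only [mAnn, if_neg hx]
    refine ⟨le_rfl, ?_, le_rfl, ?_⟩
    · have := tm_ldim_nonneg (io := io) x
      linarith
    · rw [Real.zero_rpow (by norm_num)]

/-- crude bound of `e8` -/
theorem tm_e8_le {a0 : ℝ} (hW : 𝔇.WF a0) {k N : ℕ} (hN : k ≤ N)
    (𝒟 : CohDesign (rmIo io 𝔇.dst) N) {l : α} (hl : 𝔇.Al l)
    {σ : Matrix (𝔇.MIx (Fin k)) (𝔇.MIx (Fin k)) ℂ} (hσ : σ.PosSemidef) (hσ1 : σ.trace = 1)
    (g : Fin 𝔇.K) (b : Bool) (x : Finset Λ) :
    (𝔇.mAnn 𝒟 l σ).2 g b x ≤ (2 * ldim io x) ^ ((1 : ℝ) / 8) := by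
  obtain ⟨h1, h2, -, h4⟩ := tm_annOK 𝔇 hW hN 𝒟 hl hσ hσ1 g b x
  exact h4.trans (Real.rpow_le_rpow h1 h2 (by norm_num))

/-- the gain seen from an annotated old leaf, in the form delivered by `tp_transport` -/
theorem tm_gainAt {a0 : ℝ} (hW : 𝔇.WF a0) (r : Fin 𝔇.R) {k N : ℕ}
    (𝒟 : CohDesign (rmIo io 𝔇.dst) N) {l : α} (hl : 𝔇.Al l)
    (hch : (𝔇.Ch r l).All 𝔇.Al ∧ (𝔇.Ch r l).All fun l' => ∀ g, LegalMove io 𝔇.ell (𝔇.st l g) (𝔇.st l' g))
    (σ : Matrix (𝔇.MIx (Fin k)) (𝔇.MIx (Fin k)) ℂ) :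
    𝔇.gainAt r (l, 𝔇.mAnn 𝒟 l σ) =
      ∑ g, (𝔇.Ch r l).E fun l' => ∑ i, 𝒟.w k σ i *
        (mEta (𝒟.θ i) (𝔇.st l g) true ((𝔇.st l' g).1 \ (𝔇.st l g).1) +
          mEta (𝒟.θ i) (𝔇.st l g) false ((𝔇.st l' g).2 \ (𝔇.st l g).2)) := by
  unfold gainAt
  apply Finset.sum_congr rfl
  intro g _
  apply MTree.E_congr_of_all
  rw [MTree.all_iff_leaves]
  intro l' hl'
  have h1 := (MTree.all_iff_leaves _).1 hch.1 l' hl'
  have h2 := (MTree.all_iff_leaves _).1 hch.2 l' hl' g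
  have hd' := hW.st_disj l' h1 g
  have hsub : (𝔇.st l' g).1 \ (𝔇.st l g).1 ⊆ mid (𝔇.st l g) ∧
      (𝔇.st l' g).2 \ (𝔇.st l g).2 ⊆ mid (𝔇.st l g) := by
    rcases tm_legal_cases hd' h2 with h | ⟨-, ha, hb, -⟩ | ⟨-, ha, hb, -⟩
    · rw [h]
      simp
    · exact ⟨ha, by rw [hb]; exact empty_subset _⟩
    · exact ⟨by rw [hb]; exact empty_subset _, ha⟩
  simp only [mAnn, if_pos hsub.1, if_pos hsub.2]
  rw [← Finset.sum_add_distrib]
  apply Finset.sum_congr rfl
  intro i _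
  ring

end RepData

end Scan

end Claimed.Agent.R296
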