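import Claimed.Agent.R296.TransModelA

/-!
# Row 296, glue `TransportK <- tp_transport + Section 5`, file B: leaf metrics, pins, floor

Architect: helper9.  Proofs: helper295 (no `sorry` in this file).  Prefix `tm_` (statements), `tmb_` (auxiliary lemmas).

`tp_transport` wants positive definite, cross-band commuting inputs for ALL labels; the model metrics `mLeafB` have these
properties only at allowed labels.  `tmB` replaces them by `1` at the other labels; all trees of a `RepData` have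
allowed leaves, so the roots are the same (`tm_root_eq`).
Inputs: `Replica/Band.lean` (`bandM_posDef`, `bandMz_commute_nested`, `relM_eq_relm`, `relM'_eq_relm`, `bandM_floor`),
`Replica/Pin.lean` (`relative_pin`, `relative_pin'`), `TransModelA`.
-/

set_option autoImplicit false
set_option linter.unusedSectionVars false

namespace Claimed.Agent.R296

open Matrix Finset MTree
open scoped ComplexOrder MatrixOrder

namespace Scan

namespace RepData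

/-! ### abstract matrix lemmas -/

/-- monotonicity of real multiples of `1` -/
theorem tmb_smul_one_le {n : Type} [Fintype n] [DecidableEq n] {x y : ℝ} (h : x ≤ y) :
    (x : ℂ) • (1 : Matrix n n ℂ) ≤ (y : ℂ) • 1 := by
  rw [Matrix.le_iff, ← sub_smul, ← Complex.ofReal_sub]
  exact PosSemidef.one.smul (by exact_mod_cast sub_nonneg.2 h)

/-- monotonicity of real multiples of a positive semidefinite matrix -/
theorem tmb_smul_le_of_psd {n : Type} [Fintype n] {P : Matrix n n ℂ} (hP : P.PosSemidef) {x y : ℝ}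
    (h : x ≤ y) : (x : ℂ) • P ≤ (y : ℂ) • P := by
  rw [Matrix.le_iff, ← sub_smul, ← Complex.ofReal_sub]
  exact hP.smul (by exact_mod_cast sub_nonneg.2 h)

/-- two commuting matrices with floors -/
theorem tmb_mul_floor {n : Type} [Fintype n] [DecidableEq n] {A B : Matrix n n ℂ} (hB : B.PosDef)
    (hc : Commute A B) {a b : ℝ} (ha : 0 ≤ a) (hA' : (a : ℂ) • 1 ≤ A) (hB' : (b : ℂ) • 1 ≤ B) :
    ((a * b : ℝ) : ℂ) • 1 ≤ A * B := by
  have hS : (rpw B (1 / 2))ᴴ = rpw B (1 / 2) := rpw_isHermitian B _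
  have h1 := pd_conj_le_conj hA' (rpw B (1 / 2))
  rw [hS, Matrix.mul_smul, Matrix.mul_one, Matrix.smul_mul, rpw_half_mul_half hB,
    ← (rpw_commute hc (1 / 2)).eq, Matrix.mul_assoc, rpw_half_mul_half hB] at h1
  refine le_trans ?_ h1
  have h2 := band_smul_le_smul hB' ha
  rwa [smul_smul, ← Complex.ofReal_mul] at h2

/-- a rank one projector is `≤ 1` -/
theorem tmb_pureOp_le_one {n : Type} [Fintype n] [DecidableEq n] {v : n → ℂ}
    (hv : star v ⬝ᵥ v = 1) : pureOp v ≤ (1 : Matrix n n ℂ) := by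
  rw [Matrix.le_iff]
  have hH : (pureOp v)ᴴ = pureOp v := (pureOp_posSemidef v).1
  have hsq : pureOp v * pureOp v = pureOp v := by
    unfold pureOp
    rw [vecMulVec_mul_vecMulVec, hv, one_smul]
  have e : (1 - pureOp v) = (1 - pureOp v)ᴴ * (1 - pureOp v) := by
    rw [conjTranspose_sub, conjTranspose_one, hH, Matrix.mul_sub, Matrix.sub_mul, Matrix.sub_mul,
      hsq]
    simp
  rw [e]
  exact posSemidef_conjTranspose_mul_self _

/-- a Hermitian idempotent does not increase the norm -/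
theorem tmb_proj_quad_le {n : Type} [Fintype n] [DecidableEq n] {P : Matrix n n ℂ}
    (hP : P.IsHermitian) (hP2 : P * P = P) (z : n → ℂ) :
    (star (P *ᵥ z) ⬝ᵥ (P *ᵥ z)).re ≤ (star z ⬝ᵥ z).re := by
  have e : (1 - P).PosSemidef := by
    have e1 : (1 - P) = (1 - P)ᴴ * (1 - P) := by
      rw [conjTranspose_sub, conjTranspose_one, hP.eq, Matrix.mul_sub, Matrix.sub_mul,
        Matrix.sub_mul, hP2]
      simp
    rw [e1]
    exact posSemidef_conjTranspose_mul_self _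
  have h1 := e.dotProduct_mulVec_nonneg z
  rw [sub_mulVec, one_mulVec, dotProduct_sub] at h1
  have h2 := (Complex.le_def.1 h1).1
  rw [Complex.zero_re, Complex.sub_re] at h2
  rw [star_mulVec, ← dotProduct_mulVec, mulVec_mulVec, hP.eq, hP2]
  linarith

/-- weakening of the constants of a pin -/
theorem tmb_pin_weaken {n : Type} [Fintype n] {P R : Matrix n n ℂ} (hP : P.PosSemidef)
    {b b' e e' : ℝ} (hb : 0 ≤ b) (hbb : b ≤ b') (he : e ≤ e')
    (h : ((b' * Real.exp e' : ℝ) : ℂ) • P ≤ R) : ((b * Real.exp e : ℝ) : ℂ) • P ≤ R :=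
  (tmb_smul_le_of_psd hP (mul_le_mul hbb (Real.exp_le_exp.2 he) (Real.exp_pos _).le
    (hb.trans hbb))).trans h

/-- comparison of the polynomial prefactors -/
theorem tmb_poly_inv_le {Cp Cp' : ℝ} {m m' : ℕ} (h1 : 1 ≤ Cp) (hC : Cp ≤ Cp') (hm : m ≤ m') (k : ℕ) :
    0 ≤ (Cp' * ((k : ℝ) + 1) ^ m')⁻¹ ∧ (Cp' * ((k : ℝ) + 1) ^ m')⁻¹ ≤ (Cp * ((k : ℝ) + 1) ^ m)⁻¹ ∧
      (Cp' * ((k : ℝ) + 1) ^ m')⁻¹ ≤ 1 := by
  have hk : (1 : ℝ) ≤ (k : ℝ) + 1 := by linarith [(Nat.cast_nonneg k : (0 : ℝ) ≤ k)]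
  have hp : 0 < Cp * ((k : ℝ) + 1) ^ m := by positivity
  have hle : Cp * ((k : ℝ) + 1) ^ m ≤ Cp' * ((k : ℝ) + 1) ^ m' :=
    mul_le_mul hC (pow_le_pow_right₀ hk hm) (by positivity) (by linarith)
  have h1' : 1 ≤ Cp' * ((k : ℝ) + 1) ^ m' :=
    one_le_mul_of_one_le_of_one_le (h1.trans hC) (one_le_pow₀ hk)
  exact ⟨inv_nonneg.2 (hp.le.trans hle), inv_anti₀ hp hle, inv_le_one_of_one_le₀ h1'⟩

/-- comparison of the exponents -/
theorem tmb_exp_le {k a η C C' ℓ ℓ' : ℝ} (hk : 0 ≤ k) (ha : 0 < a) (hC : 0 ≤ C) (hCC : C ≤ C')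
    (hℓ : 0 ≤ ℓ) (hℓℓ : ℓ ≤ ℓ') :
    k * a * (η - C' * a ^ ((1 : ℝ) / 4) * ℓ' ^ 2) ≤ k * a * (η - C * a ^ ((1 : ℝ) / 4) * ℓ ^ 2) := by
  have h4 : 0 ≤ a ^ ((1 : ℝ) / 4) := Real.rpow_nonneg ha.le _
  have h1 : C * a ^ ((1 : ℝ) / 4) * ℓ ^ 2 ≤ C' * a ^ ((1 : ℝ) / 4) * ℓ' ^ 2 :=
    mul_le_mul (mul_le_mul_of_nonneg_right hCC h4) (pow_le_pow_left₀ hℓ hℓℓ 2) (by positivity)
      (mul_nonneg (hC.trans hCC) h4)
  exact mul_le_mul_of_nonneg_left (by linarith) (by positivity)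

/-! ### the one-copy vector `Ω ⊗ Bell` -/

/-- configurations of the extended system -/
def tmbCfgEquiv {Λ : Type} (io : Λ → Type) (d : ℕ) : Cfg (rmIo io d) ≃ Cfg io × Fin d × Fin d where
  toFun σ := (rmPhys σ, rmAtC σ, rmAtR σ)
  invFun p := fun x => match x with
    | Sum.inl y => p.1 y
    | Sum.inr false => p.2.1
    | Sum.inr true => p.2.2
  left_inv σ := by
    funext x
    rcases x with y | (_ | _) <;> rfl
  right_inv _ := rfl

/-- `Ω ⊗ Bell` is a unit vector -/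
theorem tmb_rmVec_unit {Λ : Type} [Fintype Λ] [DecidableEq Λ] {io : Λ → Type} [∀ x, Fintype (io x)]
    [∀ x, DecidableEq (io x)] {d : ℕ} (hd : 0 < d) {Ω : Cfg io → ℂ} (hΩ : star Ω ⬝ᵥ Ω = 1) :
    star (rmVec d Ω) ⬝ᵥ rmVec d Ω = 1 := by
  have hs : ((Real.sqrt d : ℝ) : ℂ) * ((Real.sqrt d : ℝ) : ℂ) = (d : ℂ) := by
    rw [← Complex.ofReal_mul, Real.mul_self_sqrt (Nat.cast_nonneg d)]
    simp
  have hd0 : (d : ℂ) ≠ 0 := by exact_mod_cast hd.ne'
  have hs0 : ((Real.sqrt d : ℝ) : ℂ) ≠ 0 := by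
    intro h
    rw [h, mul_zero] at hs
    exact hd0 hs.symm
  unfold dotProduct
  rw [← (tmbCfgEquiv io d).symm.sum_comp, Fintype.sum_prod_type]
  have e : ∀ (x : Cfg io), (∑ y : Fin d × Fin d,
      star (rmVec d Ω) ((tmbCfgEquiv io d).symm (x, y)) * rmVec d Ω ((tmbCfgEquiv io d).symm (x, y)))
      = star Ω x * Ω x := by
    intro x
    rw [Fintype.sum_prod_type]
    have e1 : ∀ i j : Fin d, star (rmVec d Ω) ((tmbCfgEquiv io d).symm (x, i, j)) *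
        rmVec d Ω ((tmbCfgEquiv io d).symm (x, i, j)) =
        if i = j then star Ω x * Ω x * (d : ℂ)⁻¹ else 0 := by
      intro i j
      have r1 : rmVec d Ω ((tmbCfgEquiv io d).symm (x, i, j)) =
          Ω x * (if i = j then ((Real.sqrt d : ℝ) : ℂ)⁻¹ else 0) := rfl
      rw [Pi.star_apply, r1]
      split_ifs with hij
      · rw [star_mul', star_inv₀, Complex.star_def, Complex.conj_ofReal, ← hs, Pi.star_apply,
          Complex.star_def]
        field_simp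
      · simp
    simp only [e1, Finset.sum_ite_eq, Finset.mem_univ, if_true, Finset.sum_const, Finset.card_univ,
      Fintype.card_fin, nsmul_eq_mul]
    field_simp
  simp only [e]
  exact hΩ

/-! ### the regularised metrics -/

variable {Λ ι α : Type} [Fintype Λ] [DecidableEq Λ] [Fintype ι]
  {io : Λ → Type} [∀ x, Fintype (io x)] [∀ x, DecidableEq (io x)] [∀ x, Nonempty (io x)]
  (𝔇 : RepData Λ ι α io) (κ : Type) [Fintype κ] [DecidableEq κ]

open Classical in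
/-- band metrics, regularised at the labels which are not allowed -/
noncomputable def tmB (g : Fin 𝔇.K) (l : α) : Matrix (𝔇.MIx κ) (𝔇.MIx κ) ℂ :=
  if 𝔇.Al l then 𝔇.mLeafB κ g l else 1

/-- leaf metrics, regularised -/
noncomputable def tmA (l : α) : Matrix (𝔇.MIx κ) (𝔇.MIx κ) ℂ := bandProd fun g => 𝔇.tmB κ g l

variable {𝔇}

theorem tm_B_posDef {a0 : ℝ} (hW : 𝔇.WF a0) (g : Fin 𝔇.K) (l : α) : (𝔇.tmB κ g l).PosDef := by
  have : NeZero 𝔇.dst := ⟨(tm_dst_pos 𝔇 hW).ne'⟩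
  unfold tmB
  split_ifs with hl
  · exact bandM_posDef (𝔇.a / 2) (half_pos hW.a_pos) (tm_part3 (hW.st_disj l hl g))
  · exact PosDef.one

theorem tm_B_commute {a0 : ℝ} (hW : 𝔇.WF a0) {g g' : Fin 𝔇.K} (hg : g ≠ g') (l l' : α) :
    Commute (𝔇.tmB κ g l) (𝔇.tmB κ g' l') := by
  have : NeZero 𝔇.dst := ⟨(tm_dst_pos 𝔇 hW).ne'⟩
  have key : ∀ {g g' : Fin 𝔇.K} {l l' : α}, g < g' → 𝔇.Al l → 𝔇.Al l' →
      Commute (𝔇.mLeafB κ g l) (𝔇.mLeafB κ g' l') := by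
    intro g g' l l' hlt hl hl'
    exact bandMz_commute_nested (𝔇.a / 2) (half_pos hW.a_pos) (tm_part3 (hW.st_disj l hl g))
      (tm_part3 (hW.st_disj l' hl' g')) (tm_nested (hW.st_disj l hl g) (hW.nest l l' hl hl' g g' hlt)) 1 1
  unfold tmB
  split_ifs with hl hl'
  · rcases lt_or_gt_of_ne hg with h | h
    · exact key h hl hl'
    · exact (key h hl' hl).symm
  · exact Commute.one_right _
  · exact Commute.one_left _
  · exact Commute.one_left _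

theorem tm_A_posDef {a0 : ℝ} (hW : 𝔇.WF a0) (l : α) : (𝔇.tmA κ l).PosDef := by
  exact tg_bandProd_posDef (fun g => tm_B_posDef κ hW g l) fun _ _ hg => tm_B_commute κ hW hg l l

theorem tm_A_eq {l : α} (hl : 𝔇.Al l) : 𝔇.tmA κ l = 𝔇.mLeaf κ l := by
  unfold tmA mLeaf bandProd tmB
  simp only [if_pos hl]

/-- the roots of the model are roots of the regularised inputs -/
theorem tm_root_eq {T : MTree α} (hT : T.All 𝔇.Al) : 𝔇.mRoot κ T = T.ev (𝔇.tmA κ) := by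
  exact ev_congr_of_all (hT.imp fun _ hl => (tm_A_eq κ hl).symm)

/-- substitution of trees with allowed leaves -/
theorem tmb_bind_all_aux {P : α → Prop} {Q : α → Prop} {Ch : α → MTree α} {t : MTree α}
    (h : t.All fun l => Q l ∧ (Ch l).All P) : (t.bind Ch).All P := by
  induction t with
  | leaf a => exact h.2
  | node q l r ihl ihr => exact ⟨ihl h.1, ihr h.2⟩

/-- all trees occurring in a `RepData` have allowed leaves -/
theorem tm_tree_all {a0 : ℝ} (hW : 𝔇.WF a0) (r : Fin 𝔇.R) (p : ℝ) : (𝔇.tree r p).All 𝔇.Al := by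
  exact tp_all_interp (hW.hs_al r)
    (tmb_bind_all_aux ((hW.ch_ok r).imp fun _ h => (⟨h.1, h.2.1⟩ : _ ∧ _)))

theorem tm_bind_all {a0 : ℝ} (hW : 𝔇.WF a0) (r : Fin 𝔇.R) :
    ((𝔇.Hs r).bind (𝔇.Ch r)).All 𝔇.Al := by
  exact tmb_bind_all_aux ((hW.ch_ok r).imp fun _ h => (⟨h.1, h.2.1⟩ : _ ∧ _))

/-! ### the relative metric of a legal move -/

/-- a coherent projector is `≤ 1` -/
theorem tm_cohP_le_one {θ : Cfg (rmIo io 𝔇.dst) → ℂ} (hθ : star θ ⬝ᵥ θ = 1) :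
    cohP κ θ ≤ (1 : Matrix (𝔇.MIx κ) (𝔇.MIx κ) ℂ) := by
  exact tmb_pureOp_le_one (by
    rw [cohV, cmpVec_dotProduct (tpow_isSymVec θ), tpow_dotProduct, hθ, one_pow])

theorem tm_cohP_posSemidef (θ : Cfg (rmIo io 𝔇.dst) → ℂ) :
    (cohP κ θ : Matrix (𝔇.MIx κ) (𝔇.MIx κ) ℂ).PosSemidef := by
  exact pureOp_posSemidef _

/-- move to the near side -/
theorem tm_relm_near {a0 : ℝ} (hW : 𝔇.WF a0) {s : Finset Λ × Finset Λ} (hs : Disjoint s.1 s.2)
    {x : Finset Λ} (hx : x ⊆ mid s) :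
    relm (𝔇.mBand κ s) (𝔇.mBand κ (s.1 ∪ x, s.2)) =
      relM κ (𝔇.a / 2) (mP s) (rmPh x) (mY s \ rmPh x) (mFar s) := by
  have : NeZero 𝔇.dst := ⟨(tm_dst_pos 𝔇 hW).ne'⟩
  rw [relM_eq_relm (𝔇.a / 2) (half_pos hW.a_pos) (tm_four hs hx), tm_mY_split hx, ← tm_mP_move,
    ← tm_mY_move_near]
  rfl

/-- move to the far side -/
theorem tm_relm_far {a0 : ℝ} (hW : 𝔇.WF a0) {s : Finset Λ × Finset Λ} (hs : Disjoint s.1 s.2)
    {x : Finset Λ} (hx : x ⊆ mid s) :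
    relm (𝔇.mBand κ s) (𝔇.mBand κ (s.1, s.2 ∪ x)) =
      relM' κ (𝔇.a / 2) (mP s) (rmPh x) (mY s \ rmPh x) (mFar s) := by
  have : NeZero 𝔇.dst := ⟨(tm_dst_pos 𝔇 hW).ne'⟩
  rw [relM'_eq_relm (𝔇.a / 2) (half_pos hW.a_pos) (tm_four hs hx), tm_mY_split hx, ← tm_mFar_move,
    ← tm_mY_move_far]
  rfl

end RepData

open RepData in
/-- **the pins of all legal moves** (lem:relative-pin in the model).  `c`, `C` universal; `Cp`, `m` depend on the fixed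
data; the three cases of `tm_legal_cases`; `b = (Cp (k+1)^m)⁻¹ ≤ 1`, `κ = k a`, `err = C a^{1/4} ell²`. -/
theorem tm_pins :
    ∃ c C : ℝ, 0 < c ∧ 0 < C ∧
      ∀ (Λ ι α : Type) [Fintype Λ] [DecidableEq Λ] [Fintype ι] (io : Λ → Type)
        [∀ x, Fintype (io x)] [∀ x, DecidableEq (io x)] [∀ x, Nonempty (io x)]
        (𝔇 : RepData Λ ι α io), 𝔇.WF c →
        ∃ (Cp : ℝ) (m : ℕ), 1 ≤ Cp ∧ ∀ (k : ℕ) (r : Fin 𝔇.R),
          (𝔇.Hs r).All fun h => (𝔇.Ch r h).All fun l' => ∀ (g : Fin 𝔇.K)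
            (θ : Cfg (rmIo io 𝔇.dst) → ℂ), star θ ⬝ᵥ θ = 1 →
            (((Cp * ((k : ℝ) + 1) ^ m)⁻¹ * Real.exp ((k : ℝ) * 𝔇.a *
                ((RepData.mEta θ (𝔇.st h g) true ((𝔇.st l' g).1 \ (𝔇.st h g).1) +
                  RepData.mEta θ (𝔇.st h g) false ((𝔇.st l' g).2 \ (𝔇.st h g).2)) -
                  C * 𝔇.a ^ ((1 : ℝ) / 4) * 𝔇.ell ^ 2)) : ℝ) : ℂ) • cohP (Fin k) θ ≤
              relm (𝔇.tmB (Fin k) g h) (𝔇.tmB (Fin k) g l') := by
  obtain ⟨c1, C1, hc1, hC1, H1⟩ := relative_pin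
  obtain ⟨c2, C2, hc2, hC2, H2⟩ := relative_pin'
  refine ⟨min (min c1 c2) (1 / 4), max C1 C2, lt_min (lt_min hc1 hc2) (by norm_num),
    lt_max_of_lt_left hC1, ?_⟩
  intro Λ ι α _ _ _ io _ _ _ 𝔇 hW
  have : NeZero 𝔇.dst := ⟨(tm_dst_pos 𝔇 hW).ne'⟩
  have ha := hW.a_pos
  have hcc1 : min (min c1 c2) (1 / 4) ≤ c1 := (min_le_left _ _).trans (min_le_left _ _)
  have hcc2 : min (min c1 c2) (1 / 4) ≤ c2 := (min_le_left _ _).trans (min_le_right _ _)
  have ht1 : 𝔇.a / 2 < 1 / 4 := by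
    have h1 := hW.a_le
    have h2 : min (min c1 c2) (1 / 4 : ℝ) ≤ 1 / 4 := min_le_right _ _
    linarith
  have e2 : 2 * (𝔇.a / 2) = 𝔇.a := by ring
  obtain ⟨Cp1, m1, hCp1, P1⟩ := H1 (Λ ⊕ Bool) (rmIo io 𝔇.dst) (𝔇.a / 2) (half_pos ha) ht1
  obtain ⟨Cp2, m2, hCp2, P2⟩ := H2 (Λ ⊕ Bool) (rmIo io 𝔇.dst) (𝔇.a / 2) (half_pos ha) ht1
  refine ⟨max Cp1 Cp2, max m1 m2, le_max_of_le_left hCp1, fun k r => ?_⟩
  have ek : ((Fintype.card (Fin k) : ℕ) : ℝ) = k := by rw [Fintype.card_fin]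
  have hk0 : (0 : ℝ) ≤ k := Nat.cast_nonneg k
  refine (tp_all_and (hW.hs_al r) (hW.ch_ok r)).imp fun h hh => ?_
  obtain ⟨hAl, -, hChAl, hLeg⟩ := hh
  refine (tp_all_and hChAl hLeg).imp fun l' hl' => ?_
  obtain ⟨hAl', hleg⟩ := hl'
  intro g θ hθ
  have eB : 𝔇.tmB (Fin k) g h = 𝔇.mBand (Fin k) (𝔇.st h g) := by
    unfold tmB mLeafB
    rw [if_pos hAl]
  have eB' : 𝔇.tmB (Fin k) g l' = 𝔇.mBand (Fin k) (𝔇.st l' g) := by
    unfold tmB mLeafB
    rw [if_pos hAl']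
  rw [eB, eB']
  have hs := hW.st_disj h hAl g
  have hs' := hW.st_disj l' hAl' g
  have hmv := hleg g
  generalize 𝔇.st h g = s at hs hmv ⊢
  generalize 𝔇.st l' g = s' at hs' hmv ⊢
  have hPsd := tm_cohP_posSemidef (𝔇 := 𝔇) (Fin k) θ
  rcases tm_legal_cases hs' hmv with rfl | ⟨hseq, hx, hemp, hdim⟩ | ⟨hseq, hx, hemp, hdim⟩
  · -- the trivial move
    have hpd : (𝔇.mBand (Fin k) s').PosDef :=
      bandM_posDef (𝔇.a / 2) (half_pos ha) (tm_part3 hs)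
    rw [relm_self hpd, sdiff_self, sdiff_self]
    have hz : (⊥ : Finset Λ) = ∅ := rfl
    rw [hz, tm_eta_empty, tm_eta_empty]
    obtain ⟨hb0, -, hb1⟩ := tmb_poly_inv_le hCp1 (le_max_left Cp1 Cp2) (le_max_left m1 m2) k
    have hexp : Real.exp ((k : ℝ) * 𝔇.a * (0 + 0 - max C1 C2 * 𝔇.a ^ ((1 : ℝ) / 4) * 𝔇.ell ^ 2))
        ≤ 1 := by
      rw [Real.exp_le_one_iff]
      have h4 : 0 ≤ 𝔇.a ^ ((1 : ℝ) / 4) := Real.rpow_nonneg ha.le _
      have hC : 0 ≤ max C1 C2 := (lt_max_of_lt_left hC1).le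
      have h5 : 0 ≤ (k : ℝ) * 𝔇.a * (max C1 C2 * 𝔇.a ^ ((1 : ℝ) / 4) * 𝔇.ell ^ 2) := by positivity
      linarith
    have h1 := tmb_smul_le_of_psd hPsd (mul_le_one₀ hb1 (Real.exp_pos _).le hexp)
    refine h1.trans ?_
    rw [Complex.ofReal_one, one_smul]
    exact tm_cohP_le_one (Fin k) hθ
  · -- move to the near side
    set x := s'.1 \ s.1 with hxdef
    have hsmall : 2 * (𝔇.a / 2) * cd_ell (rmIo io 𝔇.dst) (rmPh x) ≤ c1 := by
      rw [e2, tm_cd_ell]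
      exact ((mul_le_mul_of_nonneg_left hdim ha.le).trans hW.a_ell).trans hcc1
    have hpin := P1 (Fin k) (mP s) (rmPh x) (mY s \ rmPh x) (mFar s) (tm_four hs hx) hsmall θ hθ
    rw [ek, e2, tm_cd_ell, ← tm_relm_near (Fin k) hW hs hx, ← hseq] at hpin
    rw [hemp, tm_eta_empty, add_zero]
    obtain ⟨hb0, hb1, -⟩ := tmb_poly_inv_le hCp1 (le_max_left Cp1 Cp2) (le_max_left m1 m2) k
    exact tmb_pin_weaken hPsd hb0 hb1
      (tmb_exp_le hk0 ha hC1.le (le_max_left C1 C2) (by linarith [tm_ldim_nonneg (io := io) x]) hdim)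
      hpin
  · -- move to the far side
    set x := s'.2 \ s.2 with hxdef
    have hsmall : 2 * (𝔇.a / 2) * cd_ell (rmIo io 𝔇.dst) (rmPh x) ≤ c2 := by
      rw [e2, tm_cd_ell]
      exact ((mul_le_mul_of_nonneg_left hdim ha.le).trans hW.a_ell).trans hcc2
    have hpin := P2 (Fin k) (mP s) (rmPh x) (mY s \ rmPh x) (mFar s) (tm_four hs hx) hsmall θ hθ
    rw [ek, e2, tm_cd_ell, ← tm_relm_far (Fin k) hW hs hx, ← hseq] at hpin
    rw [hemp, tm_eta_empty, zero_add]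
    obtain ⟨hb0, hb1, -⟩ := tmb_poly_inv_le hCp2 (le_max_right Cp1 Cp2) (le_max_right m1 m2) k
    exact tmb_pin_weaken hPsd hb0 hb1
      (tmb_exp_le hk0 ha hC2.le (le_max_right C1 C2) (by linarith [tm_ldim_nonneg (io := io) x]) hdim)
      hpin

namespace RepData

variable {Λ ι α : Type} [Fintype Λ] [DecidableEq Λ] [Fintype ι]
  {io : Λ → Type} [∀ x, Fintype (io x)] [∀ x, DecidableEq (io x)] [∀ x, Nonempty (io x)]
  {𝔇 : RepData Λ ι α io}

/-! ### the floor -/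

/-- a product of commuting positive definite matrices `≥ c` is `≥ c^K` -/
theorem tm_bandProd_floor {n : Type} [Fintype n] [DecidableEq n] {K : ℕ} {Ab : Fin K → Matrix n n ℂ}
    (h : ∀ g, (Ab g).PosDef) (hc : ∀ g g', g ≠ g' → Commute (Ab g) (Ab g')) {c : ℝ} (hc0 : 0 < c)
    (hle : ∀ g, (c : ℂ) • 1 ≤ Ab g) : ((c ^ K : ℝ) : ℂ) • 1 ≤ bandProd Ab := by
  induction K with
  | zero => rw [tg_bandProd_zero]; simp
  | succ K ih =>
    have hne : ∀ g g' : Fin K, g ≠ g' → Commute (Ab g.succ) (Ab g'.succ) := fun g g' hg =>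
      hc _ _ fun e => hg (Fin.succ_injective _ e)
    rw [tg_bandProd_succ, pow_succ']
    exact tmb_mul_floor (tg_bandProd_posDef (fun g => h g.succ) hne)
      (tg_commute_bandProd fun g => hc _ _ (Fin.succ_ne_zero g).symm) hc0.le (hle 0)
      (ih (fun g => h g.succ) hne fun g => hle g.succ)

/-- `‖pre‖ ≤ 1` -/
theorem tm_pre_norm_le {a0 : ℝ} (hW : 𝔇.WF a0) {κ : Type} [Fintype κ] [DecidableEq κ]
    (lam : Rep.Irr (Equiv.Perm κ)) : (star (𝔇.mPre lam) ⬝ᵥ 𝔇.mPre lam).re ≤ 1 := by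
  have : NeZero 𝔇.dst := ⟨(tm_dst_pos 𝔇 hW).ne'⟩
  have hsym : IsSymVec (𝔇.mPreFull lam) :=
    pin_isSymVec_mulVec (commute_symProj_of_commute_UQ fun π =>
      repQ_central_commute_UQ_univ _ (cen_idem_central lam) π) (tpow_isSymVec _)
  unfold mPre
  rw [cmpVec_dotProduct hsym]
  unfold mPreFull
  refine (tmb_proj_quad_le (labP_isHermitian _ lam) (by rw [labP_mul_labP, if_pos rfl]) _).trans ?_
  rw [tpow_dotProduct, mPsi, tmb_rmVec_unit (tm_dst_pos 𝔇 hW) hW.sys.unit, one_pow]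
  simp

/-- `N² ≤ c^{-1/2}` if the root is `≥ c` -/
theorem tm_nrm2_le {n : Type} [Fintype n] [DecidableEq n] {M : Matrix n n ℂ} (hM : M.PosDef) {c : ℝ}
    (hc : 0 < c) (hle : (c : ℂ) • 1 ≤ M) {w : n → ℂ} (hw : (star w ⬝ᵥ w).re ≤ 1) :
    nrm2 M w ≤ c ^ (-(1 / 2 : ℝ)) := by
  have hc1 : ((c : ℂ) • (1 : Matrix n n ℂ)).PosDef := pd_smul PosDef.one hc
  have h1 := pd_inv_le_inv hc1 hle
  have h2 := rpw_le_rpw hM.inv h1 (p := 1 / 2) ⟨by norm_num, by norm_num⟩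
  rw [rpw_inv hM, rpw_inv hc1, rpw_smul PosDef.one hc, rpw_one_matrix, Matrix.le_iff] at h2
  have h3 := h2.dotProduct_mulVec_nonneg w
  rw [sub_mulVec, smul_mulVec, one_mulVec, dotProduct_sub, dotProduct_smul] at h3
  have h4 := (Complex.le_def.1 h3).1
  rw [Complex.zero_re, Complex.sub_re, smul_eq_mul, Complex.re_ofReal_mul] at h4
  have h5 : 0 ≤ c ^ (-(1 / 2 : ℝ)) := Real.rpow_nonneg hc.le _
  unfold nrm2
  nlinarith [mul_le_mul_of_nonneg_left hw h5]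

/-- **leaf floor through the tree**: `log N²(T) ≤ (K/2) log (C (k+1)^m)` for every valid tree with allowed leaves -/
theorem tm_floor {a0 : ℝ} (ha0 : a0 ≤ 1 / 2) (hW : 𝔇.WF a0) :
    ∃ (C : ℝ) (m : ℕ), 1 ≤ C ∧ ∀ (k : ℕ) (lam : Rep.Irr (Equiv.Perm (Fin k))) (T : MTree α),
      T.Valid → T.All 𝔇.Al → 𝔇.mPre lam ≠ 0 →
      Real.log (𝔇.mN2 lam T) ≤ 𝔇.K / 2 * Real.log (C * ((k : ℝ) + 1) ^ m) := by
  have : NeZero 𝔇.dst := ⟨(tm_dst_pos 𝔇 hW).ne'⟩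
  obtain ⟨C, m, hC, h⟩ := bandM_floor (rmIo io 𝔇.dst) (𝔇.a / 2) (half_pos hW.a_pos)
    (by linarith [hW.a_le])
  refine ⟨C, m, hC, fun k lam T hT hAl hne => ?_⟩
  have hB : 1 ≤ C * ((k : ℝ) + 1) ^ m :=
    one_le_mul_of_one_le_of_one_le hC (one_le_pow₀ (by linarith [(Nat.cast_nonneg k : (0 : ℝ) ≤ k)]))
  set c : ℝ := (C * ((k : ℝ) + 1) ^ m)⁻¹ with hc
  have hc0 : 0 < c := inv_pos.2 (by linarith)
  have hc1 : c ≤ 1 := inv_le_one_of_one_le₀ hB
  have hfl : ∀ g l, (c : ℂ) • 1 ≤ 𝔇.tmB (Fin k) g l := by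
    intro g l
    unfold tmB
    split_ifs with hl
    · have h1 := h (Fin k) _ _ _ (tm_part3 (hW.st_disj l hl g))
      have ek : ((Fintype.card (Fin k) : ℕ) : ℝ) = k := by rw [Fintype.card_fin]
      rw [ek] at h1
      exact h1
    · simpa using tmb_smul_one_le (n := 𝔇.MIx (Fin k)) hc1
  have hA : ∀ l, ((c ^ 𝔇.K : ℝ) : ℂ) • 1 ≤ 𝔇.tmA (Fin k) l := fun l =>
    tm_bandProd_floor (fun g => tm_B_posDef _ hW g l) (fun _ _ hg => tm_B_commute _ hW hg l l) hc0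
      fun g => hfl g l
  have hcK : 0 < c ^ 𝔇.K := pow_pos hc0 _
  have hev := ev_ge_of_pin (A := 𝔇.tmA (Fin k)) (tm_A_posDef _ hW) PosSemidef.one
    (c := fun _ => c ^ 𝔇.K) (fun _ => hcK) hT (all_of_forall hA T)
  rw [E_const, Real.exp_log hcK] at hev
  have hM := ev_posDef (tm_A_posDef (Fin k) hW) T
  have hn := tm_nrm2_le hM hcK hev (tm_pre_norm_le hW lam)
  have hpos := ts_nrm2_pos hM hne
  have e : 𝔇.mN2 lam T = nrm2 (T.ev (𝔇.tmA (Fin k))) (𝔇.mPre lam) := by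
    unfold mN2 nrm2
    rw [tm_root_eq _ hAl]
  rw [e]
  calc Real.log (nrm2 (T.ev (𝔇.tmA (Fin k))) (𝔇.mPre lam))
      ≤ Real.log ((c ^ 𝔇.K) ^ (-(1 / 2 : ℝ))) := Real.log_le_log hpos hn
    _ = 𝔇.K / 2 * Real.log (C * ((k : ℝ) + 1) ^ m) := by
        rw [Real.log_rpow hcK, Real.log_pow, hc, Real.log_inv]
        ring

end RepData

end Scan

end Claimed.Agent.R296
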