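import Claimed.Agent.R296.TransModelB

/-!
# Row 296, glue `TransportK <- tp_transport + Section 5`, file C: the energy terms in the model

Architect: helper9; proofs: helper43 (helper lemmas `tmc_*`).  Prefix `tm_`.  No sorry of its own.

* `mTerm κ i = \bar h_i` on `Sym^κ 𝒱`; `∑ mTerm = mH`; PSD; `mH pre = E0 pre`;
* unsplit leaves: `\bar h_i` commutes with the leaf metric (`barOp_commute_bandMz`);
* split leaves: all bands but one cancel in `O = A^{-1/2} \bar h_i A^{1/2}`, which becomes `simO` of the exceptional band;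
* `symbol_skew_bound(')` then gives the cost in terms of the annotation `mAnn`.
-/

set_option autoImplicit false
set_option linter.unusedSectionVars false

namespace Claimed.Agent.R296

open Matrix Finset MTree
open scoped ComplexOrder MatrixOrder

/-! ### lifting one-copy operators to the extended system -/

section Lift

variable {Λ : Type} [Fintype Λ] [DecidableEq Λ] {io : Λ → Type} [∀ x, Fintype (io x)]
  [∀ x, DecidableEq (io x)]

/-- `Cfg (rmIo io d) ≃ Cfg io × (Fin d × Fin d)` -/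
def tmcSplit (io : Λ → Type) (d : ℕ) : Cfg (rmIo io d) ≃ Cfg io × (Fin d × Fin d) where
  toFun σ := (rmPhys σ, rmAtC σ, rmAtR σ)
  invFun p := fun x => match x with
    | Sum.inl y => p.1 y
    | Sum.inr false => p.2.1
    | Sum.inr true => p.2.2
  left_inv σ := by
    funext x
    rcases x with y | b
    · rfl
    · cases b <;> rfl
  right_inv p := rfl

open Kronecker in
theorem tmc_rmLift_eq (d : ℕ) (h : Matrix (Cfg io) (Cfg io) ℂ) :
    rmLift d h = (h ⊗ₖ (1 : Matrix (Fin d × Fin d) (Fin d × Fin d) ℂ)).submatrix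
      (tmcSplit io d) (tmcSplit io d) := by
  ext σ τ
  have e : ∀ σ : Cfg (rmIo io d), tmcSplit io d σ = (rmPhys σ, rmAtC σ, rmAtR σ) := fun _ => rfl
  simp only [rmLift, Matrix.of_apply, submatrix_apply, kroneckerMap_apply, e,
    Matrix.one_apply, Prod.mk.injEq, mul_ite, mul_one, mul_zero]

theorem tm_rmLift_add (d : ℕ) (g h : Matrix (Cfg io) (Cfg io) ℂ) :
    rmLift d (g + h) = rmLift d g + rmLift d h := by
  ext σ τ
  simp only [rmLift, Matrix.of_apply, Matrix.add_apply]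
  split_ifs <;> simp

theorem tmc_rmLift_zero (d : ℕ) : rmLift d (0 : Matrix (Cfg io) (Cfg io) ℂ) = 0 := by
  ext σ τ
  simp [rmLift]

theorem tm_rmLift_sum {ι : Type} (d : ℕ) (t : Finset ι) (h : ι → Matrix (Cfg io) (Cfg io) ℂ) :
    rmLift d (∑ i ∈ t, h i) = ∑ i ∈ t, rmLift d (h i) := by
  classical
  induction t using Finset.induction_on with
  | empty => simp [tmc_rmLift_zero]
  | insert a t ha ih => rw [Finset.sum_insert ha, Finset.sum_insert ha, tm_rmLift_add, ih]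

theorem tm_rmLift_posSemidef (d : ℕ) {h : Matrix (Cfg io) (Cfg io) ℂ} (hh : h.PosSemidef) :
    (rmLift d h).PosSemidef := by
  rw [tmc_rmLift_eq]
  exact (hh.kronecker PosSemidef.one).submatrix _

theorem tm_rmLift_one (d : ℕ) : rmLift d (1 : Matrix (Cfg io) (Cfg io) ℂ) = 1 := by
  rw [tmc_rmLift_eq, Matrix.one_kronecker_one, submatrix_one_equiv]

/-- eigenvectors: `(h ⊗ 1)(Ω ⊗ Bell) = E (Ω ⊗ Bell)` -/
theorem tm_rmLift_mulVec (d : ℕ) {h : Matrix (Cfg io) (Cfg io) ℂ} {Ω : Cfg io → ℂ} {E : ℂ}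
    (hE : h *ᵥ Ω = E • Ω) : rmLift d h *ᵥ rmVec d Ω = E • rmVec d Ω := by
  funext σ
  have h1 := congrFun hE (rmPhys σ)
  simp only [mulVec, dotProduct, Pi.smul_apply, smul_eq_mul] at h1 ⊢
  rw [← (tmcSplit io d).symm.sum_comp, Fintype.sum_prod_type]
  have e1 : ∀ (x : Cfg io) (y : Fin d × Fin d),
      rmLift d h σ ((tmcSplit io d).symm (x, y)) * rmVec d Ω ((tmcSplit io d).symm (x, y)) =
      if y = (rmAtC σ, rmAtR σ) then
        h (rmPhys σ) x * Ω x * (if rmAtC σ = rmAtR σ then ((Real.sqrt d : ℝ) : ℂ)⁻¹ else 0)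
      else 0 := by
    intro x y
    have hp : rmPhys ((tmcSplit io d).symm (x, y)) = x := rfl
    have hc : rmAtC ((tmcSplit io d).symm (x, y)) = y.1 := rfl
    have hr : rmAtR ((tmcSplit io d).symm (x, y)) = y.2 := rfl
    simp only [rmLift, rmVec, Matrix.of_apply, hp, hc, hr]
    by_cases hy : y = (rmAtC σ, rmAtR σ)
    · subst hy
      simp only [and_self, if_true]
      ring
    · rw [if_neg hy, if_neg, zero_mul]
      rintro ⟨h1, h2⟩
      exact hy (Prod.ext h1.symm h2.symm)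
  simp only [e1, Finset.sum_ite_eq', Finset.mem_univ, if_true]
  rw [← Finset.sum_mul, h1, rmVec]
  ring

/-- the physical part of a configuration on `rmPh D` -/
def tmcRes (d : ℕ) (D : Finset Λ) (x : CfgOn (rmIo io d) (rmPh D)) : CfgOn io D :=
  fun y => x ⟨Sum.inl y.1, Finset.mem_map_of_mem _ y.2⟩

theorem tmcRes_injective (d : ℕ) (D : Finset Λ) :
    Function.Injective (tmcRes (io := io) d D) := by
  intro x x' h
  funext ⟨z, hz⟩
  obtain ⟨y, hy, rfl⟩ := Finset.mem_map.1 hz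
  exact congrFun h ⟨y, hy⟩

theorem tmcRes_crOn (d : ℕ) (D : Finset Λ) (σ : Cfg (rmIo io d)) :
    tmcRes d D (crOn (rmPh D) σ) = crOn D (rmPhys σ) := rfl

theorem tmc_inl_mem_rmPh {D : Finset Λ} {y : Λ} : (Sum.inl y : Λ ⊕ Bool) ∈ rmPh D ↔ y ∈ D := by
  simp [rmPh]

theorem tmc_inr_not_mem_rmPh {D : Finset Λ} {b : Bool} : (Sum.inr b : Λ ⊕ Bool) ∉ rmPh D := by
  simp [rmPh]

theorem tmc_crOff_eq_iff (d : ℕ) (D : Finset Λ) (σ τ : Cfg (rmIo io d)) :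
    crOff (rmPh D) σ = crOff (rmPh D) τ ↔
      (rmAtC σ = rmAtC τ ∧ rmAtR σ = rmAtR τ) ∧ crOff D (rmPhys σ) = crOff D (rmPhys τ) := by
  constructor
  · intro h
    refine ⟨⟨congrFun h ⟨Sum.inr false, tmc_inr_not_mem_rmPh⟩,
      congrFun h ⟨Sum.inr true, tmc_inr_not_mem_rmPh⟩⟩, ?_⟩
    funext ⟨y, hy⟩
    exact congrFun h ⟨Sum.inl y, fun h' => hy (tmc_inl_mem_rmPh.1 h')⟩
  · rintro ⟨⟨h1, h2⟩, h3⟩
    funext ⟨z, hz⟩
    rcases z with y | b
    · exact congrFun h3 ⟨y, fun h' => hz (tmc_inl_mem_rmPh.2 h')⟩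
    · cases b
      · exact h1
      · exact h2

theorem tmc_rmLift_emb (d : ℕ) (D : Finset Λ) (K₀ : Matrix (CfgOn io D) (CfgOn io D) ℂ) :
    rmLift d (emb D K₀) = emb (rmPh D) (K₀.submatrix (tmcRes d D) (tmcRes d D)) := by
  ext σ τ
  simp only [rmLift, emb, Matrix.of_apply, submatrix_apply, tmcRes_crOn, tmc_crOff_eq_iff]
  by_cases h1 : rmAtC σ = rmAtC τ ∧ rmAtR σ = rmAtR τ
  · by_cases h2 : crOff D (rmPhys σ) = crOff D (rmPhys τ)
    · rw [if_pos h1, if_pos h2, if_pos ⟨h1, h2⟩]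
    · rw [if_pos h1, if_neg h2, if_neg (fun h => h2 h.2)]
  · rw [if_neg h1, if_neg (fun h => h1 h.1)]

/-- a lifted operator with support `D`: `h ⊗ 1_{CR} = emb (rmPh D) K` with `0 ≤ K ≤ 1` -/
theorem tm_rmLift_supp (d : ℕ) {D : Finset Λ} {h : Matrix (Cfg io) (Cfg io) ℂ} (hs : SuppIn D h)
    (h0 : h.PosSemidef) (h1 : (1 - h).PosSemidef) :
    ∃ K : Matrix (CfgOn (rmIo io d) (rmPh D)) (CfgOn (rmIo io d) (rmPh D)) ℂ,
      rmLift d h = emb (rmPh D) K ∧ 0 ≤ K ∧ K ≤ 1 := by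
  obtain ⟨K₀, rfl⟩ := hs
  by_cases hne : Nonempty (CfgOff io D)
  · obtain ⟨b₀⟩ := hne
    have hinj : Function.Injective (fun a : CfgOn io D => cglue D a b₀) := by
      intro a a' h
      have := congrArg (crOn D) h
      simpa using this
    have e0 : K₀ = (emb D K₀).submatrix (fun a => cglue D a b₀) (fun a => cglue D a b₀) := by
      ext a a'
      simp [emb]
    have hK0 : K₀.PosSemidef := by rw [e0]; exact h0.submatrix _
    have hK1 : (1 - K₀).PosSemidef := by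
      have := h1.submatrix (fun a : CfgOn io D => cglue D a b₀)
      rw [submatrix_sub, Pi.sub_apply, Pi.sub_apply, submatrix_one _ hinj, ← e0] at this
      exact this
    refine ⟨_, tmc_rmLift_emb d D K₀, Matrix.nonneg_iff_posSemidef.2 (hK0.submatrix _), ?_⟩
    rw [Matrix.le_iff]
    have := hK1.submatrix (tmcRes (io := io) d D)
    rw [submatrix_sub, Pi.sub_apply, Pi.sub_apply, submatrix_one _ (tmcRes_injective d D)] at this
    exact this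
  · refine ⟨0, ?_, le_rfl, Matrix.nonneg_iff_posSemidef.2 PosSemidef.one⟩
    ext σ τ
    exact absurd ⟨crOff D (rmPhys σ)⟩ hne

/-- change of the support set along an equality of finsets -/
theorem tm_emb_cast {s : Type} [DecidableEq s] [Fintype s] {io : s → Type} [∀ x, Fintype (io x)]
    [∀ x, DecidableEq (io x)] {D D' : Finset s} (h : D = D')
    (K : Matrix (CfgOn io D) (CfgOn io D) ℂ) (h0 : 0 ≤ K) (h1 : K ≤ 1) :
    ∃ K' : Matrix (CfgOn io D') (CfgOn io D') ℂ, emb D K = emb D' K' ∧ 0 ≤ K' ∧ K' ≤ 1 := by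
  subst h
  exact ⟨K, rfl, h0, h1⟩

end Lift

/-! ### additivity of `barOp` without nonemptiness hypotheses -/

section BarAdd

variable {s : Type} [DecidableEq s] [Fintype s] {io : s → Type}
  [∀ x, Fintype (io x)] [∀ x, DecidableEq (io x)] {κ : Type} [Fintype κ] [DecidableEq κ]

theorem tmc_copyOp_add (j : κ) (g h : Matrix (Cfg io) (Cfg io) ℂ) :
    copyOp j (g + h) = copyOp j g + copyOp j h := by
  ext c c'
  simp only [copyOp, Matrix.of_apply, Matrix.add_apply]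
  split_ifs <;> simp

theorem tmc_copyOp_zero (j : κ) : copyOp j (0 : Matrix (Cfg io) (Cfg io) ℂ) = 0 := by
  ext c c'
  simp [copyOp]

theorem tmc_barOp_add (g h : Matrix (Cfg io) (Cfg io) ℂ) :
    barOp κ (g + h) = barOp κ g + barOp κ h := by
  simp only [barOp, copyAvg, tmc_copyOp_add, Finset.sum_add_distrib, smul_add, cmp_add]

theorem tmc_barOp_zero : barOp κ (0 : Matrix (Cfg io) (Cfg io) ℂ) = 0 := by
  simp only [barOp, copyAvg, tmc_copyOp_zero, Finset.sum_const_zero, smul_zero, cmp_eq,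
    Matrix.mul_zero, Matrix.zero_mul]

theorem tmc_barOp_sum {ι : Type} (t : Finset ι) (h : ι → Matrix (Cfg io) (Cfg io) ℂ) :
    barOp κ (∑ i ∈ t, h i) = ∑ i ∈ t, barOp κ (h i) := by
  classical
  induction t using Finset.induction_on with
  | empty => simp [tmc_barOp_zero]
  | insert a t ha ih => rw [Finset.sum_insert ha, Finset.sum_insert ha, tmc_barOp_add, ih]

end BarAdd

/-! ### cancellation in the similarity transform -/

section SimT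

variable {n : Type} [Fintype n] [DecidableEq n]

/-- a commuting positive definite factor on the right which commutes with `h` cancels -/
theorem tmc_simT_mul_left {A B h : Matrix n n ℂ} (hA : A.PosDef) (hB : B.PosDef)
    (hAB : Commute A B) (hBh : Commute B h) : simT (A * B) h = simT A h := by
  have h1 : Commute h (rpw B (1 / 2)) := rpw_commute hBh.symm _
  have h2 : Commute (rpw B (1 / 2)) (rpw A (1 / 2)) := rpw_commute (rpw_commute hAB _).symm _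
  unfold simT
  rw [rpw_mul_of_commute hA hB hAB, rpw_mul_of_commute hA hB hAB]
  calc rpw A (-(1 / 2)) * rpw B (-(1 / 2)) * h * (rpw A (1 / 2) * rpw B (1 / 2))
      = rpw A (-(1 / 2)) * rpw B (-(1 / 2)) * h * (rpw B (1 / 2) * rpw A (1 / 2)) := by
        rw [h2.eq]
    _ = rpw A (-(1 / 2)) * rpw B (-(1 / 2)) * (h * rpw B (1 / 2)) * rpw A (1 / 2) := by
        simp only [Matrix.mul_assoc]
    _ = rpw A (-(1 / 2)) * (rpw B (-(1 / 2)) * rpw B (1 / 2)) * h * rpw A (1 / 2) := by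
        rw [h1.eq]; simp only [Matrix.mul_assoc]
    _ = rpw A (-(1 / 2)) * h * rpw A (1 / 2) := by
        rw [rpw_neg_mul hB.1, Matrix.mul_one]

theorem tmc_simT_mul_right {A B h : Matrix n n ℂ} (hA : A.PosDef) (hB : B.PosDef)
    (hAB : Commute A B) (hAh : Commute A h) : simT (A * B) h = simT B h := by
  rw [hAB.eq]
  exact tmc_simT_mul_left hB hA hAB.symm hAh

end SimT

namespace Scan

namespace RepData

variable {Λ ι α : Type} [Fintype Λ] [DecidableEq Λ] [Fintype ι]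
  {io : Λ → Type} [∀ x, Fintype (io x)] [∀ x, DecidableEq (io x)] [∀ x, Nonempty (io x)]
  (𝔇 : RepData Λ ι α io) (κ : Type) [Fintype κ] [DecidableEq κ]

/-- `\bar h_i` -/
noncomputable def mTerm (i : ι) : Matrix (𝔇.MIx κ) (𝔇.MIx κ) ℂ := barOp κ (rmLift 𝔇.dst (𝔇.S.h i))

variable {𝔇}

theorem tm_sum_term : ∑ i, 𝔇.mTerm κ i = 𝔇.mH κ := by
  simp only [mTerm, mH]
  rw [tm_rmLift_sum, tmc_barOp_sum]

theorem tm_term_posSemidef {a0 : ℝ} (hW : 𝔇.WF a0) (i : ι) : (𝔇.mTerm κ i).PosSemidef := by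
  have : NeZero 𝔇.dst := ⟨(tm_dst_pos 𝔇 hW).ne'⟩
  exact barOp_posSemidef (tm_rmLift_posSemidef _ (hW.sys.pos i))

variable {κ}

theorem tmc_labP_commute_copyAvg (d : ℕ) (lam : Rep.Irr (Equiv.Perm κ))
    (h : Matrix (Cfg io) (Cfg io) ℂ) :
    Commute (labP (io := rmIo io d) {rmR} lam) (copyAvg (rmLift d h)) := by
  obtain ⟨K₀, rfl⟩ := SuppIn.univ h
  rw [tmc_rmLift_emb, copyAvg]
  refine Commute.smul_right (Commute.sum_right _ _ _ fun j _ => ?_) _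
  refine repQ_commute_copyOp _ ?_ _ j _
  rw [Finset.disjoint_singleton_right]
  exact tmc_inr_not_mem_rmPh

/-- `\bar H pre = E0 pre`: `\bar H` commutes with the label projector on the copies of `R`, and `Ψ^{⊗κ}` is an
eigenvector of the copy average -/
theorem tm_eig {a0 : ℝ} (hW : 𝔇.WF a0) [Nonempty κ] (lam : Rep.Irr (Equiv.Perm κ)) :
    𝔇.mH κ *ᵥ 𝔇.mPre lam = (𝔇.S.E0 : ℂ) • 𝔇.mPre lam := by
  have : NeZero 𝔇.dst := ⟨(tm_dst_pos 𝔇 hW).ne'⟩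
  rw [mH, mPre, barOp, cmp_mulVec_cmpVec (copyAvg_commute_symProj _), mPreFull, mulVec_mulVec,
    ← (tmc_labP_commute_copyAvg 𝔇.dst lam _).eq, ← mulVec_mulVec, mPsi,
    copyAvg_mulVec_tpow (tm_rmLift_mulVec 𝔇.dst hW.sys.eig), mulVec_smul, cmpVec, cmpVec,
    mulVec_smul]

/-- the model energy is the abstract one -/
theorem tm_Ed_eq {a0 : ℝ} (hW : 𝔇.WF a0) (lam : Rep.Irr (Equiv.Perm κ)) (hne : 𝔇.mPre lam ≠ 0)
    {T : MTree α} (hT : T.All 𝔇.Al) :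
    𝔇.S.gap * 𝔇.mEd lam T = fenergy (T.ev (𝔇.tmA κ)) (𝔇.mPre lam) (∑ i, 𝔇.mTerm κ i) - 𝔇.S.E0 := by
  have hM : (T.ev (𝔇.tmA κ)).PosDef := ev_posDef (fun l => tm_A_posDef κ hW l) T
  have hN : 0 < nrm2 (T.ev (𝔇.tmA κ)) (𝔇.mPre lam) := ts_nrm2_pos hM hne
  have hg := hW.sys.gap_pos
  rw [tm_sum_term, mEd, mul_div_cancel₀ _ hg.ne']
  congr 1
  have hN2 : 𝔇.mN2 lam T = nrm2 (T.ev (𝔇.tmA κ)) (𝔇.mPre lam) := by
    rw [mN2, nrm2, tm_root_eq κ hT]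
  have hV : 𝔇.mV lam T = (((Real.sqrt (nrm2 (T.ev (𝔇.tmA κ)) (𝔇.mPre lam)))⁻¹ : ℝ) : ℂ) •
      fvec (T.ev (𝔇.tmA κ)) (𝔇.mPre lam) := by
    rw [mV, hN2, fvec, tm_root_eq κ hT]
  rw [hV, fenergy, mulVec_smul, dotProduct_smul, star_smul, smul_dotProduct, smul_eq_mul,
    smul_eq_mul, ← mul_assoc, Complex.star_def, Complex.conj_ofReal, ← Complex.ofReal_mul,
    Complex.re_ofReal_mul, ← mul_inv, Real.mul_self_sqrt hN.le]
  field_simp

variable (κ)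

theorem tmc_B_eq {l : α} (hl : 𝔇.Al l) (g : Fin 𝔇.K) :
    𝔇.tmB κ g l = bandM κ (𝔇.a / 2) (mP (𝔇.st l g)) (mY (𝔇.st l g)) (mFar (𝔇.st l g)) := by
  rw [tmB, if_pos hl, mLeafB, mBand]

/-- a band in which the support is not split commutes with the term -/
theorem tmc_B_commute_term {a0 : ℝ} (hW : 𝔇.WF a0) (i : ι) {l : α} (hl : 𝔇.Al l) {g : Fin 𝔇.K}
    (hi : Ins (𝔇.S.sup i) (𝔇.st l g)) : Commute (𝔇.tmB κ g l) (𝔇.mTerm κ i) := by
  have : NeZero 𝔇.dst := ⟨(tm_dst_pos 𝔇 hW).ne'⟩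
  obtain ⟨K, hK, -, -⟩ := tm_rmLift_supp 𝔇.dst (hW.sys.supp i) (hW.sys.pos i) (hW.sys.le_one i)
  rw [tmc_B_eq κ hl, mTerm, hK, bandM]
  exact (barOp_commute_bandMz (𝔇.a / 2) (by linarith [hW.a_pos]) (tm_part3 (hW.st_disj l hl g))
    (tm_ins hi) K 1).symm

/-- **unsplit leaves** -/
theorem tm_unsplit {a0 : ℝ} (hW : 𝔇.WF a0) (i : ι) {l : α} (hl : 𝔇.Al l) (hs : ¬ 𝔇.SplitAt i l) :
    Commute (𝔇.tmA κ l) (𝔇.mTerm κ i) := by
  have hI : ∀ g, Ins (𝔇.S.sup i) (𝔇.st l g) := by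
    rcases hW.split l hl i with h | ⟨g0, h, -⟩
    · exact h
    · exact absurd ⟨g0, h⟩ hs
  exact (tg_commute_bandProd fun g => (tmc_B_commute_term κ hW i hl (hI g)).symm).symm

/-- abstract cancellation: in a product of commuting positive definite matrices, the factors commuting with `h` cancel in
the similarity transform -/
theorem tm_simT_bandProd {n : Type} [Fintype n] [DecidableEq n] {K : ℕ} {Ab : Fin K → Matrix n n ℂ}
    (hp : ∀ g, (Ab g).PosDef) (hc : ∀ g g', g ≠ g' → Commute (Ab g) (Ab g')) (h : Matrix n n ℂ)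
    (g₀ : Fin K) (hh : ∀ g, g ≠ g₀ → Commute (Ab g) h) :
    simT (bandProd Ab) h = simT (Ab g₀) h := by
  induction K with
  | zero => exact g₀.elim0
  | succ K ih =>
    have hne : ∀ g g' : Fin K, g ≠ g' → g.succ ≠ g'.succ := fun g g' hg e =>
      hg (Fin.succ_injective _ e)
    have hT : (bandProd fun g : Fin K => Ab g.succ).PosDef :=
      tg_bandProd_posDef (fun g => hp g.succ) fun g g' hg => hc _ _ (hne g g' hg)
    have hcT : Commute (Ab 0) (bandProd fun g : Fin K => Ab g.succ) :=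
      tg_commute_bandProd fun g => hc _ _ (Fin.succ_ne_zero g).symm
    rw [tg_bandProd_succ]
    rcases Fin.eq_zero_or_eq_succ g₀ with rfl | ⟨g₁, rfl⟩
    · exact tmc_simT_mul_left (hp 0) hT hcT
        (tg_commute_bandProd fun g => (hh _ (Fin.succ_ne_zero g)).symm).symm
    · rw [tmc_simT_mul_right (hp 0) hT hcT (hh 0 (Fin.succ_ne_zero g₁).symm)]
      exact ih (fun g => hp g.succ) (fun g g' hg => hc _ _ (hne g g' hg)) g₁
        fun g hg => hh _ (hne g g₁ hg)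

/-- the split band is unique -/
theorem tmc_ins_of_ne {a0 : ℝ} (hW : 𝔇.WF a0) (i : ι) {l : α} (hl : 𝔇.Al l) {g₀ : Fin 𝔇.K}
    (hs : SpN (𝔇.S.sup i) (𝔇.st l g₀) ∨ SpF (𝔇.S.sup i) (𝔇.st l g₀)) :
    1 + ldim io (𝔇.S.sup i) ≤ 𝔇.ell ∧ ∀ g, g ≠ g₀ → Ins (𝔇.S.sup i) (𝔇.st l g) := by
  have hno : ¬ Ins (𝔇.S.sup i) (𝔇.st l g₀) := fun h =>
    hs.elim (tm_not_split_of_ins h).1 (tm_not_split_of_ins h).2
  rcases hW.split l hl i with h | ⟨g0, -, hd, h⟩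
  · exact absurd (h g₀) hno
  · have : g₀ = g0 := by
      by_contra hne
      exact hno (h g₀ hne)
    subst this
    exact ⟨hd, h⟩

/-- **split leaves**: reduction to the exceptional band -/
theorem tm_split_reduce {a0 : ℝ} (hW : 𝔇.WF a0) (i : ι) {l : α} (hl : 𝔇.Al l) {g₀ : Fin 𝔇.K}
    (hs : SpN (𝔇.S.sup i) (𝔇.st l g₀) ∨ SpF (𝔇.S.sup i) (𝔇.st l g₀)) :
    simT (𝔇.tmA κ l) (𝔇.mTerm κ i) =
      simO κ (𝔇.a / 2) (mP (𝔇.st l g₀)) (mY (𝔇.st l g₀)) (mFar (𝔇.st l g₀))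
        (rmLift 𝔇.dst (𝔇.S.h i)) := by
  have : NeZero 𝔇.dst := ⟨(tm_dst_pos 𝔇 hW).ne'⟩
  have ht : 0 < 𝔇.a / 2 := by linarith [hW.a_pos]
  have h3 := tm_part3 (hW.st_disj l hl g₀)
  rw [tmA, tm_simT_bandProd (fun g => tm_B_posDef κ hW g l)
    (fun g g' hg => tm_B_commute κ hW hg l l) _ g₀
    (fun g hg => tmc_B_commute_term κ hW i hl ((tmc_ins_of_ne hW i hl hs).2 g hg)),
    tmc_B_eq κ hl, simT, simO, bandMz_eq_rpw _ ht h3, bandMz_eq_rpw _ ht h3, mTerm]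

end RepData

/-! ### the cost of a split leaf -/

theorem tmc_ind_pos {P : Prop} (h : P) : ind P = 1 := by
  unfold ind
  rw [if_pos h]

theorem tmc_ind_neg {P : Prop} (h : ¬ P) : ind P = 0 := by
  unfold ind
  rw [if_neg h]

namespace RepData

variable {Λ ι α : Type} [Fintype Λ] [DecidableEq Λ] [Fintype ι]
  {io : Λ → Type} [∀ x, Fintype (io x)] [∀ x, DecidableEq (io x)] [∀ x, Nonempty (io x)]
  {𝔇 : RepData Λ ι α io}

theorem tmc_not_spN_spF {D : Finset Λ} {s : Finset Λ × Finset Λ} (h1 : SpN D s) : ¬ SpF D s := by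
  intro h2
  obtain ⟨y, hy⟩ := h2.1
  exact Finset.disjoint_left.1 h1.2.2 (Finset.mem_inter.1 hy).1 (Finset.mem_inter.1 hy).2

/-- no split: the cost vanishes -/
theorem tmc_costAt_zero (i : ι) (l : α) (e : Ann Λ 𝔇.K)
    (h : ∀ g, Ins (𝔇.S.sup i) (𝔇.st l g)) : 𝔇.costAt i (l, e) = 0 := by
  unfold costAt
  refine Finset.sum_eq_zero fun g _ => ?_
  rw [tmc_ind_neg (tm_not_split_of_ins (h g)).1, tmc_ind_neg (tm_not_split_of_ins (h g)).2]
  ring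

/-- near split in the band `g₀` -/
theorem tmc_costAt_near (i : ι) (l : α) (e : Ann Λ 𝔇.K) {g₀ : Fin 𝔇.K}
    (hs : SpN (𝔇.S.sup i) (𝔇.st l g₀)) (h : ∀ g, g ≠ g₀ → Ins (𝔇.S.sup i) (𝔇.st l g)) :
    𝔇.costAt i (l, e) = e.2 g₀ true (𝔇.S.sup i \ (𝔇.st l g₀).1) := by
  unfold costAt
  rw [Finset.sum_eq_single g₀]
  · rw [tmc_ind_pos hs, tmc_ind_neg (tmc_not_spN_spF hs)]
    ring
  · intro g _ hg
    rw [tmc_ind_neg (tm_not_split_of_ins (h g hg)).1, tmc_ind_neg (tm_not_split_of_ins (h g hg)).2]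
    ring
  · intro hg
    exact absurd (Finset.mem_univ _) hg

/-- far split in the band `g₀` -/
theorem tmc_costAt_far (i : ι) (l : α) (e : Ann Λ 𝔇.K) {g₀ : Fin 𝔇.K}
    (hs : SpF (𝔇.S.sup i) (𝔇.st l g₀)) (h : ∀ g, g ≠ g₀ → Ins (𝔇.S.sup i) (𝔇.st l g)) :
    𝔇.costAt i (l, e) = e.2 g₀ false (𝔇.S.sup i \ (𝔇.st l g₀).2) := by
  unfold costAt
  rw [Finset.sum_eq_single g₀]
  · rw [tmc_ind_pos hs, tmc_ind_neg (fun h1 => tmc_not_spN_spF h1 hs)]
    ring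
  · intro g _ hg
    rw [tmc_ind_neg (tm_not_split_of_ins (h g hg)).1, tmc_ind_neg (tm_not_split_of_ins (h g hg)).2]
    ring
  · intro hg
    exact absurd (Finset.mem_univ _) hg

/-- `e8` of the annotation, near side, as conditional mutual informations -/
theorem tmc_e8_near {a0 : ℝ} (hW : 𝔇.WF a0) {k N : ℕ} (𝒟 : CohDesign (rmIo io 𝔇.dst) N) {l : α}
    (hl : 𝔇.Al l) (σ : Matrix (𝔇.MIx (Fin k)) (𝔇.MIx (Fin k)) ℂ) (g : Fin 𝔇.K) {x : Finset Λ}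
    (hx : x ⊆ mid (𝔇.st l g)) :
    (𝔇.mAnn 𝒟 l σ).2 g true x = ∑ i, 𝒟.w k σ i *
      (cminfo (pureOp (𝒟.θ i)) (rmPh x) (mFar (𝔇.st l g)) (mY (𝔇.st l g) \ rmPh x)) ^
        (1 / 8 : ℝ) := by
  have : NeZero 𝔇.dst := ⟨(tm_dst_pos 𝔇 hW).ne'⟩
  have e : (𝔇.mAnn 𝒟 l σ).2 g true x =
      ∑ i, 𝒟.w k σ i * (mEta (𝒟.θ i) (𝔇.st l g) true x) ^ ((1 : ℝ) / 8) := by
    simp only [mAnn]
    rw [if_pos hx]
  rw [e]
  refine Finset.sum_congr rfl fun i _ => ?_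
  rw [← etaMove_eq_cminfo (tm_four (hW.st_disj l hl g) hx) (𝒟.unit i), mEta, if_pos rfl]

/-- `e8` of the annotation, far side, as conditional mutual informations -/
theorem tmc_e8_far {a0 : ℝ} (hW : 𝔇.WF a0) {k N : ℕ} (𝒟 : CohDesign (rmIo io 𝔇.dst) N) {l : α}
    (hl : 𝔇.Al l) (σ : Matrix (𝔇.MIx (Fin k)) (𝔇.MIx (Fin k)) ℂ) (g : Fin 𝔇.K) {x : Finset Λ}
    (hx : x ⊆ mid (𝔇.st l g)) :
    (𝔇.mAnn 𝒟 l σ).2 g false x = ∑ i, 𝒟.w k σ i *
      (cminfo (pureOp (𝒟.θ i)) (rmPh x) (mP (𝔇.st l g)) (mY (𝔇.st l g) \ rmPh x)) ^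
        (1 / 8 : ℝ) := by
  have : NeZero 𝔇.dst := ⟨(tm_dst_pos 𝔇 hW).ne'⟩
  have e : (𝔇.mAnn 𝒟 l σ).2 g false x =
      ∑ i, 𝒟.w k σ i * (mEta (𝒟.θ i) (𝔇.st l g) false x) ^ ((1 : ℝ) / 8) := by
    simp only [mAnn]
    rw [if_pos hx]
  rw [e]
  refine Finset.sum_congr rfl fun i _ => ?_
  rw [← etaMove_eq_cminfo (tm_four (hW.st_disj l hl g) hx).swap (𝒟.unit i), mEta,
    if_neg (by simp)]

/-- the scalar step of `tm_cost` -/
theorem tmc_cost_scalar {C₁ C a L ell S ε X : ℝ} (hC₁ : 0 ≤ C₁) (hC : C₁ ≤ C) (hL0 : 0 ≤ L)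
    (hL : L ≤ ell) (hS : 0 ≤ S) (h : X ≤ C₁ * (2 * (a / 2)) ^ 2 * L ^ 4 * S + ε) :
    X ≤ C * a ^ 2 * ell ^ 4 * S + ε := by
  have h1 : L ^ 4 ≤ ell ^ 4 := pow_le_pow_left₀ hL0 hL 4
  have h2 : C₁ * (2 * (a / 2)) ^ 2 * L ^ 4 * S ≤ C * a ^ 2 * ell ^ 4 * S := by
    have e : 2 * (a / 2) = a := by ring
    rw [e]
    have hC0 : 0 ≤ C := hC₁.trans hC
    gcongr
  linarith

end RepData

/-- **eq. transport:symbol-cost in the model.**  `c`, `C` universal.  For every allowed label, every term and every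
`ε > 0`, for all large `k`, every design of level `2k` and every state:
`Re Tr (σ skewD O_{i,l}) ≤ C a² ell⁴ costAt i (l, mAnn l σ) + ε`. -/
theorem tm_cost :
    ∃ c C : ℝ, 0 < c ∧ 0 < C ∧
      ∀ (Λ ι α : Type) [Fintype Λ] [DecidableEq Λ] [Fintype ι] (io : Λ → Type)
        [∀ x, Fintype (io x)] [∀ x, DecidableEq (io x)] [∀ x, Nonempty (io x)]
        (𝔇 : RepData Λ ι α io), 𝔇.WF c → ∀ (i : ι) (l : α), 𝔇.Al l → ∀ ε : ℝ, 0 < ε →
        ∃ k0 : ℕ, ∀ k : ℕ, k0 ≤ k → ∀ (𝒟 : CohDesign (rmIo io 𝔇.dst) (2 * k))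
          (σ : Matrix (𝔇.MIx (Fin k)) (𝔇.MIx (Fin k)) ℂ), σ.PosSemidef → σ.trace = 1 →
          (trace (σ * skewD (simT (𝔇.tmA (Fin k) l) (𝔇.mTerm (Fin k) i)))).re ≤
            ind (𝔇.SplitAt i l) * (C * 𝔇.a ^ 2 * 𝔇.ell ^ 4 * 𝔇.costAt i (l, 𝔇.mAnn 𝒟 l σ) + ε) := by
  obtain ⟨c₁, C₁, hc₁, hC₁, H₁⟩ := symbol_skew_bound
  obtain ⟨c₂, C₂, hc₂, hC₂, H₂⟩ := symbol_skew_bound'
  refine ⟨min (min c₁ c₂) (1 / 4), max C₁ C₂, lt_min (lt_min hc₁ hc₂) (by norm_num),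
    lt_max_of_lt_left hC₁, ?_⟩
  intro Λ ι α _ _ _ io _ _ _ 𝔇 hW i l hl ε hε
  have : NeZero 𝔇.dst := ⟨(RepData.tm_dst_pos 𝔇 hW).ne'⟩
  have ha := hW.a_pos
  have ha4 : 𝔇.a ≤ 1 / 4 := hW.a_le.trans (min_le_right _ _)
  have hae1 : 𝔇.a * 𝔇.ell ≤ c₁ := hW.a_ell.trans ((min_le_left _ _).trans (min_le_left _ _))
  have hae2 : 𝔇.a * 𝔇.ell ≤ c₂ := hW.a_ell.trans ((min_le_left _ _).trans (min_le_right _ _))
  by_cases hS : 𝔇.SplitAt i l
  · rw [tmc_ind_pos hS]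
    simp only [one_mul]
    obtain ⟨g₀, hs⟩ := hS
    obtain ⟨hd, hI⟩ := RepData.tmc_ins_of_ne hW i hl hs
    obtain ⟨K, hK, hK0, hK1⟩ :=
      tm_rmLift_supp 𝔇.dst (hW.sys.supp i) (hW.sys.pos i) (hW.sys.le_one i)
    have hL : cd_ell (rmIo io 𝔇.dst) (rmPh (𝔇.S.sup i)) = 1 + ldim io (𝔇.S.sup i) :=
      RepData.tm_cd_ell _ _
    have hL0 : 0 ≤ 1 + ldim io (𝔇.S.sup i) := by
      have := RepData.tm_ldim_nonneg (io := io) (𝔇.S.sup i)
      linarith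
    have hsm : 2 * (𝔇.a / 2) * (1 + ldim io (𝔇.S.sup i)) ≤ 𝔇.a * 𝔇.ell := by
      have e : 2 * (𝔇.a / 2) = 𝔇.a := by ring
      rw [e]
      exact mul_le_mul_of_nonneg_left hd ha.le
    rcases hs with hs | hs
    · obtain ⟨e1, e2, e3⟩ := RepData.tm_spN hs
      obtain ⟨K', hK', hK'0, hK'1⟩ := tm_emb_cast e1 K hK0 hK1
      obtain ⟨k0, hk0⟩ := H₁ (Λ ⊕ Bool) (rmIo io 𝔇.dst) (𝔇.a / 2) (by linarith) (by linarith)
        _ _ _ _ _ (RepData.tm_four (hW.st_disj l hl g₀) e3) e2 K' hK'0 hK'1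
        (by rw [← e1, hL]; exact hsm.trans hae1) ε hε
      refine ⟨k0, fun k hk 𝒟 σ hσ hσ1 => ?_⟩
      have h := hk0 k hk (2 * k) 𝒟 le_rfl σ ⟨hσ, hσ1⟩
      rw [RepData.tm_mY_split e3, ← hK', ← hK, ← e1, hL,
        ← RepData.tmc_e8_near hW 𝒟 hl σ g₀ e3] at h
      rw [RepData.tm_split_reduce (Fin k) hW i hl (Or.inl hs),
        RepData.tmc_costAt_near i l _ hs hI]
      exact RepData.tmc_cost_scalar hC₁.le (le_max_left _ _) hL0 hd
        ((RepData.tm_annOK 𝔇 hW (by omega) 𝒟 hl hσ hσ1) _ _ _).2.2.1 h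
    · obtain ⟨e1, e2, e3⟩ := RepData.tm_spF hs
      obtain ⟨K', hK', hK'0, hK'1⟩ := tm_emb_cast e1 K hK0 hK1
      obtain ⟨k0, hk0⟩ := H₂ (Λ ⊕ Bool) (rmIo io 𝔇.dst) (𝔇.a / 2) (by linarith) (by linarith)
        _ _ _ _ _ (RepData.tm_four (hW.st_disj l hl g₀) e3) e2 K' hK'0 hK'1
        (by rw [← e1, hL]; exact hsm.trans hae2) ε hε
      refine ⟨k0, fun k hk 𝒟 σ hσ hσ1 => ?_⟩
      have h := hk0 k hk (2 * k) 𝒟 le_rfl σ ⟨hσ, hσ1⟩
      rw [RepData.tm_mY_split e3, ← hK', ← hK, ← e1, hL,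
        ← RepData.tmc_e8_far hW 𝒟 hl σ g₀ e3] at h
      rw [RepData.tm_split_reduce (Fin k) hW i hl (Or.inr hs),
        RepData.tmc_costAt_far i l _ hs hI]
      exact RepData.tmc_cost_scalar hC₂.le (le_max_right _ _) hL0 hd
        ((RepData.tm_annOK 𝔇 hW (by omega) 𝒟 hl hσ hσ1) _ _ _).2.2.1 h
  · refine ⟨0, fun k _ 𝒟 σ _ _ => ?_⟩
    rw [tmc_ind_neg hS, zero_mul, tk_skewD_eq_zero (RepData.tm_A_posDef (Fin k) hW l)
      (RepData.tm_term_posSemidef (Fin k) hW i) (RepData.tm_unsplit (Fin k) hW i hl hS),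
      Matrix.mul_zero, Matrix.trace_zero, Complex.zero_re]

namespace RepData

variable {Λ ι α : Type} [Fintype Λ] [DecidableEq Λ] [Fintype ι]
  {io : Λ → Type} [∀ x, Fintype (io x)] [∀ x, DecidableEq (io x)] [∀ x, Nonempty (io x)]
  {𝔇 : RepData Λ ι α io}

/-- the cost of an annotated leaf is nonnegative and at most `(2 ell)^{1/8}` -/
theorem tm_costAt_bounds {a0 : ℝ} (hW : 𝔇.WF a0) (i : ι) {l : α} (hl : 𝔇.Al l) {k N : ℕ}
    (hN : k ≤ N) (𝒟 : CohDesign (rmIo io 𝔇.dst) N)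
    {σ : Matrix (𝔇.MIx (Fin k)) (𝔇.MIx (Fin k)) ℂ} (hσ : σ.PosSemidef) (hσ1 : σ.trace = 1) :
    0 ≤ 𝔇.costAt i (l, 𝔇.mAnn 𝒟 l σ) ∧
      𝔇.costAt i (l, 𝔇.mAnn 𝒟 l σ) ≤ (2 * 𝔇.ell) ^ ((1 : ℝ) / 8) := by
  have hOK := tm_annOK 𝔇 hW hN 𝒟 hl hσ hσ1
  have hell := hW.ell_ge
  have key : ∀ (g : Fin 𝔇.K) (b : Bool) (x : Finset Λ), x ⊆ 𝔇.S.sup i →
      1 + ldim io (𝔇.S.sup i) ≤ 𝔇.ell →
      (𝔇.mAnn 𝒟 l σ).2 g b x ≤ (2 * 𝔇.ell) ^ ((1 : ℝ) / 8) := by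
    intro g b x hx hd
    refine (tm_e8_le 𝔇 hW hN 𝒟 hl hσ hσ1 g b x).trans ?_
    have h1 : ldim io x ≤ ldim io (𝔇.S.sup i) := tm_ldim_mono hx
    have h0 : 0 ≤ ldim io x := tm_ldim_nonneg x
    exact Real.rpow_le_rpow (by linarith) (by linarith) (by norm_num)
  rcases hW.split l hl i with h | ⟨g0, hs, hd, h⟩
  · rw [tmc_costAt_zero i l _ h]
    exact ⟨le_rfl, Real.rpow_nonneg (by linarith) _⟩
  · rcases hs with hs | hs
    · rw [tmc_costAt_near i l _ hs h]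
      exact ⟨(hOK _ _ _).2.2.1, key _ _ _ Finset.sdiff_subset hd⟩
    · rw [tmc_costAt_far i l _ hs h]
      exact ⟨(hOK _ _ _).2.2.1, key _ _ _ Finset.sdiff_subset hd⟩

/-- a property which holds eventually at every label holds eventually at all leaves of a tree -/
theorem tm_all_eventually {P : ℕ → α → Prop} {Q : α → Prop} (T : MTree α) (hT : T.All Q)
    (h : ∀ l, Q l → ∃ k0 : ℕ, ∀ k, k0 ≤ k → P k l) :
    ∃ k0 : ℕ, ∀ k, k0 ≤ k → T.All (P k) := by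
  induction T with
  | leaf a => exact h a hT
  | node p l r ihl ihr =>
    obtain ⟨k1, h1⟩ := ihl hT.1
    obtain ⟨k2, h2⟩ := ihr hT.2
    exact ⟨max k1 k2, fun k hk =>
      ⟨h1 k ((le_max_left _ _).trans hk), h2 k ((le_max_right _ _).trans hk)⟩⟩

end RepData

end Scan

end Claimed.Agent.R296
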