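import Claimed.Agent.R296.Tree

/-!
# Row 296, P1 Section 6 (proof of prop:transport): the root state

Owner: helper9 (statements), helper43 (proofs).  Prefix `ts_`.  ONE leaf package (all sorries of this file, about 600-900 lines).

For a positive definite root `M` and a nonzero vector `w = pre`:
* `fvec M w = M^{-1/4} w`   (the unnormalised filtered vector `N v`),
* `nrm2 M w = ⟨w, M^{-1/2} w⟩ = N²`,
* `rootSt M w = 2 ∫ m_{1/4}(u) |M^{-iu} v⟩⟨M^{-iu} v| du`, DEFINED without integral as the Schur multiplier with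
  kernel `1 / (2 cosh ((log x - log y)/4))` applied to `|v⟩⟨v|`, times `2`.  It is a density matrix.
All `u`-integrals of the paper are hidden in this state: `2 ∫ m_s(u) Tr(σ_{j,u} Z) du = Tr(Φ_j^*(rootSt) Z)`.

Tools: helper80's `af_dop₂_fourier_form`, `fp_m4_fourier`, `fp_m4_integral`, `af_norm_hasDerivAt`,
`af_block_bound_plus/minus` (with a one-point index set), `flow_fromBlocks`, `rpw_fromBlocks`.
-/

set_option autoImplicit false

namespace Claimed.Agent.R296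

open Matrix MeasureTheory
open scoped MatrixOrder Matrix.Norms.L2Operator ComplexOrder

variable {n m : Type} [Fintype n] [DecidableEq n] [Fintype m] [DecidableEq m]

/-- the kernel `g_{1/4}(log x - log y)` -/
noncomputable def gk4 (x y : ℝ) : ℂ := ((1 / (2 * Real.cosh ((Real.log x - Real.log y) / 4)) : ℝ) : ℂ)

/-- `M^{-1/4} w` -/
noncomputable def fvec (M : Matrix n n ℂ) (w : n → ℂ) : n → ℂ := rpw M (-(1 / 4)) *ᵥ w

/-- `N² = ⟨w, M^{-1/2} w⟩` -/
noncomputable def nrm2 (M : Matrix n n ℂ) (w : n → ℂ) : ℝ := (star w ⬝ᵥ (rpw M (-(1 / 2)) *ᵥ w)).re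

/-- the `u`-averaged root state -/
noncomputable def rootSt (M : Matrix n n ℂ) (w : n → ℂ) : Matrix n n ℂ :=
  ((2 / nrm2 M w : ℝ) : ℂ) • dop gk4 M (vecMulVec (fvec M w) (star (fvec M w)))

/-- normalised energy `⟨v, H v⟩` of the filtered vector -/
noncomputable def fenergy (M : Matrix n n ℂ) (w : n → ℂ) (H : Matrix n n ℂ) : ℝ :=
  (star (fvec M w) ⬝ᵥ (H *ᵥ fvec M w)).re / nrm2 M w

theorem ts_nrm2_eq {M : Matrix n n ℂ} (hM : M.PosDef) (w : n → ℂ) :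
    star (fvec M w) ⬝ᵥ fvec M w = (nrm2 M w : ℂ) := by
  have h1 : star (fvec M w) ⬝ᵥ fvec M w = star w ⬝ᵥ (rpw M (-(1 / 2)) *ᵥ w) := by
    unfold fvec
    rw [star_mulVec, (rpw_isHermitian M _).eq, ← dotProduct_mulVec, mulVec_mulVec, ← rpw_add]
    norm_num
  unfold nrm2
  rw [← h1, star_dotProduct_self_eq, Complex.ofReal_re]

theorem ts_nrm2_pos {M : Matrix n n ℂ} (hM : M.PosDef) {w : n → ℂ} (hw : w ≠ 0) : 0 < nrm2 M w := by
  have h := (rpw_posDef hM.1 (-(1 / 2))).dotProduct_mulVec_pos hw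
  exact (Complex.lt_def.1 h).1

theorem ts_nrm2_nonneg {M : Matrix n n ℂ} (hM : M.PosDef) (w : n → ℂ) : 0 ≤ nrm2 M w := by
  have h := (rpw_posDef hM.1 (-(1 / 2))).posSemidef.dotProduct_mulVec_nonneg w
  exact (Complex.le_def.1 h).1

theorem ts_gk4_symm (x y : ℝ) : gk4 y x = gk4 x y := by
  unfold gk4
  have : (Real.log y - Real.log x) / 4 = -((Real.log x - Real.log y) / 4) := by ring
  rw [this, Real.cosh_neg]

/-- adjointness of a Schur multiplier for the trace pairing -/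
theorem ts_trace_dop_mul (g : ℝ → ℝ → ℂ) (A X Z : Matrix n n ℂ) :
    trace (dop g A X * Z) = trace (X * dop (fun x y => g y x) A Z) := by
  by_cases hA : A.IsHermitian
  · rw [dop, dop, dop₂_eq hA hA, dop₂_eq hA hA]
    set U := (hA.eigenvectorUnitary : Matrix n n ℂ) with hU
    have hUU : U * Uᴴ = 1 := eigU_mul_conjTranspose hA
    set X' := Uᴴ * X * U with hX'
    set Z' := Uᴴ * Z * U with hZ'
    have h1 : ∀ K : Matrix n n ℂ, trace (U * K * Uᴴ * Z) = trace (K * Z') := by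
      intro K
      rw [hZ', Matrix.mul_assoc, Matrix.mul_assoc, Matrix.trace_mul_comm]
      simp only [Matrix.mul_assoc]
    have h2 : ∀ K : Matrix n n ℂ, trace (X * (U * K * Uᴴ)) = trace (X' * K) := by
      intro K
      rw [hX', ← Matrix.mul_assoc, ← Matrix.mul_assoc, Matrix.trace_mul_comm]
      simp only [Matrix.mul_assoc]
    rw [h1, h2]
    simp only [Matrix.trace, Matrix.diag_apply, Matrix.mul_apply, Matrix.of_apply]
    refine Finset.sum_congr rfl fun i _ => Finset.sum_congr rfl fun j _ => ?_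
    ring
  · simp [dop, dop₂_of_not_left hA]

theorem ts_trace_vecMulVec_mul (y : n → ℂ) (K : Matrix n n ℂ) :
    trace (vecMulVec y (star y) * K) = star y ⬝ᵥ (K *ᵥ y) := by
  rw [vecMulVec_mul, trace_vecMulVec, dotProduct_mulVec, dotProduct_comm]

/-- the integral formula for the root state -/
theorem ts_trace_rootSt_mul {M : Matrix n n ℂ} (hM : M.PosDef) (w : n → ℂ) (Z : Matrix n n ℂ) :
    Integrable (fun u : ℝ => (m4 u : ℂ) *
        (star (flow M (-u) *ᵥ fvec M w) ⬝ᵥ (Z *ᵥ (flow M (-u) *ᵥ fvec M w)))) ∧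
      trace (rootSt M w * Z) = ((2 / nrm2 M w : ℝ) : ℂ) * ∫ u : ℝ, (m4 u : ℂ) *
        (star (flow M (-u) *ᵥ fvec M w) ⬝ᵥ (Z *ᵥ (flow M (-u) *ᵥ fvec M w))) := by
  have hF := af_dop₂_fourier_form (μ := fun u => (m4 u : ℂ)) fp_m4_integrable.ofReal
    (fun z => ((1 / (2 * Real.cosh (z / 4)) : ℝ) : ℂ)) hM hM
    (fun i j => (fp_m4_fourier _).symm) Z (fvec M w) (fvec M w)
  refine ⟨hF.1, ?_⟩
  rw [← hF.2, rootSt, Matrix.smul_mul, Matrix.trace_smul, smul_eq_mul, ts_trace_dop_mul,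
    ts_trace_vecMulVec_mul]
  simp only [ts_gk4_symm]
  rfl

theorem ts_rootSt_posSemidef {M : Matrix n n ℂ} (hM : M.PosDef) (w : n → ℂ) :
    (rootSt M w).PosSemidef := by
  have hN := ts_nrm2_nonneg hM w
  refine PosSemidef.of_dotProduct_mulVec_nonneg ?_ fun x => ?_
  · unfold rootSt
    rw [IsHermitian, conjTranspose_smul, dop, dop₂_conjTranspose, conjTranspose_vecMulVec,
      star_star]
    congr 1
    · simp
    · congr 1
      ext x y
      rw [ts_gk4_symm, gk4, RCLike.star_def, Complex.conj_ofReal]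
  · have h := (ts_trace_rootSt_mul hM w (vecMulVec x (star x))).2
    have h1 : trace (rootSt M w * vecMulVec x (star x)) = star x ⬝ᵥ (rootSt M w *ᵥ x) := by
      rw [Matrix.trace_mul_comm, ts_trace_vecMulVec_mul]
    rw [← h1, h]
    have h2 : ∀ u : ℝ, (m4 u : ℂ) * (star (flow M (-u) *ᵥ fvec M w) ⬝ᵥ
        (vecMulVec x (star x) *ᵥ (flow M (-u) *ᵥ fvec M w))) =
        ((m4 u * ‖star x ⬝ᵥ (flow M (-u) *ᵥ fvec M w)‖ ^ 2 : ℝ) : ℂ) := by
      intro u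
      set v := flow M (-u) *ᵥ fvec M w
      rw [vecMulVec_mulVec, dotProduct_smul, op_smul_eq_mul]
      have h3 : star v ⬝ᵥ x = star (star x ⬝ᵥ v) := by
        rw [star_dotProduct]
      rw [h3, RCLike.star_def, ← Complex.normSq_eq_conj_mul_self, Complex.normSq_eq_norm_sq]
      push_cast
      ring
    simp only [h2]
    rw [integral_complex_ofReal, ← Complex.ofReal_mul]
    have : 0 ≤ 2 / nrm2 M w * ∫ u : ℝ, m4 u * ‖star x ⬝ᵥ (flow M (-u) *ᵥ fvec M w)‖ ^ 2 :=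
      mul_nonneg (div_nonneg zero_le_two hN)
        (integral_nonneg fun u => mul_nonneg (fp_m4_pos u).le (by positivity))
    exact_mod_cast this

theorem ts_rootSt_trace {M : Matrix n n ℂ} (hM : M.PosDef) {w : n → ℂ} (hw : w ≠ 0) :
    (rootSt M w).trace = 1 := by
  have hN := ts_nrm2_pos hM hw
  have h := (ts_trace_rootSt_mul hM w 1).2
  rw [Matrix.mul_one] at h
  rw [h]
  have h2 : ∀ u : ℝ, (m4 u : ℂ) * (star (flow M (-u) *ᵥ fvec M w) ⬝ᵥ
      ((1 : Matrix n n ℂ) *ᵥ (flow M (-u) *ᵥ fvec M w))) = ((m4 u * nrm2 M w : ℝ) : ℂ) := by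
    intro u
    rw [one_mulVec, flow_norm_sq hM.1, ts_nrm2_eq hM]
    push_cast; ring
  simp only [h2]
  rw [integral_complex_ofReal, integral_mul_const, fp_m4_integral, ← Complex.ofReal_mul]
  have : 2 / nrm2 M w * (1 / 2 * nrm2 M w) = 1 := by field_simp
  rw [this, Complex.ofReal_one]

/-- monotonicity of `Z ↦ Re Tr (σ Z)` for PSD `σ` (general tool) -/
theorem ts_trace_mul_mono {σ : Matrix n n ℂ} (hσ : σ.PosSemidef) {Z Z' : Matrix n n ℂ} (h : Z ≤ Z') :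
    (trace (σ * Z)).re ≤ (trace (σ * Z')).re := by
  have h1 := tp_trace_mul_nonneg hσ (Matrix.le_iff.1 h)
  rw [Matrix.mul_sub, Matrix.trace_sub] at h1
  have h2 := (Complex.le_def.1 h1).1
  simp only [Complex.zero_re, Complex.sub_re] at h2
  linarith

/-- **eq. transport:norm-derivative** in state form: if `M' = M^{1/2} H M^{1/2}` then
`- d/ds log N² = (1/2) Re Tr (rootSt · H)`. -/
theorem ts_log_hasDerivAt {M : ℝ → Matrix n n ℂ} {H : Matrix n n ℂ} {t : ℝ}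
    (hM : HasDerivAt M (rpw (M t) (1 / 2) * H * rpw (M t) (1 / 2)) t)
    (hP : ∀ s, (M s).PosDef) {w : n → ℂ} (hw : w ≠ 0) :
    HasDerivAt (fun s => - Real.log (nrm2 (M s) w)) (1 / 2 * (trace (rootSt (M t) w * H)).re) t := by
  have hN := ts_nrm2_pos (hP t) hw
  obtain ⟨-, hD⟩ := af_norm_hasDerivAt hM (Filter.Eventually.of_forall hP) w
  have hT := (ts_trace_rootSt_mul (hP t) w H).2
  set Iv : ℂ := ∫ u : ℝ, (m4 u : ℂ) * (star (flow (M t) (-u) *ᵥ fvec (M t) w) ⬝ᵥ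
      (H *ᵥ (flow (M t) (-u) *ᵥ fvec (M t) w))) with hIv
  have hD' : HasDerivAt (fun s => star w ⬝ᵥ (rpw (M s) (-(1 / 2)) *ᵥ w)) (-Iv) t := hD
  have hre : HasDerivAt (fun s => nrm2 (M s) w) (-Iv).re t :=
    (Complex.reCLM.hasFDerivAt.comp_hasDerivAt t hD')
  have hlog := (hre.log hN.ne').neg
  refine hlog.congr_deriv ?_
  rw [hT, Complex.re_ofReal_mul, Complex.neg_re]
  field_simp

/-- continuity of `N²` along continuous curves -/
theorem ts_nrm2_continuousAt {M : ℝ → Matrix n n ℂ} {t : ℝ} (hM : ContinuousAt M t)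
    (hP : ∀ s, (M s).PosDef) (w : n → ℂ) : ContinuousAt (fun s => nrm2 (M s) w) t := by
  have h := dk_rpw_continuousAt (-(1 / 2)) hM (Filter.Eventually.of_forall hP)
  have h1 : ContinuousAt (fun s => af_quadL w (rpw (M s) (-(1 / 2)))) t :=
    ((LinearMap.toContinuousLinearMap (af_quadL w)).continuous.continuousAt).comp h
  exact Complex.continuous_re.continuousAt.comp h1

/-- quadratic forms on vectors living in the first block -/
theorem ts_quad_inl (N : Matrix (n ⊕ m) (n ⊕ m) ℂ) (v : n → ℂ) :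
    star (Sum.elim v (0 : m → ℂ)) ⬝ᵥ (N *ᵥ Sum.elim v (0 : m → ℂ)) =
      star v ⬝ᵥ (N.toBlocks₁₁ *ᵥ v) := by
  simp [dotProduct, mulVec, Fintype.sum_sum_type, toBlocks₁₁]

theorem ts_flow_inl {M : Matrix n n ℂ} {B : Matrix m m ℂ} (hM : M.PosDef) (hB : B.PosDef)
    (u : ℝ) (v : n → ℂ) :
    flow (fromBlocks M 0 0 B) u *ᵥ Sum.elim v (0 : m → ℂ) = Sum.elim (flow M u *ᵥ v) 0 := by
  rw [flow_fromBlocks hM.1 hB.1, fromBlocks_mulVec]
  simp

/-- the root state is `adG` of the rank one projector -/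
theorem ts_rootSt_eq (M : Matrix n n ℂ) (w : n → ℂ) :
    rootSt M w = ((2 / nrm2 M w : ℝ) : ℂ) • adG M (vecMulVec (fvec M w) (star (fvec M w))) := rfl

/-- KEY LEMMA: `Tr (rootSt Z) = (2/N²) ⟨y, adG M Z y⟩`. -/
theorem ts_trace_rootSt_mul' (M : Matrix n n ℂ) (w : n → ℂ) (Z : Matrix n n ℂ) :
    trace (rootSt M w * Z) =
      ((2 / nrm2 M w : ℝ) : ℂ) * (star (fvec M w) ⬝ᵥ (adG M Z *ᵥ fvec M w)) := by
  rw [ts_rootSt_eq, Matrix.smul_mul, Matrix.trace_smul, smul_eq_mul, adG_quadratic_eq_trace]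

/-- the block bound, abstract form: `E = adH (±1) 𝕄 K` with `Eᴴ E ≤ (1/4) adG 𝕄 (Kᴴ K)`. -/
theorem ts_block_aux {M : Matrix n n ℂ} {B : Matrix m m ℂ} (hM : M.PosDef) (hB : B.PosDef)
    (E K : Matrix (n ⊕ m) (n ⊕ m) ℂ)
    (hE : Eᴴ * E ≤ (1 / 4 : ℂ) • adG (fromBlocks M 0 0 B) (Kᴴ * K)) {w : n → ℂ} (hw : w ≠ 0) :
    (star (E *ᵥ Sum.elim (fvec M w) (0 : m → ℂ)) ⬝ᵥ
        (E *ᵥ Sum.elim (fvec M w) (0 : m → ℂ))).re ≤
      1 / 8 * nrm2 M w * (trace (rootSt M w * (Kᴴ * K).toBlocks₁₁)).re := by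
  have hN := ts_nrm2_pos hM hw
  have h1 := (Matrix.le_iff.1 hE).dotProduct_mulVec_nonneg (Sum.elim (fvec M w) (0 : m → ℂ))
  rw [sub_mulVec, dotProduct_sub, smul_mulVec, dotProduct_smul, ts_quad_inl,
    adG_fromBlocks₁₁ hM.1 hB.1, ad_form_sq, smul_eq_mul] at h1
  have h2 := (Complex.le_def.1 h1).1
  rw [ts_trace_rootSt_mul', Complex.re_ofReal_mul]
  have e4 : (1 / 4 : ℂ) = ((1 / 4 : ℝ) : ℂ) := by push_cast; rfl
  rw [e4, Complex.zero_re, Complex.sub_re, Complex.re_ofReal_mul] at h2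
  have e5 : 1 / 8 * nrm2 M w * (2 / nrm2 M w *
      (star (fvec M w) ⬝ᵥ (adG M (Kᴴ * K).toBlocks₁₁ *ᵥ fvec M w)).re) =
      1 / 4 * (star (fvec M w) ⬝ᵥ (adG M (Kᴴ * K).toBlocks₁₁ *ᵥ fvec M w)).re := by
    field_simp
    ring
  rw [e5]
  linarith

/-- **eq. transport:block-bound before the tree**: `𝕄 = diag(M, B)`, `L = [[0, T*],[T, 0]]`,
`E_± = B^{±1/4} T M^{∓1/4} - T`, `y = M^{-1/4} w`:
`‖E_± y‖² ≤ (1/8) N² Re Tr (rootSt · [K_L(𝕄)* K_L(𝕄)]₁₁)`. -/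
theorem ts_block_bound_plus {M : Matrix n n ℂ} {B : Matrix m m ℂ} (hM : M.PosDef) (hB : B.PosDef)
    (T : Matrix m n ℂ) {w : n → ℂ} (hw : w ≠ 0) :
    (star ((rpw B (1 / 4) * T * rpw M (-(1 / 4)) - T) *ᵥ fvec M w) ⬝ᵥ
        ((rpw B (1 / 4) * T * rpw M (-(1 / 4)) - T) *ᵥ fvec M w)).re ≤
      1 / 8 * nrm2 M w * (trace (rootSt M w *
        ((skw (fromBlocks 0 Tᴴ T 0) (fromBlocks M 0 0 B))ᴴ *
          skw (fromBlocks 0 Tᴴ T 0) (fromBlocks M 0 0 B)).toBlocks₁₁)).re := by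
  have h := ts_block_aux hM hB _ _ (adH_schwarz_plus (pd_fromBlocks hM hB)
    (skw (fromBlocks 0 Tᴴ T 0) (fromBlocks M 0 0 B))) hw
  rw [adH_rot_plus (pd_fromBlocks hM hB)] at h
  refine le_trans (le_of_eq ?_) h
  have e : (rpw (fromBlocks M 0 0 B) (1 / 4) * fromBlocks 0 Tᴴ T 0 *
      rpw (fromBlocks M 0 0 B) (-(1 / 4)) - fromBlocks 0 Tᴴ T 0) *ᵥ
        Sum.elim (fvec M w) (0 : m → ℂ) =
      Sum.elim (0 : n → ℂ) ((rpw B (1 / 4) * T * rpw M (-(1 / 4)) - T) *ᵥ fvec M w) := by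
    rw [rpw_fromBlocks hM.1 hB.1, rpw_fromBlocks hM.1 hB.1, fromBlocks_multiply,
      fromBlocks_multiply, sub_mulVec, fromBlocks_mulVec, fromBlocks_mulVec]
    ext (i | i) <;> simp [sub_mulVec]
  rw [e]
  simp [dotProduct, Fintype.sum_sum_type]

theorem ts_block_bound_minus {M : Matrix n n ℂ} {B : Matrix m m ℂ} (hM : M.PosDef) (hB : B.PosDef)
    (T : Matrix m n ℂ) {w : n → ℂ} (hw : w ≠ 0) :
    (star ((rpw B (-(1 / 4)) * T * rpw M (1 / 4) - T) *ᵥ fvec M w) ⬝ᵥ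
        ((rpw B (-(1 / 4)) * T * rpw M (1 / 4) - T) *ᵥ fvec M w)).re ≤
      1 / 8 * nrm2 M w * (trace (rootSt M w *
        ((skw (fromBlocks 0 Tᴴ T 0) (fromBlocks M 0 0 B))ᴴ *
          skw (fromBlocks 0 Tᴴ T 0) (fromBlocks M 0 0 B)).toBlocks₁₁)).re := by
  have h := ts_block_aux hM hB _ _ (adH_schwarz_minus (pd_fromBlocks hM hB)
    (skw (fromBlocks 0 Tᴴ T 0) (fromBlocks M 0 0 B))) hw
  rw [adH_rot_minus (pd_fromBlocks hM hB)] at h
  refine le_trans (le_of_eq ?_) h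
  have e : (rpw (fromBlocks M 0 0 B) (-(1 / 4)) * fromBlocks 0 Tᴴ T 0 *
      rpw (fromBlocks M 0 0 B) (1 / 4) - fromBlocks 0 Tᴴ T 0) *ᵥ
        Sum.elim (fvec M w) (0 : m → ℂ) =
      Sum.elim (0 : n → ℂ) ((rpw B (-(1 / 4)) * T * rpw M (1 / 4) - T) *ᵥ fvec M w) := by
    rw [rpw_fromBlocks hM.1 hB.1, rpw_fromBlocks hM.1 hB.1, fromBlocks_multiply,
      fromBlocks_multiply, sub_mulVec, fromBlocks_mulVec, fromBlocks_mulVec]
    ext (i | i) <;> simp [sub_mulVec]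
  rw [e]
  simp [dotProduct, Fintype.sum_sum_type]

end Claimed.Agent.R296
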