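import Claimed.Agent.R296.AdOps
import Claimed.Agent.R296.LogJensen
import Claimed.Agent.R296.Scan.Api

/-!
# Row 296, P1 Section 6.1: finite trees of matrix means (Lemmas transport:means, transport:cp)

Owner: helper9 (the last 10 proofs: helper173; no `sorry` in this file).  Built on helper53's `MTree` (scalar trees: `E`, `Valid`, `SValid`, `bind`, `map`, `interp`)
and on helper80's one-vertex API (`gmean`, `edgeL`, `edgeR`, `skw`, `IsUTP`, `tadj`).

* `MTree.ev A t`      : the root operator of the tree `t` with inputs `A a` at the leaves labelled `a`;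
* `MTree.push A t X`  : the NON-COMMUTATIVE EXPECTATION `∑_j π_j Φ_j(X_j)` (`π_j` terminal weights, `Φ_j` the
  normalised derivative maps from leaf `j` to the root).  It replaces all sums over leaves of the paper.
* `MTree.pull A t σ`  : the ANNOTATED copy of `t` carrying the transported states `σ_j = Φ_j^*(σ)`:
  `Re Tr (σ · push A t X) = E (pull A t σ) (fun (a, s) => Re Tr (s · X a))`.

Every statement is proved by induction on `t` from the corresponding one-vertex fact.  Strict weights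
(`SValid`) are assumed wherever an edge map occurs (this is all that `Scan/Api.lean` needs).
-/

set_option autoImplicit false
set_option linter.unusedSectionVars false

namespace Claimed.Agent.R296

open Matrix Filter Topology
open scoped MatrixOrder Matrix.Norms.L2Operator ComplexOrder

namespace MTree

variable {α β γ : Type} {n m : Type} [Fintype n] [DecidableEq n] [Fintype m] [DecidableEq m]

/-- root operator -/
noncomputable def ev (A : α → Matrix n n ℂ) : MTree α → Matrix n n ℂ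
  | leaf a => A a
  | node p l r => gmean p (ev A l) (ev A r)

/-- non-commutative expectation `∑_j π_j Φ_j (X_j)` -/
noncomputable def push (A : α → Matrix n n ℂ) : MTree α → (α → Matrix n n ℂ) → Matrix n n ℂ
  | leaf a, X => X a
  | node p l r, X =>
      ((1 - p : ℝ) : ℂ) • edgeL p (ev A l) (ev A r) (push A l X) +
        (p : ℂ) • edgeR p (ev A l) (ev A r) (push A r X)

/-- the annotated tree of transported states -/
noncomputable def pull (A : α → Matrix n n ℂ) : MTree α → Matrix n n ℂ → MTree (α × Matrix n n ℂ)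
  | leaf a, σ => leaf (a, σ)
  | node p l r, σ =>
      node p (pull A l (tadj (edgeL p (ev A l) (ev A r)) σ))
        (pull A r (tadj (edgeR p (ev A l) (ev A r)) σ))

theorem tr_valid_of_svalid : ∀ {t : MTree α}, SValid t → Valid t
  | leaf _, _ => trivial
  | node _ _ _, h => ⟨h.1.le, h.2.1.le, tr_valid_of_svalid h.2.2.1, tr_valid_of_svalid h.2.2.2⟩

/-! ### Lemma transport:means -/

theorem ev_posDef {A : α → Matrix n n ℂ} (hA : ∀ a, (A a).PosDef) (t : MTree α) : (ev A t).PosDef := by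
  induction t with
  | leaf a => exact hA a
  | node p l r ihl ihr => exact gm_posDef p ihl ihr

/-- the root depends only on the inputs at the leaves -/
theorem ev_congr_of_all {A A' : α → Matrix n n ℂ} {t : MTree α} (h : All (fun a => A a = A' a) t) :
    ev A t = ev A' t := by
  induction t with
  | leaf a => exact h
  | node p l r ihl ihr => simp only [ev, ihl h.1, ihr h.2]

/-- congruence covariance -/
theorem ev_conj {A : α → Matrix n n ℂ} (hA : ∀ a, (A a).PosDef) {S : Matrix n n ℂ} (hS : IsUnit S)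
    (t : MTree α) : ev (fun a => Sᴴ * A a * S) t = Sᴴ * ev A t * S := by
  induction t with
  | leaf a => rfl
  | node p l r ihl ihr =>
    simp only [ev]
    rw [ihl, ihr, gm_conj p (ev_posDef hA l) (ev_posDef hA r) hS]

/-- monotonicity -/
theorem ev_mono {A A' : α → Matrix n n ℂ} (hA : ∀ a, (A a).PosDef) (h : ∀ a, A a ≤ A' a)
    {t : MTree α} (ht : Valid t) : ev A t ≤ ev A' t := by
  induction t with
  | leaf a => exact h a
  | node p l r ihl ihr =>
    exact gm_mono ⟨ht.1, ht.2.1⟩ (ev_posDef hA l) (ev_posDef hA r) (ihl ht.2.2.1) (ihr ht.2.2.2)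

/-- all inputs equal -/
theorem ev_const {M : Matrix n n ℂ} (hM : M.PosDef) (t : MTree α) : ev (fun _ => M) t = M := by
  induction t with
  | leaf a => rfl
  | node p l r ihl ihr => simp only [ev, ihl, ihr, gm_self p hM]

/-- eq. transport:scalar-homogeneity; `∏ c_j^{w_j} = exp (E t (log c))`. -/
theorem ev_smul {A : α → Matrix n n ℂ} (hA : ∀ a, (A a).PosDef) {c : α → ℝ} (hc : ∀ a, 0 < c a)
    (t : MTree α) :
    ev (fun a => (c a : ℂ) • A a) t = ((Real.exp (E t fun a => Real.log (c a)) : ℝ) : ℂ) • ev A t := by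
  induction t with
  | leaf a => simp only [ev, E_leaf, Real.exp_log (hc a)]
  | node p l r ihl ihr =>
    simp only [ev, E_node]
    rw [ihl, ihr, gm_smul p (ev_posDef hA l) (ev_posDef hA r) (Real.exp_pos _) (Real.exp_pos _),
      ← Real.exp_mul, ← Real.exp_mul, ← Real.exp_add]
    congr 3
    ring

theorem tr_quad_pos {M : Matrix n n ℂ} (hM : M.PosDef) {z : n → ℂ} (hz : z ≠ 0) :
    0 < (star z ⬝ᵥ (M *ᵥ z)).re := by
  have h := hM.dotProduct_mulVec_pos hz
  exact (Complex.lt_def.1 h).1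

/-- LEAF TR-T5 (eq. transport:vector-jensen). -/
theorem ev_quad_le {A : α → Matrix n n ℂ} (hA : ∀ a, (A a).PosDef) {t : MTree α} (ht : Valid t)
    {z : n → ℂ} (hz : z ≠ 0) :
    (star z ⬝ᵥ (ev A t *ᵥ z)).re ≤
      Real.exp (E t fun a => Real.log (star z ⬝ᵥ (A a *ᵥ z)).re) := by
  induction t with
  | leaf a =>
    simp only [ev, E_leaf]
    rw [Real.exp_log (tr_quad_pos (hA a) hz)]
  | node p l r ihl ihr =>
    have h := gm_quadratic_le ⟨ht.1, ht.2.1⟩ (ev_posDef hA l) (ev_posDef hA r) z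
    simp only [ev, E_node]
    refine h.trans ?_
    rw [Real.exp_add, mul_comm (1 - p), mul_comm p, Real.exp_mul, Real.exp_mul]
    exact mul_le_mul
      (Real.rpow_le_rpow (tr_quad_pos (ev_posDef hA l) hz).le (ihl ht.2.2.1) (sub_nonneg.2 ht.2.1))
      (Real.rpow_le_rpow (tr_quad_pos (ev_posDef hA r) hz).le (ihr ht.2.2.2) ht.1)
      (Real.rpow_nonneg (tr_quad_pos (ev_posDef hA r) hz).le _)
      (Real.rpow_nonneg (Real.exp_pos _).le _)

/-- LEAF TR-T6a (projection transfer at one vertex; `P` any PSD matrix).  Proof: with `λ • 1 ≤ A, B` and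
`Q_δ = (1-δ) P + δ' 1` one has `a Q_δ ≤ A`, `b Q_δ ≤ B`; `gm_mono`, `gm_smul`, `gm_self`; let `δ → 0`. -/
theorem tr_gm_ge_of_pin {p : ℝ} (hp : p ∈ Set.Icc (0 : ℝ) 1) {A B P : Matrix n n ℂ} (hA : A.PosDef)
    (hB : B.PosDef) (hP : P.PosSemidef) {a b : ℝ} (ha : 0 < a) (hb : 0 < b) (hPA : (a : ℂ) • P ≤ A)
    (hPB : (b : ℂ) • P ≤ B) : ((a ^ (1 - p) * b ^ p : ℝ) : ℂ) • P ≤ gmean p A B := by
  obtain ⟨cA, hcA, hcA1⟩ := pd_exists_smul_one_le hA
  obtain ⟨cB, hcB, hcB1⟩ := pd_exists_smul_one_le hB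
  -- `κ` with `a κ ≤ cA`, `b κ ≤ cB`
  set κ : ℝ := min (cA / a) (cB / b) with hκ
  have hκ0 : 0 < κ := lt_min (div_pos hcA ha) (div_pos hcB hb)
  have hκa : a * κ ≤ cA := by
    have : κ ≤ cA / a := min_le_left _ _
    rw [le_div_iff₀ ha] at this; linarith
  have hκb : b * κ ≤ cB := by
    have : κ ≤ cB / b := min_le_right _ _
    rw [le_div_iff₀ hb] at this; linarith
  set Q : ℝ → Matrix n n ℂ := fun δ => ((1 - δ : ℝ) : ℂ) • P + ((δ * κ : ℝ) : ℂ) • 1 with hQ
  have hone : (1 : Matrix n n ℂ).PosSemidef := PosSemidef.one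
  have hsm : ∀ {x y : ℝ}, x ≤ y → (x : ℂ) • (1 : Matrix n n ℂ) ≤ (y : ℂ) • 1 := by
    intro x y hxy
    rw [Matrix.le_iff, ← sub_smul, ← Complex.ofReal_sub]
    exact hone.smul (by exact_mod_cast sub_nonneg.2 hxy)
  have hsmul_le : ∀ {X Y : Matrix n n ℂ} {c : ℝ}, 0 ≤ c → X ≤ Y → (c : ℂ) • X ≤ (c : ℂ) • Y := by
    intro X Y c hc hXY
    rw [Matrix.le_iff] at hXY ⊢
    rw [← smul_sub]
    exact hXY.smul (by exact_mod_cast hc)
  have key : ∀ δ ∈ Set.Ioo (0 : ℝ) 1, ((a ^ (1 - p) * b ^ p : ℝ) : ℂ) • Q δ ≤ gmean p A B := by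
    intro δ hδ
    have hQpd : (Q δ).PosDef := by
      have h1 : (((1 - δ : ℝ) : ℂ) • P).PosSemidef :=
        hP.smul (by exact_mod_cast (sub_nonneg.2 hδ.2.le))
      have h2 : (((δ * κ : ℝ) : ℂ) • (1 : Matrix n n ℂ)).PosDef :=
        pd_smul PosDef.one (mul_pos hδ.1 hκ0)
      exact h2.posSemidef_add h1
    have gen : ∀ {c cM : ℝ} {M : Matrix n n ℂ}, 0 < c → c * κ ≤ cM → (cM : ℂ) • (1 : Matrix n n ℂ) ≤ M →
        (c : ℂ) • P ≤ M → (c : ℂ) • Q δ ≤ M := by
      intro c cM M hc hcκ hM1 hPM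
      have e1 : (c : ℂ) • Q δ = ((1 - δ : ℝ) : ℂ) • ((c : ℂ) • P) +
          (δ : ℂ) • (((c * κ : ℝ) : ℂ) • (1 : Matrix n n ℂ)) := by
        simp only [hQ, smul_add, smul_smul]
        congr 2 <;> (push_cast; ring)
      have e2 : M = ((1 - δ : ℝ) : ℂ) • M + (δ : ℂ) • M := by
        rw [← add_smul]; push_cast; simp
      rw [e1, e2]
      exact add_le_add (hsmul_le (sub_nonneg.2 hδ.2.le) hPM)
        (hsmul_le hδ.1.le ((hsm hcκ).trans hM1))
    have h1 := gm_mono hp (pd_smul hQpd ha) (pd_smul hQpd hb) (gen ha hκa hcA1 hPA)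
      (gen hb hκb hcB1 hPB)
    rwa [gm_smul p hQpd hQpd ha hb, gm_self p hQpd] at h1
  have hlim : Tendsto (fun δ : ℝ => ((a ^ (1 - p) * b ^ p : ℝ) : ℂ) • Q δ) (𝓝[>] 0)
      (𝓝 (((a ^ (1 - p) * b ^ p : ℝ) : ℂ) • P)) := by
    have hc : Continuous fun δ : ℝ => ((a ^ (1 - p) * b ^ p : ℝ) : ℂ) • Q δ := by
      simp only [hQ]
      fun_prop
    have h0 := (hc.tendsto 0).mono_left (nhdsWithin_le_nhds (s := Set.Ioi 0))
    simpa [hQ] using h0
  refine dk_le_of_tendsto hlim tendsto_const_nhds ?_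
  filter_upwards [Ioo_mem_nhdsGT (show (0 : ℝ) < 1 by norm_num)] with δ hδ
  exact key δ hδ

/-- eq. transport:projection-transfer; `P` any PSD matrix. -/
theorem ev_ge_of_pin {A : α → Matrix n n ℂ} (hA : ∀ a, (A a).PosDef) {P : Matrix n n ℂ}
    (hP : P.PosSemidef) {c : α → ℝ} (hc : ∀ a, 0 < c a) {t : MTree α} (ht : Valid t)
    (h : All (fun a => (c a : ℂ) • P ≤ A a) t) :
    ((Real.exp (E t fun a => Real.log (c a)) : ℝ) : ℂ) • P ≤ ev A t := by
  induction t with
  | leaf a =>
    have h' : (c a : ℂ) • P ≤ A a := h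
    simpa only [ev, E_leaf, Real.exp_log (hc a)] using h'
  | node p l r ihl ihr =>
    have := tr_gm_ge_of_pin ⟨ht.1, ht.2.1⟩ (ev_posDef hA l) (ev_posDef hA r) hP (Real.exp_pos _)
      (Real.exp_pos _) (ihl ht.2.2.1 h.1) (ihr ht.2.2.2 h.2)
    rw [← Real.exp_mul, ← Real.exp_mul, ← Real.exp_add] at this
    simp only [ev, E_node]
    convert this using 4
    ring

theorem ev_commute {A : α → Matrix n n ℂ} {X : Matrix n n ℂ} (h : ∀ a, Commute X (A a))
    (t : MTree α) : Commute X (ev A t) := by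
  induction t with
  | leaf a => exact h a
  | node p l r ihl ihr => exact gm_commute p ihl ihr

/-- band factorisation, two bands -/
theorem ev_mul {A₁ A₂ : α → Matrix n n ℂ} (h₁ : ∀ a, (A₁ a).PosDef) (h₂ : ∀ a, (A₂ a).PosDef)
    (hc : ∀ a b, Commute (A₁ a) (A₂ b)) (t : MTree α) :
    ev (fun a => A₁ a * A₂ a) t = ev A₁ t * ev A₂ t := by
  have key : ∀ s s' : MTree α, Commute (ev A₁ s) (ev A₂ s') := fun s s' =>
    ev_commute (fun b => (ev_commute (fun a => (hc a b).symm) s).symm) s'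
  induction t with
  | leaf a => rfl
  | node p l r ihl ihr =>
    simp only [ev]
    rw [ihl, ihr, gm_mul p (ev_posDef h₁ l) (ev_posDef h₂ l) (ev_posDef h₁ r) (ev_posDef h₂ r)
      (key l l) (key l r) (key r l) (key r r)]

theorem ev_bind (A : β → Matrix n n ℂ) (t : MTree α) (k : α → MTree β) :
    ev A (bind t k) = ev (fun a => ev A (k a)) t := by
  induction t with
  | leaf a => rfl
  | node p l r ihl ihr => simp only [bind, ev, ihl, ihr]

theorem ev_map (A : β → Matrix n n ℂ) (g : α → β) (t : MTree α) :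
    ev A (map g t) = ev (fun a => A (g a)) t := by
  induction t with
  | leaf a => rfl
  | node p l r ihl ihr => simp only [map, ev, ihl, ihr]

/-- the interpolated tree: every old leaf `h` is replaced by `A_h #_p B_h` -/
theorem ev_interp (A : α → Matrix n n ℂ) (p : ℝ) (Hs : MTree α) (Ch : α → MTree α) :
    ev A (interp p Hs Ch) = ev (fun h => gmean p (A h) (ev A (Ch h))) Hs := by
  unfold interp
  rw [ev_bind]
  rfl

/-- block diagonal inputs -/
theorem ev_fromBlocks {A : α → Matrix n n ℂ} {A' : α → Matrix m m ℂ} (hA : ∀ a, (A a).PosDef)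
    (hA' : ∀ a, (A' a).PosDef) (t : MTree α) :
    ev (fun a => fromBlocks (A a) 0 0 (A' a)) t = fromBlocks (ev A t) 0 0 (ev A' t) := by
  induction t with
  | leaf a => rfl
  | node p l r ihl ihr =>
    simp only [ev]
    rw [ihl, ihr, gm_fromBlocks p (ev_posDef hA l) (ev_posDef hA r) (ev_posDef hA' l)
      (ev_posDef hA' r)]

/-! ### Lemma transport:cp -/

theorem push_add (A : α → Matrix n n ℂ) (t : MTree α) (X Y : α → Matrix n n ℂ) :
    push A t (fun a => X a + Y a) = push A t X + push A t Y := by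
  induction t with
  | leaf a => rfl
  | node p l r ihl ihr =>
    simp only [push, ihl, ihr, map_add, smul_add]
    abel

theorem push_smul (A : α → Matrix n n ℂ) (t : MTree α) (c : ℂ) (X : α → Matrix n n ℂ) :
    push A t (fun a => c • X a) = c • push A t X := by
  induction t with
  | leaf a => rfl
  | node p l r ihl ihr =>
    simp only [push, ihl, ihr, map_smul, smul_add]
    rw [smul_comm c, smul_comm c]

theorem push_zero (A : α → Matrix n n ℂ) (t : MTree α) : push A t (fun _ => 0) = 0 := by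
  have := push_smul A t 0 (fun _ => 0)
  simpa using this

theorem push_sub (A : α → Matrix n n ℂ) (t : MTree α) (X Y : α → Matrix n n ℂ) :
    push A t (fun a => X a - Y a) = push A t X - push A t Y := by
  have h := push_add A t X (fun a => (-1 : ℂ) • Y a)
  rw [push_smul] at h
  simpa [sub_eq_add_neg] using h

theorem push_finset_sum {ι : Type} (A : α → Matrix n n ℂ) (t : MTree α) (s : Finset ι)
    (X : ι → α → Matrix n n ℂ) : push A t (fun a => ∑ i ∈ s, X i a) = ∑ i ∈ s, push A t (X i) := by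
  classical
  induction s using Finset.induction_on with
  | empty => simpa using push_zero A t
  | insert i s hi ih =>
    simp only [Finset.sum_insert hi]
    rw [push_add, ih]

theorem push_congr_of_all {A : α → Matrix n n ℂ} {X Y : α → Matrix n n ℂ} {t : MTree α}
    (h : All (fun a => X a = Y a) t) : push A t X = push A t Y := by
  induction t with
  | leaf a => exact h
  | node p l r ihl ihr => simp only [push, ihl h.1, ihr h.2]

/-- unitality with weights: `∑_j π_j c_j Φ_j(1) = (∑_j π_j c_j) 1`. -/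
theorem push_scalar {A : α → Matrix n n ℂ} (hA : ∀ a, (A a).PosDef) {t : MTree α} (ht : SValid t)
    (c : α → ℝ) :
    push A t (fun a => (c a : ℂ) • (1 : Matrix n n ℂ)) = ((E t c : ℝ) : ℂ) • 1 := by
  induction t with
  | leaf a => rfl
  | node p l r ihl ihr =>
    have hL := (ed_edgeL_isUTP (p := p) ⟨ht.1.le, ht.2.1⟩ (ev_posDef hA l) (ev_posDef hA r)).unital
    have hR := (ed_edgeR_isUTP (p := p) ⟨ht.1, ht.2.1.le⟩ (ev_posDef hA l) (ev_posDef hA r)).unital
    simp only [push, ihl ht.2.2.1, ihr ht.2.2.2, map_smul, hL, hR, E_node, smul_smul, ← add_smul]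
    congr 1
    push_cast
    ring

/-- LEAF TR-T12 (2-positivity of the whole expectation). -/
theorem push_twoPos {A : α → Matrix n n ℂ} (hA : ∀ a, (A a).PosDef) {t : MTree α} (ht : SValid t)
    {X₁₁ X₁₂ X₂₁ X₂₂ : α → Matrix n n ℂ}
    (hX : ∀ a, (fromBlocks (X₁₁ a) (X₁₂ a) (X₂₁ a) (X₂₂ a)).PosSemidef) :
    (fromBlocks (push A t X₁₁) (push A t X₁₂) (push A t X₂₁) (push A t X₂₂)).PosSemidef := by
  induction t with
  | leaf a => exact hX a
  | node p l r ihl ihr =>
    have hL := (ed_edgeL_isUTP (p := p) ⟨ht.1.le, ht.2.1⟩ (ev_posDef hA l) (ev_posDef hA r)).twoPos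
    have hR := (ed_edgeR_isUTP (p := p) ⟨ht.1, ht.2.1.le⟩ (ev_posDef hA l) (ev_posDef hA r)).twoPos
    have h1 : (0 : ℂ) ≤ ((1 - p : ℝ) : ℂ) := by exact_mod_cast (sub_nonneg.2 ht.2.1.le)
    have h2 : (0 : ℂ) ≤ (p : ℂ) := by exact_mod_cast ht.1.le
    have hl := (hL _ (ihl ht.2.2.1)).smul h1
    have hr := (hR _ (ihr ht.2.2.2)).smul h2
    rw [tp_amp2_fromBlocks, fromBlocks_smul] at hl hr
    have := hl.add hr
    rw [fromBlocks_add] at this
    exact this

/-- positivity -/
theorem push_posSemidef {A : α → Matrix n n ℂ} (hA : ∀ a, (A a).PosDef) {t : MTree α} (ht : SValid t)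
    {X : α → Matrix n n ℂ} (hX : All (fun a => (X a).PosSemidef) t) : (push A t X).PosSemidef := by
  induction t with
  | leaf a => exact hX
  | node p l r ihl ihr =>
    have hL := (ed_edgeL_isUTP (p := p) ⟨ht.1.le, ht.2.1⟩ (ev_posDef hA l) (ev_posDef hA r)).twoPos
    have hR := (ed_edgeR_isUTP (p := p) ⟨ht.1, ht.2.1.le⟩ (ev_posDef hA l) (ev_posDef hA r)).twoPos
    have h1 : (0 : ℂ) ≤ ((1 - p : ℝ) : ℂ) := by exact_mod_cast (sub_nonneg.2 ht.2.1.le)
    have h2 : (0 : ℂ) ≤ (p : ℂ) := by exact_mod_cast ht.1.le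
    exact ((hL.posSemidef (ihl ht.2.2.1 hX.1)).smul h1).add
      ((hR.posSemidef (ihr ht.2.2.2 hX.2)).smul h2)

theorem push_mono {A : α → Matrix n n ℂ} (hA : ∀ a, (A a).PosDef) {t : MTree α} (ht : SValid t)
    {X Y : α → Matrix n n ℂ} (h : All (fun a => X a ≤ Y a) t) : push A t X ≤ push A t Y := by
  rw [Matrix.le_iff, ← push_sub]
  exact push_posSemidef hA ht (h.imp fun a ha => Matrix.le_iff.1 ha)

theorem push_conjTranspose {A : α → Matrix n n ℂ} (hA : ∀ a, (A a).PosDef) {t : MTree α}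
    (ht : SValid t) (X : α → Matrix n n ℂ) : (push A t X)ᴴ = push A t (fun a => (X a)ᴴ) := by
  induction t with
  | leaf a => rfl
  | node p l r ihl ihr =>
    have hL := (ed_edgeL_isUTP (p := p) ⟨ht.1.le, ht.2.1⟩ (ev_posDef hA l) (ev_posDef hA r)).twoPos
    have hR := (ed_edgeR_isUTP (p := p) ⟨ht.1, ht.2.1.le⟩ (ev_posDef hA l) (ev_posDef hA r)).twoPos
    simp only [push, conjTranspose_add, conjTranspose_smul, ← ihl ht.2.2.1, ← ihr ht.2.2.2,
      hL.map_conjTranspose, hR.map_conjTranspose, Complex.star_def, Complex.conj_ofReal]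

/-- Schur complement with a scalar corner, limit case included -/
theorem tr_schur_scalar {S Y : Matrix n n ℂ} {W : ℝ} (hW : 0 ≤ W)
    (h : (fromBlocks S Yᴴ Y ((W : ℂ) • (1 : Matrix n n ℂ))).PosSemidef) :
    Yᴴ * Y ≤ (W : ℂ) • S := by
  have key : ∀ ε : ℝ, 0 < ε → Yᴴ * Y ≤ ((W + ε : ℝ) : ℂ) • S := by
    intro ε hε
    have hWε : 0 < W + ε := by linarith
    have h0 : (fromBlocks (0 : Matrix n n ℂ) 0 0 ((ε : ℂ) • (1 : Matrix n n ℂ))).PosSemidef := by
      have hd : (fromBlocks (0 : Matrix n n ℂ) 0 0 ((ε : ℂ) • (1 : Matrix n n ℂ))) =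
          diagonal (Sum.elim (fun _ => (0 : ℂ)) (fun _ => (ε : ℂ))) := by
        rw [← fromBlocks_diagonal]
        congr 1
        · simp
        · ext i j; simp [Matrix.one_apply, diagonal_apply]
      rw [hd]
      refine PosSemidef.diagonal ?_
      intro i
      rcases i with i | i
      · simp
      · simpa using (by exact_mod_cast hε.le : (0 : ℂ) ≤ (ε : ℂ))
    have h1 := h.add h0
    rw [fromBlocks_add, add_zero, add_zero, add_zero, ← add_smul, ← Complex.ofReal_add] at h1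
    have hD : (((W + ε : ℝ) : ℂ) • (1 : Matrix n n ℂ)).PosDef := pd_smul PosDef.one hWε
    have h2 : (fromBlocks S Yᴴ (Yᴴ)ᴴ (((W + ε : ℝ) : ℂ) • (1 : Matrix n n ℂ))).PosSemidef := by
      rwa [conjTranspose_conjTranspose]
    have hne : ((W + ε : ℝ) : ℂ) ≠ 0 := by exact_mod_cast hWε.ne'
    have : Invertible (((W + ε : ℝ) : ℂ) • (1 : Matrix n n ℂ)) := hD.isUnit.invertible
    rw [PosDef.fromBlocks₂₂ _ _ hD] at h2
    have hinv : (((W + ε : ℝ) : ℂ) • (1 : Matrix n n ℂ))⁻¹ = (((W + ε : ℝ) : ℂ))⁻¹ • 1 := by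
      apply Matrix.inv_eq_right_inv
      rw [Matrix.smul_mul, Matrix.mul_smul, smul_smul, Matrix.one_mul, mul_inv_cancel₀ hne, one_smul]
    rw [hinv, conjTranspose_conjTranspose, Matrix.mul_smul, Matrix.mul_one, Matrix.smul_mul] at h2
    have h3 := h2.smul (show (0 : ℂ) ≤ ((W + ε : ℝ) : ℂ) by exact_mod_cast hWε.le)
    rw [smul_sub, smul_smul, mul_inv_cancel₀ hne, one_smul] at h3
    exact Matrix.le_iff.2 h3
  have hlim : Tendsto (fun ε : ℝ => ((W + ε : ℝ) : ℂ) • S) (𝓝[>] 0) (𝓝 ((W : ℂ) • S)) := by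
    have hc : Continuous fun ε : ℝ => ((W + ε : ℝ) : ℂ) • S := by fun_prop
    have h0 := (hc.tendsto 0).mono_left (nhdsWithin_le_nhds (s := Set.Ioi 0))
    simpa using h0
  refine dk_le_of_tendsto tendsto_const_nhds hlim ?_
  filter_upwards [self_mem_nhdsWithin] with ε hε
  exact key ε hε

/-- LEAF TR-T14 (**weighted Kadison--Schwarz**, eq. transport:cp-schwarz + the Cauchy--Schwarz over leaves that
produces the first factor `W_i`).  If `K a = 0` outside `J`, then with `W = ∑_{j ∈ J} π_j`: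
`(∑ π_j Φ_j K_j)ᴴ (∑ π_j Φ_j K_j) ≤ W ∑ π_j Φ_j (K_jᴴ K_j)`.
Proof: `push_twoPos` for `[[KᴴK, Kᴴ],[K, 1_J]]`, `push_scalar`, Schur complement (for `W = 0` the
off-diagonal block vanishes). -/
theorem push_schwarz {A : α → Matrix n n ℂ} (hA : ∀ a, (A a).PosDef) {t : MTree α} (ht : SValid t)
    (K : α → Matrix n n ℂ) (J : α → Prop) (hK : All (fun a => ¬ J a → K a = 0) t) :
    (push A t K)ᴴ * push A t K ≤
      ((E t fun a => Scan.ind (J a) : ℝ) : ℂ) • push A t (fun a => (K a)ᴴ * K a) := by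
  classical
  set K' : α → Matrix n n ℂ := fun a => if J a then K a else 0 with hK'
  have hKK' : All (fun a => K a = K' a) t := by
    refine hK.imp fun a ha => ?_
    by_cases hJ : J a
    · simp [hK', hJ]
    · simp [hK', hJ, ha hJ]
  have e1 : push A t K = push A t K' := push_congr_of_all hKK'
  have e2 : push A t (fun a => (K a)ᴴ * K a) = push A t (fun a => (K' a)ᴴ * K' a) :=
    push_congr_of_all (hKK'.imp fun a ha => by rw [ha])
  rw [e1, e2]
  have hX : ∀ a, (fromBlocks ((K' a)ᴴ * K' a) (K' a)ᴴ (K' a)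
      ((Scan.ind (J a) : ℂ) • (1 : Matrix n n ℂ))).PosSemidef := by
    intro a
    by_cases hJ : J a
    · have : Scan.ind (J a) = 1 := by simp [Scan.ind, hJ]
      rw [this]
      simpa using tp_ksBlock_posSemidef (K' a)
    · have h0 : Scan.ind (J a) = 0 := by simp [Scan.ind, hJ]
      have h1 : K' a = 0 := by simp [hK', hJ]
      rw [h0, h1]
      simpa using (PosSemidef.zero : (0 : Matrix (n ⊕ n) (n ⊕ n) ℂ).PosSemidef)
  have h := push_twoPos hA ht hX
  rw [push_scalar hA ht, ← push_conjTranspose hA ht] at h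
  refine tr_schur_scalar (E_nonneg (tr_valid_of_svalid ht) fun a => ?_) h
  unfold Scan.ind
  split_ifs <;> norm_num

/-- rotation identity (eq. transport:block-rotation): for every `L`
`K_L(M) = ∑_j π_j Φ_j (K_L(A_j))`. -/
theorem push_skw {A : α → Matrix n n ℂ} (hA : ∀ a, (A a).PosDef) {t : MTree α} (ht : SValid t)
    (L : Matrix n n ℂ) : skw L (ev A t) = push A t (fun a => skw L (A a)) := by
  induction t with
  | leaf a => rfl
  | node p l r ihl ihr =>
    simp only [ev, push]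
    rw [ed_skw ⟨ht.1, ht.2.1⟩ (ev_posDef hA l) (ev_posDef hA r), ihl ht.2.2.1, ihr ht.2.2.2]

/-- block restriction -/
theorem push_toBlocks₁₁ {A : α → Matrix n n ℂ} {A' : α → Matrix m m ℂ} (hA : ∀ a, (A a).PosDef)
    (hA' : ∀ a, (A' a).PosDef) (t : MTree α) (Z : α → Matrix (n ⊕ m) (n ⊕ m) ℂ) :
    (push (fun a => fromBlocks (A a) 0 0 (A' a)) t Z).toBlocks₁₁ =
      push A t (fun a => (Z a).toBlocks₁₁) := by
  induction t with
  | leaf a => rfl
  | node p l r ihl ihr =>
    simp only [push]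
    rw [ev_fromBlocks hA hA' l, ev_fromBlocks hA hA' r, ← ihl, ← ihr,
      ← ed_edgeL_fromBlocks₁₁ p (ev_posDef hA l) (ev_posDef hA r) (ev_posDef hA' l) (ev_posDef hA' r),
      ← ed_edgeR_fromBlocks₁₁ p (ev_posDef hA l) (ev_posDef hA r) (ev_posDef hA' l) (ev_posDef hA' r)]
    rfl

/-- LEAF TR-T17 (chain rule, eq. transport:leaf-map): along curves of PD inputs with
`A_a' = A_a^{1/2} X_a A_a^{1/2}` one has `M' = M^{1/2} (∑ π_j Φ_j X_j) M^{1/2}`. -/
theorem ev_hasDerivAt {A : ℝ → α → Matrix n n ℂ} {X : α → Matrix n n ℂ} {τ : ℝ}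
    (hA : ∀ s a, (A s a).PosDef)
    (hA' : ∀ a, HasDerivAt (fun s => A s a) (rpw (A τ a) (1 / 2) * X a * rpw (A τ a) (1 / 2)) τ)
    {t : MTree α} (ht : SValid t) :
    HasDerivAt (fun s => ev (A s) t)
      (rpw (ev (A τ) t) (1 / 2) * push (A τ) t X * rpw (ev (A τ) t) (1 / 2)) τ := by
  induction t with
  | leaf a => exact hA' a
  | node p l r ihl ihr =>
    have h := ed_hasDerivAt ⟨ht.1, ht.2.1⟩ (ihl ht.2.2.1) (ihr ht.2.2.2)
      (Eventually.of_forall fun s => ev_posDef (hA s) l)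
      (Eventually.of_forall fun s => ev_posDef (hA s) r)
    have canc : ∀ (M Z : Matrix n n ℂ), M.IsHermitian →
        rpw M (-(1 / 2)) * (rpw M (1 / 2) * Z * rpw M (1 / 2)) * rpw M (-(1 / 2)) = Z := by
      intro M Z hM
      calc rpw M (-(1 / 2)) * (rpw M (1 / 2) * Z * rpw M (1 / 2)) * rpw M (-(1 / 2))
          = (rpw M (-(1 / 2)) * rpw M (1 / 2)) * Z * (rpw M (1 / 2) * rpw M (-(1 / 2))) := by
            simp only [Matrix.mul_assoc]
        _ = Z := by rw [rpw_neg_mul hM, rpw_mul_neg hM, Matrix.one_mul, Matrix.mul_one]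
    rw [canc _ _ (ev_posDef (hA τ) l).1, canc _ _ (ev_posDef (hA τ) r).1] at h
    exact h

theorem push_bind (A : β → Matrix n n ℂ) (t : MTree α) (k : α → MTree β) (X : β → Matrix n n ℂ) :
    push A (bind t k) X = push (fun a => ev A (k a)) t (fun a => push A (k a) X) := by
  induction t with
  | leaf a => rfl
  | node p l r ihl ihr => simp only [bind, push, ev_bind, ihl, ihr]

theorem push_map (A : β → Matrix n n ℂ) (g : α → β) (t : MTree α) (X : β → Matrix n n ℂ) :
    push A (map g t) X = push (fun a => A (g a)) t (fun a => X (g a)) := by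
  induction t with
  | leaf a => rfl
  | node p l r ihl ihr => simp only [map, push, ev_map, ihl, ihr]

/-- the expectation of the interpolated tree: old part + new part -/
theorem push_interp (A : α → Matrix n n ℂ) (p : ℝ) (Hs : MTree α) (Ch : α → MTree α)
    (X : α → Matrix n n ℂ) :
    push A (interp p Hs Ch) X =
      push (fun h => gmean p (A h) (ev A (Ch h))) Hs (fun h =>
        ((1 - p : ℝ) : ℂ) • edgeL p (A h) (ev A (Ch h)) (X h) +
          (p : ℂ) • edgeR p (A h) (ev A (Ch h)) (push A (Ch h) X)) := by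
  unfold interp
  rw [push_bind]
  rfl

/-! ### transported states -/

theorem pull_map_fst (A : α → Matrix n n ℂ) (t : MTree α) (σ : Matrix n n ℂ) :
    (pull A t σ).map Prod.fst = t := by
  induction t generalizing σ with
  | leaf a => rfl
  | node p l r ihl ihr => simp only [pull, map, ihl, ihr]

/-- eq. transport:states: the transported states are states -/
theorem pull_all_state {A : α → Matrix n n ℂ} (hA : ∀ a, (A a).PosDef) {t : MTree α} (ht : SValid t)
    {σ : Matrix n n ℂ} (hσ : σ.PosSemidef) (hσ1 : σ.trace = 1) :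
    (pull A t σ).All (fun y => y.2.PosSemidef ∧ y.2.trace = 1) := by
  induction t generalizing σ with
  | leaf a => exact ⟨hσ, hσ1⟩
  | node p l r ihl ihr =>
    have hL := ed_edgeL_isUTP (p := p) ⟨ht.1.le, ht.2.1⟩ (ev_posDef hA l) (ev_posDef hA r)
    have hR := ed_edgeR_isUTP (p := p) ⟨ht.1, ht.2.1.le⟩ (ev_posDef hA l) (ev_posDef hA r)
    exact ⟨ihl ht.2.2.1 (tadj_posSemidef hL.twoPos hσ) ((trace_tadj hL.unital σ).trans hσ1),
      ihr ht.2.2.2 (tadj_posSemidef hR.twoPos hσ) ((trace_tadj hR.unital σ).trans hσ1)⟩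

/-- `Re Tr (σ ∑_j π_j Φ_j X_j) = ∑_j π_j Re Tr (σ_j X_j)` -/
theorem trace_mul_push (A : α → Matrix n n ℂ) (t : MTree α) (σ : Matrix n n ℂ)
    (X : α → Matrix n n ℂ) :
    (trace (σ * push A t X)).re = E (pull A t σ) (fun y => (trace (y.2 * X y.1)).re) := by
  induction t generalizing σ with
  | leaf a => rfl
  | node p l r ihl ihr =>
    simp only [push, pull, E_node, ← ihl, ← ihr, trace_tadj_mul, Matrix.mul_add, trace_add,
      Matrix.mul_smul, trace_smul, Complex.add_re, smul_eq_mul, Complex.re_ofReal_mul]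

theorem pull_bind (A : β → Matrix n n ℂ) (t : MTree α) (k : α → MTree β) (σ : Matrix n n ℂ) :
    pull A (bind t k) σ = bind (pull (fun a => ev A (k a)) t σ) (fun y => pull A (k y.1) y.2) := by
  induction t generalizing σ with
  | leaf a => rfl
  | node p l r ihl ihr => simp only [bind, pull, ev_bind, ihl, ihr]

/-- the old leaves of the interpolated tree, annotated with their transported states -/
noncomputable def oldAnn (A : α → Matrix n n ℂ) (p : ℝ) (Hs : MTree α) (Ch : α → MTree α)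
    (σ : Matrix n n ℂ) : MTree (α × Matrix n n ℂ) :=
  (pull (fun h => gmean p (A h) (ev A (Ch h))) Hs σ).map
    fun y => (y.1, tadj (edgeL p (A y.1) (ev A (Ch y.1))) y.2)

/-- the new leaves of the interpolated tree, annotated with their transported states -/
noncomputable def newAnn (A : α → Matrix n n ℂ) (p : ℝ) (Hs : MTree α) (Ch : α → MTree α)
    (σ : Matrix n n ℂ) : MTree (α × Matrix n n ℂ) :=
  (pull (fun h => gmean p (A h) (ev A (Ch h))) Hs σ).bind
    fun y => pull A (Ch y.1) (tadj (edgeR p (A y.1) (ev A (Ch y.1))) y.2)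

theorem E_pull_interp (A : α → Matrix n n ℂ) (p : ℝ) (Hs : MTree α) (Ch : α → MTree α)
    (σ : Matrix n n ℂ) (f : α × Matrix n n ℂ → ℝ) :
    E (pull A (interp p Hs Ch) σ) f =
      (1 - p) * E (oldAnn A p Hs Ch σ) f + p * E (newAnn A p Hs Ch σ) f := by
  unfold interp oldAnn newAnn
  rw [pull_bind, E_bind, E_map, E_bind, ← E_mul_left, ← E_mul_left, ← E_add]
  rfl

theorem tr_map_map (g : α → β) (g' : β → γ) (t : MTree α) :
    map g' (map g t) = map (fun a => g' (g a)) t := by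
  induction t with
  | leaf a => rfl
  | node p l r ihl ihr => simp only [map, ihl, ihr]

theorem tr_all_and {P Q : α → Prop} {t : MTree α} (h1 : All P t) (h2 : All Q t) :
    All (fun a => P a ∧ Q a) t := by
  induction t with
  | leaf a => exact ⟨h1, h2⟩
  | node p l r ihl ihr => exact ⟨ihl h1.1 h2.1, ihr h1.2 h2.2⟩

theorem tr_pull_all_fst (A : α → Matrix n n ℂ) {P : α → Prop} {t : MTree α} (h : All P t)
    (σ : Matrix n n ℂ) : (pull A t σ).All (fun y => P y.1) := by
  induction t generalizing σ with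
  | leaf a => exact h
  | node p l r ihl ihr => exact ⟨ihl h.1 _, ihr h.2 _⟩

theorem oldAnn_map_fst (A : α → Matrix n n ℂ) (p : ℝ) (Hs : MTree α) (Ch : α → MTree α)
    (σ : Matrix n n ℂ) : (oldAnn A p Hs Ch σ).map Prod.fst = Hs := by
  unfold oldAnn
  rw [tr_map_map]
  exact pull_map_fst _ Hs σ

theorem newAnn_map_fst (A : α → Matrix n n ℂ) (p : ℝ) (Hs : MTree α) (Ch : α → MTree α)
    (σ : Matrix n n ℂ) : (newAnn A p Hs Ch σ).map Prod.fst = Hs.bind Ch := by
  unfold newAnn
  rw [map_bind]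
  simp only [pull_map_fst]
  rw [← bind_map Prod.fst _ Ch, pull_map_fst]

theorem oldAnn_all_state {A : α → Matrix n n ℂ} (hA : ∀ a, (A a).PosDef) {p : ℝ}
    (hp : p ∈ Set.Ioo (0 : ℝ) 1) {Hs : MTree α} (hHs : SValid Hs) (Ch : α → MTree α)
    {σ : Matrix n n ℂ} (hσ : σ.PosSemidef) (hσ1 : σ.trace = 1) :
    (oldAnn A p Hs Ch σ).All (fun y => y.2.PosSemidef ∧ y.2.trace = 1) := by
  unfold oldAnn
  apply all_map
  have h := pull_all_state (A := fun h => gmean p (A h) (ev A (Ch h)))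
    (fun h => gm_posDef p (hA h) (ev_posDef hA (Ch h))) hHs hσ hσ1
  refine h.imp fun y hy => ?_
  have hL := ed_edgeL_isUTP (p := p) ⟨hp.1.le, hp.2⟩ (hA y.1) (ev_posDef hA (Ch y.1))
  exact ⟨tadj_posSemidef hL.twoPos hy.1, (trace_tadj hL.unital y.2).trans hy.2⟩

theorem newAnn_all_state {A : α → Matrix n n ℂ} (hA : ∀ a, (A a).PosDef) {p : ℝ}
    (hp : p ∈ Set.Ioo (0 : ℝ) 1) {Hs : MTree α} (hHs : SValid Hs) {Ch : α → MTree α}
    (hCh : Hs.All fun h => SValid (Ch h)) {σ : Matrix n n ℂ} (hσ : σ.PosSemidef)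
    (hσ1 : σ.trace = 1) :
    (newAnn A p Hs Ch σ).All (fun y => y.2.PosSemidef ∧ y.2.trace = 1) := by
  unfold newAnn
  have h := pull_all_state (A := fun h => gmean p (A h) (ev A (Ch h)))
    (fun h => gm_posDef p (hA h) (ev_posDef hA (Ch h))) hHs hσ hσ1
  have h' := tr_pull_all_fst (fun h => gmean p (A h) (ev A (Ch h))) hCh σ
  refine all_bind (tr_all_and h h') fun y hy => ?_
  have hR := ed_edgeR_isUTP (p := p) ⟨hp.1, hp.2.le⟩ (hA y.1) (ev_posDef hA (Ch y.1))
  exact pull_all_state hA hy.2 (tadj_posSemidef hR.twoPos hy.1.1)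
    ((trace_tadj hR.unital y.2).trans hy.1.2)

theorem svalid_interp {p : ℝ} (hp : p ∈ Set.Ioo (0 : ℝ) 1) {Hs : MTree α} (hHs : SValid Hs)
    {Ch : α → MTree α} (hCh : Hs.All fun h => SValid (Ch h)) : SValid (interp p Hs Ch) := by
  unfold interp
  induction Hs with
  | leaf a => exact ⟨hp.1, hp.2, trivial, hCh⟩
  | node q l r ihl ihr => exact ⟨hHs.1, hHs.2.1, ihl hHs.2.2.1 hCh.1, ihr hHs.2.2.2 hCh.2⟩

end MTree

end Claimed.Agent.R296
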